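import Vale.Agent.P049.BitSize

/-!
# The greedy algorithm

The state consists of the partner list and the two kernels.  In every step the first allowed pair
which increases the potential by at most `δ` is matched.
-/

namespace Vale.Agent.P049

open Finset Vale.Agent.Lib.PolyTime Vale.Agent.P315.H155

/-- The state of the algorithm. -/
abbrev St := List ℕ × List (List ℚ) × List (List ℚ)

/-- The partner function stored in a list. -/
def look (N : ℕ) (l : List ℕ) (a : ℕ) : ℕ := l.getD a N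

/-- The kernel stored in a list of lists. -/
def mat (L : List (List ℚ)) (a b : ℕ) : ℚ := (L.getD a []).getD b 0

/-- The table of a kernel. -/
def tab (N : ℕ) (F : ℕ → ℕ → ℚ) : List (List ℚ) :=
  (List.range N).map fun c => (List.range N).map fun e => F c e

theorem getD_map_range {β : Type*} (N : ℕ) (f : ℕ → β) (a : ℕ) (x : β) :
    ((List.range N).map f).getD a x = if a < N then f a else x := by
  rw [List.getD_eq_getElem?_getD, List.getElem?_map]
  split_ifs with h
  · rw [List.getElem?_range h]; rfl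
  · rw [List.getElem?_eq_none (by simpa using h)]; rfl

theorem mat_tab (N : ℕ) (F : ℕ → ℕ → ℚ) : mat (tab N F) = res (range N) F := by
  funext c e
  unfold mat tab res
  rw [getD_map_range]
  by_cases hc : c < N
  · rw [if_pos hc, getD_map_range]
    simp [hc]
  · simp [hc]

theorem tab_mat_tab (N : ℕ) (F : ℕ → ℕ → ℚ) : tab N (mat (tab N F)) = tab N F := by
  rw [mat_tab]
  unfold tab
  refine List.map_congr_left fun c hc => List.map_congr_left fun e he => ?_
  exact res_of_mem F (by simpa using hc) (by simpa using he)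

theorem res_res {ι K : Type*} [DecidableEq ι] [Zero K] {H G : Finset ι} (h : H ⊆ G)
    (F : ι → ι → K) : res G (res H F) = res H F := by
  funext c e
  unfold res
  split_ifs with h1 h2 h2
  · rfl
  · rfl
  · exact absurd ⟨h h2.1, h h2.2⟩ h1
  · rfl

theorem res_res' {ι K : Type*} [DecidableEq ι] [Zero K] {H G : Finset ι} (h : H ⊆ G)
    (F : ι → ι → K) : res H (res G F) = res H F :=
  res_congr fun _ hc _ he => res_of_mem F (h hc) (h he)

theorem esize_tab_le {N L : ℕ} {F : ℕ → ℕ → ℚ} (h : ∀ c < N, ∀ e < N, esize (F c e) ≤ L) :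
    esize (tab N F) ≤ N * (2 * (N * (2 * L + 1)) + 1) := by
  have := esize_list_le (l := tab N F) (B := N * (2 * L + 1)) fun x hx => by
    obtain ⟨c, hc, rfl⟩ := List.mem_map.1 hx
    have := esize_list_le (l := (List.range N).map fun e => F c e) (B := L) fun y hy => by
      obtain ⟨e, he, rfl⟩ := List.mem_map.1 hy
      exact h c (List.mem_range.1 hc) e (List.mem_range.1 he)
    simpa using this
  simpa [tab] using this

theorem esize_le_tab {N : ℕ} (F : ℕ → ℕ → ℚ) {c e : ℕ} (hc : c < N) (he : e < N) :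
    esize (F c e) ≤ esize (tab N F) := by
  have h1 : ((List.range N).map fun e => F c e) ∈ tab N F :=
    List.mem_map.2 ⟨c, List.mem_range.2 hc, rfl⟩
  exact (esize_le_of_mem (List.mem_map.2 ⟨e, List.mem_range.2 he, rfl⟩)).trans (esize_le_of_mem h1)

/-- The state after matching `a` and `b`. -/
def nextSt (N : ℕ) (S : St) (a b : ℕ) : St :=
  ((List.range N).map (upd (look N S.1) a b), tab N (nxt 1 (mat S.2.1) a b),
    tab N (nxt (-1) (mat S.2.2) a b))

/-- The state with kernels restricted to the free half-edges. -/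
def resSt (N : ℕ) (S : St) : St :=
  (S.1, tab N (res (alive N (look N S.1)) (mat S.2.1)),
    tab N (res (alive N (look N S.1)) (mat S.2.2)))

/-- The test for a pair. -/
def okSt (d N : ℕ) (P : St → ℚ) (δ : ℚ) (S : St) (a b : ℕ) : Prop :=
  N ≤ look N S.1 a ∧ N ≤ look N S.1 b ∧ ¬ Forb d N (look N S.1) a b ∧
    0 < den 1 (mat S.2.1) a b ∧ 0 < den (-1) (mat S.2.2) a b ∧
    P (resSt N (nextSt N S a b)) ≤ P (resSt N S) + δ

instance (d N : ℕ) (P : St → ℚ) (δ : ℚ) (S : St) (a b : ℕ) : Decidable (okSt d N P δ S a b) := by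
  unfold okSt; infer_instance

/-- All pairs of half-edges. -/
def pairs (N : ℕ) : List (ℕ × ℕ) :=
  (List.range N).flatMap fun a => (List.range N).map fun b => (a, b)

theorem mem_pairs {N : ℕ} {p : ℕ × ℕ} : p ∈ pairs N ↔ p.1 < N ∧ p.2 < N := by
  rcases p with ⟨a, b⟩
  simp [pairs]

/-- One step of the algorithm. -/
def stepSt (d N : ℕ) (P : St → ℚ) (δ : ℚ) (S : St) : St :=
  ((pairs N).find? fun p => decide (okSt d N P δ S p.1 p.2)).elim S fun p => nextSt N S p.1 p.2

theorem stepSt_cases (d N : ℕ) (P : St → ℚ) (δ : ℚ) (S : St) :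
    (stepSt d N P δ S = S ∧ ∀ a < N, ∀ b < N, ¬ okSt d N P δ S a b) ∨
      ∃ a < N, ∃ b < N, okSt d N P δ S a b ∧ stepSt d N P δ S = nextSt N S a b := by
  unfold stepSt
  cases h : (pairs N).find? fun p => decide (okSt d N P δ S p.1 p.2) with
  | none =>
    refine Or.inl ⟨rfl, fun a ha b hb => ?_⟩
    simpa using List.find?_eq_none.1 h (a, b) (mem_pairs.2 ⟨ha, hb⟩)
  | some p =>
    have h1 := mem_pairs.1 (List.mem_of_find?_eq_some h)
    exact Or.inr ⟨p.1, h1.1, p.2, h1.2, by simpa using List.find?_some h, rfl⟩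

/-- The initial state. -/
def iniSt (m p : ℚ) (d N : ℕ) : St :=
  ((List.range N).map fun _ => N, tab N (ini 1 m p d N), tab N (ini (-1) m p d N))

theorem look_ini (N : ℕ) : look N ((List.range N).map fun _ => N) = fun _ => N := by
  funext a
  unfold look
  rw [getD_map_range]
  simp

/-- The properties of the state which hold unconditionally. -/
structure Wf (N : ℕ) (A₀ B₀ : ℕ → ℕ → ℚ) (S : St) : Prop where
  len : S.1 = (List.range N).map (look N S.1)
  le : ∀ a, look N S.1 a ≤ N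
  tabA : S.2.1 = tab N (mat S.2.1)
  tabB : S.2.2 = tab N (mat S.2.2)
  symA : ∀ c e, mat S.2.1 c e = mat S.2.1 e c
  symB : ∀ c e, mat S.2.2 c e = mat S.2.2 e c
  exA : Exact 1 N (look N S.1) A₀ (mat S.2.1)
  exB : Exact (-1) N (look N S.1) B₀ (mat S.2.2)

theorem res_symm {ι K : Type*} [DecidableEq ι] [Zero K] (H : Finset ι) {F : ι → ι → K}
    (h : ∀ c e, F c e = F e c) (c e : ι) : res H F c e = res H F e c := by
  simp only [res, h c e, and_comm]

theorem wf_ini (m p : ℚ) (d N : ℕ) : Wf N (ini 1 m p d N) (ini (-1) m p d N) (iniSt m p d N) where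
  len := by simp only [iniSt, look_ini]
  le a := by simp only [iniSt, look_ini, le_refl]
  tabA := (tab_mat_tab ..).symm
  tabB := (tab_mat_tab ..).symm
  symA := by simp only [iniSt, mat_tab]; exact res_symm _ (ini_symm _ _ _ _ _)
  symB := by simp only [iniSt, mat_tab]; exact res_symm _ (ini_symm _ _ _ _ _)
  exA := by
    simp only [iniSt, mat_tab, look_ini]
    exact (exact_const _ _ _).congr fun c hc e he => res_of_mem _ (mem_range.2 hc) (mem_range.2 he)
  exB := by
    simp only [iniSt, mat_tab, look_ini]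
    exact (exact_const _ _ _).congr fun c hc e he => res_of_mem _ (mem_range.2 hc) (mem_range.2 he)

theorem Wf.look_next {N : ℕ} {A₀ B₀ : ℕ → ℕ → ℚ} {S : St} (h : Wf N A₀ B₀ S) {a b : ℕ}
    (ha : a < N) (hb : b < N) : look N (nextSt N S a b).1 = upd (look N S.1) a b := by
  funext c
  change ((List.range N).map (upd (look N S.1) a b)).getD c N = _
  rw [getD_map_range]
  split_ifs with hc
  · rfl
  · rw [upd_of_ne _ (by omega) (by omega)]
    change N = S.1.getD c N
    rw [h.len, getD_map_range, if_neg hc]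

theorem Wf.next {N : ℕ} {A₀ B₀ : ℕ → ℕ → ℚ} {S : St} (h : Wf N A₀ B₀ S) {d : ℕ} {P : St → ℚ}
    {δ : ℚ} {a b : ℕ} (ha : a < N) (hb : b < N) (hok : okSt d N P δ S a b) :
    Wf N A₀ B₀ (nextSt N S a b) := by
  obtain ⟨h1, h2, h3, h4, h5, -⟩ := hok
  have ha' : a ∈ alive N (look N S.1) := mem_alive.2 ⟨ha, h1⟩
  have hb' : b ∈ alive N (look N S.1) := mem_alive.2 ⟨hb, h2⟩
  have hab := ne_of_not_forb h3
  refine ⟨?_, fun c => ?_, (tab_mat_tab ..).symm, (tab_mat_tab ..).symm, ?_, ?_, ?_, ?_⟩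
  · rw [h.look_next ha hb]; rfl
  · rw [h.look_next ha hb]
    unfold upd
    split_ifs
    · exact hb.le
    · exact ha.le
    · exact h.le c
  · simp only [nextSt, mat_tab]; exact res_symm _ (nxt_symm h.symA a b)
  · simp only [nextSt, mat_tab]; exact res_symm _ (nxt_symm h.symB a b)
  · rw [h.look_next ha hb]
    simp only [nextSt, mat_tab]
    exact (h.exA.step (by norm_num) h.symA ha' hb' hab h4.ne').congr fun c hc e he =>
      res_of_mem _ (mem_range.2 hc) (mem_range.2 he)
  · rw [h.look_next ha hb]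
    simp only [nextSt, mat_tab]
    exact (h.exB.step (by norm_num) h.symB ha' hb' hab h5.ne').congr fun c hc e he =>
      res_of_mem _ (mem_range.2 hc) (mem_range.2 he)

theorem Wf.step {N : ℕ} {A₀ B₀ : ℕ → ℕ → ℚ} {S : St} (h : Wf N A₀ B₀ S) (d : ℕ) (P : St → ℚ)
    (δ : ℚ) : Wf N A₀ B₀ (stepSt d N P δ S) := by
  rcases stepSt_cases d N P δ S with ⟨e, -⟩ | ⟨a, ha, b, hb, hok, e⟩
  · rw [e]; exact h
  · rw [e]; exact h.next ha hb hok

theorem Wf.iterate {N : ℕ} {A₀ B₀ : ℕ → ℕ → ℚ} {S : St} (h : Wf N A₀ B₀ S) (d : ℕ) (P : St → ℚ)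
    (δ : ℚ) (j : ℕ) : Wf N A₀ B₀ ((stepSt d N P δ)^[j] S) := by
  induction j with
  | zero => exact h
  | succ j ih => rw [Function.iterate_succ_apply']; exact ih.step d P δ

/-- The size bound for the states. -/
def sizeBd (N L : ℕ) : ℕ :=
  2 * (N * (2 * N + 1)) +
    3 * (N * (2 * (N * (2 * (3 * (N * N + (L * (N * N) + L + 1) * N) + 10) + 1)) + 1)) + 2

theorem Wf.esize_le {N L : ℕ} {A₀ B₀ : ℕ → ℕ → ℚ} {S : St} (h : Wf N A₀ B₀ S)
    (hA : ∀ a < N, ∀ b < N, esize (A₀ a b) ≤ L) (hB : ∀ a < N, ∀ b < N, esize (B₀ a b) ≤ L) :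
    esize S ≤ sizeBd N L := by
  have h1 : esize S.1 ≤ N * (2 * N + 1) := by
    have := esize_list_le (l := (List.range N).map (look N S.1)) (B := N) fun x hx => by
      obtain ⟨c, -, rfl⟩ := List.mem_map.1 hx
      exact (esize_nat_le_self _).trans (h.le c)
    rw [← h.len] at this
    refine this.trans (le_of_eq ?_)
    rw [h.len]; simp
  have h2 := esize_tab_le fun c hc e he => h.exA.esize_le (Or.inl rfl) hA (c := c) (f := e) hc he
  have h3 := esize_tab_le fun c hc e he => h.exB.esize_le (Or.inr rfl) hB (c := c) (f := e) hc he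
  rw [← h.tabA] at h2
  rw [← h.tabB] at h3
  have e : esize S = 2 * esize S.1 + (2 * esize S.2.1 + esize S.2.2 + 1) + 1 := by
    rw [← esize_pair, ← esize_pair]
  unfold sizeBd
  omega

/-! ### The final matching -/

/-- The position of `a` in a list. -/
def posL (l : List ℕ) (a : ℕ) : ℕ := (l.takeWhile fun x => decide (x ≠ a)).length

theorem posL_eq (l : List ℕ) (a : ℕ) : posL l a = l.idxOf a := by
  unfold posL
  induction l with
  | nil => rfl
  | cons x l ih =>
    by_cases h : x = a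
    · subst h; simp
    · rw [List.takeWhile_cons_of_pos (by simpa using h), List.length_cons, ih,
        List.idxOf_cons_ne _ h]

/-- The neighbour of `a` in a list which is cut into consecutive pairs. -/
def mate (l : List ℕ) (a : ℕ) : ℕ :=
  l.getD (if posL l a % 2 = 0 then posL l a + 1 else posL l a - 1) 0

theorem mate_spec {l : List ℕ} (hl : l.Nodup) (he : l.length % 2 = 0) {a : ℕ} (ha : a ∈ l) :
    mate l a ∈ l ∧ mate l a ≠ a ∧ mate l (mate l a) = a := by
  have key : ∀ i (hi : i < l.length), ∃ j, ∃ hj : j < l.length,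
      mate l l[i] = l[j] ∧ j = if i % 2 = 0 then i + 1 else i - 1 := fun i hi => by
    have hj : (if i % 2 = 0 then i + 1 else i - 1) < l.length := by split_ifs <;> omega
    refine ⟨_, hj, ?_, rfl⟩
    unfold mate
    rw [posL_eq, hl.idxOf_getElem, List.getD_eq_getElem _ _ hj]
  obtain ⟨i, hi, rfl⟩ := List.getElem_of_mem ha
  obtain ⟨j, hj, e1, e2⟩ := key i hi
  obtain ⟨k, hk, e3, e4⟩ := key j hj
  rw [e1, e3]
  refine ⟨List.getElem_mem _, fun h => ?_, ?_⟩
  · have := (hl.getElem_inj_iff).1 h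
    split_ifs at e2 <;> omega
  · have : k = i := by split_ifs at e2 e4 <;> omega
    subst this
    rfl

/-- The list of the free half-edges. -/
def aliveL (N : ℕ) (l : List ℕ) : List ℕ := (List.range N).filter fun a => decide (N ≤ look N l a)

/-- The completed partner function. -/
def complete (N : ℕ) (l : List ℕ) (a : ℕ) : ℕ :=
  if look N l a < N then look N l a else mate (aliveL N l) a

theorem mem_aliveL {N : ℕ} {l : List ℕ} {a : ℕ} : a ∈ aliveL N l ↔ a ∈ alive N (look N l) := by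
  simp [aliveL, mem_alive]

theorem nodup_aliveL (N : ℕ) (l : List ℕ) : (aliveL N l).Nodup := List.nodup_range.filter _

theorem length_aliveL (N : ℕ) (l : List ℕ) : (aliveL N l).length = (alive N (look N l)).card := by
  rw [← List.toFinset_card_of_nodup (nodup_aliveL N l)]
  congr 1
  ext a
  rw [List.mem_toFinset, mem_aliveL]

theorem complete_dead {N : ℕ} {l : List ℕ} {a : ℕ} (ha : a < N) (h : a ∉ alive N (look N l)) :
    complete N l a = look N l a := by
  rw [mem_alive] at h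
  exact if_pos (by omega)

theorem complete_alive {N : ℕ} {l : List ℕ} (he : (alive N (look N l)).card % 2 = 0) {a : ℕ}
    (ha : a ∈ alive N (look N l)) : complete N l a ∈ alive N (look N l) ∧ complete N l a ≠ a ∧
      complete N l (complete N l a) = a := by
  have e : ∀ c ∈ alive N (look N l), complete N l c = mate (aliveL N l) c := fun c hc =>
    if_neg (not_lt.2 (mem_alive.1 hc).2)
  obtain ⟨h1, h2, h3⟩ := mate_spec (nodup_aliveL N l) (by rw [length_aliveL]; exact he)
    (mem_aliveL.2 ha)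
  rw [e a ha, e _ (mem_aliveL.1 h1)]
  exact ⟨mem_aliveL.1 h1, h2, h3⟩

/-! ### Polynomial time -/

section PT

variable {α : Type*} [Enc α]

@[fun_prop]
theorem PT_look {N : α → ℕ} {l : α → List ℕ} {a : α → ℕ} (hN : PT ∅ N) (hl : PT ∅ l)
    (ha : PT ∅ a) : PT ∅ fun x => look (N x) (l x) (a x) := PT.getD hl ha hN

@[fun_prop]
theorem PT_mat {L : α → List (List ℚ)} {a b : α → ℕ} (hL : PT ∅ L) (ha : PT ∅ a) (hb : PT ∅ b) :
    PT ∅ fun x => mat (L x) (a x) (b x) :=
  PT.getD (PT.getD hL ha (PT.const [])) hb (PT.const 0)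

theorem PT_tab {N : α → ℕ} {F : α → ℕ → ℕ → ℚ} (hN : PT ∅ N) (hb : PBd N)
    (hF : PT ∅ fun p : (α × ℕ) × ℕ => F p.1.1 p.1.2 p.2) : PT ∅ fun x => tab (N x) (F x) :=
  PT.map (f := fun x c => (List.range (N x)).map fun e => F x c e) (PT.range hN hb)
    (PT.map (f := fun (p : α × ℕ) e => F p.1 p.2 e) ((PT.range hN hb).comp PT.fst') hF)

@[fun_prop]
theorem PT_den' (s : ℚ) {L : α → List (List ℚ)} {a b : α → ℕ} (hL : PT ∅ L) (ha : PT ∅ a)
    (hb : PT ∅ b) : PT ∅ fun x => den s (mat (L x)) (a x) (b x) := by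
  unfold den
  fun_prop

@[fun_prop]
theorem PT_nxt (s : ℚ) {L : α → List (List ℚ)} {a b c e : α → ℕ} (hL : PT ∅ L) (ha : PT ∅ a)
    (hb : PT ∅ b) (hc : PT ∅ c) (he : PT ∅ e) :
    PT ∅ fun x => nxt s (mat (L x)) (a x) (b x) (c x) (e x) := by
  unfold nxt
  fun_prop

theorem PT_nextSt {N : α → ℕ} {S : α → St} {a b : α → ℕ} (hN : PT ∅ N) (hNb : PBd N)
    (hS : PT ∅ S) (ha : PT ∅ a) (hb : PT ∅ b) : PT ∅ fun x => nextSt (N x) (S x) (a x) (b x) := by
  unfold nextSt
  refine PT.pair (PT.map (f := fun x c => upd (look (N x) (S x).1) (a x) (b x) c)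
    (PT.range hN hNb) ?_) (PT.pair (PT_tab hN hNb ?_) (PT_tab hN hNb ?_))
  · unfold upd
    fun_prop
  · fun_prop
  · fun_prop

@[fun_prop]
theorem PT_memAlive {N : α → ℕ} {l : α → List ℕ} {a : α → ℕ} (hN : PT ∅ N) (hl : PT ∅ l)
    (ha : PT ∅ a) : PT ∅ fun x => decide (a x ∈ alive (N x) (look (N x) (l x))) := by
  have : PT ∅ fun x => decide (a x < N x ∧ N x ≤ look (N x) (l x) (a x)) := by fun_prop
  exact this.congr fun x => by simp [mem_alive]

theorem PT_resSt {N : α → ℕ} {S : α → St} (hN : PT ∅ N) (hNb : PBd N) (hS : PT ∅ S) :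
    PT ∅ fun x => resSt (N x) (S x) := by
  unfold resSt
  refine PT.pair hS.fst (PT.pair (PT_tab hN hNb ?_) (PT_tab hN hNb ?_))
  · unfold res
    fun_prop
  · unfold res
    fun_prop

theorem PT_forb (d : ℕ) {N : α → ℕ} {l : α → List ℕ} {a b : α → ℕ} (hN : PT ∅ N) (hNb : PBd N)
    (hl : PT ∅ l) (ha : PT ∅ a) (hb : PT ∅ b) :
    PT ∅ fun x => decide (Forb d (N x) (look (N x) (l x)) (a x) (b x)) := by
  have h1 : PT ∅ fun x => (List.range (N x)).any fun c => decide (look (N x) (l x) c < N x ∧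
      c / d = a x / d ∧ look (N x) (l x) c / d = b x / d) :=
    PT.any (f := fun x c => decide (look (N x) (l x) c < N x ∧
      c / d = a x / d ∧ look (N x) (l x) c / d = b x / d)) (PT.range hN hNb) (by fun_prop)
  have h2 : PT ∅ fun x => decide (a x / d = b x / d) := by fun_prop
  exact (h2.or h1).congr fun x => by rw [Bool.eq_iff_iff, decide_eq_true_iff]; simp [Forb]

theorem PT_stepSt (d : ℕ) {N : α → ℕ} {P : α → St → ℚ} {δ : α → ℚ} {S : α → St} (hN : PT ∅ N)
    (hNb : PBd N) (hP : PT ∅ fun p : α × St => P p.1 p.2) (hδ : PT ∅ δ) (hS : PT ∅ S) :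
    PT ∅ fun x => stepSt d (N x) (P x) (δ x) (S x) := by
  have hN' : PT ∅ fun p : α × ℕ × ℕ => N p.1 := hN.comp PT.fst'
  have hNb' : PBd fun p : α × ℕ × ℕ => N p.1 := hNb.comp (A := ∅) PT.fst'
  have hS' : PT ∅ fun p : α × ℕ × ℕ => S p.1 := hS.comp PT.fst'
  have hn : PT ∅ fun p : α × ℕ × ℕ => nextSt (N p.1) (S p.1) p.2.1 p.2.2 :=
    PT_nextSt hN' hNb' hS' PT.snd'.fst PT.snd'.snd
  have h1 : PT ∅ fun p : α × ℕ × ℕ => P p.1 (resSt (N p.1) (nextSt (N p.1) (S p.1) p.2.1 p.2.2)) :=
    hP.comp (PT.pair PT.fst' (PT_resSt hN' hNb' hn))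
  have h2 : PT ∅ fun p : α × ℕ × ℕ => P p.1 (resSt (N p.1) (S p.1)) :=
    hP.comp (PT.pair PT.fst' (PT_resSt hN' hNb' hS'))
  have h3 := PT_forb d hN' hNb' hS'.fst PT.snd'.fst PT.snd'.snd
  have hok : PT ∅ fun p : α × ℕ × ℕ => decide (okSt d (N p.1) (P p.1) (δ p.1) (S p.1) p.2.1 p.2.2) := by
    unfold okSt
    refine PT.decide_and (by fun_prop) (PT.decide_and (by fun_prop) (PT.decide_and
      (PT.decide_not h3) (PT.decide_and (by fun_prop) (PT.decide_and (by fun_prop) ?_))))
    exact PT_ratLe h1 (PT_ratAdd h2 (hδ.comp PT.fst'))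
  have hp : PT ∅ fun x => pairs (N x) :=
    PT.flatMap (f := fun x a => (List.range (N x)).map fun b => (a, b)) (PT.range hN hNb)
      (PT.map (f := fun (p : α × ℕ) b => (p.2, b)) ((PT.range hN hNb).comp PT.fst')
        (PT.pair PT.fst'.snd PT.snd'))
  exact PT_optElim (PT.find? (f := fun x (p : ℕ × ℕ) =>
    decide (okSt d (N x) (P x) (δ x) (S x) p.1 p.2)) hp hok) hS hn

theorem PT_iniSt (d : ℕ) {N : α → ℕ} {m p : α → ℚ} (hN : PT ∅ N) (hNb : PBd N) (hm : PT ∅ m)
    (hp : PT ∅ p) : PT ∅ fun x => iniSt (m x) (p x) d (N x) := by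
  unfold iniSt
  refine PT.pair (PT.map (f := fun x _ => N x) (PT.range hN hNb) (hN.comp PT.fst'))
    (PT.pair (PT_tab hN hNb ?_) (PT_tab hN hNb ?_))
  · unfold ini
    fun_prop
  · unfold ini
    fun_prop

theorem PT_run (d : ℕ) {N k : α → ℕ} {m p δ : α → ℚ} {P : α → St → ℚ} (hN : PT ∅ N) (hNb : PBd N)
    (hk : PT ∅ k) (hkb : PBd k) (hm : PT ∅ m) (hp : PT ∅ p) (hδ : PT ∅ δ)
    (hP : PT ∅ fun p : α × St => P p.1 p.2) :
    PT ∅ fun x => (stepSt d (N x) (P x) (δ x))^[k x] (iniSt (m x) (p x) d (N x)) := by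
  have hi := PT_iniSt d hN hNb hm hp
  have hL : PBd fun x => esize (iniSt (m x) (p x) d (N x)) := hi.pbd
  refine PT.iterate' (step := fun x S => stepSt d (N x) (P x) (δ x) S) hk hkb hi
    (PT_stepSt d (P := fun (p : α × St) S => P p.1 S) (hN.comp PT.fst') (hNb.comp (A := ∅) PT.fst')
      (hP.comp (PT.pair PT.fst'.fst PT.snd')) (hδ.comp PT.fst') PT.snd')
    (b := fun x => sizeBd (N x) (esize (iniSt (m x) (p x) d (N x)))) ?_ fun x j _ => ?_
  · unfold sizeBd
    fun_prop
  · refine ((wf_ini (m x) (p x) d (N x)).iterate d (P x) (δ x) j).esize_le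
      (fun a ha b hb => ?_) fun a ha b hb => ?_
    · exact (esize_le_tab _ ha hb).trans ((esize_fst_le (iniSt (m x) (p x) d (N x)).2).trans
        (esize_snd_le _))
    · exact (esize_le_tab _ ha hb).trans ((esize_snd_le (iniSt (m x) (p x) d (N x)).2).trans
        (esize_snd_le _))

theorem PT_complete {N : α → ℕ} {l : α → List ℕ} {a : α → ℕ} (hN : PT ∅ N) (hNb : PBd N)
    (hl : PT ∅ l) (ha : PT ∅ a) : PT ∅ fun x => complete (N x) (l x) (a x) := by
  have h1 : PT ∅ fun x => aliveL (N x) (l x) :=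
    PT.filter (f := fun x a => decide (N x ≤ look (N x) (l x) a)) (PT.range hN hNb) (by fun_prop)
  have h2 : PT ∅ fun x => posL (aliveL (N x) (l x)) (a x) :=
    (PT.takeWhile (f := fun x y => decide (y ≠ a x)) h1
      (PT.decide_not (PT.eqNat PT.snd' (ha.comp PT.fst')))).length
  unfold complete mate
  fun_prop

end PT

end Vale.Agent.P049
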