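import Vale.Agent.P049.Spec

/-!
Inequalities for the quadratic tilt: the own side tilt absorbs the transport terms, and the
cross side tilt is controlled by the cross potential.
-/

namespace Vale.Agent.P049

open Matrix Finset

section Scalar

variable {D Db z L c l : ℝ}

theorem tilt_scalar1 (hL : 0 < L) (hc0 : 0 ≤ c) (hc1 : c ≤ 1) (hc : 0 < D → c = 1)
    (hD : |D| ≤ Db) (hz : 1 ≤ z) (hDz : Db * L ≤ z ^ 2) (hl : -1 ≤ l) :
    D * l - c * l ^ 3 / L ≤ Db * z + 1 / L := by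
  have hD' := abs_le.mp hD
  have hDb : 0 ≤ Db := (abs_nonneg D).trans hD
  have hLi : 0 < 1 / L := by positivity
  rcases le_or_gt 0 l with h0 | h0
  · have h3 : 0 ≤ c * l ^ 3 / L := by positivity
    rcases le_or_gt D 0 with h1 | h1
    · nlinarith [mul_nonneg hDb (zero_le_one.trans hz)]
    · rcases le_or_gt l z with h2 | h2
      · nlinarith
      · rw [hc h1, one_mul]
        have h4 : D * l ≤ l ^ 3 / L := by
          rw [le_div_iff₀ hL]
          have h5 : z ^ 2 ≤ l ^ 2 := by nlinarith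
          have h6 : D * L ≤ l ^ 2 := by nlinarith
          nlinarith
        nlinarith [mul_nonneg hDb (zero_le_one.trans hz)]
  · have h1 : -(c * l ^ 3 / L) ≤ 1 / L := by
      rw [← neg_div]
      refine div_le_div_of_nonneg_right ?_ hL.le
      have h2 : -l ^ 3 ≤ 1 := by nlinarith [sq_nonneg l, sq_nonneg (l + 1), sq_nonneg (l - 1)]
      have h3 : 0 ≤ -l ^ 3 := by nlinarith [sq_nonneg l]
      nlinarith
    have h2 : D * l ≤ Db * z := by nlinarith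
    linarith

theorem tilt_scalar2 (hL : 0 < L) (hc0 : 0 ≤ c) (hc : 0 < D → c = 1)
    (hD : D ≤ Db) (hDb : 0 ≤ Db) (hz : 0 ≤ z) (hDz : Db * L ≤ z ^ 2) (hl : -1 ≤ l) :
    D * l ^ 2 - c * l ^ 4 / L ≤ Db * z * (l + 1) + Db := by
  have h3 : 0 ≤ c * l ^ 4 / L := by positivity
  have h4 : 0 ≤ Db * z * (l + 1) := mul_nonneg (mul_nonneg hDb hz) (by linarith)
  rcases le_or_gt D 0 with h1 | h1
  · nlinarith [sq_nonneg l]
  rcases le_or_gt l 0 with h0 | h0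
  · have : l ^ 2 ≤ 1 := by nlinarith
    nlinarith
  rcases le_or_gt l z with h2 | h2
  · have h5 : l ^ 2 ≤ z * (l + 1) := by nlinarith
    nlinarith [sq_nonneg l]
  · rw [hc h1, one_mul]
    have h5 : D * l ^ 2 ≤ l ^ 4 / L := by
      rw [le_div_iff₀ hL]
      have h5 : z ^ 2 ≤ l ^ 2 := by nlinarith
      have h6 : D * L ≤ l ^ 2 := by nlinarith
      nlinarith [sq_nonneg l]
    linarith

theorem sq_le_lin {Λ : ℝ} (hl : -1 ≤ l) (hΛ : l ≤ Λ) (_h0 : 0 ≤ Λ) : l ^ 2 ≤ Λ * (l + 1) + 1 := by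
  rcases le_or_gt l 0 with h | h <;> nlinarith

end Scalar

variable {ι : Type*} [Fintype ι] [DecidableEq ι]

section Own

variable {X P : Matrix ι ι ℝ} {D Db z L c : ℝ}

/-- own side, odd form: `D tr (X^3 P) - c tr (X^5 P) / L ≤ (Db z + 1 / L) tr (X^2 P)`. -/
theorem tilt_trace1 (hX : Xᵀ = X) (h1 : (X + 1).PosSemidef) (hP : P.PosSemidef)
    (hL : 0 < L) (hc0 : 0 ≤ c) (hc1 : c ≤ 1) (hc : 0 < D → c = 1)
    (hD : |D| ≤ Db) (hz : 1 ≤ z) (hDz : Db * L ≤ z ^ 2) :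
    D * trace (X ^ 3 * P) - c * trace (X ^ 5 * P) / L ≤ (Db * z + 1 / L) * trace (X ^ 2 * P) := by
  let S := specData hX
  simp only [S.trace_pow_mul, Finset.mul_sum, Finset.sum_div, ← Finset.sum_sub_distrib]
  refine Finset.sum_le_sum fun i _ => ?_
  have h2 := tilt_scalar1 hL hc0 hc1 hc hD hz hDz (S.neg_one_le_l h1 i)
  have h3 := mul_le_mul_of_nonneg_right h2 (mul_nonneg (sq_nonneg (S.l i)) (S.weight_nonneg hP i))
  refine le_trans (le_of_eq ?_) h3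
  ring

theorem tilt_trace1_one (hX : Xᵀ = X) (h1 : (X + 1).PosSemidef)
    (hL : 0 < L) (hc0 : 0 ≤ c) (hc1 : c ≤ 1) (hc : 0 < D → c = 1)
    (hD : |D| ≤ Db) (hz : 1 ≤ z) (hDz : Db * L ≤ z ^ 2) :
    D * trace (X ^ 3) - c * trace (X ^ 5) / L ≤ (Db * z + 1 / L) * trace (X ^ 2) := by
  simpa using tilt_trace1 hX h1 PosSemidef.one hL hc0 hc1 hc hD hz hDz

/-- own side, diagonal entries -/
theorem tilt_diag1 (hX : Xᵀ = X) (h1 : (X + 1).PosSemidef)
    (hL : 0 < L) (hc0 : 0 ≤ c) (hc1 : c ≤ 1) (hc : 0 < D → c = 1)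
    (hD : |D| ≤ Db) (hz : 1 ≤ z) (hDz : Db * L ≤ z ^ 2) (a : ι) :
    D * (X ^ 3) a a - c * (X ^ 5) a a / L ≤ (Db * z + 1 / L) * (X ^ 2) a a := by
  let S := specData hX
  simp only [S.pow_diag, Finset.mul_sum, Finset.sum_div, ← Finset.sum_sub_distrib]
  refine Finset.sum_le_sum fun i _ => ?_
  have h2 := tilt_scalar1 hL hc0 hc1 hc hD hz hDz (S.neg_one_le_l h1 i)
  have h3 := mul_le_mul_of_nonneg_right h2 (mul_nonneg (sq_nonneg (S.U a i)) (sq_nonneg (S.l i)))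
  refine le_trans (le_of_eq ?_) (h3.trans (le_of_eq ?_)) <;> ring

/-- own side, even form: `D tr (X^2 P) - c tr (X^4 P) / L ≤ Db z tr ((X + 1) P) + Db tr P`. -/
theorem tilt_trace2 (hX : Xᵀ = X) (h1 : (X + 1).PosSemidef) (hP : P.PosSemidef)
    (hL : 0 < L) (hc0 : 0 ≤ c) (hc : 0 < D → c = 1)
    (hD : D ≤ Db) (hDb : 0 ≤ Db) (hz : 0 ≤ z) (hDz : Db * L ≤ z ^ 2) :
    D * trace (X ^ 2 * P) - c * trace (X ^ 4 * P) / L ≤
      Db * z * trace ((X + 1) * P) + Db * trace P := by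
  let S := specData hX
  have e1 : trace ((X + 1) * P) = ∑ i, (S.l i + 1) * (S.Uᵀ * P * S.U) i i := by
    rw [← S.trace_fc_mul (fun x => x + 1)]
    simp only [S.fc_add', S.fc_id, S.fc_one]
  have e2 : trace P = ∑ i, 1 * (S.Uᵀ * P * S.U) i i := by
    rw [← S.trace_fc_mul (fun _ => 1), S.fc_one, Matrix.one_mul]
  rw [e1, e2]
  simp only [S.trace_pow_mul, Finset.mul_sum, Finset.sum_div, ← Finset.sum_sub_distrib,
    ← Finset.sum_add_distrib]
  refine Finset.sum_le_sum fun i _ => ?_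
  have h2 := tilt_scalar2 hL hc0 hc hD hDb hz hDz (S.neg_one_le_l h1 i)
  have h3 := mul_le_mul_of_nonneg_right h2 (S.weight_nonneg hP i)
  refine le_trans (le_of_eq ?_) (h3.trans (le_of_eq ?_)) <;> ring

/-- `X^2 (X + 1)` is positive semidefinite -/
theorem psd_sq_mul_add_one (hX : Xᵀ = X) (h1 : (X + 1).PosSemidef) :
    (X ^ 2 * (X + 1)).PosSemidef := by
  have := psd_conj_symm h1 hX
  convert this using 1
  noncomm_ring

end Own

section Cross

variable {X Y : Matrix ι ι ℝ} {Λ : ℝ}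

theorem trace_sq_mul_sq_eq (hX : Xᵀ = X) (hY : Yᵀ = Y) :
    trace (X ^ 2 * Y ^ 2) = frob (X * Y) ^ 2 := by
  rw [frob_sq_eq_trace', transpose_mul, hX, hY, sq, sq]
  calc trace (X * X * (Y * Y)) = trace ((X * X * Y) * Y) := by simp only [Matrix.mul_assoc]
    _ = trace (Y * (X * X * Y)) := trace_mul_comm _ _
    _ = _ := by simp only [Matrix.mul_assoc]

omit [DecidableEq ι] in
theorem frob_mul_comm_symm (hX : Xᵀ = X) (hY : Yᵀ = Y) : frob (X * Y) = frob (Y * X) := by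
  rw [← frob_transpose, transpose_mul, hX, hY]

theorem opn_mul_comm_symm (hX : Xᵀ = X) (hY : Yᵀ = Y) : opn (X * Y) = opn (Y * X) := by
  rw [← opn_transpose, transpose_mul, hX, hY]

theorem psd_sq (hX : Xᵀ = X) : (X ^ 2).PosSemidef := by
  rw [sq]; exact psd_mul_self hX

theorem cross_nonneg (hX : Xᵀ = X) (h1 : (Y + 1).PosSemidef) : 0 ≤ trace (X ^ 2 * (Y + 1)) :=
  trace_mul_psd_nonneg (psd_sq hX) h1

/-- `tr (X^2 Y^2) ≤ Λ tr (X^2 (Y + 1)) + tr X^2`. -/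
theorem trace_sq_sq_le (hX : Xᵀ = X) (hY : Yᵀ = Y) (h1 : (Y + 1).PosSemidef) (hΛ : opn Y ≤ Λ) :
    trace (X ^ 2 * Y ^ 2) ≤ Λ * trace (X ^ 2 * (Y + 1)) + trace (X ^ 2) := by
  let S := specData hY
  have h0 : 0 ≤ Λ := (opn_nonneg Y).trans hΛ
  have h := S.trace_fc_mul_le (f := fun x => x ^ 2) (g := fun x => Λ * (x + 1) + 1)
    (fun i => sq_le_lin (S.neg_one_le_l h1 i)
      ((le_abs_self _).trans ((S.abs_l_le_opn i).trans hΛ)) h0) (psd_sq hX)
  simp only [S.fc_add', S.fc_smul', S.fc_pow', S.fc_id, S.fc_one] at h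
  rw [Matrix.add_mul, Matrix.smul_mul, trace_add, trace_smul, Matrix.one_mul, smul_eq_mul,
    trace_mul_comm (Y ^ 2), trace_mul_comm (Y + 1)] at h
  exact h

/-- `|tr (Y^2 X^(j+2))| ≤ Λ^j tr (X^2 Y^2)`. -/
theorem abs_trace_sq_pow_le (hX : Xᵀ = X) (hY : Yᵀ = Y) (hΛ : opn X ≤ Λ) (j : ℕ) :
    |trace (Y ^ 2 * X ^ (j + 2))| ≤ Λ ^ j * trace (X ^ 2 * Y ^ 2) := by
  rw [trace_mul_comm]; exact abs_trace_pow_mul_le hX hΛ (psd_sq hY) j

/-- `|tr (Y^2 X^2 Y X)| ≤ |X Y|_F ^ 3`. -/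
theorem abs_trace_cross_cube_le (hX : Xᵀ = X) (hY : Yᵀ = Y) :
    |trace (Y ^ 2 * (X ^ 2 * Y * X))| ≤ frob (X * Y) ^ 3 := by
  have e : trace (Y ^ 2 * (X ^ 2 * Y * X)) = trace ((Y * X) * (X * Y) * (X * Y)) := by
    rw [sq, sq]
    calc trace (Y * Y * (X * X * Y * X)) = trace (Y * (Y * (X * X * Y * X))) := by
          simp only [Matrix.mul_assoc]
      _ = trace ((Y * (X * X * Y * X)) * Y) := trace_mul_comm _ _
      _ = _ := by simp only [Matrix.mul_assoc]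
  rw [e]
  refine (abs_trace_mul_mul_le _ _ _).trans ?_
  rw [← frob_mul_comm_symm hX hY]
  have h1 := opn_le_frob (X * Y)
  have h2 := frob_nonneg (X * Y)
  calc _ ≤ frob (X * Y) * frob (X * Y) * frob (X * Y) := by gcongr
    _ = _ := by ring

/-- the transposed word -/
theorem abs_trace_cross_cube_le' (hX : Xᵀ = X) (hY : Yᵀ = Y) :
    |trace (Y ^ 2 * (X * Y * X ^ 2))| ≤ frob (X * Y) ^ 3 := by
  have e : trace (Y ^ 2 * (X * Y * X ^ 2)) = trace (Y ^ 2 * (X ^ 2 * Y * X)) := by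
    rw [← trace_transpose, transpose_mul, trace_mul_comm]
    simp only [transpose_mul, transpose_pow, hX, hY, Matrix.mul_assoc]
  rw [e]; exact abs_trace_cross_cube_le hX hY

/-- `|X Y X|_F ≤ tr (X^2 (Y + 1)) + |X^2|_F`. -/
theorem frob_sandwich_le (hX : Xᵀ = X) (h1 : (Y + 1).PosSemidef) :
    frob (X * Y * X) ≤ trace (X ^ 2 * (Y + 1)) + frob (X ^ 2) := by
  have e : X * Y * X = X * (Y + 1) * X - X ^ 2 := by noncomm_ring
  have h2 := psd_frob_le_trace (psd_conj_symm h1 hX)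
  have e2 : trace (X * (Y + 1) * X) = trace (X ^ 2 * (Y + 1)) := by
    rw [trace_mul_comm, ← Matrix.mul_assoc, sq]
  rw [e, ← e2]
  exact (frob_sub_le _ _).trans (by linarith)

theorem trace_sandwich_eq (hX : Xᵀ = X) (hY : Yᵀ = Y) :
    trace (X ^ 2 * (Y * X ^ 2 * Y)) = frob (X * Y * X) ^ 2 := by
  have hs : (X * Y * X)ᵀ = X * Y * X := by
    simp only [transpose_mul, hX, hY, Matrix.mul_assoc]
  rw [frob_sq_of_symm hs, sq]
  calc trace (X * X * (Y * (X * X) * Y)) = trace (X * (X * (Y * (X * X) * Y))) := by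
        simp only [Matrix.mul_assoc]
    _ = trace ((X * (Y * (X * X) * Y)) * X) := trace_mul_comm _ _
    _ = _ := by simp only [Matrix.mul_assoc]

theorem frob_sq_sq (hX : Xᵀ = X) : frob (X ^ 2) ^ 2 = trace (X ^ 4) := by
  rw [frob_sq_of_symm (pow_symm hX 2), ← pow_add]

theorem frob_pow_sq (hX : Xᵀ = X) (j : ℕ) : frob (X ^ j) ^ 2 = trace (X ^ (2 * j)) := by
  rw [frob_sq_of_symm (pow_symm hX j), ← pow_add, two_mul]

/-- `tr X^4 ≤ Λ tr (X^2 (X + 1)) + tr X^2`. -/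
theorem trace_four_le (hX : Xᵀ = X) (h1 : (X + 1).PosSemidef) (hΛ : opn X ≤ Λ) :
    trace (X ^ 4) ≤ Λ * trace (X ^ 2 * (X + 1)) + trace (X ^ 2) := by
  have := trace_sq_sq_le hX hX h1 hΛ
  rwa [← pow_add] at this

/-- diagonal entries of the cross term for the row norms -/
theorem abs_cross_diag_le (hX : Xᵀ = X) (hY : Yᵀ = Y) (a : ι) :
    |(X * Y ^ 2 * X ^ 2) a a| ≤ opn Y * opn (Y * X) * (X ^ 2) a a := by
  have e : X * Y ^ 2 * X ^ 2 = X * (Y * (Y * X)) * X := by simp only [sq, Matrix.mul_assoc]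
  rw [e]
  refine (abs_conj_diag_le hX _ a).trans ?_
  have := hY
  exact mul_le_mul_of_nonneg_right (opn_mul_le _ _) (sq_diag_nonneg hX a)

theorem abs_cross_diag_le' (hX : Xᵀ = X) (hY : Yᵀ = Y) (a : ι) :
    |(X ^ 2 * Y ^ 2 * X) a a| ≤ opn Y * opn (Y * X) * (X ^ 2) a a := by
  have e : (X ^ 2 * Y ^ 2 * X) a a = (X * Y ^ 2 * X ^ 2) a a := by
    rw [← transpose_apply (X ^ 2 * Y ^ 2 * X) a a]
    simp only [transpose_mul, transpose_pow, hX, hY, Matrix.mul_assoc]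
  rw [e]; exact abs_cross_diag_le hX hY a

theorem cross_diag_two (hX : Xᵀ = X) (hY : Yᵀ = Y) (a : ι) :
    (X * Y ^ 2 * X) a a = nrm ((X * Y) a) ^ 2 := by
  rw [nrm_row_sq, transpose_mul, hX, hY, sq]
  simp only [Matrix.mul_assoc]

theorem sum_cross_diag_two (hX : Xᵀ = X) (hY : Yᵀ = Y) :
    ∑ a, (X * Y ^ 2 * X) a a = frob (X * Y) ^ 2 := by
  simp only [cross_diag_two hX hY, frob_sq_eq_sum_rows]

theorem cross_diag_two_le (hX : Xᵀ = X) (hY : Yᵀ = Y) (a : ι) :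
    (X * Y ^ 2 * X) a a ≤ opn Y ^ 2 * (X ^ 2) a a := by
  have := hY
  exact (le_abs_self _).trans ((abs_conj_diag_le hX _ a).trans
    (mul_le_mul_of_nonneg_right (opn_pow_le Y 2) (sq_diag_nonneg hX a)))

end Cross

end Vale.Agent.P049
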