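import Vale.Agent.P049.Iface
import Vale.Agent.P049.Tilt

/-!
A priori bounds which follow from the invariants of the two kernels.
-/

namespace Vale.Agent.P049

open Matrix Finset

variable {ι : Type*} [Fintype ι] [DecidableEq ι]

section Apriori

variable {X Y : Matrix ι ι ℝ} {s m : ℝ}

omit [DecidableEq ι] in
theorem Ker.transpose_eq (h : Ker s m univ X) : Xᵀ = X := by
  ext a b
  exact h.symm b a

omit [DecidableEq ι] in
theorem Ker.rowsum (h : Ker s m univ X) (a : ι) : ∑ b, X a b = s := h.row a (mem_univ a)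

omit [DecidableEq ι] in
theorem trace_mul_self_eq_sum_rsq (hX : Xᵀ = X) : trace (X * X) = ∑ a, rsq X a := by
  rw [sum_rsq, frob_sq_of_symm hX]

omit [DecidableEq ι] in
/-- A1 -/
theorem one_le_t2 (hs : s ^ 2 = 1) (h : Ker s m univ X) (hk : 0 < Fintype.card ι) :
    1 ≤ trace (X * X) := by
  have hk' : (0 : ℝ) < Fintype.card ι := by exact_mod_cast hk
  have h1 : ∀ a, 1 / (Fintype.card ι : ℝ) ≤ rsq X a := fun a => by
    have := sq_sum_div_card_le (X a)
    rwa [h.rowsum a, hs] at this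
  rw [trace_mul_self_eq_sum_rsq h.transpose_eq]
  refine le_trans (le_of_eq ?_) (sum_le_sum fun a _ => h1 a)
  rw [sum_const, card_univ, nsmul_eq_mul]
  field_simp

theorem trace_sq_mul_add_one (X Y : Matrix ι ι ℝ) :
    trace (X ^ 2 * (Y + 1)) = trace (X * X * Y) + trace (X * X) := by
  rw [sq, Matrix.mul_add, Matrix.mul_one, trace_add]

/-- A2 -/
theorem t3_nonneg (hX : Xᵀ = X) (hY : (Y + 1).PosSemidef) :
    0 ≤ trace (X * X * Y) + trace (X * X) := by
  rw [← trace_sq_mul_add_one]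
  exact cross_nonneg hX hY

/-- A3: covers `Y = X`. -/
theorem frob_mul_sq_le {lam : ℝ} (hX : Xᵀ = X) (hY : Yᵀ = Y) (pY : (Y + 1).PosSemidef)
    (oY : opn Y ≤ lam) :
    frob (X * Y) ^ 2 ≤ lam * (trace (X * X * Y) + trace (X * X)) + trace (X * X) := by
  have h := trace_sq_sq_le hX hY pY oY
  rwa [trace_sq_mul_sq_eq hX hY, trace_sq_mul_add_one, sq X] at h

/-- A4 -/
theorem frob_conj_le (hX : Xᵀ = X) (pY : (Y + 1).PosSemidef) :
    frob (X * Y * X) ≤ trace (X * X * Y) + trace (X * X) + frob (X * X) := by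
  have h := frob_sandwich_le hX pY
  rwa [trace_sq_mul_add_one, sq X] at h

/-- A5 -/
theorem cross_le (hm0 : 0 ≤ m) (hm : m ^ 2 ≤ 1 / 2) (hX : Ker 1 m univ X) (hY : Ker (-1) m univ Y)
    (hk : 0 < Fintype.card ι) :
    -trace (X * Y) ≤ Fintype.card ι / 2 + |trace X| + |trace Y| + 3 := by
  have hk' : (0 : ℝ) < Fintype.card ι := by exact_mod_cast hk
  have h1 := trace_mul_psd_nonneg (psd_add_m hX.transpose_eq hX.rowsum hX.psd)
    (psd_add_m hY.transpose_eq hY.rowsum hY.psd)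
  set k : ℝ := (Fintype.card ι : ℝ) with hkdef
  have hJ : ∀ c : ℝ, (Matrix.of fun (_ _ : ι) => c) = c • Matrix.of fun (_ _ : ι) => (1 : ℝ) :=
    fun c => by ext a b; simp
  set J : Matrix ι ι ℝ := Matrix.of fun (_ _ : ι) => (1 : ℝ) with hJdef
  have e1 : trace (X * J) = k := by
    simp only [trace, diag_apply, mul_apply, hJdef, of_apply, mul_one, hX.rowsum, sum_const,
      card_univ, nsmul_eq_mul, hkdef]
  have e2 : trace (J * Y) = -k := by
    rw [trace_mul_comm]
    simp only [trace, diag_apply, mul_apply, hJdef, of_apply, mul_one, hY.rowsum, sum_const,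
      card_univ, nsmul_eq_mul, hkdef, mul_neg]
  have e3 : trace J = k := by
    simp only [trace, diag_apply, hJdef, of_apply, sum_const, card_univ, nsmul_eq_mul, mul_one,
      hkdef]
  have e4 : trace (J * J) = k * k := by
    simp only [trace, diag_apply, mul_apply, hJdef, of_apply, mul_one, sum_const,
      card_univ, nsmul_eq_mul, hkdef]
  rw [hJ, hJ ((-1 + m) / k)] at h1
  simp only [Matrix.sub_mul, Matrix.mul_sub, Matrix.add_mul, Matrix.mul_add, Matrix.smul_mul,
    Matrix.mul_smul, Matrix.one_mul, Matrix.mul_one, trace_sub, trace_add, trace_smul, smul_eq_mul,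
    e1, e2, e3, e4, trace_one, ← hkdef] at h1
  have e5 : ∀ c : ℝ, c / k * k = c := fun c => by field_simp
  have e6 : (-1 + m) / k * ((1 + m) / k * (k * k)) = (-1 + m) * (1 + m) := by field_simp
  have e7 : (1 + m) / k * ((-1 + m) / k * (k * k)) = (-1 + m) * (1 + m) := by field_simp
  have hm1 : m ≤ 1 := by nlinarith
  have e8 : m * trace X ≤ |trace X| := by
    nlinarith [le_abs_self (trace X), abs_nonneg (trace X)]
  have e9 : m * trace Y ≤ |trace Y| := by
    nlinarith [le_abs_self (trace Y), abs_nonneg (trace Y)]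
  have e10 : m * (m * k) ≤ k / 2 := by nlinarith
  have e11 := e5 (1 + m)
  have e12 := e5 (-1 + m)
  have e13 : m * ((1 + m) / k * k) = m * (1 + m) := by rw [e5]
  have e14 : m * ((-1 + m) / k * k) = m * (-1 + m) := by rw [e5]
  nlinarith

omit [DecidableEq ι] in
theorem p4_eq_frob_had (X : Matrix ι ι ℝ) : p4 X = frob (had X) ^ 2 := (frob_had_sq X).symm

/-- A6 -/
theorem p4_le (hs : s ^ 2 = 1) (hm0 : 0 ≤ m) (hm : m ^ 2 ≤ 1 / 2) (h : Ker s m univ X)
    (hk : 3000 ≤ Fintype.card ι) {v u : ℝ} (hv : nrm (dgv X) ≤ v) (hu : nrm (rsq X) ≤ u) :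
    p4 X ≤ 101 / 200 * trace (X * X) + 1000 * (v * u + v ^ 4) := by
  have hk' : (3000 : ℝ) ≤ Fintype.card ι := by exact_mod_cast hk
  have hs1 : -1 ≤ s := by rcases sgn_cases hs with h1 | h1 <;> linarith
  have hE := entBd_of_psd hs1 hm0 h.transpose_eq h.rowsum fun x hx => h.psd x hx
  set μ := m + 2 / (Fintype.card ι : ℝ) with hμ
  have h2 : 2 / (Fintype.card ι : ℝ) ≤ 1 / 1500 := by
    rw [div_le_div_iff₀ (by linarith) (by norm_num)]; linarith
  have h3 : 0 ≤ 2 / (Fintype.card ι : ℝ) := by positivity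
  have hμ0 : 0 ≤ μ := by linarith
  have hm1 : m ≤ 71 / 100 := by nlinarith
  have hμ1 : μ ≤ 1 := by linarith
  have hμ2 : μ ^ 2 ≤ 501 / 1000 := by rw [hμ]; nlinarith
  have h4 := frob_had_sq_le hμ0 h.transpose_eq hE
  unfold gsm at h4
  rw [frob_sq_of_symm h.transpose_eq] at h4
  rw [p4_eq_frob_had]
  have hT : 0 ≤ trace (X * X) := by
    rw [← frob_sq_of_symm h.transpose_eq]; positivity
  have hd := nrm_nonneg (dgv X)
  have hr := nrm_nonneg (rsq X)
  have hg := frob_nonneg (had X)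
  set g := frob (had X)
  set dn := nrm (dgv X)
  set rn := nrm (rsq X)
  have h5 : dn * rn ≤ v * u := mul_le_mul hv hu hr (hd.trans hv)
  have h6 : dn ^ 2 ≤ v ^ 2 := pow_le_pow_left₀ hd hv 2
  have h7 : dn ^ 2 * g ≤ v ^ 2 * g := mul_le_mul_of_nonneg_right h6 hg
  have h8 : v ^ 2 * g ≤ g ^ 2 / 250 + 125 / 2 * v ^ 4 := by nlinarith [sq_nonneg (g - 125 * v ^ 2)]
  have h9 : 2 * μ * (dn * rn) ≤ 2 * (v * u) := by
    have : 0 ≤ dn * rn := by positivity
    nlinarith
  have h10 : μ ^ 2 * trace (X * X) ≤ 501 / 1000 * trace (X * X) :=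
    mul_le_mul_of_nonneg_right hμ2 hT
  have h11 : 0 ≤ v * u := le_trans (by positivity) h5
  have h12 : 0 ≤ v ^ 4 := by positivity
  linarith

end Apriori

end Vale.Agent.P049
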