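import Vale.Agent.P049.PTRat
import Vale.Agent.Lib.PolyTime.TypedTM2
import Mathlib.Combinatorics.SimpleGraph.AdjMatrix

/-!
# From a pairing of half-edges to the statement about Ramanujan graphs

The half-edge `a < n * d` sits at the vertex `a / d`.  A polynomial time partner function `π`
which is a fixed point free involution without loops and multiple edges, and whose quadratic form
is bounded on vectors of sum zero, gives the required construction.
-/

namespace Vale.Agent.P049

open Vale.Agent.Lib.PolyTime Finset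

/-- `π` is a pairing of the half-edges `0, …, n * d - 1` which produces a simple graph with
quadratic form at most `2 √(d - 1)` in absolute value on vectors of sum zero. -/
structure GoodPairing (d n : ℕ) (π : ℕ → ℕ) : Prop where
  lt : ∀ a < n * d, π a < n * d
  invol : ∀ a < n * d, π (π a) = a
  noLoop : ∀ a < n * d, π a / d ≠ a / d
  noMulti : ∀ a < n * d, ∀ b < n * d, a / d = b / d → π a / d = π b / d → a = b
  spec : ∀ x : ℕ → ℝ, ∑ i ∈ range n, x i = 0 →
    |∑ a ∈ range (n * d), x (a / d) * x (π a / d)| ≤ 2 * √((d : ℝ) - 1) * ∑ i ∈ range n, x i ^ 2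

/-- Adjacency of the vertices `i` and `j`. -/
def adjB (d : ℕ) (π : ℕ → ℕ) (i j : ℕ) : Bool :=
  (List.range d).any fun t => decide (π (i * d + t) / d = j)

theorem adjB_iff {d : ℕ} {π : ℕ → ℕ} {i j : ℕ} :
    adjB d π i j = true ↔ ∃ t < d, π (i * d + t) / d = j := by
  simp [adjB]

theorem half_lt {d n i t : ℕ} (hi : i < n) (ht : t < d) : i * d + t < n * d := by
  have : (i + 1) * d ≤ n * d := Nat.mul_le_mul_right d hi
  nlinarith

theorem half_div {d i t : ℕ} (ht : t < d) : (i * d + t) / d = i := by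
  rw [Nat.add_comm, Nat.add_mul_div_right _ _ (by omega), Nat.div_eq_of_lt ht, Nat.zero_add]

theorem GoodPairing.symm {d n : ℕ} {π : ℕ → ℕ} (h : GoodPairing d n π) {i j : ℕ} (hi : i < n)
    (hij : adjB d π i j = true) : adjB d π j i = true := by
  obtain ⟨t, ht, e⟩ := adjB_iff.1 hij
  have hd : 0 < d := by omega
  refine adjB_iff.2 ⟨π (i * d + t) % d, Nat.mod_lt _ hd, ?_⟩
  have e2 : j * d + π (i * d + t) % d = π (i * d + t) := by
    rw [← e, Nat.mul_comm]; exact Nat.div_add_mod _ _
  rw [e2, h.invol _ (half_lt hi ht), half_div ht]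

theorem GoodPairing.irrefl {d n : ℕ} {π : ℕ → ℕ} (h : GoodPairing d n π) {i : ℕ} (hi : i < n) :
    ¬ adjB d π i i = true := by
  intro hii
  obtain ⟨t, ht, e⟩ := adjB_iff.1 hii
  exact h.noLoop _ (half_lt hi ht) (by rw [e, half_div ht])

/-- The graph of a good pairing. -/
def GoodPairing.graph {d n : ℕ} {π : ℕ → ℕ} (h : GoodPairing d n π) : SimpleGraph (Fin n) where
  Adj i j := adjB d π i j = true
  symm := ⟨fun i _ hij => h.symm i.2 hij⟩
  loopless := ⟨fun i hii => h.irrefl i.2 hii⟩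

instance GoodPairing.decAdj {d n : ℕ} {π : ℕ → ℕ} (h : GoodPairing d n π) :
    DecidableRel h.graph.Adj := fun i j => inferInstanceAs (Decidable (adjB d π i j = true))

theorem GoodPairing.nb_lt {d n : ℕ} {π : ℕ → ℕ} (h : GoodPairing d n π) {i t : ℕ} (hi : i < n)
    (ht : t < d) : π (i * d + t) / d < n :=
  Nat.div_lt_of_lt_mul (by rw [Nat.mul_comm d n]; exact h.lt _ (half_lt hi ht))

/-- Sums over the neighbours of a vertex are sums over its half-edges. -/
theorem GoodPairing.sum_nb {d n : ℕ} {π : ℕ → ℕ} (h : GoodPairing d n π) (i : Fin n)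
    (f : ℕ → ℝ) :
    ∑ j ∈ h.graph.neighborFinset i, f j = ∑ t ∈ range d, f (π (i * d + t) / d) := by
  symm
  refine Finset.sum_bij (fun t ht => ⟨π (i * d + t) / d, h.nb_lt i.2 (mem_range.1 ht)⟩) ?_ ?_ ?_ ?_
  · intro t ht
    rw [SimpleGraph.mem_neighborFinset]
    exact adjB_iff.2 ⟨t, mem_range.1 ht, rfl⟩
  · intro t ht t' ht' e
    have e' : π (i * d + t) / d = π (i * d + t') / d := congrArg Fin.val e
    have := h.noMulti _ (half_lt i.2 (mem_range.1 ht)) _ (half_lt i.2 (mem_range.1 ht'))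
      (by rw [half_div (mem_range.1 ht), half_div (mem_range.1 ht')]) e'
    omega
  · intro j hj
    rw [SimpleGraph.mem_neighborFinset] at hj
    obtain ⟨t, ht, e⟩ := adjB_iff.1 hj
    exact ⟨t, mem_range.2 ht, Fin.ext e⟩
  · intro t _
    rfl

theorem GoodPairing.regular {d n : ℕ} {π : ℕ → ℕ} (h : GoodPairing d n π) :
    h.graph.IsRegularOfDegree d := by
  intro i
  have := h.sum_nb i fun _ => 1
  simp only [sum_const, card_range, nsmul_eq_mul, mul_one] at this
  rw [← SimpleGraph.card_neighborFinset_eq_degree]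
  exact_mod_cast this

theorem sum_range_mul (n d : ℕ) (f : ℕ → ℝ) :
    ∑ a ∈ range (n * d), f a = ∑ i ∈ range n, ∑ t ∈ range d, f (i * d + t) := by
  induction n with
  | zero => simp
  | succ n ih => rw [Nat.succ_mul, sum_range_add, ih, sum_range_succ]

theorem GoodPairing.eigen {d n : ℕ} {π : ℕ → ℕ} (h : GoodPairing d n π) (μ : ℝ) (x : Fin n → ℝ)
    (hx : x ≠ 0) (hs : ∑ i, x i = 0) (he : (h.graph.adjMatrix ℝ).mulVec x = μ • x) :
    |μ| ≤ 2 * √((d : ℝ) - 1) := by
  set y : ℕ → ℝ := fun i => if hi : i < n then x ⟨i, hi⟩ else 0 with hy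
  have hyx : ∀ i : Fin n, y i = x i := fun i => by simp [hy]
  have h0 : ∑ i ∈ range n, y i = 0 := by
    rw [← Fin.sum_univ_eq_sum_range, ← hs]
    exact sum_congr rfl fun i _ => hyx i
  have h1 : ∑ i ∈ range n, y i ^ 2 = ∑ i, x i ^ 2 := by
    rw [← Fin.sum_univ_eq_sum_range (fun i => y i ^ 2)]
    exact sum_congr rfl fun i _ => by rw [hyx]
  have h2 : ∑ a ∈ range (n * d), y (a / d) * y (π a / d) = μ * ∑ i, x i ^ 2 := by
    rw [sum_range_mul, ← Fin.sum_univ_eq_sum_range
      (fun i => ∑ t ∈ range d, y ((i * d + t) / d) * y (π (i * d + t) / d)), mul_sum]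
    refine sum_congr rfl fun i _ => ?_
    have e1 := congrFun he i
    rw [SimpleGraph.adjMatrix_mulVec_apply, Pi.smul_apply, smul_eq_mul] at e1
    have e2 : ∑ j ∈ h.graph.neighborFinset i, x j = ∑ j ∈ h.graph.neighborFinset i, y j :=
      sum_congr rfl fun j _ => (hyx j).symm
    rw [e2, h.sum_nb i y] at e1
    have e3 : ∑ t ∈ range d, y ((i * d + t) / d) * y (π (i * d + t) / d) =
        x i * ∑ t ∈ range d, y (π (i * d + t) / d) := by
      rw [mul_sum]
      exact sum_congr rfl fun t ht => by rw [half_div (mem_range.1 ht), hyx]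
    rw [e3, e1]
    ring
  have h3 : 0 < ∑ i, x i ^ 2 := by
    obtain ⟨i, hi⟩ := Function.ne_iff.1 hx
    exact sum_pos' (fun j _ => sq_nonneg _) ⟨i, mem_univ _, by
      have : x i ≠ 0 := hi
      positivity⟩
  have h4 := h.spec y h0
  rw [h1, h2, abs_mul, abs_of_pos h3] at h4
  exact le_of_mul_le_mul_right h4 h3

/-- The output word: the adjacency matrix, row by row. -/
def outW (d : ℕ) (π : ℕ → ℕ → ℕ) (n : ℕ) : List Bool :=
  (List.range n).flatMap fun i => (List.range n).map fun j => adjB d (π n) i j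

theorem PT_outW (d : ℕ) {π : ℕ → ℕ → ℕ} (hπ : PT ∅ fun p : Un × ℕ => π p.1.v p.2) :
    PT ∅ fun u : Un => Raw.mk (outW d π u.v) := by
  refine PT.rawOfList ?_
  have hr : PT ∅ fun u : Un => List.range u.v := PT.range (PT.unVal PT.id) (PBd.unVal (A := ∅) PT.id)
  have h1 : PT ∅ fun p : ((Un × ℕ) × ℕ) × ℕ => π p.1.1.1.v (p.1.1.2 * d + p.2) :=
    hπ.comp (f := fun p : ((Un × ℕ) × ℕ) × ℕ => (p.1.1.1, p.1.1.2 * d + p.2))
      (PT.pair PT.fst'.fst.fst ((PT.fst'.fst.snd.mul (PT.const d)).add PT.snd'))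
  have h2 : PT ∅ fun p : (Un × ℕ) × ℕ => adjB d (π p.1.1.v) p.1.2 p.2 :=
    PT.any (f := fun (p : (Un × ℕ) × ℕ) t => decide (π p.1.1.v (p.1.2 * d + t) / d = p.2))
      (PT.const (List.range d)) ((h1.div (PT.const d)).eqNat PT.fst'.snd)
  exact PT.flatMap (f := fun (u : Un) i => (List.range u.v).map fun j => adjB d (π u.v) i j) hr
    (PT.map (f := fun (p : Un × ℕ) j => adjB d (π p.1.v) p.2 j) (hr.comp PT.fst') h2)

theorem finRange_flatMap {β : Type} (n : ℕ) (f : ℕ → List β) :
    (List.finRange n).flatMap (fun i : Fin n => f i) = (List.range n).flatMap f := by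
  rw [← List.map_coe_finRange_eq_range, List.flatMap_map]

theorem finRange_map {β : Type} (n : ℕ) (f : ℕ → β) :
    (List.finRange n).map (fun i : Fin n => f i) = (List.range n).map f := by
  rw [← List.map_coe_finRange_eq_range, List.map_map]
  rfl

/-- The statement of the problem follows from a polynomial time good pairing. -/
theorem result_of_pairing (d : ℕ) (π : ℕ → ℕ → ℕ) (hπ : PT ∅ fun p : Un × ℕ => π p.1.v p.2)
    (n₀ : ℕ) (h : ∀ n, n₀ ≤ n → Even (d * n) → GoodPairing d n (π n)) :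
    ∃ (out : ℕ → List Bool)
      (M : Turing.TM2ComputableInPolyTime (fun n : ℕ => List.replicate n true)
        (fun w : List Bool => w) out),
      (∀ k, Finite (M.tm.Γ k)) ∧
      ∃ n₀ : ℕ, ∀ n : ℕ, n₀ ≤ n → Even (d * n) →
        ∃ (G : SimpleGraph (Fin n)) (_ : DecidableRel G.Adj),
          G.IsRegularOfDegree d ∧
          out n = (List.finRange n).flatMap
            (fun i => (List.finRange n).map fun j => decide (G.Adj i j)) ∧
          ∀ (μ : ℝ) (x : Fin n → ℝ), x ≠ 0 → ∑ i, x i = 0 →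
            (G.adjMatrix ℝ).mulVec x = μ • x → |μ| ≤ 2 * √((d : ℝ) - 1) := by
  obtain ⟨g, hg, hg'⟩ := PT_outW d hπ
  obtain ⟨M, hM⟩ := exists_tm2_of_polyTimeFun (fun n : ℕ => List.replicate n true)
    (fun w : List Bool => w) (outW d π) g (polyTimeFun_iff.2 hg) fun n => hg' ⟨n⟩
  refine ⟨outW d π, M, hM, n₀, fun n hn he => ?_⟩
  have H := h n hn he
  refine ⟨H.graph, H.decAdj, H.regular, ?_, H.eigen⟩
  have e : ∀ i j : Fin n, decide (H.graph.Adj i j) = adjB d (π n) i j := fun i j => by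
    change decide (adjB d (π n) i j = true) = _
    simp
  simp only [e]
  rw [outW, ← finRange_flatMap]
  congr 1
  funext i
  exact (finRange_map n fun j => adjB d (π n) i j).symm

end Vale.Agent.P049
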