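import Vale.Agent.P049.Criterion
import Vale.Agent.P049.Reduce

/-!
# The abstract matching process

`π a < N` means that the half-edge `a` is matched to `π a`; otherwise `a` is free.
-/

namespace Vale.Agent.P049

open Finset

/-- The free half-edges. -/
def alive (N : ℕ) (π : ℕ → ℕ) : Finset ℕ := (range N).filter fun a => N ≤ π a

/-- The partner function after matching `a` and `b`. -/
def upd (π : ℕ → ℕ) (a b : ℕ) (c : ℕ) : ℕ := if c = a then b else if c = b then a else π c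

/-- Matching `a` and `b` would create a loop or a multiple edge. -/
def Forb (d N : ℕ) (π : ℕ → ℕ) (a b : ℕ) : Prop :=
  a / d = b / d ∨ ∃ c < N, π c < N ∧ c / d = a / d ∧ π c / d = b / d

instance (d N : ℕ) (π : ℕ → ℕ) (a b : ℕ) : Decidable (Forb d N π a b) := by
  unfold Forb; infer_instance

/-- The matched half-edges form a simple graph. -/
structure IsMatch (d N : ℕ) (π : ℕ → ℕ) : Prop where
  invol : ∀ a < N, π a < N → π (π a) = a
  noLoop : ∀ a < N, π a < N → π a / d ≠ a / d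
  noMulti : ∀ a < N, ∀ b < N, π a < N → π b < N → a / d = b / d → π a / d = π b / d → a = b

/-- Restriction of a kernel to `H`. -/
def res {ι K : Type*} [DecidableEq ι] [Zero K] (H : Finset ι) (F : ι → ι → K) (c e : ι) : K :=
  if c ∈ H ∧ e ∈ H then F c e else 0

/-- The initial kernel. -/
def ini {K : Type*} [Field K] (s m p : K) (d N : ℕ) (a b : ℕ) : K :=
  (if a = b then -m else 0) + (if a / d = b / d then p else 0) + (s + m - p * d) / N

/-- The properties of the kernels which hold during the whole process. -/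
structure Ker {ι : Type*} (s m : ℝ) (H : Finset ι) (F : ι → ι → ℝ) : Prop where
  symm : ∀ c e, F c e = F e c
  supp : ∀ c e, c ∉ H → F c e = 0
  row : ∀ c ∈ H, ∑ e ∈ H, F c e = s
  psd : Psd m H F

theorem mem_alive {N : ℕ} {π : ℕ → ℕ} {a : ℕ} : a ∈ alive N π ↔ a < N ∧ N ≤ π a := by
  simp [alive]

theorem alive_subset (N : ℕ) (π : ℕ → ℕ) : alive N π ⊆ range N := filter_subset _ _

theorem card_alive_le (N : ℕ) (π : ℕ → ℕ) : (alive N π).card ≤ N := by
  simpa using card_le_card (alive_subset N π)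

theorem alive_const (N : ℕ) : alive N (fun _ => N) = range N := by
  ext a; simp [mem_alive]

theorem upd_a (π : ℕ → ℕ) (a b : ℕ) : upd π a b a = b := by simp [upd]

theorem upd_b (π : ℕ → ℕ) (a b : ℕ) : upd π a b b = a := by
  unfold upd
  split_ifs with h <;> simp_all

theorem upd_of_ne (π : ℕ → ℕ) {a b c : ℕ} (h1 : c ≠ a) (h2 : c ≠ b) : upd π a b c = π c := by
  simp [upd, h1, h2]

theorem alive_upd {N : ℕ} {π : ℕ → ℕ} {a b : ℕ} (ha : a < N) (hb : b < N) :
    alive N (upd π a b) = rest (alive N π) a b := by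
  ext c
  rw [mem_rest, mem_alive, mem_alive]
  by_cases h1 : c = a
  · subst h1; rw [upd_a]; omega
  · by_cases h2 : c = b
    · subst h2; rw [upd_b]; omega
    · rw [upd_of_ne π h1 h2]; tauto

theorem Forb.refl (d N : ℕ) (π : ℕ → ℕ) (a : ℕ) : Forb d N π a a := Or.inl rfl

theorem ne_of_not_forb {d N : ℕ} {π : ℕ → ℕ} {a b : ℕ} (h : ¬ Forb d N π a b) : a ≠ b := by
  rintro rfl
  exact h (Forb.refl ..)

theorem Forb.symm {d N : ℕ} {π : ℕ → ℕ} (hπ : IsMatch d N π) {a b : ℕ} (h : Forb d N π a b) :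
    Forb d N π b a := by
  rcases h with h | ⟨c, hc, h1, h2, h3⟩
  · exact Or.inl h.symm
  · refine Or.inr ⟨π c, h1, ?_, h3, ?_⟩ <;> rw [hπ.invol c hc h1]
    · exact hc
    · exact h2

/-- The forbidden pairs after one step. -/
theorem forb_upd {d N : ℕ} {π : ℕ → ℕ} {a b : ℕ} (ha : a ∈ alive N π) (hb : b ∈ alive N π)
    (c e : ℕ) : Forb d N (upd π a b) c e ↔ Forb d N π c e ∨ (a / d = c / d ∧ b / d = e / d) ∨
      (b / d = c / d ∧ a / d = e / d) := by
  obtain ⟨ha1, ha2⟩ := mem_alive.1 ha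
  obtain ⟨hb1, hb2⟩ := mem_alive.1 hb
  constructor
  · rintro (h | ⟨x, hx, h1, h2, h3⟩)
    · exact Or.inl (Or.inl h)
    · by_cases e1 : x = a
      · subst e1; rw [upd_a] at h3; exact Or.inr (Or.inl ⟨h2, h3⟩)
      · by_cases e2 : x = b
        · subst e2; rw [upd_b] at h3; exact Or.inr (Or.inr ⟨h2, h3⟩)
        · rw [upd_of_ne π e1 e2] at h1 h3
          exact Or.inl (Or.inr ⟨x, hx, h1, h2, h3⟩)
  · rintro ((h | ⟨x, hx, h1, h2, h3⟩) | ⟨h1, h2⟩ | ⟨h1, h2⟩)
    · exact Or.inl h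
    · have e1 : x ≠ a := by rintro rfl; omega
      have e2 : x ≠ b := by rintro rfl; omega
      refine Or.inr ⟨x, hx, ?_, h2, ?_⟩ <;> rw [upd_of_ne π e1 e2] <;> assumption
    · refine Or.inr ⟨a, ha1, ?_, h1, ?_⟩ <;> rw [upd_a] <;> assumption
    · refine Or.inr ⟨b, hb1, ?_, h1, ?_⟩ <;> rw [upd_b] <;> assumption

theorem isMatch_const (d N : ℕ) : IsMatch d N fun _ => N :=
  ⟨fun _ _ h => absurd h (lt_irrefl _), fun _ _ h => absurd h (lt_irrefl _),
    fun _ _ _ _ h => absurd h (lt_irrefl _)⟩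

theorem IsMatch.upd {d N : ℕ} {π : ℕ → ℕ} (hπ : IsMatch d N π) {a b : ℕ} (ha : a ∈ alive N π)
    (hb : b ∈ alive N π) (hab : ¬ Forb d N π a b) : IsMatch d N (upd π a b) := by
  obtain ⟨ha1, ha2⟩ := mem_alive.1 ha
  obtain ⟨hb1, hb2⟩ := mem_alive.1 hb
  have hba : ¬ Forb d N π b a := fun h => hab (h.symm hπ)
  have h0 : a / d ≠ b / d := fun h => hab (Or.inl h)
  have h1 : ∀ c < N, π c < N → c / d = a / d → π c / d ≠ b / d :=
    fun c hc e1 e2 e3 => hab (Or.inr ⟨c, hc, e1, e2, e3⟩)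
  have h2 : ∀ c < N, π c < N → c / d = b / d → π c / d ≠ a / d :=
    fun c hc e1 e2 e3 => hba (Or.inr ⟨c, hc, e1, e2, e3⟩)
  have tri : ∀ c, (c = a ∧ P049.upd π a b c = b) ∨ (c = b ∧ P049.upd π a b c = a) ∨
      (c ≠ a ∧ c ≠ b ∧ P049.upd π a b c = π c) := fun c => by
    by_cases e1 : c = a
    · subst e1; exact Or.inl ⟨rfl, upd_a ..⟩
    · by_cases e2 : c = b
      · subst e2; exact Or.inr (Or.inl ⟨rfl, upd_b ..⟩)
      · exact Or.inr (Or.inr ⟨e1, e2, upd_of_ne π e1 e2⟩)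
  refine ⟨fun c hc h => ?_, fun c hc h => ?_, fun c hc e he h h' e1 e2 => ?_⟩
  · rcases tri c with ⟨rfl, e⟩ | ⟨rfl, e⟩ | ⟨e1, e2, e⟩
    · rw [e, upd_b]
    · rw [e, upd_a]
    · rw [e] at h ⊢
      have hi := hπ.invol c hc h
      have f1 : π c ≠ a := by rintro rfl; omega
      have f2 : π c ≠ b := by rintro rfl; omega
      rw [upd_of_ne π f1 f2, hi]
  · rcases tri c with ⟨rfl, e⟩ | ⟨rfl, e⟩ | ⟨e1, e2, e⟩
    · rw [e]; exact h0.symm
    · rw [e]; exact h0
    · rw [e] at h ⊢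
      exact hπ.noLoop c hc h
  · rcases tri c with ⟨rfl, f⟩ | ⟨rfl, f⟩ | ⟨f1, f2, f⟩ <;>
    rcases tri e with ⟨rfl, g⟩ | ⟨rfl, g⟩ | ⟨g1, g2, g⟩
    · rfl
    · exact absurd e1 h0
    · rw [f, g] at e2; rw [g] at h'
      exact absurd e2.symm (h1 e he h' e1.symm)
    · exact absurd e1.symm h0
    · rfl
    · rw [f, g] at e2; rw [g] at h'
      exact absurd e2.symm (h2 e he h' e1.symm)
    · rw [f, g] at e2; rw [f] at h
      exact absurd e2 (h1 c hc h e1)
    · rw [f, g] at e2; rw [f] at h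
      exact absurd e2 (h2 c hc h e1)
    · rw [f, g] at e2; rw [f] at h; rw [g] at h'
      exact hπ.noMulti c hc e he h h' e1 e2

theorem card_same_le {d : ℕ} (hd : 0 < d) (S : Finset ℕ) (v : ℕ) :
    (S.filter fun b => b / d = v).card ≤ d := by
  have : (S.filter fun b => b / d = v) ⊆ (range d).image fun t => v * d + t := by
    intro b hb
    have h := (mem_filter.1 hb).2
    refine mem_image.2 ⟨b % d, mem_range.2 (Nat.mod_lt _ hd), ?_⟩
    rw [← h, Nat.mul_comm]
    exact Nat.div_add_mod b d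
  exact (card_le_card this).trans (card_image_le.trans (by simp))

/-- Every half-edge has at most `d + d ^ 2` forbidden partners. -/
theorem card_forb_le {d : ℕ} (hd : 0 < d) (N : ℕ) (π : ℕ → ℕ) (S : Finset ℕ) (a : ℕ) :
    (S.filter fun b => Forb d N π a b).card ≤ d + d ^ 2 := by
  have h1 : (S.filter fun b => Forb d N π a b) ⊆ (S.filter fun b => b / d = a / d) ∪
      ((range N).filter fun c => c / d = a / d).biUnion
        fun c => S.filter fun b => b / d = π c / d := by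
    intro b hb
    obtain ⟨hb1, h | ⟨c, hc, -, h2, h3⟩⟩ := mem_filter.1 hb
    · exact mem_union_left _ (mem_filter.2 ⟨hb1, h.symm⟩)
    · exact mem_union_right _ (mem_biUnion.2 ⟨c, mem_filter.2 ⟨mem_range.2 hc, h2⟩,
        mem_filter.2 ⟨hb1, h3.symm⟩⟩)
  refine (card_le_card h1).trans ((card_union_le _ _).trans (add_le_add (card_same_le hd _ _) ?_))
  refine card_biUnion_le.trans ((sum_le_card_nsmul _ _ d fun c _ => card_same_le hd _ _).trans ?_)
  rw [smul_eq_mul, sq]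
  exact Nat.mul_le_mul_right d (card_same_le hd _ _)

section Res

variable {ι : Type*} [DecidableEq ι]

theorem res_of_mem {K : Type*} [Zero K] {H : Finset ι} (F : ι → ι → K) {c e : ι} (hc : c ∈ H)
    (he : e ∈ H) : res H F c e = F c e := by simp [res, hc, he]

theorem res_congr {K : Type*} [Zero K] {H : Finset ι} {F G : ι → ι → K}
    (h : ∀ c ∈ H, ∀ e ∈ H, F c e = G c e) : res H F = res H G := by
  funext c e
  unfold res
  split_ifs with h1
  · exact h c h1.1 e h1.2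
  · rfl

theorem qf_res (H : Finset ι) (F : ι → ι → ℝ) (x : ι → ℝ) : qf H (res H F) x = qf H F x :=
  sum_congr rfl fun _ hc => sum_congr rfl fun _ he => by rw [res_of_mem F hc he]

theorem den_res {K : Type*} [Field K] {H : Finset ι} (s : K) (F : ι → ι → K) {a b : ι} (ha : a ∈ H)
    (hb : b ∈ H) : den s (res H F) a b = den s F a b := by
  simp only [den, res_of_mem F ha hb, res_of_mem F ha ha, res_of_mem F hb hb]

theorem nxt_res {K : Type*} [Field K] {H : Finset ι} (s : K) (F : ι → ι → K) {a b : ι} (ha : a ∈ H)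
    (hb : b ∈ H) : res (rest H a b) (nxt s (res H F) a b) = res (rest H a b) (nxt s F a b) := by
  refine res_congr fun c hc e he => ?_
  have hc' := rest_subset H a b hc
  have he' := rest_subset H a b he
  simp only [nxt, den_res s F ha hb, res_of_mem F, ha, hb, hc', he']

theorem ker_res {s m : ℝ} {H : Finset ι} {F : ι → ι → ℝ} (hF : ∀ c e, F c e = F e c)
    (hrow : ∀ c ∈ H, ∑ e ∈ H, F c e = s) (hP : Psd m H F) : Ker s m H (res H F) where
  symm c e := by simp only [res, hF c e, and_comm]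
  supp c e hc := by simp [res, hc]
  row c hc := by rw [← hrow c hc]; exact sum_congr rfl fun e he => res_of_mem F hc he
  psd x hx := by rw [qf_res]; exact hP x hx

/-- The kernel properties are preserved by the step. -/
theorem Ker.step {s m : ℝ} (hs : s ^ 2 = 1) (hm : m ^ 2 < 1) {H : Finset ι} {F : ι → ι → ℝ}
    (h : Ker s m H F) {a b : ι} (ha : a ∈ H) (hb : b ∈ H) (hab : a ≠ b) (hD : 0 < den s F a b) :
    Ker s m (rest H a b) (res (rest H a b) (nxt s F a b)) :=
  ker_res (nxt_symm h.symm a b)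
    (fun _ hc => nxt_rowsum h.symm h.row ha hb hab hD.ne' (rest_subset H a b hc))
    (Psd.step hs hm h.symm h.row h.psd ha hb hab hD)

theorem Inv.res {s m : ℝ} {H : Finset ι} {F : ι → ι → ℝ} {y : ι → ℝ} {c : ℝ}
    (h : Inv s m H F y c) : Inv s m H (res H F) y c := fun x hx => by
  rw [qf_res]; exact h x hx

end Res

/-! ### The initial kernel -/

theorem ini_symm {K : Type*} [Field K] (s m p : K) (d N a b : ℕ) :
    ini s m p d N a b = ini s m p d N b a := by
  simp only [ini, eq_comm]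

theorem sum_block {d n : ℕ} (f : ℕ → ℝ) {a : ℕ} (ha : a < n * d) :
    ∑ b ∈ range (n * d), (if a / d = b / d then f b else 0) = ∑ t ∈ range d, f (a / d * d + t) := by
  rw [sum_range_mul]
  have hv : a / d < n := Nat.div_lt_of_lt_mul (by rw [Nat.mul_comm]; exact ha)
  rw [sum_eq_single_of_mem (a / d) (mem_range.2 hv)]
  · exact sum_congr rfl fun t ht => by rw [half_div (mem_range.1 ht), if_pos rfl]
  · intro i _ hi
    exact sum_eq_zero fun t ht => by rw [half_div (mem_range.1 ht), if_neg hi.symm]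

theorem ini_row (s m p : ℝ) {d n a : ℕ} (ha : a ∈ range (n * d)) :
    ∑ b ∈ range (n * d), ini s m p d (n * d) a b = s := by
  have hN : ((n * d : ℕ) : ℝ) ≠ 0 := by
    have := mem_range.1 ha
    exact_mod_cast (by omega : n * d ≠ 0)
  simp only [ini, sum_add_distrib]
  rw [sum_block (fun _ => p) (mem_range.1 ha), sum_ite_eq, if_pos ha]
  simp only [sum_const, card_range, nsmul_eq_mul]
  field_simp
  ring

theorem qf_ini (s m p : ℝ) (d n : ℕ) (x : ℕ → ℝ) (hx : ∑ a ∈ range (n * d), x a = 0) :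
    m * ∑ a ∈ range (n * d), x a ^ 2 + qf (range (n * d)) (ini s m p d (n * d)) x =
      p * ∑ i ∈ range n, (∑ t ∈ range d, x (i * d + t)) ^ 2 := by
  have h1 : ∀ a ∈ range (n * d), ∑ b ∈ range (n * d), x a * ini s m p d (n * d) a b * x b =
      -m * x a ^ 2 + p * (x a * ∑ t ∈ range d, x (a / d * d + t)) := by
    intro a ha
    have : ∀ b ∈ range (n * d), x a * ini s m p d (n * d) a b * x b =
        (if a = b then -m * x a * x b else 0) + p * x a * (if a / d = b / d then x b else 0) +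
          x a * ((s + m - p * d) / (n * d : ℕ)) * x b := fun b _ => by
      unfold ini
      split_ifs <;> ring
    rw [sum_congr rfl this, sum_add_distrib, sum_add_distrib, ← mul_sum, ← mul_sum, hx,
      sum_block x (mem_range.1 ha), sum_ite_eq, if_pos ha]
    ring
  unfold qf
  rw [sum_congr rfl h1, sum_add_distrib, ← mul_sum, ← mul_sum,
    sum_range_mul n d fun a => x a * ∑ t ∈ range d, x (a / d * d + t)]
  have h2 : ∀ i ∈ range n, ∑ t ∈ range d, x (i * d + t) * ∑ t' ∈ range d,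
      x ((i * d + t) / d * d + t') = (∑ t ∈ range d, x (i * d + t)) ^ 2 := by
    intro i _
    rw [sq, sum_mul]
    exact sum_congr rfl fun t ht => by rw [half_div (mem_range.1 ht)]
  rw [sum_congr rfl h2]
  ring

theorem ker_ini (s m : ℝ) {p : ℝ} (hp : 0 ≤ p) (d n : ℕ) :
    Ker s m (range (n * d)) (res (range (n * d)) (ini s m p d (n * d))) :=
  ker_res (ini_symm s m p d _) (fun _ ha => ini_row s m p ha) fun x hx => by
    rw [qf_ini s m p d n x hx]
    exact mul_nonneg hp (sum_nonneg fun _ _ => sq_nonneg _)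

theorem sum_div_block {d n : ℕ} (f : ℕ → ℝ) :
    ∑ a ∈ range (n * d), f (a / d) = d * ∑ i ∈ range n, f i := by
  rw [sum_range_mul, mul_sum]
  refine sum_congr rfl fun i _ => ?_
  rw [sum_congr rfl fun t ht => by rw [half_div (mem_range.1 ht)]]
  simp

theorem inv_ini {s m p : ℝ} (hs : s ^ 2 = 1) (hm : m ^ 2 < 1) (hp : 0 < p) (d n : ℕ) (y : ℕ → ℝ)
    (hy : ∑ i ∈ range n, y i = 0) :
    Inv s m (range (n * d)) (ini s m p d (n * d)) (fun a => y (a / d))
      ((1 - m ^ 2) / p * ∑ i ∈ range n, y i ^ 2) := by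
  intro x hx
  have hsm : s + m ≠ 0 := by
    intro h0
    have : s = -m := by linarith
    rw [this] at hs
    nlinarith
  rw [sum_div_block y, hy, mul_zero] at hx
  have hx0 : ∑ a ∈ range (n * d), x a = 0 := (mul_eq_zero.1 hx).resolve_left hsm
  have h1 := qf_ini s m p d n x hx0
  have h2 : ∑ a ∈ range (n * d), x a * y (a / d) =
      ∑ i ∈ range n, (∑ t ∈ range d, x (i * d + t)) * y i := by
    rw [sum_range_mul]
    refine sum_congr rfl fun i _ => ?_
    rw [sum_mul]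
    exact sum_congr rfl fun t ht => by rw [half_div (mem_range.1 ht)]
  have h3 : 2 * ∑ i ∈ range n, (∑ t ∈ range d, x (i * d + t)) * y i -
      p * ∑ i ∈ range n, (∑ t ∈ range d, x (i * d + t)) ^ 2 ≤ 1 / p * ∑ i ∈ range n, y i ^ 2 := by
    rw [mul_sum, mul_sum, mul_sum, ← sum_sub_distrib]
    refine sum_le_sum fun i _ => ?_
    set X := ∑ t ∈ range d, x (i * d + t)
    have : 1 / p * y i ^ 2 - (2 * (X * y i) - p * X ^ 2) = (p * X - y i) ^ 2 / p := by
      field_simp
      ring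
    have h4 : 0 ≤ (p * X - y i) ^ 2 / p := by positivity
    linarith
  have hc : 0 ≤ 1 - m ^ 2 := by linarith
  have h4 := mul_le_mul_of_nonneg_left h3 hc
  beta_reduce
  rw [h2]
  have e : (1 - m ^ 2) / p * ∑ i ∈ range n, y i ^ 2 =
      (1 - m ^ 2) * (1 / p * ∑ i ∈ range n, y i ^ 2) := by ring
  rw [e]
  refine le_trans (le_of_eq ?_) h4
  rw [← h1]
  ring

/-! ### The spectral invariant -/

/-- The spectral invariant of one side. -/
def Spec (d n : ℕ) (s m c : ℝ) (π : ℕ → ℕ) (F : ℕ → ℕ → ℝ) : Prop :=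
  ∀ y : ℕ → ℝ, ∑ i ∈ range n, y i = 0 → Inv s m (alive (n * d) π) F (fun a => y (a / d))
    (c * ∑ i ∈ range n, y i ^ 2 - ∑ a ∈ range (n * d) \ alive (n * d) π,
      (s * y (a / d) * y (π a / d) - m * y (a / d) ^ 2))

theorem spec_ini {s m p : ℝ} (hs : s ^ 2 = 1) (hm : m ^ 2 < 1) (hp : 0 < p) (d n : ℕ) :
    Spec d n s m ((1 - m ^ 2) / p) (fun _ => n * d)
      (res (range (n * d)) (ini s m p d (n * d))) := by
  intro y hy
  rw [alive_const]
  simpa using (inv_ini hs hm hp d n y hy).res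

theorem Spec.step {d n : ℕ} {s m c : ℝ} (hs : s ^ 2 = 1) (hm : m ^ 2 < 1) {π : ℕ → ℕ}
    {F : ℕ → ℕ → ℝ} (hK : Ker s m (alive (n * d) π) F) (h : Spec d n s m c π F) {a b : ℕ}
    (ha : a ∈ alive (n * d) π) (hb : b ∈ alive (n * d) π) (hab : a ≠ b) (hD : 0 < den s F a b) :
    Spec d n s m c (upd π a b) (res (rest (alive (n * d) π) a b) (nxt s F a b)) := by
  intro y hy
  obtain ⟨ha1, -⟩ := mem_alive.1 ha
  obtain ⟨hb1, -⟩ := mem_alive.1 hb
  rw [alive_upd ha1 hb1]
  refine ((Inv.step hs hm hK.symm hK.row hK.psd ha hb hab hD (h y hy)).mono_const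
    (le_of_eq ?_)).res
  have hmem : ∀ z, z ∈ range (n * d) \ rest (alive (n * d) π) a b ↔
      z < n * d ∧ (z ∉ alive (n * d) π ∨ z = a ∨ z = b) := fun z => by
    rw [mem_sdiff, mem_range, mem_rest]; tauto
  have e : rest (range (n * d) \ rest (alive (n * d) π) a b) a b =
      range (n * d) \ alive (n * d) π := by
    ext z
    rw [mem_rest, hmem, mem_sdiff, mem_range]
    constructor
    · tauto
    · rintro ⟨h1, h2⟩
      refine ⟨⟨h1, Or.inl h2⟩, ?_, ?_⟩ <;> rintro rfl <;> contradiction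
  rw [sum_rest ((hmem a).2 ⟨ha1, Or.inr (Or.inl rfl)⟩) ((hmem b).2 ⟨hb1, Or.inr (Or.inr rfl)⟩) hab,
    e, upd_a, upd_b]
  have e2 : ∑ z ∈ range (n * d) \ alive (n * d) π,
      (s * y (z / d) * y (upd π a b z / d) - m * y (z / d) ^ 2) =
      ∑ z ∈ range (n * d) \ alive (n * d) π, (s * y (z / d) * y (π z / d) - m * y (z / d) ^ 2) := by
    refine sum_congr rfl fun z hz => ?_
    have hz' := (mem_sdiff.1 hz).2
    rw [upd_of_ne π (by rintro rfl; contradiction) (by rintro rfl; contradiction)]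
  rw [e2]
  ring

/-- The final bound for one side. -/
theorem Spec.final {d n : ℕ} {s m c : ℝ} (hs : s ^ 2 = 1) (hm : m ^ 2 < 1) {π ρ : ℕ → ℕ}
    {F : ℕ → ℕ → ℝ} (hK : Ker s m (alive (n * d) π) F) (h : Spec d n s m c π F)
    (hle : ∀ x : ℕ → ℝ, ∑ i ∈ alive (n * d) π, x i = 0 →
      qf (alive (n * d) π) F x ≤ ∑ i ∈ alive (n * d) π, x i ^ 2)
    (h1 : ∀ a < n * d, a ∉ alive (n * d) π → ρ a = π a)
    (h2 : ∀ f : ℕ → ℝ, ∑ i ∈ alive (n * d) π, f (ρ i) = ∑ i ∈ alive (n * d) π, f i)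
    (y : ℕ → ℝ) (hy : ∑ i ∈ range n, y i = 0) :
    s * ∑ a ∈ range (n * d), y (a / d) * y (ρ a / d) ≤ (m * d + c) * ∑ i ∈ range n, y i ^ 2 := by
  have h3 := Inv.final hs hm hK.symm hK.row hle (h y hy) h2
  have e1 : ∑ z ∈ range (n * d) \ alive (n * d) π,
      (s * y (z / d) * y (π z / d) - m * y (z / d) ^ 2) =
      ∑ z ∈ range (n * d) \ alive (n * d) π, (s * y (z / d) * y (ρ z / d) - m * y (z / d) ^ 2) := by
    refine sum_congr rfl fun z hz => ?_
    rw [h1 z (mem_range.1 (mem_sdiff.1 hz).1) (mem_sdiff.1 hz).2]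
  have e2 := sum_sdiff (f := fun z => s * y (z / d) * y (ρ z / d) - m * y (z / d) ^ 2)
    (alive_subset (n * d) π)
  rw [e1] at h3
  have e3 : ∑ z ∈ range (n * d), (s * y (z / d) * y (ρ z / d) - m * y (z / d) ^ 2) =
      s * ∑ a ∈ range (n * d), y (a / d) * y (ρ a / d) - m * (d * ∑ i ∈ range n, y i ^ 2) := by
    rw [sum_sub_distrib, ← mul_sum, sum_div_block fun i => y i ^ 2, mul_sum _ _ s]
    congr 1
    exact sum_congr rfl fun z _ => mul_assoc _ _ _
  rw [e3] at e2
  linarith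

/-- A completed matching is a good pairing. -/
theorem goodPairing_of {d n : ℕ} {m c : ℝ} (hm : m ^ 2 < 1)
    (hz : m * d + c ≤ 2 * √((d : ℝ) - 1)) {π ρ : ℕ → ℕ} {A B : ℕ → ℕ → ℝ}
    (hπ : IsMatch d (n * d) π) (hA : Ker 1 m (alive (n * d) π) A)
    (hB : Ker (-1) m (alive (n * d) π) B) (sA : Spec d n 1 m c π A) (sB : Spec d n (-1) m c π B)
    (lA : ∀ x : ℕ → ℝ, ∑ i ∈ alive (n * d) π, x i = 0 →
      qf (alive (n * d) π) A x ≤ ∑ i ∈ alive (n * d) π, x i ^ 2)
    (lB : ∀ x : ℕ → ℝ, ∑ i ∈ alive (n * d) π, x i = 0 →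
      qf (alive (n * d) π) B x ≤ ∑ i ∈ alive (n * d) π, x i ^ 2)
    (hF : ∀ a ∈ alive (n * d) π, ∀ b ∈ alive (n * d) π, a ≠ b → ¬ Forb d (n * d) π a b)
    (h1 : ∀ a < n * d, a ∉ alive (n * d) π → ρ a = π a)
    (h2 : ∀ a ∈ alive (n * d) π, ρ a ∈ alive (n * d) π ∧ ρ a ≠ a ∧ ρ (ρ a) = a) :
    GoodPairing d n ρ := by
  have hdead : ∀ a < n * d, a ∉ alive (n * d) π → π a < n * d := fun a ha h => by
    rw [mem_alive] at h; omega
  have hdead2 : ∀ a < n * d, a ∉ alive (n * d) π → π a ∉ alive (n * d) π := fun a ha h => by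
    rw [mem_alive, hπ.invol a ha (hdead a ha h)]; omega
  have hsum : ∀ f : ℕ → ℝ, ∑ i ∈ alive (n * d) π, f (ρ i) = ∑ i ∈ alive (n * d) π, f i :=
    fun f => sum_nbij' ρ ρ (fun a ha => (h2 a ha).1) (fun a ha => (h2 a ha).1)
      (fun a ha => (h2 a ha).2.2) (fun a ha => (h2 a ha).2.2) fun _ _ => rfl
  refine ⟨fun a ha => ?_, fun a ha => ?_, fun a ha => ?_, fun a ha b hb e1 e2 => ?_,
    fun y hy => ?_⟩
  · by_cases h : a ∈ alive (n * d) π
    · exact (mem_alive.1 (h2 a h).1).1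
    · rw [h1 a ha h]; exact hdead a ha h
  · by_cases h : a ∈ alive (n * d) π
    · exact (h2 a h).2.2
    · rw [h1 a ha h, h1 _ (hdead a ha h) (hdead2 a ha h), hπ.invol a ha (hdead a ha h)]
  · by_cases h : a ∈ alive (n * d) π
    · exact fun e => hF _ (h2 a h).1 a h (h2 a h).2.1 (Or.inl e)
    · rw [h1 a ha h]; exact hπ.noLoop a ha (hdead a ha h)
  · by_cases h : a ∈ alive (n * d) π <;> by_cases h' : b ∈ alive (n * d) π
    · by_contra hne
      exact hF a h b h' hne (Or.inl e1)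
    · rw [h1 b hb h'] at e2
      exact absurd (Or.inr ⟨b, hb, hdead b hb h', e1.symm, e2.symm⟩)
        (hF a h _ (h2 a h).1 (h2 a h).2.1.symm)
    · rw [h1 a ha h] at e2
      exact absurd (Or.inr ⟨a, ha, hdead a ha h, e1, e2⟩)
        (hF b h' _ (h2 b h').1 (h2 b h').2.1.symm)
    · rw [h1 a ha h, h1 b hb h'] at e2
      exact hπ.noMulti a ha b hb (hdead a ha h) (hdead b hb h') e1 e2
  · have b1 := Spec.final (by norm_num) hm hA sA lA h1 hsum y hy
    have b2 := Spec.final (by norm_num) hm hB sB lB h1 hsum y hy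
    have b3 := mul_le_mul_of_nonneg_right hz
      (sum_nonneg fun i _ => sq_nonneg (y i) : 0 ≤ ∑ i ∈ range n, y i ^ 2)
    rw [abs_le]
    constructor <;> linarith

end Vale.Agent.P049
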