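import Vale.Agent.P049.Spec
import Vale.Agent.P049.Process

/-!
Generic averaging lemmas for weight kernels on ordered pairs, and the transfer of the
positivity invariant of the process to positive semidefinite matrices.
-/

namespace Vale.Agent.P049

open Matrix Finset

variable {ι : Type*} [Fintype ι]

section Kernels

/-- Frobenius Cauchy-Schwarz for kernels given as functions. -/
theorem abs_ker_le (κ X : ι → ι → ℝ) :
    |∑ a, ∑ b, κ a b * X a b| ≤ frob (Matrix.of κ) * frob (Matrix.of X) :=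
  abs_sum_sum_mul_le (Matrix.of κ) (Matrix.of X)

/-- mean field lemma: product functions against a kernel with small rows -/
theorem abs_ker_prod_le {κ : ι → ι → ℝ} {ro : ℝ} (h : ∀ a, nrm (κ a) ≤ ro) (f g : ι → ℝ) :
    |∑ a, ∑ b, κ a b * (f a * g b)| ≤ ro * (∑ a, |f a|) * nrm g := by
  refine (Finset.abs_sum_le_sum_abs _ _).trans ?_
  rw [mul_assoc, Finset.sum_mul, Finset.mul_sum]
  refine Finset.sum_le_sum fun a _ => ?_
  have h1 : ∑ b, κ a b * (f a * g b) = f a * ∑ b, κ a b * g b := by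
    rw [Finset.mul_sum]; exact Finset.sum_congr rfl fun b _ => by ring
  rw [h1, abs_mul]
  have h2 := (abs_sum_mul_le (κ a) g).trans (mul_le_mul_of_nonneg_right (h a) (nrm_nonneg g))
  have h3 := mul_le_mul_of_nonneg_left h2 (abs_nonneg (f a))
  linarith

/-- the same with the roles exchanged, for kernels with small columns -/
theorem abs_ker_prod_le' {κ : ι → ι → ℝ} {ro : ℝ} (h : ∀ b, nrm (fun a => κ a b) ≤ ro)
    (f g : ι → ℝ) : |∑ a, ∑ b, κ a b * (f a * g b)| ≤ ro * (∑ b, |g b|) * nrm f := by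
  rw [Finset.sum_comm]
  have := abs_ker_prod_le (κ := fun b a => κ a b) h g f
  simpa only [mul_comm (g _)] using this

theorem nrm_const (c : ℝ) : nrm (fun _ : ι => c) = √(Fintype.card ι) * |c| := by
  rw [nrm, Finset.sum_const, Finset.card_univ, nsmul_eq_mul, Real.sqrt_mul (Nat.cast_nonneg _),
    Real.sqrt_sq_eq_abs]

theorem abs_ker_left_le {κ : ι → ι → ℝ} {ro : ℝ} (h : ∀ a, nrm (κ a) ≤ ro) (f : ι → ℝ) :
    |∑ a, ∑ b, κ a b * f a| ≤ ro * √(Fintype.card ι) * ∑ a, |f a| := by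
  have := abs_ker_prod_le h f (fun _ => 1)
  rw [nrm_const] at this
  simp only [mul_one, abs_one] at this
  linarith

theorem abs_ker_right_le {κ : ι → ι → ℝ} {ro : ℝ} (h : ∀ b, nrm (fun a => κ a b) ≤ ro)
    (g : ι → ℝ) : |∑ a, ∑ b, κ a b * g b| ≤ ro * √(Fintype.card ι) * ∑ b, |g b| := by
  rw [Finset.sum_comm]; exact abs_ker_left_le (κ := fun b a => κ a b) h g

theorem frob_prod (f g : ι → ℝ) : frob (Matrix.of fun a b => f a * g b) = nrm f * nrm g :=
  frob_vecMulVec f g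

theorem abs_ker_prod_frob_le (κ : ι → ι → ℝ) (f g : ι → ℝ) :
    |∑ a, ∑ b, κ a b * (f a * g b)| ≤ frob (Matrix.of κ) * (nrm f * nrm g) := by
  rw [← frob_prod]; exact abs_ker_le κ _

theorem sum_sum_prod (f g : ι → ℝ) : ∑ a, ∑ b, f a * g b = (∑ a, f a) * ∑ b, g b :=
  (Finset.sum_mul_sum _ _ _ _).symm

theorem sum_sum_left (f : ι → ℝ) : ∑ a, ∑ _b : ι, f a = Fintype.card ι * ∑ a, f a := by
  simp [Finset.mul_sum]

theorem sum_sum_right (g : ι → ℝ) : ∑ _a : ι, ∑ b, g b = Fintype.card ι * ∑ b, g b := by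
  simp

/-- splitting a weighted sum into the uniform part, the tilt and the error -/
theorem sum_weight_split (w sg X : ι → ι → ℝ) :
    ∑ a, ∑ b, w a b * X a b = ∑ a, ∑ b, X a b - ∑ a, ∑ b, sg a b * X a b +
      ∑ a, ∑ b, (w a b - 1 + sg a b) * X a b := by
  rw [← Finset.sum_sub_distrib, ← Finset.sum_add_distrib]
  refine Finset.sum_congr rfl fun a _ => ?_
  rw [← Finset.sum_sub_distrib, ← Finset.sum_add_distrib]
  exact Finset.sum_congr rfl fun b _ => by ring

theorem sum_weight_split' (w X : ι → ι → ℝ) :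
    ∑ a, ∑ b, w a b * X a b = ∑ a, ∑ b, X a b + ∑ a, ∑ b, (w a b - 1) * X a b := by
  rw [← Finset.sum_add_distrib]
  refine Finset.sum_congr rfl fun a _ => ?_
  rw [← Finset.sum_add_distrib]
  exact Finset.sum_congr rfl fun b _ => by ring

/-- (T1) a matrix entry against the weight -/
theorem abs_weight_entry_le {w sg : ι → ι → ℝ} {x0 : ℝ}
    (h : frob (Matrix.of fun a b => w a b - 1 + sg a b) ≤ x0) (X : ι → ι → ℝ) :
    |∑ a, ∑ b, w a b * X a b - (∑ a, ∑ b, X a b - ∑ a, ∑ b, sg a b * X a b)| ≤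
      x0 * frob (Matrix.of X) := by
  rw [sum_weight_split w sg X, add_sub_cancel_left]
  exact (abs_ker_le _ _).trans (mul_le_mul_of_nonneg_right h (frob_nonneg _))

/-- (T2) any function against the weight -/
theorem abs_weight_any_le {w : ι → ι → ℝ} {x1 : ℝ}
    (h : frob (Matrix.of fun a b => w a b - 1) ≤ x1) (X : ι → ι → ℝ) :
    |∑ a, ∑ b, w a b * X a b - ∑ a, ∑ b, X a b| ≤ x1 * frob (Matrix.of X) := by
  rw [sum_weight_split' w X, add_sub_cancel_left]
  exact (abs_ker_le _ _).trans (mul_le_mul_of_nonneg_right h (frob_nonneg _))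

/-- (MF) a product function against the weight -/
theorem abs_weight_prod_le {w : ι → ι → ℝ} {ro : ℝ} (h : ∀ a, nrm (fun b => w a b - 1) ≤ ro)
    (f g : ι → ℝ) :
    |∑ a, ∑ b, w a b * (f a * g b) - (∑ a, f a) * ∑ b, g b| ≤ ro * (∑ a, |f a|) * nrm g := by
  rw [sum_weight_split' w, sum_sum_prod, add_sub_cancel_left]
  exact abs_ker_prod_le (κ := fun a b => w a b - 1) h f g

theorem abs_weight_prod_le' {w : ι → ι → ℝ} {ro : ℝ} (h : ∀ b, nrm (fun a => w a b - 1) ≤ ro)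
    (f g : ι → ℝ) :
    |∑ a, ∑ b, w a b * (f a * g b) - (∑ a, f a) * ∑ b, g b| ≤ ro * (∑ b, |g b|) * nrm f := by
  rw [sum_weight_split' w, sum_sum_prod, add_sub_cancel_left]
  exact abs_ker_prod_le' (κ := fun a b => w a b - 1) h f g

/-- (T0) a function of the first index against the weight -/
theorem abs_weight_left_le {w : ι → ι → ℝ} {ro : ℝ} (h : ∀ a, nrm (fun b => w a b - 1) ≤ ro)
    (f : ι → ℝ) :
    |∑ a, ∑ b, w a b * f a - Fintype.card ι * ∑ a, f a| ≤
      ro * √(Fintype.card ι) * ∑ a, |f a| := by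
  rw [sum_weight_split' w, sum_sum_left, add_sub_cancel_left]
  exact abs_ker_left_le (κ := fun a b => w a b - 1) h f

theorem abs_weight_right_le {w : ι → ι → ℝ} {ro : ℝ} (h : ∀ b, nrm (fun a => w a b - 1) ≤ ro)
    (g : ι → ℝ) :
    |∑ a, ∑ b, w a b * g b - Fintype.card ι * ∑ b, g b| ≤
      ro * √(Fintype.card ι) * ∑ b, |g b| := by
  rw [sum_weight_split' w, sum_sum_right, add_sub_cancel_left]
  exact abs_ker_right_le (κ := fun a b => w a b - 1) h g

/-- total mass of the weight -/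
theorem abs_weight_total_le {w : ι → ι → ℝ} {x1 : ℝ}
    (h : frob (Matrix.of fun a b => w a b - 1) ≤ x1) :
    |∑ a, ∑ b, w a b - (Fintype.card ι : ℝ) ^ 2| ≤ x1 * Fintype.card ι := by
  have h1 := abs_weight_any_le h (fun _ _ => 1)
  have h2 : frob (Matrix.of fun (_ _ : ι) => (1 : ℝ)) = Fintype.card ι := by
    have := frob_prod (fun _ : ι => (1 : ℝ)) (fun _ => 1)
    simp only [nrm_const, abs_one, mul_one, Real.mul_self_sqrt (Nat.cast_nonneg _)] at this
    exact this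
  rw [h2] at h1
  simpa [sq] using h1

/-- monotonicity on the support of a nonnegative weight -/
theorem sum_weight_mono {w X Y : ι → ι → ℝ} (hw : ∀ a b, 0 ≤ w a b)
    (h : ∀ a b, w a b ≠ 0 → X a b ≤ Y a b) :
    ∑ a, ∑ b, w a b * X a b ≤ ∑ a, ∑ b, w a b * Y a b := by
  refine Finset.sum_le_sum fun a _ => Finset.sum_le_sum fun b _ => ?_
  by_cases h0 : w a b = 0
  · simp [h0]
  · exact mul_le_mul_of_nonneg_left (h a b h0) (hw a b)

theorem sum_weight_congr {w X Y : ι → ι → ℝ} (h : ∀ a b, w a b ≠ 0 → X a b = Y a b) :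
    ∑ a, ∑ b, w a b * X a b = ∑ a, ∑ b, w a b * Y a b := by
  refine Finset.sum_congr rfl fun a _ => Finset.sum_congr rfl fun b _ => ?_
  by_cases h0 : w a b = 0
  · simp [h0]
  · rw [h a b h0]

/-- crude bound by a nonnegative majorant -/
theorem abs_sum_weight_le {w X Y : ι → ι → ℝ} {c : ℝ} (hw : ∀ a b, 0 ≤ w a b)
    (hc : ∀ a b, w a b ≤ c) (hY : ∀ a b, 0 ≤ Y a b) (h : ∀ a b, w a b ≠ 0 → |X a b| ≤ Y a b) :
    |∑ a, ∑ b, w a b * X a b| ≤ c * ∑ a, ∑ b, Y a b := by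
  refine (Finset.abs_sum_le_sum_abs _ _).trans ?_
  rw [Finset.mul_sum]
  refine Finset.sum_le_sum fun a _ => (Finset.abs_sum_le_sum_abs _ _).trans ?_
  rw [Finset.mul_sum]
  refine Finset.sum_le_sum fun b _ => ?_
  by_cases h0 : w a b = 0
  · rw [h0, zero_mul, abs_zero]
    exact mul_nonneg (h0 ▸ hc a b) (hY a b)
  · rw [abs_mul, abs_of_nonneg (hw a b)]
    exact mul_le_mul (hc a b) (h a b h0) (abs_nonneg _) ((hw a b).trans (hc a b))

theorem sum_weight_le {w X Y : ι → ι → ℝ} {c : ℝ} (hw : ∀ a b, 0 ≤ w a b)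
    (hc : ∀ a b, w a b ≤ c) (hY : ∀ a b, 0 ≤ Y a b) (h : ∀ a b, w a b ≠ 0 → X a b ≤ Y a b) :
    ∑ a, ∑ b, w a b * X a b ≤ c * ∑ a, ∑ b, Y a b := by
  refine (sum_weight_mono hw h).trans ?_
  rw [Finset.mul_sum]
  refine Finset.sum_le_sum fun a _ => ?_
  rw [Finset.mul_sum]
  exact Finset.sum_le_sum fun b _ => mul_le_mul_of_nonneg_right (hc a b) (hY a b)

theorem sum_weight_add (w X Y : ι → ι → ℝ) :
    ∑ a, ∑ b, w a b * (X a b + Y a b) = ∑ a, ∑ b, w a b * X a b + ∑ a, ∑ b, w a b * Y a b := by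
  simp only [mul_add, Finset.sum_add_distrib]

theorem sum_weight_sub (w X Y : ι → ι → ℝ) :
    ∑ a, ∑ b, w a b * (X a b - Y a b) = ∑ a, ∑ b, w a b * X a b - ∑ a, ∑ b, w a b * Y a b := by
  simp only [mul_sub, Finset.sum_sub_distrib]

theorem sum_weight_smul (w X : ι → ι → ℝ) (c : ℝ) :
    ∑ a, ∑ b, w a b * (c * X a b) = c * ∑ a, ∑ b, w a b * X a b := by
  simp only [Finset.mul_sum]
  exact Finset.sum_congr rfl fun a _ => Finset.sum_congr rfl fun b _ => by ring

theorem sum_weight_const (w : ι → ι → ℝ) (c : ℝ) :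
    ∑ a, ∑ b, w a b * c = (∑ a, ∑ b, w a b) * c := by
  simp only [Finset.sum_mul]

theorem sum_weight_swap {w : ι → ι → ℝ} (hw : ∀ a b, w a b = w b a) (X : ι → ι → ℝ) :
    ∑ a, ∑ b, w a b * X a b = ∑ a, ∑ b, w a b * X b a := by
  rw [Finset.sum_comm]
  exact Finset.sum_congr rfl fun a _ => Finset.sum_congr rfl fun b _ => by rw [hw]

/-- the probabilistic method -/
theorem exists_le_of_weight {w X : ι → ι → ℝ} {c : ℝ} (hw : ∀ a b, 0 ≤ w a b)
    (hpos : 0 < ∑ a, ∑ b, w a b) (h : ∑ a, ∑ b, w a b * X a b ≤ (∑ a, ∑ b, w a b) * c) :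
    ∃ a b, w a b ≠ 0 ∧ X a b ≤ c := by
  by_contra hcon
  push Not at hcon
  have h1 : ∃ a b, w a b ≠ 0 := by
    by_contra h0
    push Not at h0
    simp [h0] at hpos
  obtain ⟨a0, b0, h0⟩ := h1
  rw [← sum_weight_const] at h
  refine absurd h (not_le.mpr ?_)
  have key : ∀ a b, w a b * c ≤ w a b * X a b := fun a b => by
    by_cases h2 : w a b = 0
    · simp [h2]
    · exact mul_le_mul_of_nonneg_left (hcon a b h2).le (hw a b)
  refine Finset.sum_lt_sum (fun a _ => Finset.sum_le_sum fun b _ => key a b)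
    ⟨a0, Finset.mem_univ _, Finset.sum_lt_sum (fun b _ => key a0 b) ⟨b0, Finset.mem_univ _, ?_⟩⟩
  exact mul_lt_mul_of_pos_left (hcon a0 b0 h0) (lt_of_le_of_ne (hw a0 b0) (Ne.symm h0))

end Kernels

section RowSums

theorem sum_row_mul {M N : Matrix ι ι ℝ} {s t : ℝ} (hM : ∀ a, ∑ b, M a b = s)
    (hN : ∀ a, ∑ b, N a b = t) (a : ι) : ∑ b, (M * N) a b = s * t := by
  simp only [mul_apply]
  rw [Finset.sum_comm]
  simp only [← Finset.mul_sum, hN, ← Finset.sum_mul, hM]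

theorem sum_row_pow [DecidableEq ι] {M : Matrix ι ι ℝ} {s : ℝ} (hM : ∀ a, ∑ b, M a b = s) (j : ℕ)
    (a : ι) : ∑ b, (M ^ j) a b = s ^ j := by
  induction j generalizing a with
  | zero => simp [one_apply]
  | succ j ih => rw [pow_succ, pow_succ]; exact sum_row_mul ih hM a

theorem sum_sum_of_row {M : ι → ι → ℝ} {s : ℝ} (hM : ∀ a, ∑ b, M a b = s) :
    ∑ a, ∑ b, M a b = Fintype.card ι * s := by
  simp [hM]

/-- `1ᵀ M X N 1` when `M` has constant column sums and `N` has constant row sums -/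
theorem sum_sum_mul_mul {M N : Matrix ι ι ℝ} {s t : ℝ} (hM : ∀ b, ∑ a, M a b = s)
    (hN : ∀ a, ∑ b, N a b = t) (X : Matrix ι ι ℝ) :
    ∑ a, ∑ b, (M * X * N) a b = s * t * ∑ a, ∑ b, X a b := by
  have h1 : ∀ a, ∑ b, (M * X * N) a b = t * ∑ c, (M * X) a c := by
    intro a
    simp only [mul_apply (M := M * X)]
    rw [Finset.sum_comm]
    simp only [← Finset.mul_sum, hN, ← Finset.sum_mul, mul_comm]
  have h2 : ∀ c, ∑ a, (M * X) a c = s * ∑ e, X e c := by
    intro c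
    simp only [mul_apply]
    rw [Finset.sum_comm]
    simp only [← Finset.sum_mul, hM, ← Finset.mul_sum]
  have h3 : ∑ a, ∑ c, (M * X) a c = s * ∑ a, ∑ b, X a b := by
    calc ∑ a, ∑ c, (M * X) a c = ∑ c, ∑ a, (M * X) a c := Finset.sum_comm
      _ = s * ∑ c, ∑ e, X e c := by simp only [h2, ← Finset.mul_sum]
      _ = _ := by rw [Finset.sum_comm]
  rw [Finset.sum_congr rfl fun a _ => h1 a, ← Finset.mul_sum, h3]
  ring

theorem sum_sum_ker_eq_trace {S : Matrix ι ι ℝ} (hS : Sᵀ = S) (X : Matrix ι ι ℝ) :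
    ∑ a, ∑ b, S a b * X a b = trace (S * X) := by
  rw [trace_mul_eq_sum, Finset.sum_comm]
  exact Finset.sum_congr rfl fun a _ => Finset.sum_congr rfl fun b _ => by rw [symm_apply hS]

end RowSums

section Transfer

variable [DecidableEq ι]

omit [DecidableEq ι] in
theorem qf_univ (K : Matrix ι ι ℝ) (x : ι → ℝ) : qf univ K x = x ⬝ᵥ K *ᵥ x := by
  simp only [qf, dotProduct, mulVec, Finset.mul_sum, mul_assoc]

omit [DecidableEq ι] in
/-- decomposition of the quadratic form along the all ones vector -/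
theorem quad_shift {K : Matrix ι ι ℝ} (hK : Kᵀ = K) {s : ℝ} (hrow : ∀ a, ∑ b, K a b = s)
    (x : ι → ℝ) (t : ℝ) :
    (fun a => x a - t) ⬝ᵥ K *ᵥ (fun a => x a - t) =
      x ⬝ᵥ K *ᵥ x - 2 * s * t * ∑ a, x a + s * t ^ 2 * Fintype.card ι := by
  have h1 : (fun a => x a - t) = x - t • (fun _ => (1 : ℝ)) := by funext a; simp
  have h2 : K *ᵥ (fun _ => (1 : ℝ)) = s • (fun _ => (1 : ℝ)) := by
    funext a; simp [mulVec, dotProduct, hrow]
  rw [h1]
  simp only [mulVec_sub, mulVec_smul, sub_dotProduct, dotProduct_sub, smul_dotProduct,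
    dotProduct_smul, smul_eq_mul]
  rw [dot_mulVec_symm hK (fun _ => 1) x, h2]
  simp only [dotProduct, Pi.smul_apply, smul_eq_mul, mul_one, Finset.sum_const, Finset.card_univ,
    nsmul_eq_mul, ← Finset.sum_mul, one_mul]
  ring

omit [DecidableEq ι] in
/-- the invariant in the form `x K x + m |x|^2 ≥ (s + m) (∑ x)^2 / k`. -/
theorem quad_ge_of_psd {K : Matrix ι ι ℝ} (hK : Kᵀ = K) {s m : ℝ} (hrow : ∀ a, ∑ b, K a b = s)
    (hP : Psd m univ K) (x : ι → ℝ) :
    (s + m) * (∑ a, x a) ^ 2 / Fintype.card ι ≤ x ⬝ᵥ K *ᵥ x + m * ∑ a, x a ^ 2 := by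
  rcases isEmpty_or_nonempty ι with hι | hι
  · simp [dotProduct]
  have hk : (0 : ℝ) < Fintype.card ι := by exact_mod_cast Fintype.card_pos
  set k : ℝ := (Fintype.card ι : ℝ) with hkdef
  set σ := ∑ a, x a with hσ
  have h0 : ∑ a, (x a - σ / k) = 0 := by
    rw [Finset.sum_sub_distrib, Finset.sum_const, Finset.card_univ, nsmul_eq_mul, ← hkdef]
    field_simp; ring
  have h1 := hP (fun a => x a - σ / k) h0
  rw [qf_univ, quad_shift hK hrow] at h1
  have h2 : ∑ a, (x a - σ / k) ^ 2 = ∑ a, x a ^ 2 - σ ^ 2 / k := by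
    simp only [sub_sq, Finset.sum_add_distrib, Finset.sum_sub_distrib, Finset.sum_const,
      Finset.card_univ, nsmul_eq_mul, ← hkdef, ← Finset.sum_mul, ← Finset.mul_sum, ← hσ]
    field_simp; ring
  rw [h2, ← hσ, ← hkdef] at h1
  have h3 : 2 * s * (σ / k) * σ - s * (σ / k) ^ 2 * k = s * σ ^ 2 / k := by field_simp; ring
  have h4 : (s + m) * σ ^ 2 / k = s * σ ^ 2 / k + m * (σ ^ 2 / k) := by ring
  nlinarith

omit [DecidableEq ι] in
theorem sq_sum_div_card_le (x : ι → ℝ) : (∑ a, x a) ^ 2 / Fintype.card ι ≤ ∑ a, x a ^ 2 := by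
  rcases isEmpty_or_nonempty ι with hι | hι
  · simp
  have hk : (0 : ℝ) < Fintype.card ι := by exact_mod_cast Fintype.card_pos
  rw [div_le_iff₀ hk]
  have := Finset.sum_mul_sq_le_sq_mul_sq Finset.univ x (fun _ => (1 : ℝ))
  simpa using this

/-- `K + 1` is positive semidefinite during the whole process. -/
theorem psd_add_one {K : Matrix ι ι ℝ} (hK : Kᵀ = K) {s m : ℝ} (hs : -1 ≤ s) (hm : m ≤ 1)
    (hrow : ∀ a, ∑ b, K a b = s) (hP : Psd m univ K) : (K + 1).PosSemidef := by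
  refine psd_of (by rw [transpose_add, hK, transpose_one]) fun x => ?_
  have h1 := quad_ge_of_psd hK hrow hP x
  have h2 := sq_sum_div_card_le x
  have h3 : 0 ≤ (∑ a, x a) ^ 2 / Fintype.card ι := by positivity
  rw [add_mulVec, one_mulVec, dotProduct_add, ← nrm_sq_eq_dot, nrm_sq]
  rw [mul_div_assoc] at h1
  nlinarith

/-- `K + m - (s + m) J / k` is positive semidefinite during the whole process. -/
theorem psd_add_m {K : Matrix ι ι ℝ} (hK : Kᵀ = K) {s m : ℝ}
    (hrow : ∀ a, ∑ b, K a b = s) (hP : Psd m univ K) :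
    (K + m • (1 : Matrix ι ι ℝ) -
      Matrix.of fun _ _ => (s + m) / Fintype.card ι).PosSemidef := by
  refine psd_of ?_ fun x => ?_
  · rw [transpose_sub, transpose_add, hK, transpose_smul, transpose_one]; rfl
  have h1 := quad_ge_of_psd hK hrow hP x
  have h2 : x ⬝ᵥ (Matrix.of fun (_ _ : ι) => (s + m) / (Fintype.card ι : ℝ)) *ᵥ x =
      (s + m) * (∑ a, x a) ^ 2 / Fintype.card ι := by
    simp only [dotProduct, mulVec, of_apply, ← Finset.mul_sum, ← Finset.sum_mul]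
    ring
  rw [sub_mulVec, add_mulVec, smul_mulVec, one_mulVec, dotProduct_sub, dotProduct_add,
    dotProduct_smul, h2, ← nrm_sq_eq_dot, nrm_sq, smul_eq_mul]
  linarith

omit [DecidableEq ι] in
/-- the end condition: `tr K^2 - 1 ≤ 1` bounds the form on sum zero vectors -/
theorem quad_le_of_frob {K : Matrix ι ι ℝ} {s : ℝ} (hs : s ^ 2 = 1)
    (hrow : ∀ a, ∑ b, K a b = s) (h : ∑ a, ∑ b, K a b ^ 2 ≤ 2) (x : ι → ℝ) (hx : ∑ a, x a = 0) :
    x ⬝ᵥ K *ᵥ x ≤ ∑ a, x a ^ 2 := by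
  classical
  rcases isEmpty_or_nonempty ι with hι | hι
  · simp [dotProduct]
  have hk : (0 : ℝ) < Fintype.card ι := by exact_mod_cast Fintype.card_pos
  set k : ℝ := (Fintype.card ι : ℝ) with hkdef
  let M : Matrix ι ι ℝ := Matrix.of fun a b => K a b - s / k
  have h1 : ∑ a, ∑ b, M a b ^ 2 = ∑ a, ∑ b, K a b ^ 2 - 1 := by
    have : ∀ a, ∑ b, M a b ^ 2 = ∑ b, K a b ^ 2 - 1 / k := by
      intro a
      simp only [M, of_apply, sub_sq, Finset.sum_add_distrib, Finset.sum_sub_distrib,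
        Finset.sum_const, Finset.card_univ, nsmul_eq_mul, ← hkdef, ← Finset.sum_mul,
        ← Finset.mul_sum, hrow]
      field_simp
      linear_combination (-1 : ℝ) * hs
    simp only [this, Finset.sum_sub_distrib, Finset.sum_const, Finset.card_univ, nsmul_eq_mul,
      ← hkdef]
    field_simp
  have h2 : frob M ≤ 1 := frob_le_of_sq_le zero_le_one (by rw [h1]; linarith)
  have h3 : x ⬝ᵥ K *ᵥ x = x ⬝ᵥ M *ᵥ x := by
    simp only [dotProduct, mulVec, M, of_apply, sub_mul, Finset.sum_sub_distrib, ← Finset.mul_sum,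
      hx, mul_zero, sub_zero]
  have h4 := abs_dot_mulVec_le M x x
  have h5 := (opn_le_frob M).trans h2
  rw [h3, ← nrm_sq]
  have h6 := nrm_nonneg x
  have h7 := le_abs_self (x ⬝ᵥ M *ᵥ x)
  nlinarith [mul_le_mul_of_nonneg_right h5 (mul_nonneg h6 h6)]

end Transfer

end Vale.Agent.P049
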