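import Vale.Agent.P049.Process
import Mathlib.LinearAlgebra.Matrix.AbsoluteValue

/-!
# The kernels of the process have polynomial bit size

On all half-edges the kernel satisfies `K (1 - s Π K₀) = K₀`, where `Π` is the matrix of the
matching, so Cramer's rule bounds numerators and denominators.
-/

namespace Vale.Agent.P049

open Finset Vale.Agent.Lib.PolyTime

/-- The closed form of the kernel. -/
def Exact (s : ℚ) (N : ℕ) (π : ℕ → ℕ) (K₀ K : ℕ → ℕ → ℚ) : Prop :=
  ∀ c < N, ∀ f < N, K c f - s * ∑ e ∈ range N, (if π e < N then K c e * K₀ (π e) f else 0) = K₀ c f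

theorem exact_const (s : ℚ) (N : ℕ) (K₀ : ℕ → ℕ → ℚ) : Exact s N (fun _ => N) K₀ K₀ := by
  intro c _ f _
  simp

theorem Exact.congr {s : ℚ} {N : ℕ} {π : ℕ → ℕ} {K₀ K K' : ℕ → ℕ → ℚ} (h : Exact s N π K₀ K)
    (hK : ∀ c < N, ∀ e < N, K' c e = K c e) : Exact s N π K₀ K' := by
  intro c hc f hf
  rw [← h c hc f hf, hK c hc f hf]
  congr 2
  exact sum_congr rfl fun e he => by rw [hK c hc e (mem_range.1 he)]

theorem Exact.step {s : ℚ} (hs : s ^ 2 = 1) {N : ℕ} {π : ℕ → ℕ} {K₀ K : ℕ → ℕ → ℚ}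
    (h : Exact s N π K₀ K) (hK : ∀ c e, K c e = K e c) {a b : ℕ} (ha : a ∈ alive N π)
    (hb : b ∈ alive N π) (hab : a ≠ b) (hD : den s K a b ≠ 0) :
    Exact s N (upd π a b) K₀ (nxt s K a b) := by
  obtain ⟨ha1, ha2⟩ := mem_alive.1 ha
  obtain ⟨hb1, hb2⟩ := mem_alive.1 hb
  intro c hc f hf
  set α := (K b b * K c a + (s - K a b) * K c b) / den s K a b with hα
  set β := (K a a * K c b + (s - K a b) * K c a) / den s K a b with hβ
  have e0 : ∀ e, nxt s K a b c e = K c e + α * K a e + β * K b e := fun e => by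
    rw [hα, hβ]; unfold nxt; ring
  have ea : nxt s K a b c a = s * β := by
    rw [hβ]; unfold nxt
    rw [hK b a]
    field_simp
    unfold den
    ring
  have eb : nxt s K a b c b = s * α := by
    rw [hα]; unfold nxt
    field_simp
    unfold den
    ring
  have e1 : ∑ e ∈ range N, (if upd π a b e < N then nxt s K a b c e * K₀ (upd π a b e) f else 0) =
      ∑ e ∈ range N, (if π e < N then nxt s K a b c e * K₀ (π e) f else 0) +
        s * β * K₀ b f + s * α * K₀ a f := by
    rw [sum_rest (mem_range.2 ha1) (mem_range.2 hb1) hab,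
      sum_rest (mem_range.2 ha1) (mem_range.2 hb1) hab, upd_a, upd_b, if_pos hb1, if_pos ha1,
      if_neg (not_lt.2 ha2), if_neg (not_lt.2 hb2), ea, eb, add_zero, add_zero]
    congr 2
    refine sum_congr rfl fun e he => ?_
    obtain ⟨-, h1, h2⟩ := mem_rest.1 he
    rw [upd_of_ne π h1 h2]
  have e2 : ∑ e ∈ range N, (if π e < N then nxt s K a b c e * K₀ (π e) f else 0) =
      ∑ e ∈ range N, (if π e < N then K c e * K₀ (π e) f else 0) +
      α * ∑ e ∈ range N, (if π e < N then K a e * K₀ (π e) f else 0) +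
      β * ∑ e ∈ range N, (if π e < N then K b e * K₀ (π e) f else 0) := by
    rw [mul_sum, mul_sum, ← sum_add_distrib, ← sum_add_distrib]
    refine sum_congr rfl fun e _ => ?_
    rw [e0]
    split_ifs <;> ring
  rw [e1, e2, e0]
  linear_combination h c hc f hf + α * h a ha1 f hf + β * h b hb1 f hf -
    (β * K₀ b f + α * K₀ a f) * hs

/-- Cramer's rule with bounds. -/
theorem cramer_bound {ι : Type*} [Fintype ι] [DecidableEq ι] (M : Matrix ι ι ℤ) (hM : M.det ≠ 0)
    (b : ι → ℤ) (x : ι → ℚ) (h : ∀ f, ∑ k, x k * M k f = b f) (T : ℕ)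
    (hT : ∀ i j, |M i j| ≤ T) (hb : ∀ j, |b j| ≤ T) (f : ι) :
    (x f).num.natAbs ≤ (Fintype.card ι).factorial * T ^ Fintype.card ι ∧
      (x f).den ≤ (Fintype.card ι).factorial * T ^ Fintype.card ι := by
  have bound : ∀ P : Matrix ι ι ℤ, (∀ i j, |P i j| ≤ T) →
      P.det.natAbs ≤ (Fintype.card ι).factorial * T ^ Fintype.card ι := fun P hP => by
    have := Matrix.det_le (A := P) (abv := AbsoluteValue.abs) (x := (T : ℤ)) hP
    rw [AbsoluteValue.abs_apply, nsmul_eq_mul, Int.abs_eq_natAbs] at this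
    exact_mod_cast this
  have e1 := Matrix.det_updateRow_sum (M.map (Int.castRingHom ℚ)) f x
  have e2 : (M.map (Int.castRingHom ℚ)).updateRow f (∑ k, x k • M.map (Int.castRingHom ℚ) k) =
      (M.updateRow f b).map (Int.castRingHom ℚ) := by
    rw [Matrix.map_updateRow]
    congr 1
    funext j
    rw [Finset.sum_apply]
    simpa using h j
  have e3 : ∀ P : Matrix ι ι ℤ, (P.map (Int.castRingHom ℚ)).det = (P.det : ℚ) := fun P =>
    ((Int.castRingHom ℚ).map_det P).symm
  rw [e2, e3, e3, smul_eq_mul] at e1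
  have e4 : x f = Rat.divInt (M.updateRow f b).det M.det := by
    rw [Rat.divInt_eq_div, e1]
    have : (M.det : ℚ) ≠ 0 := by exact_mod_cast hM
    field_simp
  have b1 := bound M hT
  have b2 := bound (M.updateRow f b) fun i j => by
    rw [Matrix.updateRow_apply]
    split_ifs
    · exact hb j
    · exact hT i j
  constructor
  · by_cases h0 : (M.updateRow f b).det = 0
    · rw [e4, h0]; simp
    · refine le_trans ?_ b2
      rw [e4]
      exact Nat.le_of_dvd (Int.natAbs_pos.2 h0) (Int.natAbs_dvd_natAbs.2 (Rat.num_dvd _ hM))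
  · refine le_trans ?_ b1
    rw [e4]
    have := Int.natAbs_dvd_natAbs.2 (Rat.den_dvd (M.updateRow f b).det M.det)
    rw [Int.natAbs_natCast] at this
    exact Nat.le_of_dvd (Int.natAbs_pos.2 hM) this

theorem esize_rat (q : ℚ) : esize q = 2 * Nat.size q.num.natAbs + Nat.size q.den + 7 := by
  have : esize q = esize (q.num, q.den) := rfl
  rw [this, esize_pair, esize_int, esize_nat]
  ring

theorem num_lt_of_esize {q : ℚ} {L : ℕ} (h : esize q ≤ L) : q.num.natAbs ≤ 2 ^ L := by
  rw [esize_rat] at h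
  exact (Nat.size_le.1 (by omega)).le

theorem den_lt_of_esize {q : ℚ} {L : ℕ} (h : esize q ≤ L) : q.den ≤ 2 ^ L := by
  rw [esize_rat] at h
  exact (Nat.size_le.1 (by omega)).le

theorem esize_rat_le {q : ℚ} {L : ℕ} (h1 : q.num.natAbs ≤ 2 ^ L) (h2 : q.den ≤ 2 ^ L) :
    esize q ≤ 3 * L + 10 := by
  have h3 : 2 ^ L < 2 ^ (L + 1) := Nat.pow_lt_pow_right (by norm_num) (by omega)
  have a1 : Nat.size q.num.natAbs ≤ L + 1 := Nat.size_le.2 (h1.trans_lt h3)
  have a2 : Nat.size q.den ≤ L + 1 := Nat.size_le.2 (h2.trans_lt h3)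
  rw [esize_rat]
  omega

/-- The bit size of the entries of the kernel. -/
theorem Exact.esize_le {s : ℚ} (hs : s = 1 ∨ s = -1) {N L : ℕ} {π : ℕ → ℕ} {K₀ K : ℕ → ℕ → ℚ}
    (h : Exact s N π K₀ K) (hL : ∀ a < N, ∀ b < N, esize (K₀ a b) ≤ L) {c f : ℕ} (hc : c < N)
    (hf : f < N) : esize (K c f) ≤ 3 * (N * N + (L * (N * N) + L + 1) * N) + 10 := by
  obtain ⟨σ, hσ, hσ1⟩ : ∃ σ : ℤ, (σ : ℚ) = s ∧ |σ| = 1 := by
    rcases hs with rfl | rfl
    · exact ⟨1, by simp, by simp⟩
    · exact ⟨-1, by simp, by simp⟩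
  set Z : ℕ := ∏ p ∈ range N ×ˢ range N, (K₀ p.1 p.2).den with hZ
  have hZ0 : 0 < Z := prod_pos fun p _ => (K₀ p.1 p.2).den_pos
  have hZle : Z ≤ 2 ^ (L * (N * N)) := by
    refine (prod_le_pow_card _ _ (2 ^ L) fun p hp => ?_).trans (le_of_eq ?_)
    · obtain ⟨h1, h2⟩ := mem_product.1 hp
      exact den_lt_of_esize (hL _ (mem_range.1 h1) _ (mem_range.1 h2))
    · rw [card_product, card_range, ← pow_mul]
  set Kz : ℕ → ℕ → ℤ := fun a b => (K₀ a b).num * ((Z / (K₀ a b).den : ℕ) : ℤ) with hKz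
  have hKz1 : ∀ a < N, ∀ b < N, (Kz a b : ℚ) = Z * K₀ a b := by
    intro a ha b hb
    have hd : (K₀ a b).den ∣ Z :=
      dvd_prod_of_mem (fun p : ℕ × ℕ => (K₀ p.1 p.2).den) (a := (a, b))
        (mem_product.2 ⟨mem_range.2 ha, mem_range.2 hb⟩)
    simp only [hKz, Int.cast_mul, Int.cast_natCast]
    rw [Nat.cast_div hd (den_ne _)]
    conv_rhs => rw [← Rat.num_div_den (K₀ a b)]
    ring
  have hKz2 : ∀ a < N, ∀ b < N, |Kz a b| ≤ (2 ^ (L * (N * N) + L) : ℕ) := by
    intro a ha b hb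
    have h1 := num_lt_of_esize (hL a ha b hb)
    have h2 : Z / (K₀ a b).den ≤ 2 ^ (L * (N * N)) := (Nat.div_le_self _ _).trans hZle
    rw [Int.abs_eq_natAbs, Int.ofNat_le]
    simp only [hKz, Int.natAbs_mul, Int.natAbs_natCast]
    rw [pow_add, mul_comm]
    exact Nat.mul_le_mul h2 h1
  set M : Matrix (Fin N) (Fin N) ℤ := Matrix.of fun e g =>
    (if e = g then (Z : ℤ) else 0) - σ * (if π e < N then Kz (π e) g else 0) with hM
  have hrow : ∀ x < N, ∀ g : Fin N, ∑ k : Fin N, K x k * M k g = Kz x g := by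
    intro x hx g
    have e1 : ∀ k : Fin N, K x k * M k g = (if k = g then Z * K x k else 0) -
        Z * s * (if π k < N then K x k * K₀ (π k) g else 0) := fun k => by
      simp only [hM, Matrix.of_apply, Int.cast_sub, Int.cast_mul, hσ]
      by_cases h1 : π k < N
      · rw [if_pos h1, if_pos h1, hKz1 _ h1 _ g.2]
        split_ifs <;> push_cast <;> ring
      · rw [if_neg h1, if_neg h1]
        split_ifs <;> push_cast <;> ring
    rw [sum_congr rfl fun k _ => e1 k, sum_sub_distrib, ← mul_sum, sum_ite_eq', if_pos (mem_univ _),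
      Fin.sum_univ_eq_sum_range (fun k => if π k < N then K x k * K₀ (π k) g else 0),
      hKz1 x hx g g.2, ← h x hx g g.2]
    ring
  have hdet : M.det ≠ 0 := by
    set P : Matrix (Fin N) (Fin N) ℚ := Matrix.of fun e g =>
      (if e = g then 1 else 0) + s * (if π e < N then K (π e) g else 0) with hP
    have e1 : P * M.map (Int.castRingHom ℚ) = (Z : ℚ) • (1 : Matrix (Fin N) (Fin N) ℚ) := by
      ext e g
      rw [Matrix.mul_apply]
      have e2 : ∀ k : Fin N, P e k * M.map (Int.castRingHom ℚ) k g =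
          (if e = k then (M k g : ℚ) else 0) + s * (if π e < N then K (π e) k * M k g else 0) :=
        fun k => by
          simp only [hP, Matrix.of_apply, Matrix.map_apply, eq_intCast]
          split_ifs <;> ring
      rw [sum_congr rfl fun k _ => e2 k, sum_add_distrib, ← mul_sum, sum_ite_eq,
        if_pos (mem_univ _), Matrix.smul_apply, Matrix.one_apply, smul_eq_mul]
      by_cases h1 : π e < N
      · simp only [if_pos h1]
        rw [hrow _ h1]
        simp only [hM, Matrix.of_apply, Int.cast_sub, Int.cast_mul, hσ, if_pos h1]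
        split_ifs <;> push_cast <;> ring
      · simp only [if_neg h1, hM, Matrix.of_apply, Int.cast_sub, Int.cast_mul, hσ]
        split_ifs <;> simp
    intro h0
    have e3 := congrArg Matrix.det e1
    have e4 : (M.map (Int.castRingHom ℚ)).det = (M.det : ℚ) := ((Int.castRingHom ℚ).map_det M).symm
    rw [Matrix.det_mul, e4, h0, Matrix.det_smul, Matrix.det_one] at e3
    have : (Z : ℚ) ≠ 0 := by exact_mod_cast hZ0.ne'
    simp only [Int.cast_zero, mul_zero, mul_one] at e3
    exact pow_ne_zero _ this e3.symm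
  have hpow : (2 ^ (L * (N * N) + L + 1) : ℕ) = 2 ^ (L * (N * N) + L) + 2 ^ (L * (N * N) + L) := by
    rw [pow_succ]; ring
  have hZle' : Z ≤ 2 ^ (L * (N * N) + L) :=
    hZle.trans (Nat.pow_le_pow_right (by norm_num) (by omega))
  have hb := cramer_bound M hdet (fun g => Kz c g) (fun k => K c k) (hrow c hc)
    (2 ^ (L * (N * N) + L + 1)) (fun i j => ?_) (fun j => ?_) ⟨f, hf⟩
  · rw [Fintype.card_fin] at hb
    have h1 : N.factorial * (2 ^ (L * (N * N) + L + 1)) ^ N ≤
        2 ^ (N * N + (L * (N * N) + L + 1) * N) := by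
      rw [pow_add 2 (N * N), ← pow_mul]
      refine Nat.mul_le_mul_right _ ((Nat.factorial_le_pow N).trans ?_)
      rw [pow_mul]
      exact Nat.pow_le_pow_left Nat.lt_two_pow_self.le N
    exact esize_rat_le (hb.1.trans h1) (hb.2.trans h1)
  · simp only [hM, Matrix.of_apply]
    refine (abs_sub _ _).trans ?_
    rw [hpow, Nat.cast_add, abs_mul, hσ1, one_mul]
    refine add_le_add ?_ ?_
    · split_ifs
      · rw [abs_of_nonneg (Int.natCast_nonneg _)]; exact_mod_cast hZle'
      · simp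
    · split_ifs with h1
      · exact hKz2 _ h1 _ j.2
      · simp
  · refine (hKz2 c hc j j.2).trans ?_
    rw [hpow]
    exact_mod_cast Nat.le_add_right _ _

end Vale.Agent.P049
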