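import Vale.Agent.P049.DriftT

/-!
# The drift of the trace of the square
-/

namespace Vale.Agent.P049

open Matrix Finset

variable {ι : Type*} [Fintype ι] [DecidableEq ι]

/-- The increment of the trace of the square. -/
noncomputable def dB (s : ℝ) (K : Matrix ι ι ℝ) (a b : ι) : ℝ :=
  -2 * (rho2 s K a b / den s K a b) + dT s K a b ^ 2

/-- The diagonal of the cube. -/
def cub (K : Matrix ι ι ℝ) : ι → ℝ := fun c => (K ^ 3) c c

theorem cub_apply (K : Matrix ι ι ℝ) (a : ι) : cub K a = (K ^ 3) a a := rfl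

theorem sum_cub (K : Matrix ι ι ℝ) : ∑ a, cub K a = trace (K ^ 3) := rfl

theorem abs_cub_le {K : Matrix ι ι ℝ} (hK : Kᵀ = K) {c : ℝ} (h : opn K ≤ c) (a : ι) :
    |cub K a| ≤ c * rsq K a := by
  have := abs_pow_diag_le hK h 1 a
  rwa [pow_one, rsq_eq_sq hK] at this

theorem sum_abs_cub_le {K : Matrix ι ι ℝ} (hK : Kᵀ = K) {c : ℝ} (h : opn K ≤ c) :
    ∑ a, |cub K a| ≤ c * frob K ^ 2 := by
  rw [← sum_rsq, mul_sum]
  exact sum_le_sum fun a _ => abs_cub_le hK h a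

theorem nrm_cub_le {K : Matrix ι ι ℝ} (hK : Kᵀ = K) {c : ℝ} (h : opn K ≤ c) :
    nrm (cub K) ≤ c * nrm (rsq K) := by
  have hc : 0 ≤ c := (opn_nonneg K).trans h
  have e : c * nrm (rsq K) = nrm (c • rsq K) := by rw [nrm_smul, abs_of_nonneg hc]
  rw [e]
  refine nrm_mono fun a => (abs_cub_le hK h a).trans ?_
  exact le_abs_self _

omit [DecidableEq ι] in
theorem sum_abs_rsq (K : Matrix ι ι ℝ) : ∑ a, |rsq K a| = frob K ^ 2 := by
  rw [← sum_rsq]
  exact sum_congr rfl fun a _ => abs_of_nonneg (rsq_nonneg K a)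

namespace Wt

variable {s : ℝ} {K : Matrix ι ι ℝ} {w sg : ι → ι → ℝ} {ξ Lx Om Om1 vp : ℝ}
  (h : Wt s K w sg ξ Lx Om Om1 vp)

include h

theorem trace_sq_step {a b : ι} (hw : w a b ≠ 0) :
    trace (stepM s K a b ^ 2) = trace (K ^ 2) + dB s K a b := by
  rw [trace_stepM_sq h.sgn h.isSymm (h.ne a b hw) (h.den_ne hw), dB, dT]
  ring

theorem dB_eq (a b : ι) : dB s K a b = 2 * (p1 s K a b * (rsq K a * rsq K b)) -
    2 * (p1 s K a b * rsq K a) - 2 * (p1 s K a b * rsq K b) +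
    2 * (p1 s K a b * (cub K a * K b b)) + 2 * (p1 s K a b * (K a a * cub K b)) +
    4 * s * (p2 s K a b * (K ^ 3) a b) - 2 * (p1 s K a b * (K a a * K b b)) +
    2 * (p1 s K a b * K a b ^ 2) - 2 * (p1 s K a b * (K ^ 2) a b ^ 2) + dT s K a b ^ 2 := by
  unfold dB rho2 p1 p2 wo cub
  rw [rsq_eq_sq h.symm, rsq_eq_sq h.symm]
  linear_combination (-4 * (s - K a b) * (K ^ 3) a b / den s K a b) * h.sgn

omit [DecidableEq ι] in
theorem sum_p1_swap (f : ι → ι → ℝ) : ∑ a, ∑ b, w a b * (p1 s K a b * f b a) =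
    ∑ a, ∑ b, w a b * (p1 s K a b * f a b) := by
  rw [← h.avg_swap fun a b => p1 s K a b * f a b]
  exact sum_congr rfl fun a _ => sum_congr rfl fun b _ => by rw [p1_swap h.symm]

theorem sum_dB_split : ∑ a, ∑ b, w a b * dB s K a b =
    2 * ∑ a, ∑ b, w a b * (p1 s K a b * (rsq K a * rsq K b)) -
    4 * ∑ a, ∑ b, w a b * (p1 s K a b * rsq K a) +
    4 * ∑ a, ∑ b, w a b * (p1 s K a b * (cub K a * dgv K b)) +
    4 * s * ∑ a, ∑ b, w a b * (p2 s K a b * (K ^ 3) a b) -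
    2 * ∑ a, ∑ b, w a b * (p1 s K a b * (dgv K a * dgv K b)) +
    2 * ∑ a, ∑ b, w a b * (p1 s K a b * K a b ^ 2) -
    2 * ∑ a, ∑ b, w a b * (p1 s K a b * (K ^ 2) a b ^ 2) +
    ∑ a, ∑ b, w a b * dT s K a b ^ 2 := by
  have e1 := h.sum_p1_swap fun a _ => rsq K a
  have e2 := h.sum_p1_swap fun a b => cub K a * dgv K b
  have e3 : ∑ a, ∑ b, w a b * dB s K a b =
      2 * ∑ a, ∑ b, w a b * (p1 s K a b * (rsq K a * rsq K b)) -
      2 * ∑ a, ∑ b, w a b * (p1 s K a b * rsq K a) -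
      2 * ∑ a, ∑ b, w a b * (p1 s K a b * rsq K b) +
      2 * ∑ a, ∑ b, w a b * (p1 s K a b * (cub K a * dgv K b)) +
      2 * ∑ a, ∑ b, w a b * (p1 s K a b * (cub K b * dgv K a)) +
      4 * s * ∑ a, ∑ b, w a b * (p2 s K a b * (K ^ 3) a b) -
      2 * ∑ a, ∑ b, w a b * (p1 s K a b * (dgv K a * dgv K b)) +
      2 * ∑ a, ∑ b, w a b * (p1 s K a b * K a b ^ 2) -
      2 * ∑ a, ∑ b, w a b * (p1 s K a b * (K ^ 2) a b ^ 2) +
      ∑ a, ∑ b, w a b * dT s K a b ^ 2 := by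
    simp only [mul_sum, ← sum_add_distrib, ← sum_sub_distrib]
    refine sum_congr rfl fun a _ => sum_congr rfl fun b _ => ?_
    rw [h.dB_eq]
    simp only [dgv_apply]
    ring
  rw [e3, e1, e2]
  ring

theorem avg_cube_entry : |∑ a, ∑ b, w a b * (p2 s K a b * (K ^ 3) a b) - Fintype.card ι * s +
    ∑ a, ∑ b, sg a b * (K ^ 3) a b| ≤ 5 * Om1 * frob (K ^ 3) := by
  have e := h.avgL h.near_p2 (K ^ 3)
  rw [sum_sum_pow h.rowsum, pow_succ s, h.sgn, one_mul] at e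
  refine e.trans (le_of_eq ?_)
  ring

omit [DecidableEq ι] in
theorem sum_p1_sq_nonneg (X : Matrix ι ι ℝ) :
    0 ≤ ∑ a, ∑ b, w a b * (p1 s K a b * X a b ^ 2) := by
  have := h.avg_mono (Y := fun _ _ => 0) (X := fun a b => p1 s K a b * X a b ^ 2)
    fun a b hw => mul_nonneg (h.p1_pos hw).le (sq_nonneg _)
  simpa using this

omit [DecidableEq ι] in
theorem sum_p1_sq_le (X : Matrix ι ι ℝ) :
    ∑ a, ∑ b, w a b * (p1 s K a b * X a b ^ 2) ≤ 5 / 4 * frob X ^ 2 := by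
  have e := h.avgE' (Y := fun a b => p1 s K a b * X a b ^ 2) (X := fun a b => 11 / 10 * X a b ^ 2)
    (fun a b => by positivity) fun a b hw =>
      mul_le_mul_of_nonneg_right ((le_abs_self _).trans (h.abs_p1_le hw)) (sq_nonneg _)
  simp only [← mul_sum] at e
  rw [← frob_sq] at e
  have := h.xi_le
  nlinarith [sq_nonneg (frob X)]

theorem sum_dT_sq_nonneg : 0 ≤ ∑ a, ∑ b, w a b * dT s K a b ^ 2 :=
  sum_nonneg fun a _ => sum_nonneg fun b _ => mul_nonneg (h.w_nonneg a b) (sq_nonneg _)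

omit [DecidableEq ι] in
theorem avg_dd : |∑ a, ∑ b, w a b * (p1 s K a b * (dgv K a * dgv K b))| ≤
    5 / 2 * (Fintype.card ι * nrm (dgv K) ^ 2) := by
  have e := h.avgA (Y := fun a b => p1 s K a b * (dgv K a * dgv K b))
    (X := fun a b => 11 / 10 * (|dgv K a| * |dgv K b|)) (fun a b => by positivity) fun a b hw => by
      rw [abs_mul, abs_mul]
      exact mul_le_mul_of_nonneg_right (h.abs_p1_le hw) (by positivity)
  simp only [← mul_sum, ← sum_mul] at e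
  have e1 := pow_le_pow_left₀ (sum_nonneg fun _ _ => abs_nonneg _) (sum_abs_le_sqrt_card (dgv K)) 2
  rw [mul_pow, Real.sq_sqrt (Nat.cast_nonneg _)] at e1
  have e2 : (0 : ℝ) ≤ Fintype.card ι * nrm (dgv K) ^ 2 := by positivity
  linarith

/-- The mean of the increment from bounds for the three product terms. -/
theorem dB_mean_of {E1 E2 E3 : ℝ}
    (h1 : |∑ a, ∑ b, w a b * (p1 s K a b * (rsq K a * rsq K b)) - frob K ^ 2 * frob K ^ 2| ≤ E1)
    (h2 : |∑ a, ∑ b, w a b * (p1 s K a b * rsq K a) - Fintype.card ι * frob K ^ 2| ≤ E2)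
    (h3 : |∑ a, ∑ b, w a b * (p1 s K a b * (cub K a * dgv K b)) - trace (K ^ 3) * trace K| ≤ E3) :
    |∑ a, ∑ b, w a b * dB s K a b - (2 * (frob K ^ 2) ^ 2 - 4 * Fintype.card ι * (frob K ^ 2 - 1) +
      4 * (trace K * trace (K ^ 3) - s * ∑ a, ∑ b, sg a b * (K ^ 3) a b))| ≤
    2 * E1 + 4 * E2 + 4 * E3 + 20 * Om1 * frob (K ^ 3) + 5 * (Fintype.card ι * nrm (dgv K) ^ 2) +
      3 * frob K ^ 2 + 16 * (nrm (fun a => rsq K a - 1) * nrm (dgv K)) ^ 2 +
      30 * frob (K ^ 2) ^ 2 := by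
  have e4 := abs_le.1 h.avg_cube_entry
  have e5 := h.avg_dd
  have e6 := h.sum_p1_sq_nonneg K
  have e7 := h.sum_p1_sq_le K
  have e8 := h.sum_p1_sq_nonneg (K ^ 2)
  have e9 := h.sum_p1_sq_le (K ^ 2)
  have e10 := h.sum_dT_sq_nonneg
  have e11 := h.dT_var
  have f1 := abs_le.1 h1
  have f2 := abs_le.1 h2
  have f3 := abs_le.1 h3
  have f5 := abs_le.1 e5
  have g1 := sq_nonneg (frob K)
  have g2 := sq_nonneg (frob (K ^ 2))
  have g3 := sq_nonneg (nrm (fun a => rsq K a - 1) * nrm (dgv K))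
  rw [h.sum_dB_split]
  rcases sgn_cases h.sgn with rfl | rfl <;> rw [abs_le] <;> constructor <;>
    linarith [f1.1, f1.2, f2.1, f2.2, f3.1, f3.2, e4.1, e4.2, f5.1, f5.2]

omit [DecidableEq ι] in
theorem avg_rr_row : |∑ a, ∑ b, w a b * (p1 s K a b * (rsq K a * rsq K b)) -
    frob K ^ 2 * frob K ^ 2| ≤ 7 * vp * (frob K ^ 2 * nrm (rsq K)) := by
  have e := h.avgR h.near_p1 (rsq K) (rsq K)
  rw [sum_rsq, sum_abs_rsq] at e
  exact e.trans (le_of_eq (by ring))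

omit [DecidableEq ι] in
theorem avg_rr_frob : |∑ a, ∑ b, w a b * (p1 s K a b * (rsq K a * rsq K b)) -
    frob K ^ 2 * frob K ^ 2| ≤ 7 * Om * nrm (rsq K) ^ 2 := by
  have e := h.avgPP h.near_p1 (rsq K) (rsq K)
  rw [sum_rsq] at e
  exact e.trans (le_of_eq (by ring))

omit [DecidableEq ι] in
theorem avg_r_row : |∑ a, ∑ b, w a b * (p1 s K a b * rsq K a) - Fintype.card ι * frob K ^ 2| ≤
    7 * vp * (frob K ^ 2 * √(Fintype.card ι)) := by
  have e := h.avgR0 h.near_p1 (rsq K)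
  rw [sum_rsq, sum_abs_rsq] at e
  exact e.trans (le_of_eq (by ring))

omit [DecidableEq ι] in
theorem avg_r_frob : |∑ a, ∑ b, w a b * (p1 s K a b * rsq K a) - Fintype.card ι * frob K ^ 2| ≤
    7 * Om * (nrm (rsq K) * √(Fintype.card ι)) := by
  have e := h.avgP0 h.near_p1 (rsq K)
  rw [sum_rsq] at e
  exact e.trans (le_of_eq (by ring))

theorem avg_cub_row {c : ℝ} (hc : opn K ≤ c) (hvp : 0 ≤ vp) :
    |∑ a, ∑ b, w a b * (p1 s K a b * (cub K a * dgv K b)) - trace (K ^ 3) * trace K| ≤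
      7 * vp * (c * frob K ^ 2 * nrm (dgv K)) := by
  have e := h.avgR h.near_p1 (cub K) (dgv K)
  rw [sum_cub, show ∑ b, dgv K b = trace K from rfl] at e
  refine e.trans ?_
  have := mul_le_mul_of_nonneg_right (sum_abs_cub_le h.symm hc) (nrm_nonneg (dgv K))
  nlinarith

theorem avg_cub_frob {c : ℝ} (hc : opn K ≤ c) :
    |∑ a, ∑ b, w a b * (p1 s K a b * (cub K a * dgv K b)) - trace (K ^ 3) * trace K| ≤
      7 * Om * (c * nrm (rsq K) * nrm (dgv K)) := by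
  have e := h.avgPP h.near_p1 (cub K) (dgv K)
  rw [sum_cub, show ∑ b, dgv K b = trace K from rfl] at e
  refine e.trans ?_
  have := mul_le_mul_of_nonneg_right (nrm_cub_le h.symm hc) (nrm_nonneg (dgv K))
  have := h.om_nonneg
  nlinarith

theorem abs_dB_le {a b : ι} (hw : w a b ≠ 0) : |dB s K a b| ≤
    5 * (rsq K a * rsq K b) + 3 * rsq K a + 3 * rsq K b + 3 * |cub K a * K b b| +
      3 * |K a a * cub K b| + 5 * |(K ^ 3) a b| + 3 * dlt K a b + dT s K a b ^ 2 := by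
  have e1 := h.p1_pos hw
  have e2 := h.p2_pos hw
  have e3 : p1 s K a b ≤ 11 / 10 := (le_abs_self _).trans (h.abs_p1_le hw)
  have e4 : p2 s K a b ≤ 11 / 10 := (le_abs_self _).trans (h.abs_p2_le hw)
  have key : ∀ {p x : ℝ}, 0 < p → p ≤ 11 / 10 → -(11 / 10 * |x|) ≤ p * x ∧ p * x ≤ 11 / 10 * |x| := by
    intro p x h1 h2
    rw [← abs_le, abs_mul, abs_of_pos h1]
    exact mul_le_mul_of_nonneg_right h2 (abs_nonneg _)
  have ra := rsq_nonneg K a
  have rb := rsq_nonneg K b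
  have f1 := key (x := rsq K a * rsq K b) e1 e3
  have f2 := key (x := rsq K a) e1 e3
  have f3 := key (x := rsq K b) e1 e3
  have f4 := key (x := cub K a * K b b) e1 e3
  have f5 := key (x := K a a * cub K b) e1 e3
  have f6 := key (x := (K ^ 3) a b) e2 e4
  have f7 := key (x := K a a * K b b) e1 e3
  have f8 := key (x := K a b ^ 2) e1 e3
  have f9 := key (x := (K ^ 2) a b ^ 2) e1 e3
  rw [abs_of_nonneg (mul_nonneg ra rb)] at f1
  rw [abs_of_nonneg ra] at f2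
  rw [abs_of_nonneg rb] at f3
  rw [abs_of_nonneg (sq_nonneg _)] at f8 f9
  have g1 := pow2_apply_sq_le h.symm a b
  have g2 : K a b ^ 2 ≤ |K a b| := by
    rw [← sq_abs, sq]
    have := (h.off a b hw).trans h.xi_le
    nlinarith [abs_nonneg (K a b)]
  have g3 := sq_nonneg (dT s K a b)
  have g4 := abs_nonneg (cub K a * K b b)
  have g5 := abs_nonneg (K a a * cub K b)
  have g6 := abs_nonneg ((K ^ 3) a b)
  have g7 := abs_nonneg (K a a * K b b)
  have g8 := abs_nonneg (K a b)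
  have g9 := mul_nonneg ra rb
  rw [h.dB_eq]
  unfold dlt
  rcases sgn_cases h.sgn with rfl | rfl <;> rw [abs_le] <;> constructor <;>
    linarith [f1.1, f1.2, f2.1, f2.2, f3.1, f3.2, f4.1, f4.2, f5.1, f5.2, f6.1, f6.2, f7.1, f7.2,
      f8.1, f8.2, f9.1, f9.2]

end Wt

theorem sq_sum_ten_le (x1 x2 x3 x4 x5 x6 x7 x8 x9 x10 : ℝ) :
    (x1 + x2 + x3 + x4 + x5 + x6 + x7 + x8 + x9 + x10) ^ 2 ≤ 10 * (x1 ^ 2 + x2 ^ 2 + x3 ^ 2 +
      x4 ^ 2 + x5 ^ 2 + x6 ^ 2 + x7 ^ 2 + x8 ^ 2 + x9 ^ 2 + x10 ^ 2) := by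
  have := sq_sum_le_card_mul_sum_sq (s := (univ : Finset (Fin 10)))
    (f := ![x1, x2, x3, x4, x5, x6, x7, x8, x9, x10])
  simp only [Fin.sum_univ_succ, Fin.sum_univ_zero, cons_val_zero, cons_val_succ, card_univ,
    Fintype.card_fin] at this
  push_cast at this
  linarith

namespace Sd

variable {P : Pr} {s : ℝ} {X : Matrix ι ι ℝ} {w sg : ι → ι → ℝ} {xi mu : ι → ℝ}
  (h : Sd P s X w sg xi mu)

include h

theorem dB_sq_le {a b : ι} (hw : w a b ≠ 0) : dB s X a b ^ 2 ≤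
    250 * (rsq X a ^ 2 * rsq X b ^ 2) + 90 * rsq X a ^ 2 + 90 * rsq X b ^ 2 +
      90 * (cub X a ^ 2 * X b b ^ 2) + 90 * (X a a ^ 2 * cub X b ^ 2) + 250 * (X ^ 3) a b ^ 2 +
      90 * dlt X a b ^ 2 + 160 * P.t ^ 2 * ((rsq X a - 1) ^ 2 * X b b ^ 2) +
      160 * P.t ^ 2 * (X a a ^ 2 * (rsq X b - 1) ^ 2) + 2250 * P.t ^ 2 * (X ^ 2) a b ^ 2 := by
  have e1 := (h.wt.abs_dB_le hw).trans (add_le_add_right (h.wt.dT_sq_le hw) _)
  have e2 := pow_le_pow_left₀ (abs_nonneg _) e1 2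
  rw [sq_abs, ← add_assoc, ← add_assoc] at e2
  have e3 := e2.trans (sq_sum_ten_le ..)
  have f1 := h.diag_mul_sq_le hw
  have f2 := h.diag_mul_sq_le (h.wt.w_ne_swap hw)
  have f3 := h.sq_entry_le hw
  have g1 := mul_le_mul_of_nonneg_right f1 (show 0 ≤ (rsq X a - 1) ^ 2 * X b b ^ 2 by positivity)
  have g2 := mul_le_mul_of_nonneg_right f2 (show 0 ≤ (rsq X b - 1) ^ 2 * X a a ^ 2 by positivity)
  have g3 := mul_le_mul_of_nonneg_right f3 (sq_nonneg ((X ^ 2) a b))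
  simp only [mul_pow, sq_abs] at e3
  nlinarith

end Sd

variable {P : Pr} {s : ℝ} {X : Matrix ι ι ℝ} {w sg : ι → ι → ℝ} {xi mu : ι → ℝ}

/-- The mean drift of the trace of the square. -/
theorem drift_t2 (h : Sd P s X w sg xi mu) :
    ∑ a, ∑ b, w a b * (trace (stepM s X a b * stepM s X a b) - trace (X * X)) ≤
      2 * trace (X * X) ^ 2 - 4 * Fintype.card ι * trace (X * X) + 4 * Fintype.card ι +
        4 * (trace X * trace (X * X * X) - s * ∑ a, ∑ b, sg a b * (X * X * X) a b) +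
        P.eR1 (min (P.x1 * √(Fintype.card ι) * P.u) (P.ro * P.R * √(Fintype.card ι))) := by
  have e0 : ∑ a, ∑ b, w a b * (trace (stepM s X a b * stepM s X a b) - trace (X * X)) =
      ∑ a, ∑ b, w a b * dB s X a b := h.wt.avg_congr fun a b hw => by
    rw [← pow_two, ← pow_two, h.wt.trace_sq_step hw]; ring
  set J := min (P.x1 * √(Fintype.card ι) * P.u) (P.ro * P.R * √(Fintype.card ι)) with hJ
  have hT := h.trace_eq
  have hx1 := h.wt.om_nonneg
  have hx0 := h.wt.om1_nonneg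
  have hu := h.nrm_rsq_le
  have hv := h.nrm_dgv_le
  have hu0 := nrm_nonneg (rsq X)
  have hv0 := nrm_nonneg (dgv X)
  have hl := h.gl.one_le_lam
  have h2 : |∑ a, ∑ b, w a b * (p1 s X a b * rsq X a) - Fintype.card ι * frob X ^ 2| ≤ 7 * J := by
    rcases isEmpty_or_nonempty ι with he | ⟨⟨a⟩⟩
    · simp [hJ]
    · have hro := h.wt.vp_nonneg a
      have hk := Real.sqrt_nonneg (Fintype.card ι : ℝ)
      have hR : frob X ^ 2 ≤ P.R := hT ▸ h.r2
      rw [hJ, mul_min_of_nonneg _ _ (by norm_num : (0 : ℝ) ≤ 7), le_min_iff]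
      constructor
      · refine h.wt.avg_r_frob.trans ?_
        have := mul_le_mul_of_nonneg_left (mul_le_mul_of_nonneg_right hu hk) hx1
        linarith
      · refine h.wt.avg_r_row.trans ?_
        have := mul_le_mul_of_nonneg_left (mul_le_mul_of_nonneg_right hR hk) hro
        linarith
  have hJ0 : 0 ≤ J := by linarith [abs_nonneg (∑ a, ∑ b, w a b * (p1 s X a b * rsq X a) -
    Fintype.card ι * frob X ^ 2)]
  have e1 := (abs_le.1 (h.wt.dB_mean_of h.wt.avg_rr_frob h2 (h.wt.avg_cub_frob h.op))).2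
  have e3 : X * X * X = X ^ 3 := by rw [pow_succ, pow_two]
  rw [e0, hT, e3]
  have f1 : P.x1 * nrm (rsq X) ^ 2 ≤ P.x1 * P.u ^ 2 :=
    mul_le_mul_of_nonneg_left (pow_le_pow_left₀ hu0 hu 2) hx1
  have f2 : P.x1 * (P.lam * nrm (rsq X) * nrm (dgv X)) ≤ P.x1 * P.lam * P.v * P.u := by
    have := mul_le_mul_of_nonneg_left (mul_le_mul hu hv hv0 (hu0.trans hu))
      (show 0 ≤ P.x1 * P.lam by positivity)
    linarith
  have f3 : P.x0 * frob (X ^ 3) ≤ P.x0 * P.lam * P.f := by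
    rw [mul_assoc]
    exact mul_le_mul_of_nonneg_left h.frob_cube_le hx0
  have f4 := h.card_mul_le
  have f5 := h.frob_sq_le_e
  have f6 := h.prod_sq_le
  have f7 := h.frob_sq_sq_le
  have g1 : 0 ≤ P.x1 * P.u ^ 2 := by positivity
  have g2 : 0 ≤ P.x1 * P.lam * P.v * P.u := le_trans (by positivity) f2
  have g3 : 0 ≤ P.x0 * P.lam * P.f := le_trans (mul_nonneg hx0 (frob_nonneg _)) f3
  have g4 := sq_nonneg P.e
  have g5 := sq_nonneg P.f
  have g6 : 0 ≤ P.v ^ 2 * P.g ^ 2 := by positivity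
  unfold Pr.eR1
  linarith

/-- The second moment of the increment of the trace of the square. -/
theorem var_t2 (h : Sd P s X w sg xi mu) :
    ∑ a, ∑ b, w a b * (trace (stepM s X a b * stepM s X a b) - trace (X * X)) ^ 2 ≤
      P.eR2 (Fintype.card ι) := by
  have e0 : ∑ a, ∑ b, w a b * (trace (stepM s X a b * stepM s X a b) - trace (X * X)) ^ 2 =
      ∑ a, ∑ b, w a b * dB s X a b ^ 2 := h.wt.avg_congr fun a b hw => by
    rw [← pow_two, ← pow_two, h.wt.trace_sq_step hw]; ring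
  rw [e0]
  refine (h.wt.avgE (fun a b => by positivity) fun a b hw => h.dB_sq_le hw).trans ?_
  have e1 : ∑ a, ∑ b, dlt X a b ^ 2 = frob (Matrix.of (dlt X)) ^ 2 := (frob_sq _).symm
  simp only [sum_add_distrib, ← mul_sum, ← sum_mul, sum_const, card_univ, nsmul_eq_mul]
  rw [e1, ← frob_sq, ← frob_sq, ← nrm_sq (rsq X), ← nrm_sq (cub X),
    ← nrm_sq fun a => rsq X a - 1, show ∑ i, X i i ^ 2 = nrm (dgv X) ^ 2 from (nrm_sq _).symm]
  have hu := h.nrm_rsq_le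
  have hv := h.nrm_dgv_le
  have hu0 := nrm_nonneg (rsq X)
  have hv0 := nrm_nonneg (dgv X)
  have hl := h.gl.one_le_lam
  have hk : (0 : ℝ) ≤ Fintype.card ι := Nat.cast_nonneg _
  have f0 : nrm (rsq X) ^ 2 ≤ P.u ^ 2 := pow_le_pow_left₀ hu0 hu 2
  have f1 : nrm (rsq X) ^ 2 * nrm (rsq X) ^ 2 ≤ P.u ^ 4 := by
    have := pow_le_pow_left₀ hu0 hu 4
    linarith
  have f2 := mul_le_mul_of_nonneg_left f0 hk
  have f3 : nrm (cub X) ^ 2 * nrm (dgv X) ^ 2 ≤ P.v ^ 2 * P.lam ^ 2 * P.u ^ 2 := by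
    have g1 : nrm (cub X) ≤ P.lam * P.u := (nrm_cub_le h.wt.symm h.op).trans
      (mul_le_mul_of_nonneg_left hu (by linarith))
    have := pow_le_pow_left₀ (mul_nonneg (nrm_nonneg _) hv0)
      (mul_le_mul g1 hv hv0 ((nrm_nonneg _).trans g1)) 2
    linarith
  have f4 : frob (X ^ 3) ^ 2 ≤ P.lam ^ 2 * P.f ^ 2 := by
    rw [← mul_pow]
    exact pow_le_pow_left₀ (frob_nonneg _) h.frob_cube_le 2
  have f5 : frob (Matrix.of (dlt X)) ^ 2 ≤ P.e ^ 2 :=
    pow_le_pow_left₀ (frob_nonneg _) ((frob_dlt_le X).trans h.ee) 2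
  have f6 := mul_le_mul_of_nonneg_left h.prod_sq_le (sq_nonneg P.t)
  have f7 := mul_le_mul_of_nonneg_left h.frob_sq_sq_le (sq_nonneg P.t)
  have g1 : 0 ≤ P.u ^ 4 := by positivity
  have g2 : 0 ≤ (Fintype.card ι : ℝ) * P.u ^ 2 := by positivity
  have g3 : 0 ≤ P.v ^ 2 * P.lam ^ 2 * P.u ^ 2 := by positivity
  have g4 : 0 ≤ P.lam ^ 2 * P.f ^ 2 := by positivity
  have g5 := sq_nonneg P.e
  have g6 : 0 ≤ P.t ^ 2 * (P.v ^ 2 * P.g ^ 2) := by positivity
  have g7 : 0 ≤ P.t ^ 2 * P.f ^ 2 := by positivity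
  unfold Pr.eR2
  nlinarith

end Vale.Agent.P049
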