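import Vale.Agent.P049.Wt

/-!
Exact formulas for the change of the squared row norms and of the diagonal in one step, and norm
bounds for the matrices which appear in them.
-/

namespace Vale.Agent.P049

open Matrix Finset

variable {ι : Type*} [Fintype ι] [DecidableEq ι]

/-- The `a` coordinate of `W v_c`; the `b` coordinate is `pq s K b a c`. -/
noncomputable def pq (s : ℝ) (K : Matrix ι ι ℝ) (a b c : ι) : ℝ :=
  wd s K a b * K c a + wo s K a b * K c b

/-- The increment of the squared norm of row `c`. -/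
noncomputable def dlr (s : ℝ) (K : Matrix ι ι ℝ) (a b c : ι) : ℝ :=
  2 * (pq s K a b c * (K * K) c a + pq s K b a c * (K * K) c b) +
    (pq s K a b c ^ 2 * (rsq K a - 1) + pq s K b a c ^ 2 * (rsq K b - 1) +
      2 * pq s K a b c * pq s K b a c * (K * K) a b)

/-- The increment of the diagonal entry `c`. -/
noncomputable def dlx (s : ℝ) (K : Matrix ι ι ℝ) (a b c : ι) : ℝ :=
  wd s K a b * K c a ^ 2 + 2 * wo s K a b * (K c a * K c b) + wd s K b a * K c b ^ 2

/-- The matrix `K diag(f) K`. -/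
noncomputable def cj (K : Matrix ι ι ℝ) (f : ι → ℝ) : Matrix ι ι ℝ := K * diagonal f * K

/-- The matrix `K diag(f) K ^ 2`. -/
noncomputable def cj2 (K : Matrix ι ι ℝ) (f : ι → ℝ) : Matrix ι ι ℝ := K * diagonal f * (K * K)

variable {s : ℝ} {K : Matrix ι ι ℝ} {a b : ι}

theorem cj_apply (hK : Kᵀ = K) (f : ι → ℝ) (i j : ι) :
    cj K f i j = ∑ c, f c * (K c i * K c j) := by
  unfold cj
  rw [mul_apply]
  refine sum_congr rfl fun c _ => ?_
  rw [mul_diagonal, symm_apply hK i c]; ring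

theorem cj2_apply (hK : Kᵀ = K) (f : ι → ℝ) (i j : ι) :
    cj2 K f i j = ∑ c, f c * (K c i * (K * K) c j) := by
  unfold cj2
  rw [mul_apply]
  refine sum_congr rfl fun c _ => ?_
  rw [mul_diagonal, symm_apply hK i c]; ring

theorem cj_swap (hK : Kᵀ = K) (f : ι → ℝ) (i j : ι) : cj K f j i = cj K f i j := by
  rw [cj_apply hK, cj_apply hK]
  exact sum_congr rfl fun c _ => by ring

omit [DecidableEq ι] in
theorem sq_swap (hK : Kᵀ = K) (i j : ι) : (K * K) j i = (K * K) i j :=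
  symm_apply (isSymm_mul_self hK) j i

theorem rsq_step (hs : s ^ 2 = 1) (hK : Kᵀ = K) (hab : a ≠ b) (hD : den s K a b ≠ 0) {c : ι}
    (h1 : c ≠ a) (h2 : c ≠ b) : rsq (stepM s K a b) c = rsq K c + dlr s K a b c := by
  have h3 : pq s K b a c = wo s K a b * K c a + wd s K b a * K c b := by
    unfold pq; rw [wo_swap hK]; ring
  rw [rsq_eq_mul (stepM_isSymm hK s a b), stepM_sq_diag hs hK hab hD h1 h2 rfl h3]
  unfold dlr
  rw [rsq_eq_mul hK, rsq_eq_mul hK, rsq_eq_mul hK]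
  rfl

theorem rsq_step_left (s : ℝ) (K : Matrix ι ι ℝ) (a b : ι) : rsq (stepM s K a b) a = 0 := by
  simp [rsq, stepM_row_left]

theorem rsq_step_right (s : ℝ) (K : Matrix ι ι ℝ) (a b : ι) : rsq (stepM s K a b) b = 0 := by
  simp [rsq, stepM_row_right]

theorem sum_eq_of_two (hab : a ≠ b) {f g : ι → ℝ} (h : ∀ c, c ≠ a → c ≠ b → f c = g c)
    (ha : f a = 0) (hb : f b = 0) : ∑ c, f c = ∑ c, g c - g a - g b := by
  rw [sum_rest (mem_univ a) (mem_univ b) hab f, sum_rest (mem_univ a) (mem_univ b) hab g, ha, hb,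
    sum_congr rfl fun c hc => h c (mem_rest.1 hc).2.1 (mem_rest.1 hc).2.2]
  ring

/-- The new sum of squares of the squared row norms. -/
theorem sum_rsq_sq_step (hs : s ^ 2 = 1) (hK : Kᵀ = K) (hab : a ≠ b) (hD : den s K a b ≠ 0) :
    ∑ c, rsq (stepM s K a b) c ^ 2 = ∑ c, rsq K c ^ 2 + 2 * ∑ c, rsq K c * dlr s K a b c +
      ∑ c, dlr s K a b c ^ 2 - (rsq K a + dlr s K a b a) ^ 2 - (rsq K b + dlr s K a b b) ^ 2 := by
  rw [sum_eq_of_two hab (g := fun c => (rsq K c + dlr s K a b c) ^ 2)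
    (fun c h1 h2 => by rw [rsq_step hs hK hab hD h1 h2]) (by simp [rsq_step_left])
    (by simp [rsq_step_right]), mul_sum, ← sum_add_distrib, ← sum_add_distrib]
  congr 2
  exact sum_congr rfl fun c _ => by ring

/-- The new sum of squares of the diagonal entries. -/
theorem sum_diag_sq_step (hK : Kᵀ = K) (hab : a ≠ b) :
    ∑ c, stepM s K a b c c ^ 2 = ∑ c, K c c ^ 2 + 2 * ∑ c, K c c * dlx s K a b c +
      ∑ c, dlx s K a b c ^ 2 - (K a a + dlx s K a b a) ^ 2 - (K b b + dlx s K a b b) ^ 2 := by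
  rw [sum_eq_of_two hab (g := fun c => (K c c + dlx s K a b c) ^ 2)
    (fun c h1 h2 => by rw [stepM_diag hK h1 h2]; rfl) (by simp [stepM_row_left])
    (by simp [stepM_row_right]), mul_sum, ← sum_add_distrib, ← sum_add_distrib]
  congr 2
  exact sum_congr rfl fun c _ => by ring

theorem sum_mul_dlx (hK : Kᵀ = K) (f : ι → ℝ) :
    ∑ c, f c * dlx s K a b c = wd s K a b * cj K f a a + 2 * wo s K a b * cj K f a b +
      wd s K b a * cj K f b b := by
  simp only [cj_apply hK, mul_sum, ← sum_add_distrib]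
  exact sum_congr rfl fun c _ => by unfold dlx; ring

theorem sum_mul_dlr (hK : Kᵀ = K) (f : ι → ℝ) :
    ∑ c, f c * dlr s K a b c =
      2 * (wd s K a b * cj2 K f a a + wo s K a b * (cj2 K f a b + cj2 K f b a) +
        wd s K b a * cj2 K f b b) +
      ((wd s K a b ^ 2 * cj K f a a + 2 * wd s K a b * wo s K a b * cj K f a b +
          wo s K a b ^ 2 * cj K f b b) * (rsq K a - 1) +
        (wd s K b a ^ 2 * cj K f b b + 2 * wd s K b a * wo s K a b * cj K f a b +
          wo s K a b ^ 2 * cj K f a a) * (rsq K b - 1) +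
        2 * ((wd s K a b * wd s K b a + wo s K a b ^ 2) * cj K f a b +
          wo s K a b * (wd s K a b * cj K f a a + wd s K b a * cj K f b b)) * (K * K) a b) := by
  simp only [cj_apply hK, cj2_apply hK, mul_sum, sum_mul, ← sum_add_distrib]
  refine sum_congr rfl fun c _ => ?_
  unfold dlr pq
  rw [wo_swap hK]
  ring

omit [DecidableEq ι] in
theorem dlr_swap (hK : Kᵀ = K) (s : ℝ) (a b c : ι) : dlr s K b a c = dlr s K a b c := by
  unfold dlr; rw [sq_swap hK a b]; ring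

omit [Fintype ι] [DecidableEq ι] in
theorem dlx_swap (hK : Kᵀ = K) (s : ℝ) (a b c : ι) : dlx s K b a c = dlx s K a b c := by
  unfold dlx; rw [wo_swap hK]; ring

/-! Norm bounds -/

omit [DecidableEq ι] in
theorem nrm_col_eq (hK : Kᵀ = K) (c : ι) : nrm (fun a => K a c) = nrm (K c) :=
  congrArg nrm (funext fun a => symm_apply hK a c)

theorem nrm_sq_row_le {Λ : ℝ} (hΛ : opn K ≤ Λ) (c : ι) : nrm ((K * K) c) ≤ Λ * nrm (K c) := by
  rw [mul_comm]
  exact (nrm_row_mul_le K K c).trans (mul_le_mul_of_nonneg_left hΛ (nrm_nonneg _))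

theorem rsq_sq_le {Λ : ℝ} (hΛ : opn K ≤ Λ) (c : ι) : rsq (K * K) c ≤ Λ ^ 2 * rsq K c := by
  rw [rsq_eq_nrm, rsq_eq_nrm, ← mul_pow]
  exact pow_le_pow_left₀ (nrm_nonneg _) (nrm_sq_row_le hΛ c) 2

omit [DecidableEq ι] in
theorem sq_apply_sq_le (hK : Kᵀ = K) (i j : ι) : (K * K) i j ^ 2 ≤ rsq K i * rsq K j := by
  have h := mul_apply_sq_le K K i j
  rwa [hK, ← rsq_eq_mul hK, ← rsq_eq_mul hK] at h

omit [DecidableEq ι] in
theorem abs_sq_apply_le (hK : Kᵀ = K) (i j : ι) : |(K * K) i j| ≤ nrm (K i) * nrm (K j) := by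
  have h := abs_mul_apply_le K K i j
  rwa [nrm_col_eq hK] at h

theorem frob_cj_le (hK : Kᵀ = K) (f : ι → ℝ) : frob (cj K f) ≤ ∑ c, |f c| * rsq K c := by
  refine (frob_mul_diagonal_mul_le K K f).trans (le_of_eq (sum_congr rfl fun c _ => ?_))
  rw [nrm_col_eq hK, rsq_eq_nrm, sq]

theorem frob_cj_le' (hK : Kᵀ = K) (f : ι → ℝ) : frob (cj K f) ≤ nrm f * nrm (rsq K) := by
  refine (frob_cj_le hK f).trans (le_of_eq_of_le ?_ (sum_abs_mul_le f (rsq K)))
  exact sum_congr rfl fun c _ => by rw [abs_of_nonneg (rsq_nonneg K c)]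

theorem frob_cj2_le (hK : Kᵀ = K) {Λ : ℝ} (hΛ : opn K ≤ Λ) (f : ι → ℝ) :
    frob (cj2 K f) ≤ Λ * ∑ c, |f c| * rsq K c := by
  refine (frob_mul_diagonal_mul_le K (K * K) f).trans ?_
  rw [mul_sum]
  refine sum_le_sum fun c _ => ?_
  rw [nrm_col_eq hK, rsq_eq_nrm]
  have h1 := mul_le_mul_of_nonneg_left (nrm_sq_row_le hΛ c) (nrm_nonneg (K c))
  calc _ ≤ |f c| * (nrm (K c) * (Λ * nrm (K c))) := mul_le_mul_of_nonneg_left h1 (abs_nonneg _)
    _ = _ := by ring

theorem sum_abs_cj_diag_le (hK : Kᵀ = K) (f : ι → ℝ) :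
    ∑ a, |cj K f a a| ≤ ∑ c, |f c| * rsq K c := by
  calc ∑ a, |cj K f a a| ≤ ∑ a, ∑ c, |f c| * K c a ^ 2 := by
        refine sum_le_sum fun a _ => ?_
        rw [cj_apply hK]
        refine (abs_sum_le_sum_abs _ _).trans (le_of_eq (sum_congr rfl fun c _ => ?_))
        rw [abs_mul, abs_mul_self, sq]
    _ = _ := by rw [sum_comm]; exact sum_congr rfl fun c _ => by rw [rsq_apply, mul_sum]

theorem sum_cj_diag (hK : Kᵀ = K) (f : ι → ℝ) : ∑ a, cj K f a a = ∑ c, f c * rsq K c := by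
  simp only [cj_apply hK]
  rw [sum_comm]
  exact sum_congr rfl fun c _ => by rw [rsq_apply, mul_sum]; simp only [sq]

theorem cj_diag_nonneg (hK : Kᵀ = K) {f : ι → ℝ} (hf : ∀ c, 0 ≤ f c) (a : ι) : 0 ≤ cj K f a a := by
  rw [cj_apply hK]
  exact sum_nonneg fun c _ => mul_nonneg (hf c) (mul_self_nonneg _)

theorem sum_cj_diag_mul (hK : Kᵀ = K) (f g : ι → ℝ) :
    ∑ a, cj K f a a * g a = ∑ c, ∑ a, K c a ^ 2 * (f c * g a) := by
  simp only [cj_apply hK, sum_mul]
  rw [sum_comm]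
  exact sum_congr rfl fun c _ => sum_congr rfl fun a _ => by ring

theorem nrm_cj_diag_le (hK : Kᵀ = K) (f : ι → ℝ) :
    nrm (fun a => cj K f a a) ≤ opn (had K) * nrm f := by
  refine le_of_eq_of_le (congrArg nrm (funext fun a => ?_)) (nrm_mulVec_le (had K) f)
  rw [cj_apply hK]
  simp only [mulVec, dotProduct, had_apply]
  exact sum_congr rfl fun c _ => by rw [symm_apply hK c a]; ring

theorem sum_sum_cj (hK : Kᵀ = K) (hs : s ^ 2 = 1) (hrow : ∀ c, ∑ e, K c e = s) (f : ι → ℝ) :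
    ∑ a, ∑ b, cj K f a b = ∑ c, f c := by
  simp only [cj_apply hK]
  calc ∑ a, ∑ b, ∑ c, f c * (K c a * K c b) = ∑ c, ∑ a, ∑ b, f c * (K c a * K c b) := by
        rw [sum_congr rfl fun a _ => sum_comm, sum_comm]
    _ = _ := sum_congr rfl fun c _ => by
        simp only [← mul_sum]
        rw [← sum_mul, hrow, ← sq, hs, mul_one]

omit [DecidableEq ι] in
theorem sum_sq_row (hs : s ^ 2 = 1) (hrow : ∀ c, ∑ e, K c e = s) (c : ι) :
    ∑ e, (K * K) c e = 1 := by
  simp only [mul_apply]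
  rw [sum_comm]
  simp only [← mul_sum, hrow]
  rw [← sum_mul, hrow, ← sq, hs]

theorem sum_sum_cj2 (hK : Kᵀ = K) (hs : s ^ 2 = 1) (hrow : ∀ c, ∑ e, K c e = s) (f : ι → ℝ) :
    ∑ a, ∑ b, cj2 K f a b = s * ∑ c, f c := by
  simp only [cj2_apply hK]
  calc ∑ a, ∑ b, ∑ c, f c * (K c a * (K * K) c b) =
        ∑ c, ∑ a, ∑ b, f c * (K c a * (K * K) c b) := by
        rw [sum_congr rfl fun a _ => sum_comm, sum_comm]
    _ = _ := by
        rw [mul_sum]
        refine sum_congr rfl fun c _ => ?_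
        simp only [← mul_sum, sum_sq_row hs hrow, mul_one, hrow]
        ring

theorem sum_cj2_diag (hK : Kᵀ = K) (f : ι → ℝ) :
    ∑ a, cj2 K f a a = ∑ c, f c * (K * K * K) c c := by
  simp only [cj2_apply hK]
  rw [sum_comm]
  refine sum_congr rfl fun c _ => ?_
  rw [← mul_sum, mul_apply (M := K * K)]
  congr 1
  exact sum_congr rfl fun a _ => by rw [symm_apply hK a c]; ring

theorem sum_abs_cj2_diag_le (hK : Kᵀ = K) {Λ : ℝ} (hΛ : opn K ≤ Λ) (f : ι → ℝ) :
    ∑ a, |cj2 K f a a| ≤ Λ * ∑ c, |f c| * rsq K c := by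
  calc ∑ a, |cj2 K f a a| ≤ ∑ a, ∑ c, |f c| * (|K c a| * |(K * K) c a|) := by
        refine sum_le_sum fun a _ => ?_
        rw [cj2_apply hK]
        refine (abs_sum_le_sum_abs _ _).trans (le_of_eq (sum_congr rfl fun c _ => ?_))
        rw [abs_mul, abs_mul]
    _ ≤ _ := by
        rw [sum_comm, mul_sum]
        refine sum_le_sum fun c _ => ?_
        rw [← mul_sum, rsq_eq_nrm]
        have h1 := (sum_abs_mul_le (K c) ((K * K) c)).trans
          (mul_le_mul_of_nonneg_left (nrm_sq_row_le hΛ c) (nrm_nonneg (K c)))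
        calc _ ≤ |f c| * (nrm (K c) * (Λ * nrm (K c))) :=
              mul_le_mul_of_nonneg_left h1 (abs_nonneg _)
          _ = _ := by ring

/-- The tilt acting on `K diag(f) K ^ 2`. -/
theorem sum_mul_cj2 (hK : Kᵀ = K) {G : Matrix ι ι ℝ} (f : ι → ℝ) :
    ∑ a, ∑ b, G a b * cj2 K f a b = ∑ c, f c * (K * G * (K * K)) c c := by
  simp only [cj2_apply hK, mul_sum]
  calc ∑ a, ∑ b, ∑ c, G a b * (f c * (K c a * (K * K) c b)) =
        ∑ c, ∑ b, ∑ a, G a b * (f c * (K c a * (K * K) c b)) := by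
        rw [sum_comm, sum_congr rfl fun b _ => sum_comm, sum_comm]
    _ = _ := by
        refine sum_congr rfl fun c _ => ?_
        rw [mul_apply (M := K * G), mul_sum]
        refine sum_congr rfl fun b _ => ?_
        rw [mul_apply (M := K) (N := G), sum_mul, mul_sum, sq_swap hK b c]
        exact sum_congr rfl fun a _ => by ring

/-- The tilt acting on `K diag(f) K`. -/
theorem sum_mul_cj (hK : Kᵀ = K) {G : Matrix ι ι ℝ} (f : ι → ℝ) :
    ∑ a, ∑ b, G a b * cj K f a b = ∑ c, f c * (K * G * K) c c := by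
  simp only [cj_apply hK, mul_sum]
  calc ∑ a, ∑ b, ∑ c, G a b * (f c * (K c a * K c b)) =
        ∑ c, ∑ b, ∑ a, G a b * (f c * (K c a * K c b)) := by
        rw [sum_comm, sum_congr rfl fun b _ => sum_comm, sum_comm]
    _ = _ := by
        refine sum_congr rfl fun c _ => ?_
        rw [mul_apply (M := K * G), mul_sum]
        refine sum_congr rfl fun b _ => ?_
        rw [mul_apply (M := K) (N := G), sum_mul, mul_sum, symm_apply hK c b]
        exact sum_congr rfl fun a _ => by ring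

end Vale.Agent.P049
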