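import Mathlib.Tactic
import Mathlib.Algebra.Order.Chebyshev

/-!
Scalar inequalities for the increments of the squared row norms and of the diagonal entries.
-/

namespace Vale.Agent.P049

open Finset

theorem sq_add_le_eta {η : ℝ} (hη : 0 < η) (A B : ℝ) :
    (A + B) ^ 2 ≤ (1 + η) * A ^ 2 + (1 + 1 / η) * B ^ 2 := by
  have h1 : (1 + η) * A ^ 2 + (1 + 1 / η) * B ^ 2 - (A + B) ^ 2 = (η * A - B) ^ 2 / η := by
    field_simp; ring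
  have h2 : 0 ≤ (η * A - B) ^ 2 / η := by positivity
  linarith

theorem sq_le_of_abs_le' {x c : ℝ} (h : |x| ≤ c) : x ^ 2 ≤ c ^ 2 := by
  rw [← sq_abs]; exact pow_le_pow_left₀ (abs_nonneg _) h 2

theorem cs_eleven (c1 c2 c3 c4 c5 c6 c7 c8 c9 c10 c11 t1 t2 t3 t4 t5 t6 t7 t8 t9 t10 t11 : ℝ) :
    (c1 * t1 + c2 * t2 + c3 * t3 + c4 * t4 + c5 * t5 + c6 * t6 + c7 * t7 + c8 * t8 + c9 * t9 +
      c10 * t10 + c11 * t11) ^ 2 ≤
    (c1 ^ 2 + c2 ^ 2 + c3 ^ 2 + c4 ^ 2 + c5 ^ 2 + c6 ^ 2 + c7 ^ 2 + c8 ^ 2 + c9 ^ 2 + c10 ^ 2 +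
      c11 ^ 2) * (t1 ^ 2 + t2 ^ 2 + t3 ^ 2 + t4 ^ 2 + t5 ^ 2 + t6 ^ 2 + t7 ^ 2 + t8 ^ 2 + t9 ^ 2 +
      t10 ^ 2 + t11 ^ 2) := by
  have h := sum_mul_sq_le_sq_mul_sq (univ : Finset (Fin 11))
    ![c1, c2, c3, c4, c5, c6, c7, c8, c9, c10, c11] ![t1, t2, t3, t4, t5, t6, t7, t8, t9, t10, t11]
  simp only [Fin.sum_univ_succ, Fin.sum_univ_zero, Matrix.cons_val_zero, Matrix.cons_val_succ,
    add_zero] at h
  simp only [add_assoc]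
  exact h

/-- One half of the bound for the error part of the squared increment of a row norm. -/
def rowErr (τ β va vb φb ra rc : ℝ) : ℝ :=
  β ^ 2 * (va ^ 2 * (rc * ra)) + va ^ 2 * φb ^ 2 + 2 * τ ^ 2 * (β ^ 2 * va ^ 4) +
    2 * τ ^ 2 * (va ^ 2 * vb ^ 2)

theorem rowErr_nonneg {τ β va vb φb ra rc : ℝ} (ha : 0 ≤ ra) (hc : 0 ≤ rc) :
    0 ≤ rowErr τ β va vb φb ra rc := by
  unfold rowErr; positivity

theorem abs_mul_sub_one_le {β r τ : ℝ} (hr : 0 ≤ r) (h : |β| * (1 + r) ≤ τ) :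
    (β * (r - 1)) ^ 2 ≤ τ ^ 2 := by
  refine sq_le_of_abs_le' ?_
  rw [abs_mul]
  refine le_trans (mul_le_mul_of_nonneg_left ?_ (abs_nonneg _)) h
  rw [abs_le]; constructor <;> linarith

theorem coef_eleven {s p1 p2 x : ℝ} (hs : s ^ 2 = 1) (h1 : |p1| ≤ 11 / 10) (h2 : |p2| ≤ 11 / 10)
    (hx : |x| ≤ 1 / 50) :
    (2 * p1) ^ 2 + (2 * s * p2) ^ 2 + (2 * p1) ^ 2 + (2 * s * p2) ^ 2 + (p1 ^ 2) ^ 2 +
      (2 * s * p1 * p2) ^ 2 + (p1 ^ 2) ^ 2 + (2 * s * p1 * p2) ^ 2 +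
      (2 * (p1 ^ 2 * x + p2 ^ 2)) ^ 2 + (2 * s * p1 * p2) ^ 2 + (2 * s * p1 * p2) ^ 2 ≤ 60 := by
  have s1 := sq_le_of_abs_le' h1
  have s2 := sq_le_of_abs_le' h2
  have s3 : p1 ^ 2 * p2 ^ 2 ≤ (11 / 10) ^ 2 * (11 / 10) ^ 2 :=
    mul_le_mul s1 s2 (sq_nonneg _) (by norm_num)
  have s4 : (p1 ^ 2) ^ 2 ≤ ((11 / 10) ^ 2) ^ 2 := pow_le_pow_left₀ (sq_nonneg _) s1 2
  have s6 : (p1 ^ 2 * x + p2 ^ 2) ^ 2 ≤ (5 / 4) ^ 2 := by
    refine sq_le_of_abs_le' ((abs_add_le _ _).trans ?_)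
    rw [abs_mul, abs_of_nonneg (sq_nonneg p1), abs_of_nonneg (sq_nonneg p2)]
    nlinarith [abs_nonneg x]
  have e1 : (2 * s * p2) ^ 2 = 4 * p2 ^ 2 := by linear_combination 4 * p2 ^ 2 * hs
  have e2 : (2 * s * p1 * p2) ^ 2 = 4 * (p1 ^ 2 * p2 ^ 2) := by
    linear_combination 4 * p1 ^ 2 * p2 ^ 2 * hs
  have e3 : (2 * p1) ^ 2 = 4 * p1 ^ 2 := by ring
  have e4 : (2 * (p1 ^ 2 * x + p2 ^ 2)) ^ 2 = 4 * (p1 ^ 2 * x + p2 ^ 2) ^ 2 := by ring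
  rw [e1, e2, e3, e4]
  linarith

theorem terms_eleven {α β va vb φa φb ra rb rc rab τ : ℝ} (ha : 0 ≤ ra) (hb : 0 ≤ rb)
    (hβ : |β| * (1 + ra) ≤ τ) (hα : |α| * (1 + rb) ≤ τ) (hτ : (1 + ra) * (1 + rb) ≤ τ ^ 2)
    (hab : rab ^ 2 ≤ ra * rb) (hφa : φa ^ 2 ≤ rc * ra) (hφb : φb ^ 2 ≤ rc * rb) :
    (β * va * φa) ^ 2 + (vb * φa) ^ 2 + (α * vb * φb) ^ 2 + (va * φb) ^ 2 +
      (β * va ^ 2 * (β * (ra - 1))) ^ 2 + (va * vb * (β * (ra - 1))) ^ 2 +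
      (α * vb ^ 2 * (α * (rb - 1))) ^ 2 + (va * vb * (α * (rb - 1))) ^ 2 + (va * vb * rab) ^ 2 +
      (β * va ^ 2 * rab) ^ 2 + (α * vb ^ 2 * rab) ^ 2 ≤
      rowErr τ β va vb φb ra rc + rowErr τ α vb va φa rb rc - τ ^ 2 * (va ^ 2 * vb ^ 2) := by
  have b1 := abs_mul_sub_one_le ha hβ
  have b2 := abs_mul_sub_one_le hb hα
  have b3 : rab ^ 2 ≤ τ ^ 2 := by nlinarith
  have t1 := mul_le_mul_of_nonneg_left hφa (show 0 ≤ β ^ 2 * va ^ 2 by positivity)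
  have t3 := mul_le_mul_of_nonneg_left hφb (show 0 ≤ α ^ 2 * vb ^ 2 by positivity)
  have t5 := mul_le_mul_of_nonneg_left b1 (show 0 ≤ β ^ 2 * va ^ 4 by positivity)
  have t6 := mul_le_mul_of_nonneg_left b1 (show 0 ≤ va ^ 2 * vb ^ 2 by positivity)
  have t7 := mul_le_mul_of_nonneg_left b2 (show 0 ≤ α ^ 2 * vb ^ 4 by positivity)
  have t8 := mul_le_mul_of_nonneg_left b2 (show 0 ≤ va ^ 2 * vb ^ 2 by positivity)
  have t9 := mul_le_mul_of_nonneg_left b3 (show 0 ≤ va ^ 2 * vb ^ 2 by positivity)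
  have t10 := mul_le_mul_of_nonneg_left b3 (show 0 ≤ β ^ 2 * va ^ 4 by positivity)
  have t11 := mul_le_mul_of_nonneg_left b3 (show 0 ≤ α ^ 2 * vb ^ 4 by positivity)
  unfold rowErr
  linear_combination t1 + t3 + t5 + t6 + t7 + t8 + t9 + t10 + t11

theorem main_sq_le {p2 va vb ra rb τ : ℝ} (h2 : |p2| ≤ 11 / 10) (ha : 0 ≤ ra) (hb : 0 ≤ rb)
    (hτ : (1 + ra) * (1 + rb) ≤ τ ^ 2) :
    (p2 ^ 2 * (vb ^ 2 * (ra - 1) + va ^ 2 * (rb - 1))) ^ 2 ≤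
      p2 ^ 4 * (va ^ 4 * (rb - 1) ^ 2 + vb ^ 4 * (ra - 1) ^ 2) +
        3 * (τ ^ 2 * (va ^ 2 * vb ^ 2)) := by
  have s5 : (p2 ^ 2) ^ 2 ≤ ((11 / 10) ^ 2) ^ 2 :=
    pow_le_pow_left₀ (sq_nonneg _) (sq_le_of_abs_le' h2) 2
  have a1 : (ra - 1) * (rb - 1) ≤ τ ^ 2 := by nlinarith
  have a2 := mul_le_mul_of_nonneg_left a1 (show 0 ≤ va ^ 2 * vb ^ 2 by positivity)
  have a3 : p2 ^ 4 ≤ 3 / 2 := by linarith [show p2 ^ 4 = (p2 ^ 2) ^ 2 by ring]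
  have a4 := mul_le_mul_of_nonneg_left a2 (show 0 ≤ 2 * p2 ^ 4 by positivity)
  have a5 := mul_le_mul_of_nonneg_right a3 (show 0 ≤ τ ^ 2 * (va ^ 2 * vb ^ 2) by positivity)
  linear_combination a4 + 2 * a5

theorem combine_eta {η A B M E X : ℝ} (hη : 0 < η) (hη1 : η ≤ 1) (hX : 0 ≤ X) (hE : 0 ≤ E - X)
    (hA : A ^ 2 ≤ M + 3 * X) (hB : B ^ 2 ≤ 60 * (E - X)) :
    (A + B) ^ 2 ≤ (1 + η) * M + 150 / η * E := by
  refine (sq_add_le_eta hη _ _).trans ?_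
  have hi : 1 ≤ 1 / η := by rw [le_div_iff₀ hη]; linarith
  have f1 := mul_le_mul_of_nonneg_left hA (show 0 ≤ 1 + η by positivity)
  have f2 := mul_le_mul_of_nonneg_left hB (show 0 ≤ 1 + 1 / η by positivity)
  have f3 : 150 / η = 150 * (1 / η) := by ring
  rw [f3]
  set u := 1 / η
  have f4 := mul_le_mul_of_nonneg_right hi hE
  have f5 := mul_le_mul_of_nonneg_right hi hX
  have f6 := mul_le_mul_of_nonneg_right hη1 hX
  nlinarith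

/-- The square of the increment of a squared row norm. -/
theorem dlr_sq_le {η s p1 p2 α β va vb φa φb ra rb rc rab τ p q : ℝ} (hη : 0 < η) (hη1 : η ≤ 1)
    (hs : s ^ 2 = 1) (h1 : |p1| ≤ 11 / 10) (h2 : |p2| ≤ 11 / 10) (hαβ : |α * β| ≤ 1 / 50)
    (ha : 0 ≤ ra) (hb : 0 ≤ rb) (hβ : |β| * (1 + ra) ≤ τ) (hα : |α| * (1 + rb) ≤ τ)
    (hτ : (1 + ra) * (1 + rb) ≤ τ ^ 2) (hab : rab ^ 2 ≤ ra * rb) (hφa : φa ^ 2 ≤ rc * ra)
    (hφb : φb ^ 2 ≤ rc * rb) (hp : p = p1 * β * va + s * p2 * vb)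
    (hq : q = p1 * α * vb + s * p2 * va) :
    (2 * (p * φa + q * φb) + (p ^ 2 * (ra - 1) + q ^ 2 * (rb - 1) + 2 * p * q * rab)) ^ 2 ≤
      (1 + η) * (p2 ^ 4 * (va ^ 4 * (rb - 1) ^ 2 + vb ^ 4 * (ra - 1) ^ 2)) +
        150 / η * (rowErr τ β va vb φb ra rc + rowErr τ α vb va φa rb rc) := by
  have e1 : 2 * (p * φa + q * φb) + (p ^ 2 * (ra - 1) + q ^ 2 * (rb - 1) + 2 * p * q * rab) =
      p2 ^ 2 * (vb ^ 2 * (ra - 1) + va ^ 2 * (rb - 1)) +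
      (2 * p1 * (β * va * φa) + 2 * s * p2 * (vb * φa) + 2 * p1 * (α * vb * φb) +
        2 * s * p2 * (va * φb) + p1 ^ 2 * (β * va ^ 2 * (β * (ra - 1))) +
        2 * s * p1 * p2 * (va * vb * (β * (ra - 1))) + p1 ^ 2 * (α * vb ^ 2 * (α * (rb - 1))) +
        2 * s * p1 * p2 * (va * vb * (α * (rb - 1))) +
        2 * (p1 ^ 2 * (α * β) + p2 ^ 2) * (va * vb * rab) + 2 * s * p1 * p2 * (β * va ^ 2 * rab) +
        2 * s * p1 * p2 * (α * vb ^ 2 * rab)) := by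
    rw [hp, hq]
    linear_combination (p2 ^ 2 * (vb ^ 2 * (ra - 1) + va ^ 2 * (rb - 1))) * hs +
      (2 * p2 ^ 2 * va * vb * rab) * hs
  rw [e1]
  have hT := terms_eleven (va := va) (vb := vb) ha hb hβ hα hτ hab hφa hφb
  have hB := (cs_eleven _ _ _ _ _ _ _ _ _ _ _ _ _ _ _ _ _ _ _ _ _ _).trans
    (mul_le_mul (coef_eleven hs h1 h2 hαβ) hT (by positivity) (by norm_num))
  exact combine_eta hη hη1 (by positivity) (le_trans (by positivity) hT)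
    (main_sq_le h2 ha hb hτ) hB

theorem abs_eq_one_of_sq {s : ℝ} (hs : s ^ 2 = 1) : |s| = 1 := by
  rw [← sq_eq_sq₀ (abs_nonneg _) zero_le_one, sq_abs, hs]; norm_num

theorem removed_lower {α β γ ra rb rab dl p q : ℝ} (hdl : dl = |γ| + |α * β|) (hdl1 : dl ≤ 1 / 50)
    (ha : 0 ≤ ra) (hb : 0 ≤ rb) (hα : α ^ 2 ≤ ra) (hP : |p| ≤ 11 / 10 * dl)
    (hQ : |q| ≤ 6 / 5 * |α|) :
    -(11 / 5 * dl * ra + 5 / 2 * (|α| * |rab|) + 3 * (γ ^ 2 + ra * β ^ 2) + 3 / 2 * α ^ 2) ≤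
      2 * (p * ra + q * rab) + (p ^ 2 * (ra - 1) + q ^ 2 * (rb - 1) + 2 * p * q * rab) := by
  have hP2 : p ^ 2 ≤ 3 * (γ ^ 2 + ra * β ^ 2) := by
    have e1 := sq_le_of_abs_le' hP
    have e2 : dl ^ 2 ≤ 2 * (γ ^ 2 + α ^ 2 * β ^ 2) := by
      rw [hdl, ← mul_pow, ← sq_abs γ, ← sq_abs (α * β)]; nlinarith [sq_nonneg (|γ| - |α * β|)]
    have e3 := mul_le_mul_of_nonneg_right hα (sq_nonneg β)
    have e4 : 0 ≤ ra * β ^ 2 := by positivity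
    rw [mul_pow] at e1
    linarith [sq_nonneg γ]
  have hQ2 : q ^ 2 ≤ 3 / 2 * α ^ 2 := by
    have e1 := sq_le_of_abs_le' hQ
    rw [mul_pow, sq_abs] at e1
    linarith [sq_nonneg α]
  have e1 : -(11 / 10 * dl) * ra ≤ p * ra := mul_le_mul_of_nonneg_right (abs_le.1 hP).1 ha
  have e2 : |q * rab| ≤ 6 / 5 * |α| * |rab| := by
    rw [abs_mul]; exact mul_le_mul_of_nonneg_right hQ (abs_nonneg _)
  have e3 : |p * (q * rab)| ≤ 1 / 40 * (6 / 5 * |α| * |rab|) := by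
    rw [abs_mul]; exact mul_le_mul (by linarith) e2 (abs_nonneg _) (by norm_num)
  have e4 := (abs_le.1 e2).1
  have e5 := (abs_le.1 e3).1
  have e7 : 0 ≤ p ^ 2 * ra := by positivity
  have e8 : 0 ≤ q ^ 2 * rb := by positivity
  have e9 : 0 ≤ |α| * |rab| := by positivity
  linear_combination 2 * e1 + 2 * e4 + 2 * e5 + e7 + e8 + hP2 + hQ2 + (1 / 25) * e9

/-- The removed row: a lower bound for the formal new value. -/
theorem neg_sq_removed_le {s p1 p2 α β γ ra rb rab dl p q : ℝ} (hs : s ^ 2 = 1)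
    (h1 : |p1| ≤ 11 / 10) (h2 : |p2| ≤ 11 / 10) (hdl : dl = |γ| + |α * β|) (hdl1 : dl ≤ 1 / 50)
    (ha : 0 ≤ ra) (hb : 0 ≤ rb) (hα : α ^ 2 ≤ ra) (hp : p = p1 * β * α + s * p2 * γ)
    (hq : q = p1 * α * γ + s * p2 * α) :
    -(ra + (2 * (p * ra + q * rab) + (p ^ 2 * (ra - 1) + q ^ 2 * (rb - 1) + 2 * p * q * rab))) ^ 2 ≤
      -((1 - 5 * dl) * ra ^ 2) +
        6 * (ra * |α| * |rab| + ra * γ ^ 2 + ra ^ 2 * β ^ 2 + ra * α ^ 2) := by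
  have hs1 := abs_eq_one_of_sq hs
  have g0 := abs_nonneg γ
  have g1 := abs_nonneg (α * β)
  have g2 := abs_nonneg α
  have g3 := abs_nonneg rab
  have hP : |p| ≤ 11 / 10 * dl := by
    rw [hp]
    refine (abs_add_le _ _).trans ?_
    rw [show p1 * β * α = p1 * (α * β) by ring, abs_mul p1, abs_mul (s * p2), abs_mul s, hs1, hdl]
    have e1 := mul_le_mul_of_nonneg_right h1 g1
    have e2 := mul_le_mul_of_nonneg_right h2 g0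
    linarith
  have hQ : |q| ≤ 6 / 5 * |α| := by
    rw [hq]
    refine (abs_add_le _ _).trans ?_
    rw [abs_mul (p1 * α), abs_mul p1, abs_mul (s * p2), abs_mul s, hs1]
    have e1 : |p1| * |α| ≤ 11 / 10 * |α| := mul_le_mul_of_nonneg_right h1 g2
    have e2 : |p1| * |α| * |γ| ≤ 11 / 10 * |α| * (1 / 50) :=
      mul_le_mul e1 (by linarith) g0 (by positivity)
    have e3 := mul_le_mul_of_nonneg_right h2 g2
    linarith
  have e6 := removed_lower (rab := rab) hdl hdl1 ha hb hα hP hQ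
  set δ := 2 * (p * ra + q * rab) + (p ^ 2 * (ra - 1) + q ^ 2 * (rb - 1) + 2 * p * q * rab)
  have e10 := mul_le_mul_of_nonneg_left e6 ha
  have e11 : 0 ≤ dl * ra ^ 2 := by rw [hdl]; positivity
  have e12 : 0 ≤ ra * |α| * |rab| := by positivity
  have e13 : 0 ≤ ra * α ^ 2 := by positivity
  linear_combination 2 * e10 + sq_nonneg δ + (3 / 5) * e11 + e12 + 3 * e13

/-- The removed row, with products split. -/
theorem neg_sq_removed_le' {s p1 p2 α β γ ra rb rab dl p q : ℝ} (hs : s ^ 2 = 1)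
    (h1 : |p1| ≤ 11 / 10) (h2 : |p2| ≤ 11 / 10) (hdl : dl = |γ| + |α * β|) (hdl1 : dl ≤ 1 / 50)
    (ha : 0 ≤ ra) (hb : 0 ≤ rb) (hα : α ^ 2 ≤ ra) (hp : p = p1 * β * α + s * p2 * γ)
    (hq : q = p1 * α * γ + s * p2 * α) :
    -(ra + (2 * (p * ra + q * rab) + (p ^ 2 * (ra - 1) + q ^ 2 * (rb - 1) + 2 * p * q * rab))) ^ 2 ≤
      -((1 - 5 * dl) * ra ^ 2) + 3 / 200 * ra ^ 2 +
        (900 * (α ^ 2 * rab ^ 2) + 6 * (ra * γ ^ 2) + 6 * (ra ^ 2 * β ^ 2) + 1800 * α ^ 4) := by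
  have e1 := neg_sq_removed_le (rab := rab) hs h1 h2 hdl hdl1 ha hb hα hp hq
  have e2 : 6 * (ra * |α| * |rab|) ≤ 1 / 100 * ra ^ 2 + 900 * (α ^ 2 * rab ^ 2) := by
    rw [← sq_abs α, ← sq_abs rab]
    nlinarith [sq_nonneg (ra / 10 - 30 * (|α| * |rab|))]
  have e3 : 6 * (ra * α ^ 2) ≤ 1 / 200 * ra ^ 2 + 1800 * α ^ 4 := by
    nlinarith [sq_nonneg (ra - 600 * α ^ 2)]
  linarith

theorem mul_le_abs_bound {c C y : ℝ} (h : |c| ≤ C) : c * y ≤ C * |y| :=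
  (le_abs_self _).trans (by rw [abs_mul]; exact mul_le_mul_of_nonneg_right h (abs_nonneg _))

/-- One half of the error of the part of the increment which is linear in the old row norms. -/
def quadErr (β ra naa nab rab : ℝ) : ℝ :=
  3 * (naa * ra * β ^ 2) + 5 * (|ra - 1| * |β| * |nab|) + 3 * (|nab| * |rab|) +
    5 * (naa * (|β| * |rab|))

theorem quadErr_nonneg {β ra naa nab rab : ℝ} (ha : 0 ≤ ra) (hn : 0 ≤ naa) :
    0 ≤ quadErr β ra naa nab rab := by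
  unfold quadErr; positivity

theorem quad_part_le {s p1 p2 α β ra rb rab naa nbb nab : ℝ} (hs : s ^ 2 = 1)
    (h1 : |p1| ≤ 11 / 10) (h2 : |p2| ≤ 11 / 10) (hαβ : |α * β| ≤ 1 / 50) (ha : 0 ≤ ra)
    (hb : 0 ≤ rb) (hna : 0 ≤ naa) (hnb : 0 ≤ nbb) :
    2 * (((p1 * β) ^ 2 * naa + 2 * (p1 * β) * (s * p2) * nab + (s * p2) ^ 2 * nbb) * (ra - 1) +
        ((p1 * α) ^ 2 * nbb + 2 * (p1 * α) * (s * p2) * nab + (s * p2) ^ 2 * naa) * (rb - 1) +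
        2 * ((p1 * β * (p1 * α) + (s * p2) ^ 2) * nab +
          s * p2 * (p1 * β * naa + p1 * α * nbb)) * rab) ≤
      2 * (p2 ^ 2 * (naa * (rb - 1))) + 2 * (p2 ^ 2 * (nbb * (ra - 1))) +
        (quadErr β ra naa nab rab + quadErr α rb nbb nab rab) := by
  have hs1 := abs_eq_one_of_sq hs
  have s1 := sq_le_of_abs_le' h1
  have s2 := sq_le_of_abs_le' h2
  have c1 : |s * p1 * p2| ≤ 5 / 4 := by
    rw [abs_mul, abs_mul, hs1, one_mul]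
    exact (mul_le_mul h1 h2 (abs_nonneg _) (by norm_num)).trans (by norm_num)
  have c2 : |p1 ^ 2 * (α * β) + p2 ^ 2| ≤ 3 / 2 := by
    refine (abs_add_le _ _).trans ?_
    rw [abs_mul, abs_of_nonneg (sq_nonneg p1), abs_of_nonneg (sq_nonneg p2)]
    nlinarith [abs_nonneg (α * β)]
  have t1 : p1 ^ 2 * (naa * ra * β ^ 2) ≤ 3 / 2 * (naa * ra * β ^ 2) :=
    mul_le_mul_of_nonneg_right (by linarith) (by positivity)
  have t2 : p1 ^ 2 * (nbb * rb * α ^ 2) ≤ 3 / 2 * (nbb * rb * α ^ 2) :=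
    mul_le_mul_of_nonneg_right (by linarith) (by positivity)
  have t3 : 0 ≤ p1 ^ 2 * (naa * β ^ 2) := by positivity
  have t4 : 0 ≤ p1 ^ 2 * (nbb * α ^ 2) := by positivity
  have t5 := mul_le_abs_bound (y := (ra - 1) * β * nab) c1
  have t6 := mul_le_abs_bound (y := (rb - 1) * α * nab) c1
  have t7 := mul_le_abs_bound (y := nab * rab) c2
  have t8 := mul_le_abs_bound (y := naa * (β * rab)) c1
  have t9 := mul_le_abs_bound (y := nbb * (α * rab)) c1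
  simp only [abs_mul, abs_of_nonneg hna, abs_of_nonneg hnb] at t5 t6 t7 t8 t9
  unfold quadErr
  linear_combination 2 * t1 + 2 * t2 + 2 * t3 + 2 * t4 + 4 * t5 + 4 * t6 + 4 * t7 + 4 * t8 +
    4 * t9 + (2 * p2 ^ 2 * (nbb * (ra - 1) + naa * (rb - 1) + 2 * nab * rab)) * hs

/-- The square of the increment of a diagonal entry. -/
theorem dlx_sq_le {η s p1 p2 α β va vb : ℝ} (hη : 0 < η) (hη1 : η ≤ 1) (hs : s ^ 2 = 1)
    (h2 : |p2| ≤ 11 / 10) (hαβ : |α * β| ≤ 1 / 50) (h1 : |p1| ≤ 11 / 10) :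
    (p1 * β * va ^ 2 + 2 * (s * p2) * (va * vb) + p1 * α * vb ^ 2) ^ 2 ≤
      (1 + η) * p1 ^ 2 * (β ^ 2 * va ^ 4 + α ^ 2 * vb ^ 4) + 11 / η * (va ^ 2 * vb ^ 2) := by
  have e1 : p1 * β * va ^ 2 + 2 * (s * p2) * (va * vb) + p1 * α * vb ^ 2 =
      p1 * (β * va ^ 2 + α * vb ^ 2) + 2 * (s * p2) * (va * vb) := by ring
  rw [e1]
  refine (sq_add_le_eta hη _ _).trans ?_
  have s1 := sq_le_of_abs_le' h1
  have s2 := sq_le_of_abs_le' h2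
  have hX : 0 ≤ va ^ 2 * vb ^ 2 := by positivity
  have hi : 1 ≤ 1 / η := by rw [le_div_iff₀ hη]; linarith
  have a1 : (2 * (s * p2) * (va * vb)) ^ 2 ≤ 5 * (va ^ 2 * vb ^ 2) := by
    simp only [mul_pow, hs]; nlinarith
  have a2 : p1 ^ 2 * (α * β) ≤ 1 / 40 := by
    nlinarith [le_abs_self (α * β), abs_nonneg (α * β), sq_nonneg p1]
  have a3 : (p1 * (β * va ^ 2 + α * vb ^ 2)) ^ 2 ≤
      p1 ^ 2 * (β ^ 2 * va ^ 4 + α ^ 2 * vb ^ 4) + 1 / 20 * (va ^ 2 * vb ^ 2) := by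
    nlinarith [mul_le_mul_of_nonneg_right a2 hX]
  have f1 := mul_le_mul_of_nonneg_left a3 (show 0 ≤ 1 + η by positivity)
  have f2 := mul_le_mul_of_nonneg_left a1 (show 0 ≤ 1 + 1 / η by positivity)
  have f3 : 11 / η = 11 * (1 / η) := by ring
  rw [f3]
  nlinarith

/-- The removed diagonal entry. -/
theorem neg_sq_removed_diag_le {s p1 p2 α β γ dl : ℝ} (hs : s ^ 2 = 1) (h1 : |p1| ≤ 11 / 10)
    (h2 : |p2| ≤ 11 / 10) (hdl : dl = |γ| + |α * β|) (hdl1 : dl ≤ 1 / 50) :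
    -(α + (p1 * β * α ^ 2 + 2 * (s * p2) * (α * γ) + p1 * α * γ ^ 2)) ^ 2 ≤
      -((1 - 5 * dl) * α ^ 2) := by
  have hs1 := abs_eq_one_of_sq hs
  have g0 := abs_nonneg γ
  have g1 := abs_nonneg (α * β)
  have e1 : α + (p1 * β * α ^ 2 + 2 * (s * p2) * (α * γ) + p1 * α * γ ^ 2) =
      α * (1 + (p1 * (α * β) + 2 * (s * p2 * γ) + p1 * (γ * γ))) := by ring
  have e2 : |p1 * (α * β)| ≤ 11 / 10 * |α * β| := by
    rw [abs_mul]; exact mul_le_mul_of_nonneg_right h1 g1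
  have e3 : |s * p2 * γ| ≤ 11 / 10 * |γ| := by
    rw [abs_mul, abs_mul, hs1, one_mul]; exact mul_le_mul_of_nonneg_right h2 g0
  have e4 : |p1 * (γ * γ)| ≤ 11 / 10 * (|γ| * (1 / 50)) := by
    rw [abs_mul, abs_mul]
    exact mul_le_mul h1 (mul_le_mul_of_nonneg_left (by linarith) g0) (by positivity) (by norm_num)
  have e5 := (abs_le.1 e2).1
  have e6 := (abs_le.1 e3).1
  have e7 := (abs_le.1 e4).1
  rw [e1, mul_pow]
  set u := p1 * (α * β) + 2 * (s * p2 * γ) + p1 * (γ * γ)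
  have e8 : -(5 / 2 * dl) ≤ u := by rw [hdl]; unfold u; linarith
  have e9 : 1 - 5 * dl ≤ (1 + u) ^ 2 := by nlinarith [sq_nonneg u]
  nlinarith [mul_le_mul_of_nonneg_left e9 (sq_nonneg α)]

end Vale.Agent.P049
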