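import Vale.Agent.P049.Iface
import Vale.Agent.P049.RowId
import Vale.Agent.P049.RowPt

/-!
The drift of the sum of the squares of the squared row norms.
-/

namespace Vale.Agent.P049

open Matrix Finset

variable {ι : Type*} [Fintype ι] [DecidableEq ι]

omit [DecidableEq ι] in
theorem uu_eq_sum {X : Matrix ι ι ℝ} (hX : Xᵀ = X) : uu X = ∑ c, rsq X c ^ 2 :=
  sum_congr rfl fun c _ => by rw [rsq_eq_mul hX]

omit [DecidableEq ι] in
theorem trace_mul_self_eq_sum {X : Matrix ι ι ℝ} (hX : Xᵀ = X) :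
    trace (X * X) = ∑ c, rsq X c :=
  sum_congr rfl fun c _ => (rsq_eq_mul hX c).symm

/-- The error terms in the increment of `uu`, one half. -/
noncomputable def uErr (τ : ℝ) (X : Matrix ι ι ℝ) (a b : ι) : ℝ :=
  quadErr (X b b) (rsq X a) (cj X (rsq X) a a) (cj X (rsq X) a b) ((X * X) a b) +
    15000 * ∑ c, rowErr τ (X b b) (X c a) (X c b) ((X * X) c b) (rsq X a) (rsq X c) +
    (900 * (X a a ^ 2 * (X * X) a b ^ 2) + 6 * (rsq X a * X a b ^ 2) +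
      6 * (rsq X a ^ 2 * X b b ^ 2) + 1800 * X a a ^ 4)

/-- The terms in the increment of `uu` where the constant matters, one half. -/
noncomputable def uSharp (X : Matrix ι ι ℝ) (a b : ι) : ℝ :=
  3 / 200 * rsq X a ^ 2 + 1027 / 1000 * ((∑ c, X c a ^ 4) * (rsq X b - 1) ^ 2)

/-- One half of an upper bound for the increment of `uu`. -/
noncomputable def uHalf (s τ : ℝ) (X : Matrix ι ι ℝ) (a b : ι) : ℝ :=
  4 * (p1 s X a b * (m2 X a a * X b b)) + 4 * s * (p2 s X a b * m2 X a b) +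
    2 * (p2 s X a b ^ 2 * (cj X (rsq X) a a * (rsq X b - 1))) -
    (1 - 5 * dlt X a b) * rsq X a ^ 2 + uSharp X a b + uErr τ X a b

theorem uErr_nonneg {τ : ℝ} {X : Matrix ι ι ℝ} (hX : Xᵀ = X) (a b : ι) : 0 ≤ uErr τ X a b := by
  have h1 := rsq_nonneg X a
  have h2 := quadErr_nonneg (β := X b b) (nab := cj X (rsq X) a b) (rab := (X * X) a b) h1
    (cj_diag_nonneg hX (rsq_nonneg X) a)
  have h3 : 0 ≤ ∑ c, rowErr τ (X b b) (X c a) (X c b) ((X * X) c b) (rsq X a) (rsq X c) :=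
    sum_nonneg fun c _ => rowErr_nonneg h1 (rsq_nonneg X c)
  unfold uErr
  positivity

omit [DecidableEq ι] in
theorem uSharp_nonneg (X : Matrix ι ι ℝ) (a b : ι) : 0 ≤ uSharp X a b := by
  have h1 : 0 ≤ ∑ c, X c a ^ 4 := sum_nonneg fun c _ => by positivity
  unfold uSharp
  positivity

omit [Fintype ι] [DecidableEq ι] in
theorem dlt_swap {X : Matrix ι ι ℝ} (hX : Xᵀ = X) (a b : ι) : dlt X b a = dlt X a b := by
  unfold dlt
  rw [show X b a = X a b from congrFun (congrFun hX a) b, mul_comm]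

variable {P : Pr} {s : ℝ} {X : Matrix ι ι ℝ} {w sg : ι → ι → ℝ} {xi mu : ι → ℝ}

namespace Sd

variable (h : Sd P s X w sg xi mu)

include h

theorem u_thr1 {a b : ι} (hw : w a b ≠ 0) : |X b b| * (1 + rsq X a) ≤ P.t := by
  refine le_trans (mul_le_mul (h.dg_le b) (by linarith [h.rs_le a]) ?_ (h.gl.xi_nonneg b))
    (h.gl.xm a b hw)
  linarith [rsq_nonneg X a]

theorem u_thr2 {a b : ι} (hw : w a b ≠ 0) : (1 + rsq X a) * (1 + rsq X b) ≤ P.t ^ 2 := by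
  refine le_trans (mul_le_mul (by linarith [h.rs_le a]) (by linarith [h.rs_le b]) ?_ ?_)
    (h.gl.mm a b hw)
  · linarith [rsq_nonneg X b]
  · linarith [h.gl.mu_nonneg a]

theorem u_pq (a b c : ι) :
    pq s X a b c = p1 s X a b * X b b * X c a + s * p2 s X a b * X c b := by
  unfold pq; rw [wd_eq, wo_eq h.wt.sgn]

theorem u_pq' (a b c : ι) :
    pq s X b a c = p1 s X a b * X a a * X c b + s * p2 s X a b * X c a := by
  rw [h.u_pq, p1_swap h.wt.symm, p2_swap h.wt.symm]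

theorem u_removed {a b : ι} (hw : w a b ≠ 0) :
    -(rsq X a + dlr s X a b a) ^ 2 ≤ -((1 - 5 * dlt X a b) * rsq X a ^ 2) + 3 / 200 * rsq X a ^ 2 +
      (900 * (X a a ^ 2 * (X * X) a b ^ 2) + 6 * (rsq X a * X a b ^ 2) +
        6 * (rsq X a ^ 2 * X b b ^ 2) + 1800 * X a a ^ 4) := by
  have e1 := neg_sq_removed_le' (rab := (X * X) a b) h.wt.sgn (h.wt.abs_p1_le hw)
    (h.wt.abs_p2_le hw) (show dlt X a b = _ from rfl) (by linarith [h.wt.dlt_le hw])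
    (rsq_nonneg X a) (rsq_nonneg X b) (sq_le_rsq X a a) (h.u_pq a b a) (h.u_pq' a b a)
  unfold dlr
  rw [← rsq_eq_mul h.wt.symm a]
  exact e1

theorem u_dlr_sq {a b : ι} (hw : w a b ≠ 0) (c : ι) :
    dlr s X a b c ^ 2 ≤ 1027 / 1000 * (X c a ^ 4 * (rsq X b - 1) ^ 2) +
      1027 / 1000 * (X c b ^ 4 * (rsq X a - 1) ^ 2) +
      (15000 * rowErr P.t (X b b) (X c a) (X c b) ((X * X) c b) (rsq X a) (rsq X c) +
        15000 * rowErr P.t (X a a) (X c b) (X c a) ((X * X) c a) (rsq X b) (rsq X c)) := by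
  have hX := h.wt.symm
  have e1 := dlr_sq_le (η := 1 / 100) (by norm_num) (by norm_num) h.wt.sgn (h.wt.abs_p1_le hw)
    (h.wt.abs_p2_le hw) ((h.wt.dg a b hw).trans (by norm_num)) (rsq_nonneg X a) (rsq_nonneg X b)
    (h.u_thr1 hw) (h.u_thr1 (h.wt.w_ne_swap hw)) (h.u_thr2 hw) (sq_apply_sq_le hX a b)
    (sq_apply_sq_le hX c a) (sq_apply_sq_le hX c b) (h.u_pq a b c) (h.u_pq' a b c)
  have e2 : p2 s X a b ^ 4 ≤ (1 + 4 * (1 / 1000)) ^ 4 :=
    pow_le_pow_left₀ (h.wt.p2_pos hw).le (h.wt.p2_le hw) 4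
  have e3 : 0 ≤ X c a ^ 4 * (rsq X b - 1) ^ 2 + X c b ^ 4 * (rsq X a - 1) ^ 2 := by positivity
  have e4 := mul_le_mul_of_nonneg_right e2 e3
  unfold dlr
  linarith

theorem u_pointwise {a b : ι} (hw : w a b ≠ 0) :
    uu (stepM s X a b) - uu X ≤ uHalf s P.t X a b + uHalf s P.t X b a := by
  have hX := h.wt.symm
  have e0 := sum_rsq_sq_step h.wt.sgn hX (h.wt.ne a b hw) (h.wt.den_ne hw)
  have e1 := sum_mul_dlr (s := s) (a := a) (b := b) hX (rsq X)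
  rw [wd_eq s X a b, wd_eq s X b a, p1_swap hX s a b, wo_eq h.wt.sgn] at e1
  have e2 := quad_part_le (rab := (X * X) a b) (nab := cj X (rsq X) a b) h.wt.sgn
    (h.wt.abs_p1_le hw) (h.wt.abs_p2_le hw) ((h.wt.dg a b hw).trans (by norm_num))
    (rsq_nonneg X a) (rsq_nonneg X b) (cj_diag_nonneg hX (rsq_nonneg X) a)
    (cj_diag_nonneg hX (rsq_nonneg X) b)
  have e3 := h.u_removed hw
  have e4 := h.u_removed (h.wt.w_ne_swap hw)
  rw [dlr_swap hX] at e4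
  have e5 := sum_le_sum fun c (_ : c ∈ univ) => h.u_dlr_sq hw c
  simp only [sum_add_distrib, ← mul_sum, ← sum_mul] at e5
  rw [uu_eq_sum (stepM_isSymm hX s a b), uu_eq_sum hX, e0, e1]
  unfold uHalf uSharp uErr
  rw [p1_swap hX s a b, p2_swap hX s a b, cj_swap hX (rsq X) a b, sq_swap hX a b]
  rw [sq_swap hX a b] at e4
  have e6 : m2 X = cj2 X (rsq X) := rfl
  rw [e6]
  linarith

/-! Bounds for the basic quantities -/

theorem u_nrm_dg : nrm (dgv X) ≤ P.v :=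
  (nrm_mono fun a => (h.dg_le a).trans (le_abs_self _)).trans h.gl.xi_le

theorem u_nrm_rs : nrm (rsq X) ≤ P.u :=
  (nrm_mono fun a => by
    rw [abs_of_nonneg (rsq_nonneg X a)]; exact (h.rs_le a).trans (le_abs_self _)).trans h.gl.mu_le

theorem u_nrm_psi : nrm (fun a => rsq X a - 1) ≤ P.g := by
  refine (nrm_mono fun a => le_trans ?_ (le_abs_self _)).trans h.gl.g_le
  rw [abs_le]
  constructor <;> linarith [rsq_nonneg X a, h.rs_le a]

theorem u_card : (Fintype.card ι : ℝ) ≤ P.g ^ 2 := by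
  refine le_trans ?_ (pow_le_pow_left₀ (nrm_nonneg _) h.gl.g_le 2)
  rw [nrm_sq]
  calc (Fintype.card ι : ℝ) = ∑ _a : ι, (1 : ℝ) := by simp
    _ ≤ _ := sum_le_sum fun a _ => by nlinarith [h.gl.mu_nonneg a]

theorem u_rs_nn (a : ι) : rsq X a ≤ P.nn ^ 2 := (h.rs_le a).trans (h.gl.nn_le a)

theorem u_row_nn (a : ι) : nrm (X a) ≤ P.nn :=
  nrm_le_of_sq_le h.gl.nn_nonneg (h.u_rs_nn a)

theorem u_uu : ∑ c, rsq X c ^ 2 ≤ P.u ^ 2 := by
  rw [← nrm_sq]; exact pow_le_pow_left₀ (nrm_nonneg _) h.u_nrm_rs 2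

theorem u_vv : ∑ c, X c c ^ 2 ≤ P.v ^ 2 := by
  have := pow_le_pow_left₀ (nrm_nonneg _) h.u_nrm_dg 2
  rwa [nrm_sq] at this

omit [DecidableEq ι] h in
theorem u_abs_rs (X : Matrix ι ι ℝ) : ∑ c, |rsq X c| * rsq X c = ∑ c, rsq X c ^ 2 :=
  sum_congr rfl fun c _ => by rw [abs_of_nonneg (rsq_nonneg X c), sq]

theorem u_frob_cj : frob (cj X (rsq X)) ≤ P.u ^ 2 :=
  (frob_cj_le h.wt.symm _).trans ((Sd.u_abs_rs X).trans_le h.u_uu)

theorem u_sum_cj : ∑ a, cj X (rsq X) a a = ∑ c, rsq X c ^ 2 := by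
  rw [sum_cj_diag h.wt.symm]; simp only [sq]

theorem u_lam : 0 ≤ P.lam := zero_le_one.trans h.gl.one_le_lam

theorem u_v : 0 ≤ P.v := (nrm_nonneg _).trans h.u_nrm_dg

theorem u_u : 0 ≤ P.u := (nrm_nonneg _).trans h.u_nrm_rs

theorem u_g : 0 ≤ P.g := (nrm_nonneg _).trans h.u_nrm_psi

theorem u_f : 0 ≤ P.f := (frob_nonneg _).trans h.f4

/-! Sums of the error terms -/

theorem u_quadErr : ∑ a, ∑ b,
    quadErr (X b b) (rsq X a) (cj X (rsq X) a a) (cj X (rsq X) a b) ((X * X) a b) ≤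
      3 * (P.v ^ 2 * P.nn ^ 2 * P.u ^ 2) + 5 * (P.g * P.v * P.u ^ 2) + 3 * (P.f * P.u ^ 2) +
        5 * (P.lam * P.v * P.nn * P.u ^ 2) := by
  have hX := h.wt.symm
  have hN := cj_diag_nonneg hX (rsq_nonneg X)
  have hv := h.u_v
  have hl := h.u_lam
  have hn := h.gl.nn_nonneg
  have hS : ∑ a, cj X (rsq X) a a ≤ P.u ^ 2 := h.u_sum_cj.trans_le h.u_uu
  have e1 : ∑ a, ∑ b, cj X (rsq X) a a * rsq X a * X b b ^ 2 ≤ P.v ^ 2 * P.nn ^ 2 * P.u ^ 2 := by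
    calc _ ≤ ∑ a, cj X (rsq X) a a * (P.v ^ 2 * P.nn ^ 2) := by
          refine sum_le_sum fun a _ => ?_
          rw [← mul_sum, mul_assoc, mul_comm (P.v ^ 2)]
          exact mul_le_mul_of_nonneg_left (mul_le_mul (h.u_rs_nn a) h.u_vv
            (sum_nonneg fun _ _ => sq_nonneg _) (sq_nonneg _)) (hN a)
      _ ≤ _ := by
          rw [← sum_mul, mul_comm]; exact mul_le_mul_of_nonneg_left hS (by positivity)
  have e2 : ∑ a, ∑ b, |rsq X a - 1| * |X b b| * |cj X (rsq X) a b| ≤ P.g * P.v * P.u ^ 2 := by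
    have e := sum_sum_abs_mul_le (vecMulVec (fun a => rsq X a - 1) (dgv X)) (cj X (rsq X))
    simp only [vecMulVec_apply, abs_mul, frob_vecMulVec, dgv_apply] at e
    exact e.trans (mul_le_mul (mul_le_mul h.u_nrm_psi h.u_nrm_dg (nrm_nonneg _) h.u_g)
      h.u_frob_cj (frob_nonneg _) (mul_nonneg h.u_g hv))
  have e3 : ∑ a, ∑ b, |cj X (rsq X) a b| * |(X * X) a b| ≤ P.f * P.u ^ 2 := by
    rw [mul_comm P.f]
    exact (sum_sum_abs_mul_le _ _).trans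
      (mul_le_mul h.u_frob_cj h.f4 (frob_nonneg _) (sq_nonneg _))
  have e4 : ∑ a, ∑ b, cj X (rsq X) a a * (|X b b| * |(X * X) a b|) ≤
      P.lam * P.v * P.nn * P.u ^ 2 := by
    calc _ ≤ ∑ a, cj X (rsq X) a a * (P.lam * P.v * P.nn) := by
          refine sum_le_sum fun a _ => ?_
          rw [← mul_sum]
          refine mul_le_mul_of_nonneg_left ((sum_abs_mul_le (dgv X) ((X * X) a)).trans ?_) (hN a)
          have e5 := (nrm_sq_row_le h.op a).trans (mul_le_mul_of_nonneg_left (h.u_row_nn a) hl)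
          calc _ ≤ P.v * (P.lam * P.nn) := mul_le_mul h.u_nrm_dg e5 (nrm_nonneg _) hv
            _ = _ := by ring
      _ ≤ _ := by
          rw [← sum_mul, mul_comm]; exact mul_le_mul_of_nonneg_left hS (by positivity)
  simp only [quadErr, sum_add_distrib, ← mul_sum] at e1 e2 e3 e4 ⊢
  linarith

theorem u_rowErr {p : ℝ} (hp : p4 X ≤ p) : ∑ a, ∑ b, ∑ c,
    rowErr P.t (X b b) (X c a) (X c b) ((X * X) c b) (rsq X a) (rsq X c) ≤
      P.v ^ 2 * P.nn ^ 2 * P.u ^ 2 + P.lam ^ 2 * P.u ^ 2 + 2 * (P.t ^ 2 * P.v ^ 2 * p) +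
        2 * (P.t ^ 2 * P.u ^ 2) := by
  have hr := rsq_nonneg X
  have hD : 0 ≤ ∑ c, X c c ^ 2 := sum_nonneg fun _ _ => sq_nonneg _
  have e0 : ∑ a, ∑ b, ∑ c, rowErr P.t (X b b) (X c a) (X c b) ((X * X) c b) (rsq X a) (rsq X c) =
      ∑ c, ∑ a, ∑ b, rowErr P.t (X b b) (X c a) (X c b) ((X * X) c b) (rsq X a) (rsq X c) := by
    rw [sum_congr rfl fun a _ => sum_comm, sum_comm]
  have e1 : ∀ c, ∑ a, ∑ b, rowErr P.t (X b b) (X c a) (X c b) ((X * X) c b) (rsq X a) (rsq X c) =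
      (∑ b, X b b ^ 2) * (rsq X c * ∑ a, X c a ^ 2 * rsq X a) + rsq X c * rsq (X * X) c +
        2 * P.t ^ 2 * ((∑ b, X b b ^ 2) * ∑ a, X c a ^ 4) + 2 * P.t ^ 2 * rsq X c ^ 2 := by
    intro c
    have e : rsq X c * ∑ a, X c a ^ 2 * rsq X a = ∑ a, X c a ^ 2 * (rsq X c * rsq X a) := by
      rw [mul_sum]; exact sum_congr rfl fun a _ => by ring
    rw [e]
    simp only [rowErr, sum_add_distrib, ← mul_sum, ← sum_mul, ← rsq_apply]
    ring
  have e2 : ∀ c, rsq X c * ∑ a, X c a ^ 2 * rsq X a ≤ P.nn ^ 2 * rsq X c ^ 2 := by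
    intro c
    have : ∑ a, X c a ^ 2 * rsq X a ≤ rsq X c * P.nn ^ 2 := by
      rw [rsq_apply X c, sum_mul]
      exact sum_le_sum fun a _ => mul_le_mul_of_nonneg_left (h.u_rs_nn a) (sq_nonneg _)
    nlinarith [mul_le_mul_of_nonneg_left this (hr c)]
  have e3 : ∀ c, rsq X c * rsq (X * X) c ≤ P.lam ^ 2 * rsq X c ^ 2 := fun c => by
    nlinarith [mul_le_mul_of_nonneg_left (rsq_sq_le h.op c) (hr c)]
  have e4 : ∑ c, rsq X c * ∑ a, X c a ^ 2 * rsq X a ≤ P.nn ^ 2 * P.u ^ 2 := by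
    refine (sum_le_sum fun c _ => e2 c).trans ?_
    rw [← mul_sum]; exact mul_le_mul_of_nonneg_left h.u_uu (sq_nonneg _)
  have e5 : ∑ c, rsq X c * rsq (X * X) c ≤ P.lam ^ 2 * P.u ^ 2 := by
    refine (sum_le_sum fun c _ => e3 c).trans ?_
    rw [← mul_sum]; exact mul_le_mul_of_nonneg_left h.u_uu (sq_nonneg _)
  have e6 : (∑ b, X b b ^ 2) * ∑ c, rsq X c * ∑ a, X c a ^ 2 * rsq X a ≤
      P.v ^ 2 * (P.nn ^ 2 * P.u ^ 2) :=
    mul_le_mul h.u_vv e4 (sum_nonneg fun c _ => mul_nonneg (hr c)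
      (sum_nonneg fun a _ => mul_nonneg (sq_nonneg _) (hr a))) (sq_nonneg _)
  have e7 : (∑ b, X b b ^ 2) * ∑ c, ∑ a, X c a ^ 4 ≤ P.v ^ 2 * p :=
    mul_le_mul h.u_vv hp (sum_nonneg fun c _ => sum_nonneg fun a _ => by positivity) (sq_nonneg _)
  have e8 := mul_le_mul_of_nonneg_left e7 (sq_nonneg P.t)
  have e9 := mul_le_mul_of_nonneg_left h.u_uu (sq_nonneg P.t)
  rw [e0, sum_congr rfl fun c _ => e1 c]
  simp only [sum_add_distrib, ← mul_sum]
  linarith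

theorem u_remErr : ∑ a, ∑ b, (900 * (X a a ^ 2 * (X * X) a b ^ 2) + 6 * (rsq X a * X a b ^ 2) +
    6 * (rsq X a ^ 2 * X b b ^ 2) + 1800 * X a a ^ 4) ≤
      900 * (P.lam ^ 2 * P.v ^ 2 * P.u) + 6 * (P.lam ^ 2 * P.u ^ 2) + 6 * (P.v ^ 2 * P.u ^ 2) +
        1800 * (P.v ^ 4 * P.g ^ 2) := by
  have hD : 0 ≤ ∑ c, X c c ^ 2 := sum_nonneg fun _ _ => sq_nonneg _
  have hu := h.u_u
  have e1 : ∑ a, X a a ^ 2 * rsq (X * X) a ≤ P.lam ^ 2 * P.v ^ 2 * P.u := by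
    calc _ ≤ ∑ a, X a a ^ 2 * (P.lam ^ 2 * P.u) := sum_le_sum fun a _ =>
          mul_le_mul_of_nonneg_left ((rsq_sq_le h.op a).trans (mul_le_mul_of_nonneg_left
            ((rsq_le_nrm X a).trans h.u_nrm_rs) (sq_nonneg _))) (sq_nonneg _)
      _ ≤ P.v ^ 2 * (P.lam ^ 2 * P.u) := by
          rw [← sum_mul]; exact mul_le_mul_of_nonneg_right h.u_vv (by positivity)
      _ = _ := by ring
  have e2 : ∑ a, rsq X a * rsq X a ≤ P.lam ^ 2 * P.u ^ 2 := by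
    have := h.u_uu
    have e : 1 ≤ P.lam ^ 2 := one_le_pow₀ h.gl.one_le_lam
    simp only [← sq]
    nlinarith [sq_nonneg P.u]
  have e3 : (∑ a, rsq X a ^ 2) * ∑ b, X b b ^ 2 ≤ P.v ^ 2 * P.u ^ 2 := by
    rw [mul_comm]
    exact mul_le_mul h.u_vv h.u_uu (sum_nonneg fun _ _ => sq_nonneg _) (sq_nonneg _)
  have e4 : ∑ a, X a a ^ 4 ≤ P.v ^ 4 := by
    calc _ ≤ ∑ a, X a a ^ 2 * P.v ^ 2 := sum_le_sum fun a _ => by
          have := (single_le_sum (f := fun c => X c c ^ 2) (fun _ _ => sq_nonneg _)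
            (mem_univ a)).trans h.u_vv
          nlinarith [sq_nonneg (X a a)]
      _ ≤ P.v ^ 2 * P.v ^ 2 := by
          rw [← sum_mul]; exact mul_le_mul_of_nonneg_right h.u_vv (sq_nonneg _)
      _ = _ := by ring
  have e5 : (Fintype.card ι : ℝ) * ∑ a, X a a ^ 4 ≤ P.g ^ 2 * P.v ^ 4 :=
    mul_le_mul h.u_card e4 (sum_nonneg fun _ _ => by positivity) (sq_nonneg _)
  simp only [sum_add_distrib, ← mul_sum, ← sum_mul, ← rsq_apply, sum_const, card_univ,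
    nsmul_eq_mul]
  linarith

omit [DecidableEq ι] h in
theorem u_sharp (X : Matrix ι ι ℝ) : ∑ a, ∑ b, uSharp X a b ≤ 3 / 200 * (Fintype.card ι * ∑ c, rsq X c ^ 2) +
    1027 / 1000 * (p4 X * (∑ c, rsq X c ^ 2 + Fintype.card ι)) := by
  have e1 : ∑ b, (rsq X b - 1) ^ 2 ≤ ∑ c, rsq X c ^ 2 + Fintype.card ι := by
    calc _ ≤ ∑ c, (rsq X c ^ 2 + 1) := sum_le_sum fun c _ => by nlinarith [rsq_nonneg X c]
      _ = _ := by simp [sum_add_distrib]
  have e2 : ∑ a, ∑ c, X c a ^ 4 = p4 X := sum_comm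
  have e3 : 0 ≤ p4 X := sum_nonneg fun _ _ => sum_nonneg fun _ _ => by positivity
  have e4 := mul_le_mul_of_nonneg_left e1 e3
  simp only [uSharp, sum_add_distrib, ← mul_sum, ← sum_mul, sum_const, card_univ, nsmul_eq_mul, e2]
  linarith

end Sd

/-- The drift of `uu`. -/
theorem drift_uu [Nonempty ι] (h : Sd P s X w sg xi mu) {p : ℝ} (hp : p4 X ≤ p) :
    ∑ a, ∑ b, w a b * (uu (stepM s X a b) - uu X) ≤
      -2 * Fintype.card ι * uu X + 4 * (trace (X * X) - Fintype.card ι) * uu X +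
        103 / 50 * (uu X + Fintype.card ι) * p4 X + 1 / 25 * Fintype.card ι * uu X +
        8 * (trace X * trace (m2 X) - s * ∑ a, ∑ b, sg a b * m2 X a b) +
        P.eU (Fintype.card ι) p := by
  have hX := h.wt.symm
  have hro : 0 ≤ P.ro := h.wt.vp_nonneg (Classical.arbitrary ι)
  have hx0 := h.wt.om1_nonneg
  have hv := h.u_v
  have hu := h.u_u
  have hg := h.u_g
  have hf := h.u_f
  have hl := h.u_lam
  have hn := h.gl.nn_nonneg
  have hU0 : 0 ≤ ∑ c, rsq X c ^ 2 := sum_nonneg fun _ _ => sq_nonneg _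
  have hU := h.u_uu
  have hk : (0 : ℝ) ≤ Fintype.card ι := Nat.cast_nonneg _
  have hsk := Real.sqrt_nonneg (Fintype.card ι : ℝ)
  have hp4 : 0 ≤ p4 X := sum_nonneg fun _ _ => sum_nonneg fun _ _ => by positivity
  have hm : m2 X = cj2 X (rsq X) := rfl
  have a0 : ∑ a, ∑ b, w a b * (uu (stepM s X a b) - uu X) ≤
      2 * ∑ a, ∑ b, w a b * uHalf s P.t X a b := by
    refine (h.wt.avg_mono fun a b hw => h.u_pointwise hw).trans (le_of_eq ?_)
    simp only [mul_add, sum_add_distrib]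
    rw [h.wt.avg_swap (uHalf s P.t X)]
    ring
  have a1 : ∑ a, ∑ b, w a b * uHalf s P.t X a b =
      4 * ∑ a, ∑ b, w a b * (p1 s X a b * (m2 X a a * X b b)) +
      4 * (s * ∑ a, ∑ b, w a b * (p2 s X a b * m2 X a b)) +
      2 * ∑ a, ∑ b, w a b * (p2 s X a b ^ 2 * (cj X (rsq X) a a * (rsq X b - 1))) -
      ∑ a, ∑ b, w a b * ((1 - 5 * dlt X a b) * rsq X a ^ 2) +
      ∑ a, ∑ b, w a b * uSharp X a b + ∑ a, ∑ b, w a b * uErr P.t X a b := by
    simp only [mul_sum, ← sum_add_distrib, ← sum_sub_distrib]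
    exact sum_congr rfl fun a _ => sum_congr rfl fun b _ => by unfold uHalf; ring
  have b1 : ∑ a, ∑ b, w a b * (p1 s X a b * (m2 X a a * X b b)) ≤
      trace X * trace (m2 X) + 7 * (P.ro * P.lam * P.v * P.u ^ 2) := by
    have e1 := (abs_le.1 (h.wt.avgR h.wt.near_p1 (fun a => m2 X a a) (dgv X))).2
    have e2 : ∑ a, |m2 X a a| ≤ P.lam * P.u ^ 2 :=
      (sum_abs_cj2_diag_le hX h.op _).trans
        (mul_le_mul_of_nonneg_left ((Sd.u_abs_rs X).trans_le hU) hl)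
    have e3 := mul_le_mul_of_nonneg_left
      (mul_le_mul e2 h.u_nrm_dg (nrm_nonneg _) (by positivity)) hro
    have e4 : (∑ a, m2 X a a) * ∑ b, dgv X b = trace X * trace (m2 X) := mul_comm _ _
    simp only [dgv_apply] at e1 e4
    linarith
  have b2 : s * ∑ a, ∑ b, w a b * (p2 s X a b * m2 X a b) ≤
      P.R - s * ∑ a, ∑ b, sg a b * m2 X a b + 5 * (P.x0 * P.lam * P.u ^ 2) := by
    have e1 := h.wt.avgL h.wt.near_p2 (m2 X)
    have e2 : frob (m2 X) ≤ P.lam * P.u ^ 2 :=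
      (frob_cj2_le hX h.op _).trans (mul_le_mul_of_nonneg_left ((Sd.u_abs_rs X).trans_le hU) hl)
    have e3 := mul_le_mul_of_nonneg_left e2 hx0
    have e4 := mul_le_abs_bound (y := ∑ a, ∑ b, w a b * (p2 s X a b * m2 X a b) -
      ∑ a, ∑ b, m2 X a b + ∑ a, ∑ b, sg a b * m2 X a b) h.wt.abs_s.le
    have e5 : s * ∑ a, ∑ b, m2 X a b = trace (X * X) := by
      rw [hm, sum_sum_cj2 hX h.wt.sgn h.wt.rowsum, ← mul_assoc, ← sq, h.wt.sgn, one_mul,
        trace_mul_self_eq_sum hX]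
    have e6 := h.r2
    linarith
  have b3 : ∑ a, ∑ b, w a b * (p2 s X a b ^ 2 * (cj X (rsq X) a a * (rsq X b - 1))) ≤
      (trace (X * X) - Fintype.card ι) * ∑ c, rsq X c ^ 2 + 11 * (P.ro * P.u ^ 2 * P.g) := by
    have e1 := (abs_le.1 (h.wt.avgR h.wt.near_p2_sq (fun a => cj X (rsq X) a a)
      fun b => rsq X b - 1)).2
    have e2 : ∑ a, |cj X (rsq X) a a| ≤ P.u ^ 2 :=
      (sum_abs_cj_diag_le hX _).trans ((Sd.u_abs_rs X).trans_le hU)
    have e3 := mul_le_mul_of_nonneg_left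
      (mul_le_mul e2 h.u_nrm_psi (nrm_nonneg _) (by positivity)) hro
    have e4 : ∑ b, (rsq X b - 1) = trace (X * X) - Fintype.card ι := by
      rw [trace_mul_self_eq_sum hX]; simp [sum_sub_distrib]
    rw [e4, h.u_sum_cj] at e1
    linarith
  have b4 : Fintype.card ι * ∑ c, rsq X c ^ 2 - 11 * (P.ro * √(Fintype.card ι) * P.u ^ 2) ≤
      ∑ a, ∑ b, w a b * ((1 - 5 * dlt X a b) * rsq X a ^ 2) := by
    have hN : Near X w 5 fun a b => 1 - 5 * dlt X a b :=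
      ⟨by norm_num, fun a b _ => by
        rw [show 1 - 5 * dlt X a b - 1 = -(5 * dlt X a b) by ring, abs_neg,
          abs_of_nonneg (mul_nonneg (by norm_num) (dlt_nonneg X a b))]⟩
    have e1 := (abs_le.1 (h.wt.avgR0 hN fun a => rsq X a ^ 2)).1
    simp only [abs_pow, sq_abs] at e1
    have e2 := mul_le_mul_of_nonneg_left (mul_le_mul_of_nonneg_right hU hsk) hro
    linarith
  have b5 := (h.wt.avgE' (uSharp_nonneg X) fun a b _ => le_rfl).trans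
    (mul_le_mul_of_nonneg_left (Sd.u_sharp X) (by norm_num))
  have b6 := h.wt.avgE (uErr_nonneg (τ := P.t) hX) fun a b _ => le_rfl
  have b7 : ∑ a, ∑ b, uErr P.t X a b = ∑ a, ∑ b,
      quadErr (X b b) (rsq X a) (cj X (rsq X) a a) (cj X (rsq X) a b) ((X * X) a b) +
      15000 * ∑ a, ∑ b, ∑ c,
        rowErr P.t (X b b) (X c a) (X c b) ((X * X) c b) (rsq X a) (rsq X c) +
      ∑ a, ∑ b, (900 * (X a a ^ 2 * (X * X) a b ^ 2) + 6 * (rsq X a * X a b ^ 2) +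
        6 * (rsq X a ^ 2 * X b b ^ 2) + 1800 * X a a ^ 4) := by
    simp only [uErr, sum_add_distrib, ← mul_sum]
  have c1 := h.u_quadErr
  have c2 := h.u_rowErr hp
  have c3 := h.u_remErr
  have hR : 0 ≤ P.R := le_trans (by
    rw [trace_mul_self_eq_sum hX]; exact sum_nonneg fun c _ => rsq_nonneg X c) h.r2
  have hp0 : 0 ≤ p := hp4.trans hp
  have n1 : 0 ≤ P.ro * P.lam * P.v * P.u ^ 2 := by positivity
  have n2 : 0 ≤ P.x0 * P.lam * P.u ^ 2 := by positivity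
  have n3 : 0 ≤ P.ro * P.u ^ 2 * P.g := by positivity
  have n4 : 0 ≤ P.f * P.u ^ 2 := by positivity
  have n5 : 0 ≤ P.lam * P.v * P.nn * P.u ^ 2 := by positivity
  have n6 : 0 ≤ P.g * P.v * P.u ^ 2 := by positivity
  have n7 : 0 ≤ P.v ^ 2 * P.u ^ 2 := by positivity
  have n8 : 0 ≤ P.v ^ 2 * P.nn ^ 2 * P.u ^ 2 := by positivity
  have n9 : 0 ≤ P.t ^ 2 * P.u ^ 2 := by positivity
  have n10 : 0 ≤ P.lam ^ 2 * P.u ^ 2 := by positivity
  have n11 : 0 ≤ P.t ^ 2 * P.v ^ 2 * p := by positivity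
  have n12 : 0 ≤ P.e ^ 2 := by positivity
  have n13 : 0 ≤ P.lam ^ 2 * P.v ^ 2 * P.u := by positivity
  have n14 : 0 ≤ P.v ^ 4 * P.g ^ 2 := by positivity
  have n15 : 0 ≤ P.ro * √(Fintype.card ι) * P.u ^ 2 := by positivity
  have n16 : 0 ≤ Fintype.card ι * ∑ c, rsq X c ^ 2 := by positivity
  have n17 : 0 ≤ p4 X * (∑ c, rsq X c ^ 2 + Fintype.card ι) := by positivity
  rw [uu_eq_sum hX] at a0 ⊢
  unfold Pr.eU
  linarith

end Vale.Agent.P049
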