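import Vale.Agent.P049.Iface
import Vale.Agent.P049.RowId
import Vale.Agent.P049.RowPt

/-!
The drift of the sum of the squared diagonal entries.
-/

namespace Vale.Agent.P049

open Matrix Finset

variable {ι : Type*} [Fintype ι] [DecidableEq ι]

variable {P : Pr} {s : ℝ} {X : Matrix ι ι ℝ} {w sg : ι → ι → ℝ} {xi mu : ι → ℝ}

theorem Sd.dv_nrm_dgv (h : Sd P s X w sg xi mu) : nrm (dgv X) ≤ P.v :=
  (nrm_mono fun a => (h.dg_le a).trans (le_abs_self _)).trans h.gl.xi_le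

theorem Sd.dv_nrm_rsq (h : Sd P s X w sg xi mu) : nrm (rsq X) ≤ P.u :=
  (nrm_mono fun a => by
    rw [abs_of_nonneg (rsq_nonneg X a)]; exact (h.rs_le a).trans (le_abs_self _)).trans h.gl.mu_le

omit [DecidableEq ι] in
theorem dv_vv_eq (X : Matrix ι ι ℝ) : vv X = nrm (dgv X) ^ 2 := (nrm_sq (dgv X)).symm

omit [Fintype ι] [DecidableEq ι] in
/-- The formal new value of a removed diagonal entry. -/
theorem dv_removed (hs : s ^ 2 = 1) (hX : Xᵀ = X) {a b : ι} (hD : den s X a b ≠ 0) :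
    X a a + dlx s X a b a = p1 s X a b * X a a := by
  unfold dlx wd wo p1
  rw [den_swap hX s a b]
  have hD' : den s X a b = (s - X a b) ^ 2 - X a a * X b b := rfl
  field_simp
  rw [hD']
  linear_combination X a a * hs

/-- The pointwise bound for the increment. -/
theorem Sd.dv_point (h : Sd P s X w sg xi mu) {a b : ι} (hw : w a b ≠ 0) :
    vv (stepM s X a b) - vv X ≤
      2 * (p1 s X a b * (cj X (dgv X) a a * dgv X b)) +
      2 * (p1 s X b a * (cj X (dgv X) b b * dgv X a)) +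
      4 * s * (p2 s X a b * cj X (dgv X) a b) - p1 s X a b ^ 2 * dgv X a ^ 2 -
      p1 s X b a ^ 2 * dgv X b ^ 2 +
      ∑ c, (10 / 7 * (X b b ^ 2 * X c a ^ 4 + X a a ^ 2 * X c b ^ 4) +
        28 * (X c a ^ 2 * X c b ^ 2)) := by
  have hX := h.wt.symm
  have hs := h.wt.sgn
  have hab := h.wt.ne a b hw
  have hD := h.wt.den_ne hw
  have hD' := h.wt.den_ne (h.wt.w_ne_swap hw)
  have e1 := sum_diag_sq_step (s := s) hX hab
  have e2 := sum_mul_dlx (s := s) (a := a) (b := b) hX (dgv X)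
  have e3 := dv_removed hs hX hD
  have e4 := dv_removed hs hX hD'
  rw [dlx_swap hX] at e4
  have e5 : ∑ c, dlx s X a b c ^ 2 ≤ ∑ c, (10 / 7 * (X b b ^ 2 * X c a ^ 4 +
      X a a ^ 2 * X c b ^ 4) + 28 * (X c a ^ 2 * X c b ^ 2)) := by
    refine sum_le_sum fun c _ => ?_
    have f1 := dlx_sq_le (η := 2 / 5) (s := s) (p1 := p1 s X a b) (p2 := p2 s X a b)
      (α := X a a) (β := X b b) (va := X c a) (vb := X c b) (by norm_num) (by norm_num) hs
      (h.wt.abs_p2_le hw) ((h.wt.dg a b hw).trans (by norm_num)) (h.wt.abs_p1_le hw)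
    have f2 : dlx s X a b c = p1 s X a b * X b b * X c a ^ 2 +
        2 * (s * p2 s X a b) * (X c a * X c b) + p1 s X a b * X a a * X c b ^ 2 := by
      unfold dlx
      rw [wd_eq, wd_eq, wo_eq hs, p1_swap hX s a b]
    have f3 : p1 s X a b ^ 2 ≤ (1 + 6 * (1 / 1000)) ^ 2 :=
      pow_le_pow_left₀ (h.wt.p1_pos hw).le (h.wt.p1_le hw) 2
    have f4 : 0 ≤ X b b ^ 2 * X c a ^ 4 + X a a ^ 2 * X c b ^ 4 := by positivity
    have f5 : 0 ≤ X c a ^ 2 * X c b ^ 2 := by positivity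
    have f6 := mul_le_mul_of_nonneg_right f3 f4
    rw [f2]
    linarith
  unfold vv
  simp only [dgv_apply] at e2 ⊢
  rw [e1, e2, e3, e4, wd_eq, wd_eq, wo_eq hs]
  linarith

omit [DecidableEq ι] in
theorem dv_sum_quad (X : Matrix ι ι ℝ) :
    ∑ a, ∑ b, ∑ c, (10 / 7 * (X b b ^ 2 * X c a ^ 4 + X a a ^ 2 * X c b ^ 4) +
        28 * (X c a ^ 2 * X c b ^ 2)) = 20 / 7 * (vv X * p4 X) + 28 * nrm (rsq X) ^ 2 := by
  have e1 : ∑ a, ∑ b, ∑ c, X b b ^ 2 * X c a ^ 4 = vv X * p4 X := by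
    simp only [← mul_sum, ← sum_mul]
    unfold vv p4
    rw [sum_comm]
  have e2 : ∑ a, ∑ b, ∑ c, X a a ^ 2 * X c b ^ 4 = vv X * p4 X := by
    rw [sum_comm]; exact e1
  have e3 : ∑ a, ∑ b, ∑ c, X c a ^ 2 * X c b ^ 2 = nrm (rsq X) ^ 2 := by
    rw [nrm_sq, sum_congr rfl fun a _ => sum_comm, sum_comm]
    refine sum_congr rfl fun c _ => ?_
    rw [rsq_apply, sq (∑ e, X c e ^ 2), sum_mul_sum]
  simp only [sum_add_distrib, ← mul_sum (a := (10 / 7 : ℝ)), ← mul_sum (a := (28 : ℝ))]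
  rw [e1, e2, e3]; ring

omit [DecidableEq ι] in
theorem dv_split (w f1 f2 f3 f4 f5 f6 : ι → ι → ℝ) (s : ℝ) :
    ∑ a, ∑ b, w a b * (2 * f1 a b + 2 * f2 a b + 4 * s * f3 a b - f4 a b - f5 a b + f6 a b) =
      2 * ∑ a, ∑ b, w a b * f1 a b + 2 * ∑ a, ∑ b, w a b * f2 a b +
      4 * (s * ∑ a, ∑ b, w a b * f3 a b) - ∑ a, ∑ b, w a b * f4 a b - ∑ a, ∑ b, w a b * f5 a b +
      ∑ a, ∑ b, w a b * f6 a b := by
  simp only [mul_sum, ← sum_add_distrib, ← sum_sub_distrib]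
  exact sum_congr rfl fun a _ => sum_congr rfl fun b _ => by ring

/-- V1 -/
theorem drift_vv [Nonempty ι] (h : Sd P s X w sg xi mu) :
    ∑ a, ∑ b, w a b * (vv (stepM s X a b) - vv X) ≤
      -2 * Fintype.card ι * vv X + 3 * vv X * p4 X + P.eV (Fintype.card ι) := by
  have hX := h.wt.symm
  have hs := h.wt.sgn
  have hv := h.dv_nrm_dgv
  have hu := h.dv_nrm_rsq
  have hv0 := nrm_nonneg (dgv X)
  have hu0 := nrm_nonneg (rsq X)
  have hv1 : 0 ≤ P.v := hv0.trans hv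
  have hu1 : 0 ≤ P.u := hu0.trans hu
  have hro : 0 ≤ P.ro := h.wt.vp_nonneg (Classical.arbitrary ι)
  have hx1 : 0 ≤ P.x1 := h.wt.om_nonneg
  have hdd : 0 ≤ P.dd := (abs_nonneg _).trans h.tr
  have hk := Real.sqrt_nonneg (Fintype.card ι : ℝ)
  have hvu : nrm (dgv X) * nrm (rsq X) ≤ P.v * P.u := mul_le_mul hv hu hu0 hv1
  have hfr : frob (cj X (dgv X)) ≤ P.v * P.u := (frob_cj_le' hX _).trans hvu
  have hl1 : ∑ a, |cj X (dgv X) a a| ≤ P.v * P.u := by
    refine (sum_abs_cj_diag_le hX _).trans (le_trans (le_of_eq ?_)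
      ((sum_abs_mul_le (dgv X) (rsq X)).trans hvu))
    exact sum_congr rfl fun c _ => by rw [abs_of_nonneg (rsq_nonneg X c)]
  have htr : |∑ a, dgv X a| ≤ P.dd := h.tr
  have hvv : vv X ≤ P.v ^ 2 := by rw [dv_vv_eq]; exact pow_le_pow_left₀ hv0 hv 2
  have hvv0 : 0 ≤ vv X := by rw [dv_vv_eq]; positivity
  have hp0 : 0 ≤ p4 X := by unfold p4; positivity
  -- the linear diagonal term
  have a1 : ∑ a, ∑ b, w a b * (p1 s X a b * (cj X (dgv X) a a * dgv X b)) ≤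
      P.dd * P.v * P.u + 7 * (P.ro * P.v ^ 2 * P.u) := by
    have e1 := (abs_le.1 (h.wt.avgR h.wt.near_p1 (fun a => cj X (dgv X) a a) (dgv X))).2
    have e2 : (∑ a, cj X (dgv X) a a) * ∑ a, dgv X a ≤ P.v * P.u * P.dd := by
      refine (le_abs_self _).trans ?_
      rw [abs_mul]
      exact mul_le_mul ((abs_sum_le_sum_abs _ _).trans hl1) htr (abs_nonneg _) (by positivity)
    have e3 : (∑ a, |cj X (dgv X) a a|) * nrm (dgv X) ≤ P.v * P.u * P.v :=
      mul_le_mul hl1 hv hv0 (by positivity)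
    have e4 := mul_le_mul_of_nonneg_left e3 (show 0 ≤ (1 + 2 * 3) * P.ro by positivity)
    linarith
  -- the linear off-diagonal term
  have a2 : s * ∑ a, ∑ b, w a b * (p2 s X a b * cj X (dgv X) a b) ≤
      P.dd + 5 * (P.x1 * P.v * P.u) := by
    have e1 := h.wt.avgP h.wt.near_p2 (cj X (dgv X))
    rw [sum_sum_cj hX hs h.wt.rowsum] at e1
    have e2 := mul_le_mul_of_nonneg_left hfr (show 0 ≤ (1 + 2 * 2) * P.x1 by positivity)
    refine (le_abs_self _).trans ?_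
    rw [abs_mul, h.wt.abs_s, one_mul]
    have e3 := abs_sub_abs_le_abs_sub (∑ a, ∑ b, w a b * (p2 s X a b * cj X (dgv X) a b))
      (∑ a, dgv X a)
    linarith
  -- the removed entries
  have a3 : Fintype.card ι * vv X - 15 * (P.ro * P.v ^ 2 * √(Fintype.card ι)) ≤
      ∑ a, ∑ b, w a b * (p1 s X a b ^ 2 * dgv X a ^ 2) := by
    have e1 := (abs_le.1 (h.wt.avgR0 h.wt.near_p1_sq (fun a => dgv X a ^ 2))).1
    have e2 : ∑ a, dgv X a ^ 2 = vv X := rfl
    simp only [abs_pow, sq_abs, e2] at e1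
    have e3 := mul_le_mul_of_nonneg_left (mul_le_mul_of_nonneg_right hvv hk)
      (show 0 ≤ (1 + 2 * 7) * P.ro by positivity)
    linarith
  -- the quadratic term
  have a4 : ∑ a, ∑ b, w a b * ∑ c, (10 / 7 * (X b b ^ 2 * X c a ^ 4 + X a a ^ 2 * X c b ^ 4) +
      28 * (X c a ^ 2 * X c b ^ 2)) ≤ 3 * vv X * p4 X + 30 * P.u ^ 2 := by
    refine (h.wt.avgE' (fun a b => by positivity) fun a b _ => le_rfl).trans ?_
    rw [dv_sum_quad]
    have e1 : nrm (rsq X) ^ 2 ≤ P.u ^ 2 := pow_le_pow_left₀ hu0 hu 2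
    have e2 := mul_nonneg hvv0 hp0
    nlinarith [sq_nonneg P.u]
  have b1 := h.wt.avg_swap fun a b => p1 s X a b * (cj X (dgv X) a a * dgv X b)
  have b3 := h.wt.avg_swap fun a b => p1 s X a b ^ 2 * dgv X a ^ 2
  refine (h.wt.avg_mono fun a b hw => h.dv_point hw).trans ?_
  rw [dv_split, b1, b3]
  unfold Pr.eV
  have d1 : 0 ≤ P.dd * P.v * P.u := by positivity
  have d2 : 0 ≤ P.ro * P.v ^ 2 * P.u := by positivity
  have d3 : 0 ≤ P.x1 * P.v * P.u := by positivity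
  have d4 : 0 ≤ P.ro * P.v ^ 2 * √(Fintype.card ι) := by positivity
  linarith [sq_nonneg P.u]

end Vale.Agent.P049
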