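import Vale.Agent.P049.DriftW2

/-!
The drift of the trace of a word with three letters.
-/

namespace Vale.Agent.P049

open Matrix Finset

variable {ι : Type*} [Fintype ι]

theorem wsum_add (w X Y : ι → ι → ℝ) : ∑ a, ∑ b, w a b * (X a b + Y a b) =
    ∑ a, ∑ b, w a b * X a b + ∑ a, ∑ b, w a b * Y a b := by
  simp only [mul_add, sum_add_distrib]

theorem wsum_smul (w X : ι → ι → ℝ) (c : ℝ) : ∑ a, ∑ b, w a b * (c * X a b) =
    c * ∑ a, ∑ b, w a b * X a b := by
  simp only [mul_sum]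
  exact sum_congr rfl fun a _ => sum_congr rfl fun b _ => by ring

theorem ssum_add (X Y : ι → ι → ℝ) : ∑ a, ∑ b, (X a b + Y a b) =
    ∑ a, ∑ b, X a b + ∑ a, ∑ b, Y a b := by
  simp only [sum_add_distrib]

theorem ssum_smul (X : ι → ι → ℝ) (c : ℝ) : ∑ a, ∑ b, c * X a b = c * ∑ a, ∑ b, X a b := by
  simp only [mul_sum]

theorem nrm_sub_const_le (f : ι → ℝ) {c : ℝ} (hc : |c| = 1) :
    nrm (fun a => f a - c) ≤ nrm f + √(Fintype.card ι) := by
  have e : (fun a => f a - c) = f - c • fun _ : ι => (1 : ℝ) := by ext a; simp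
  have e1 := nrm_sub_le f (c • fun _ : ι => (1 : ℝ))
  rwa [nrm_smul, nrm_one, hc, one_mul, ← e] at e1

theorem sum_sub_const (M : Matrix ι ι ℝ) (c : ℝ) :
    ∑ a, (M a a - c) = trace M - c * Fintype.card ι := by
  simp [sum_sub_distrib, trace, mul_comm]

variable [DecidableEq ι]

namespace Sd

variable {P : Pr} {s s' : ℝ} {X Y : Matrix ι ι ℝ} {w sg : ι → ι → ℝ} {xi mu : ι → ℝ}

theorem nrm_dg_le (h : Sd P s X w sg xi mu) : nrm (fun b => X b b) ≤ P.v :=
  le_trans (nrm_mono fun a => (h.dg_le a).trans (le_abs_self _)) h.gl.xi_le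

theorem nrm_shift_le (h : Sd P s X w sg xi mu) (h' : Sd P s' Y w sg xi mu) :
    nrm (fun a => (X * Y) a a - s * s') ≤ P.g :=
  le_trans (nrm_mono fun a => (h.abs_shift_le h' a).trans (le_abs_self _)) h.gl.g_le

theorem x0_nonneg (h : Sd P s X w sg xi mu) : 0 ≤ P.x0 := h.wt.om1_nonneg

theorem x1_nonneg (h : Sd P s X w sg xi mu) : 0 ≤ P.x1 := h.wt.om_nonneg

theorem dd_nonneg (h : Sd P s X w sg xi mu) : 0 ≤ P.dd := (abs_nonneg _).trans h.tr

theorem f_nonneg (h : Sd P s X w sg xi mu) : 0 ≤ P.f := (frob_nonneg _).trans h.f4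

/-- The terms which are linear in `W`. -/
theorem sum_wl_le (h : Sd P s X w sg xi mu) {M : Matrix ι ι ℝ} {c r A B : ℝ} (hc : |c| = 1)
    (hr : |r| = 1) (hrow : ∀ a, ∑ b, M a b = r) (hA : nrm (fun a => M a a) ≤ A)
    (hB : frob M ≤ B) :
    ∑ a, ∑ b, w a b * wl s X M c a b ≤
      2 * (trace X * trace M - s * ∑ a, ∑ b, sg a b * M a b) +
        (2 * (P.dd * Fintype.card ι) + 2 * Fintype.card ι +
          14 * (P.x1 * ((A + √(Fintype.card ι)) * P.v)) + 10 * (P.x0 * B)) := by
  have W := h.wt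
  have e1 : ∑ a, ∑ b, w a b * wl s X M c a b =
      2 * ∑ a, ∑ b, w a b * (p1 s X a b * ((M a a - c) * X b b)) +
        2 * s * ∑ a, ∑ b, w a b * (p2 s X a b * M a b) := by
    have a1 := W.avg_swap fun a b => p1 s X a b * ((M a a - c) * X b b)
    have a2 := W.avg_swap fun a b => p2 s X a b * M a b
    have a3 : ∑ a, ∑ b, w a b * wl s X M c a b =
        ∑ a, ∑ b, w a b * (p1 s X a b * ((M a a - c) * X b b) +
          p1 s X b a * ((M b b - c) * X a a) + s * (p2 s X a b * M a b) +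
          s * (p2 s X b a * M b a)) := by
      refine sum_congr rfl fun a _ => sum_congr rfl fun b _ => ?_
      unfold wl
      rw [wd_eq, wd_eq, wo_eq W.sgn, p2_swap W.symm s a b]
      ring
    rw [a3, wsum_add, wsum_add, wsum_add, wsum_smul, wsum_smul, a1, a2]
    ring
  have e2 := W.avgPP W.near_p1 (fun a => M a a - c) fun b => X b b
  have e3 := W.avgL W.near_p2 M
  have e4 : nrm (fun a => M a a - c) * nrm (fun b => X b b) ≤ (A + √(Fintype.card ι)) * P.v :=
    mul_le_mul ((nrm_sub_const_le _ hc).trans (by linarith)) h.nrm_dg_le (nrm_nonneg _)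
      (add_nonneg ((nrm_nonneg _).trans hA) (Real.sqrt_nonneg _))
  have e5 := mul_le_mul_of_nonneg_left e4 h.x1_nonneg
  have e6 := mul_le_mul_of_nonneg_left hB h.x0_nonneg
  rw [sum_sub_const] at e2
  have e7 : ∑ b, X b b = trace X := rfl
  have e8 : ∑ a, ∑ b, M a b = r * Fintype.card ι := by simp [hrow, mul_comm]
  rw [e7] at e2
  rw [e8] at e3
  have k0 : (0 : ℝ) ≤ Fintype.card ι := Nat.cast_nonneg _
  have e9 : |c * Fintype.card ι * trace X| ≤ P.dd * Fintype.card ι := by
    rw [abs_mul, abs_mul, hc, one_mul, abs_of_nonneg k0, mul_comm]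
    exact mul_le_mul_of_nonneg_right h.tr k0
  have e10 : |s * (r * Fintype.card ι)| = Fintype.card ι := by
    rw [abs_mul, abs_mul, W.abs_s, hr, one_mul, one_mul, abs_of_nonneg k0]
  have e11 : |s * (∑ a, ∑ b, w a b * (p2 s X a b * M a b) - r * Fintype.card ι +
      ∑ a, ∑ b, sg a b * M a b)| ≤ (1 + 2 * 2) * P.x0 * frob M := by
    rw [abs_mul, W.abs_s, one_mul]; exact e3
  rw [e1]
  linarith [(abs_le.1 e2).2, (abs_le.1 e9).1, (abs_le.1 e11).2,
    le_abs_self (s * (r * Fintype.card ι))]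

theorem abs_ho_le (h : Sd P s X w sg xi mu) {a b : ι} (hw : w a b ≠ 0) :
    |ho s X a b| ≤ 3 / 2 * dh xi mu (X * X) a b := by
  have g := h.gl
  have W := h.wt
  have hw' := W.w_ne_swap hw
  have e0 : ho s X a b = bd s s X X a b * wo s X a b + wd s X b a * wd s X a b * (X * X) a b +
      wd s X b a * ((X * X) b b - s * s) * wo s X a b := by
    unfold ho bd
    rw [← sq s, W.sgn, (isSymm_mul_self W.isSymm).apply a b]
    ring
  have e1 : |bd s s X X a b * wo s X a b| ≤ 121 / 100 * (xi b * (1 + mu a) + |(X * X) b a|) := by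
    have a1 : |wd s X a b * ((X * X) a a - s * s)| ≤ 11 / 10 * xi b * (1 + mu a) := by
      rw [abs_mul]
      exact mul_le_mul (h.abs_wd_le hw) (h.abs_shift_le h a) (abs_nonneg _)
        (by have := g.xi_nonneg b; positivity)
    have a2 : |wo s X a b * (X * X) b a| ≤ 11 / 10 * |(X * X) b a| := by
      rw [abs_mul]; exact mul_le_mul_of_nonneg_right (W.abs_wo_le hw) (abs_nonneg _)
    have a3 : |bd s s X X a b| ≤ 11 / 10 * (xi b * (1 + mu a) + |(X * X) b a|) := by
      unfold bd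
      linarith [abs_add_le (wd s X a b * ((X * X) a a - s * s)) (wo s X a b * (X * X) b a)]
    rw [abs_mul]
    have a4 := mul_le_mul a3 (W.abs_wo_le hw) (abs_nonneg _) ((abs_nonneg _).trans a3)
    linarith
  have e2 : |wd s X b a * wd s X a b * (X * X) a b| ≤ |(X * X) a b| := by
    have a1 := mul_le_mul (h.abs_wd_le hw') (h.abs_wd_le hw) (abs_nonneg _)
      (by have := g.xi_nonneg a; positivity)
    rw [abs_mul, abs_mul]
    exact mul_le_of_le_one_left (abs_nonneg _) (by linarith [g.xx a b hw])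
  have e3 : |wd s X b a * ((X * X) b b - s * s) * wo s X a b| ≤
      121 / 100 * (xi a * (1 + mu b)) := by
    have a1 := mul_le_mul (h.abs_wd_le hw') (h.abs_shift_le h b) (abs_nonneg _)
      (by have := g.xi_nonneg a; positivity)
    have a2 := mul_le_mul a1 (W.abs_wo_le hw) (abs_nonneg _)
      ((mul_nonneg (abs_nonneg _) (abs_nonneg _)).trans a1)
    rw [abs_mul, abs_mul]
    linarith
  have z0 := g.dz_nonneg a b
  rw [e0]
  refine (abs_add_le _ _).trans ((add_le_add (abs_add_le _ _) le_rfl).trans ?_)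
  unfold dh dz at *
  linarith [abs_nonneg ((X * X) a b), abs_nonneg ((X * X) b a)]

theorem abs_wd_word_le (h : Sd P s X w sg xi mu) {a b : ι} (hw : w a b ≠ 0) {m : ℝ}
    (hm : |m| ≤ P.lam * mu a) : |wd s X a b * m| ≤ 11 / 10 * P.lam * dz xi mu a b := by
  have g := h.gl
  have a1 := mul_le_mul (h.abs_wd_le hw) hm (abs_nonneg _) (by have := g.xi_nonneg b; positivity)
  have a2 : xi b * mu a ≤ dz xi mu a b := by linarith [g.le_dz a b, g.xi_nonneg b]
  have a3 := mul_le_mul_of_nonneg_left a2 g.plam_nonneg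
  rw [abs_mul]
  linarith

/-- The term `tr W G W ([X Y X] - s' σ)`. -/
theorem sum_wq_le (h : Sd P s X w sg xi mu) (h' : Sd P s' Y w sg xi mu) {G : ℝ}
    (hG : frob (X * Y * X) ≤ G) :
    ∑ a, ∑ b, w a b * wq s s' X Y a b ≤
      2 * (trace (X * X) - Fintype.card ι) * trace (X * X * Y) +
        (22 * (P.x1 * P.lam * P.g ^ 2) + 40 * (P.lam * (P.v * P.g + P.f) * (P.v * P.g)) +
          12 * ((P.v * P.g + P.f) * (G + Fintype.card ι))) := by
  have W := h.wt
  have g := h.gl
  have hs : s * s = 1 := by rw [← sq, W.sgn]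
  set M := X * Y * X with hM
  have hd : ∀ a, |M a a| ≤ P.lam * mu a := h.abs_word_le h h'.op
  have e1 : ∑ a, ∑ b, w a b * wq s s' X Y a b =
      2 * ∑ a, ∑ b, w a b * (hz s X a b * M a a) +
        ∑ a, ∑ b, w a b * (2 * ho s X a b * (M a b - s')) := by
    have a1 := W.avg_swap fun a b => hz s X a b * M a a
    unfold wq
    rw [wsum_add, wsum_add, a1]
    ring
  have e2 : ∑ a, ∑ b, w a b * (hz s X a b * M a a) =
      ∑ a, ∑ b, w a b * (p2 s X a b ^ 2 * (M a a * ((X * X) b b - s * s))) +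
        ∑ a, ∑ b, w a b * ((bd s s X X a b + wo s X a b * (X * X) a b) * (wd s X a b * M a a)) := by
    rw [← wsum_add]
    refine sum_congr rfl fun a _ => sum_congr rfl fun b _ => ?_
    unfold hz bd
    rw [hs, (isSymm_mul_self W.isSymm).apply a b, wo_eq W.sgn]
    linear_combination (w a b * p2 s X a b ^ 2 * M a a * ((X * X) b b - 1)) * hs
  have e3 := W.avgPP W.near_p2_sq (fun a => M a a) fun b => (X * X) b b - s * s
  have e4 : nrm (fun a => M a a) * nrm (fun b => (X * X) b b - s * s) ≤ P.lam * P.g * P.g :=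
    mul_le_mul ((h.nrm_word_le h h'.op).trans
      (mul_le_mul_of_nonneg_left g.nrm_mu_le_g g.plam_nonneg)) (h.nrm_shift_le h) (nrm_nonneg _)
      (mul_nonneg g.plam_nonneg g.pg_nonneg)
  have e5 := mul_le_mul_of_nonneg_left e4 h.x1_nonneg
  have e6 : ∑ a, M a a = trace (X * X * Y) := by
    rw [show ∑ a, M a a = trace M from rfl, hM, trace_mul_comm, ← Matrix.mul_assoc]
  rw [sum_sub_const, e6, hs, one_mul] at e3
  rw [hs] at e2 e5
  have e7 : ∑ a, ∑ b, w a b * ((bd s s X X a b + wo s X a b * (X * X) a b) *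
      (wd s X a b * M a a)) ≤ 2 * ∑ a, ∑ b, 5 / 2 * P.lam *
        (dh xi mu (X * X) a b * dz xi mu a b) := by
    refine W.avgE (fun a b => ?_) fun a b hw => (le_abs_self _).trans ?_
    · have := g.dh_nonneg (X * X) a b
      have := g.dz_nonneg a b
      have := g.plam_nonneg
      positivity
    · have a1 := h.abs_bd_le h hw
      have a2 : |wo s X a b * (X * X) a b| ≤ 11 / 10 * |(X * X) a b| := by
        rw [abs_mul]; exact mul_le_mul_of_nonneg_right (W.abs_wo_le hw) (abs_nonneg _)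
      have a3 : |(X * X) a b| ≤ dh xi mu (X * X) a b := by
        unfold dh; linarith [g.dz_nonneg a b, abs_nonneg ((X * X) b a)]
      have a4 : |bd s s X X a b + wo s X a b * (X * X) a b| ≤ 11 / 5 * dh xi mu (X * X) a b := by
        linarith [abs_add_le (bd s s X X a b) (wo s X a b * (X * X) a b)]
      have a5 := mul_le_mul a4 (h.abs_wd_word_le hw (hd a)) (abs_nonneg _)
        ((abs_nonneg _).trans a4)
      have a6 : 0 ≤ P.lam * (dh xi mu (X * X) a b * dz xi mu a b) :=
        mul_nonneg g.plam_nonneg (mul_nonneg (g.dh_nonneg _ a b) (g.dz_nonneg a b))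
      rw [abs_mul]
      linarith
  have e8 := mul_le_mul_of_nonneg_left
    (sum_mul_le_frob _ _ (g.frob_dh (X * X) h.f4) g.frob_dz) g.plam_nonneg
  rw [ssum_smul] at e7
  have e9 : ∑ a, ∑ b, w a b * (2 * ho s X a b * (M a b - s')) ≤
      2 * ∑ a, ∑ b, 3 * (dh xi mu (X * X) a b * |M a b - s'|) := by
    refine W.avgE (fun a b => ?_) fun a b hw => (le_abs_self _).trans ?_
    · have := g.dh_nonneg (X * X) a b
      positivity
    · have a1 := mul_le_mul_of_nonneg_right (h.abs_ho_le hw) (abs_nonneg (M a b - s'))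
      rw [abs_mul, abs_mul, abs_two]
      linarith
  have e10 := sum_mul_le_frob _ _ (g.frob_dh (X * X) h.f4)
    ((frob_abs_sub_le M h'.wt.abs_s).trans (add_le_add hG le_rfl))
  rw [ssum_smul] at e9
  rw [e1, e2]
  linarith [(abs_le.1 e3).2]

/-- One half of the term `tr W H W' ([Y X X] - s' σ)`. -/
theorem sum_wk_le (h : Sd P s X w sg xi mu) (h' : Sd P s' Y w sg xi mu) {τ : ℝ}
    (hτ : frob (X * Y) ≤ τ) :
    ∑ a, ∑ b, w a b * wk s s' X Y a b ≤
      (s * s' * trace (X * Y) - Fintype.card ι) * trace (X * X * Y) +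
        (10 * (P.x1 * P.lam * P.g ^ 2) + 40 * (P.lam * (P.v * P.g + τ) ^ 2) +
          12 * (Fintype.card ι * (P.v * P.g + τ))) := by
  have W := h.wt
  have W' := h'.wt
  have g := h.gl
  have hs : s * s = 1 := by rw [← sq, W.sgn]
  have hs' : s' * s' = 1 := by rw [← sq, W'.sgn]
  have hss : |s * s'| = 1 := by rw [abs_mul, W.abs_s, W'.abs_s, one_mul]
  set M := Y * X * X with hM
  have hd : ∀ a, |M a a| ≤ P.lam * mu a := h'.abs_word_le h h.op
  have hτ0 : 0 ≤ τ := (frob_nonneg _).trans hτ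
  have hvg : 0 ≤ P.v * P.g := mul_nonneg g.pv_nonneg g.pg_nonneg
  have hF : frob M ≤ τ * P.lam := by
    have a1 : frob (Y * X) = frob (X * Y) := by
      rw [← frob_transpose, transpose_mul, W.symm, W'.symm]
    exact (frob_mul_le_frob_opn _ _).trans (mul_le_mul (a1.trans_le hτ) h.op (opn_nonneg _) hτ0)
  have e1 : ∑ a, ∑ b, w a b * wk s s' X Y a b =
      s * s' * ∑ a, ∑ b, w a b * (p2 s X a b * (M a a * ((X * Y) b b - s * s'))) +
        ∑ a, ∑ b, w a b * (p2 s' Y a b - 1) *
          (s * s' * p2 s X a b * (M a a * ((X * Y) b b - s * s'))) +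
        ∑ a, ∑ b, w a b * (bd s s' X Y a b * (wd s' Y a b * M a a) +
          wo s' Y a b * (X * Y) a b * (wd s X a b * M a a) +
          (bd s s' X Y a b * wo s' Y a b + bo s s' X Y a b * wd s' Y b a) * (M b a - s')) := by
    rw [← wsum_smul]
    simp only [← sum_add_distrib]
    refine sum_congr rfl fun a _ => sum_congr rfl fun b _ => ?_
    unfold wk
    generalize bd s s' X Y a b = z
    unfold bo
    rw [wo_eq W.sgn, wo_eq W'.sgn]
    ring
  have e3 := W.avgPP W.near_p2 (fun a => M a a) fun b => (X * Y) b b - s * s'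
  have e4 : nrm (fun a => M a a) * nrm (fun b => (X * Y) b b - s * s') ≤ P.lam * P.g * P.g :=
    mul_le_mul ((h'.nrm_word_le h h.op).trans
      (mul_le_mul_of_nonneg_left g.nrm_mu_le_g g.plam_nonneg)) (h.nrm_shift_le h') (nrm_nonneg _)
      (mul_nonneg g.plam_nonneg g.pg_nonneg)
  have e5 := mul_le_mul_of_nonneg_left e4 h.x1_nonneg
  have e6 : ∑ a, M a a = trace (X * X * Y) := by
    rw [show ∑ a, M a a = trace M from rfl, hM, Matrix.mul_assoc, trace_mul_comm]
  rw [sum_sub_const, e6] at e3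
  have e3' : |s * s' * (∑ a, ∑ b, w a b * (p2 s X a b * (M a a * ((X * Y) b b - s * s'))) -
      trace (X * X * Y) * (trace (X * Y) - s * s' * Fintype.card ι))| ≤
      (1 + 2 * 2) * P.x1 * (nrm (fun a => M a a) * nrm fun b => (X * Y) b b - s * s') := by
    rw [abs_mul, hss, one_mul]; exact e3
  have e3'' : s * s' * (trace (X * X * Y) * (trace (X * Y) - s * s' * Fintype.card ι)) =
      (s * s' * trace (X * Y) - Fintype.card ι) * trace (X * X * Y) := by
    linear_combination (-(trace (X * X * Y) * Fintype.card ι * (s' * s'))) * hs -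
      (trace (X * X * Y) * Fintype.card ι) * hs'
  have e7 : ∑ a, ∑ b, w a b * (p2 s' Y a b - 1) *
      (s * s' * p2 s X a b * (M a a * ((X * Y) b b - s * s'))) ≤
      11 / 10 * (2 * 2 * P.x0 * (nrm (fun a => M a a) * nrm fun b => (X * Y) b b - s * s')) := by
    have a1 := sum_sum_abs_mul_le (Matrix.of fun a b => w a b * (p2 s' Y a b - 1))
      (vecMulVec (fun a => M a a) fun b => (X * Y) b b - s * s')
    rw [frob_vecMulVec] at a1
    have a2 := mul_le_mul_of_nonneg_right (W'.frob_w_mul_le W'.near_p2)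
      (mul_nonneg (nrm_nonneg fun a => M a a) (nrm_nonneg fun b => (X * Y) b b - s * s'))
    refine le_trans ?_ (mul_le_mul_of_nonneg_left (a1.trans a2) (by norm_num))
    rw [← ssum_smul]
    refine sum_le_sum fun a _ => sum_le_sum fun b _ => ?_
    simp only [of_apply, vecMulVec_apply]
    by_cases hw : w a b = 0
    · simp [hw]
    · refine (le_abs_self _).trans ?_
      rw [abs_mul, abs_mul (s * s' * p2 s X a b), abs_mul (s * s'), hss, one_mul]
      have a3 := mul_le_mul_of_nonneg_right (W.abs_p2_le hw) (mul_nonneg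
        (abs_nonneg (w a b * (p2 s' Y a b - 1))) (abs_nonneg (M a a * ((X * Y) b b - s * s'))))
      linarith
  have e8 : P.x0 * (nrm (fun a => M a a) * nrm fun b => (X * Y) b b - s * s') ≤
      P.x1 * (P.lam * P.g * P.g) :=
    mul_le_mul W.om1_le e4 (mul_nonneg (nrm_nonneg _) (nrm_nonneg _)) h.x1_nonneg
  have e9 : ∑ a, ∑ b, w a b * (bd s s' X Y a b * (wd s' Y a b * M a a) +
      wo s' Y a b * (X * Y) a b * (wd s X a b * M a a) +
      (bd s s' X Y a b * wo s' Y a b + bo s s' X Y a b * wd s' Y b a) * (M b a - s')) ≤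
      2 * ∑ a, ∑ b, (5 / 2 * P.lam * (dh xi mu (X * Y) a b * dh xi mu (X * Y) a b) +
        3 * (dh xi mu (X * Y) a b * |Mᵀ a b - s'|)) := by
    refine W.avgE (fun a b => ?_) fun a b hw => (le_abs_self _).trans ?_
    · have := g.dh_nonneg (X * Y) a b
      have := g.plam_nonneg
      positivity
    · have hw' := W.w_ne_swap hw
      have H0 := g.dh_nonneg (X * Y) a b
      have z0 := g.dz_nonneg a b
      have a1 := h.abs_bd_le h' hw
      have a2 : dz xi mu a b + |(X * Y) a b| ≤ dh xi mu (X * Y) a b := by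
        unfold dh; linarith [abs_nonneg ((X * Y) b a)]
      have n1 := abs_nonneg ((X * Y) a b)
      have a3 : 11 / 10 * P.lam * dz xi mu a b ≤ 11 / 10 * P.lam * dh xi mu (X * Y) a b :=
        mul_le_mul_of_nonneg_left (by linarith) (by have := g.plam_nonneg; positivity)
      have b1 : |bd s s' X Y a b * (wd s' Y a b * M a a)| ≤
          11 / 10 * dh xi mu (X * Y) a b * (11 / 10 * P.lam * dh xi mu (X * Y) a b) := by
        rw [abs_mul]
        exact mul_le_mul a1 ((h'.abs_wd_word_le hw (hd a)).trans a3) (abs_nonneg _) (by positivity)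
      have b2 : |wo s' Y a b * (X * Y) a b * (wd s X a b * M a a)| ≤
          11 / 10 * dh xi mu (X * Y) a b * (11 / 10 * P.lam * dh xi mu (X * Y) a b) := by
        rw [abs_mul, abs_mul]
        exact mul_le_mul (mul_le_mul (W'.abs_wo_le hw) (by linarith) n1 (by norm_num))
          ((h.abs_wd_word_le hw (hd a)).trans a3) (abs_nonneg _) (by positivity)
      have b3 : |bd s s' X Y a b * wo s' Y a b| ≤ 11 / 10 * dh xi mu (X * Y) a b * (11 / 10) := by
        rw [abs_mul]
        exact mul_le_mul a1 (W'.abs_wo_le hw) (abs_nonneg _) (by positivity)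
      have b4 : |bo s s' X Y a b * wd s' Y b a| ≤ 121 / 100 * dh xi mu (X * Y) a b := by
        have c1 := h.abs_bo_le h' hw
        have c2 := mul_le_mul c1 (h'.abs_wd_le hw') (abs_nonneg _) ((abs_nonneg _).trans c1)
        have c3 : xi a * xi b * |(X * Y) a b| ≤ 1 * |(X * Y) a b| :=
          mul_le_mul_of_nonneg_right (by linarith [g.xx a b hw]) n1
        have c4 := g.le_dz b a
        rw [dz_swap] at c4
        rw [abs_mul]
        linarith
      have b5 : |(bd s s' X Y a b * wo s' Y a b + bo s s' X Y a b * wd s' Y b a) * (M b a - s')| ≤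
          3 * dh xi mu (X * Y) a b * |M b a - s'| := by
        rw [abs_mul]
        refine mul_le_mul_of_nonneg_right ((abs_add_le _ _).trans ?_) (abs_nonneg _)
        linarith
      have b6 : 0 ≤ P.lam * (dh xi mu (X * Y) a b * dh xi mu (X * Y) a b) :=
        mul_nonneg g.plam_nonneg (by positivity)
      refine (abs_add_le _ _).trans ((add_le_add (abs_add_le _ _) le_rfl).trans ?_)
      rw [transpose_apply]
      linarith
  rw [ssum_add, ssum_smul, ssum_smul] at e9
  have e10 := mul_le_mul_of_nonneg_left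
    (sum_mul_le_frob _ _ (g.frob_dh (X * Y) hτ) (g.frob_dh (X * Y) hτ)) g.plam_nonneg
  have e11 := sum_mul_le_frob _ _ (g.frob_dh (X * Y) hτ)
    ((frob_abs_sub_le Mᵀ W'.abs_s).trans (add_le_add ((frob_transpose M).trans_le hF) le_rfl))
  have e12 : 0 ≤ P.lam * ((P.v * P.g + τ) * (P.v * P.g)) :=
    mul_nonneg g.plam_nonneg (by positivity)
  have e13 : 0 ≤ P.lam * (P.v * P.g + τ) ^ 2 := mul_nonneg g.plam_nonneg (by positivity)
  have e14 : 0 ≤ P.x1 * P.lam * P.g ^ 2 :=
    mul_nonneg (mul_nonneg h.x1_nonneg g.plam_nonneg) (by positivity)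
  rw [e1]
  linarith [(abs_le.1 e3').2]

/-- One half of the cubic term. -/
theorem sum_wc_le (h : Sd P s X w sg xi mu) (h' : Sd P s' Y w sg xi mu) {τ : ℝ}
    (hτ : frob (X * Y) ≤ τ) :
    ∑ a, ∑ b, w a b * wc s s' X Y a b ≤ 12 * ((P.v * P.g + P.f) * P.g ^ 2) +
      24 * ((P.v * P.g + τ) * P.g ^ 2) + 320 * (P.t * (P.v * P.g + τ) ^ 2) := by
  have g := h.gl
  have e1 : ∑ a, ∑ b, w a b * wc s s' X Y a b ≤ 2 * ∑ a, ∑ b,
      (3 * (dh xi mu (X * X) a b * ((1 + mu a) * (1 + mu b))) +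
        6 * (dh xi mu (X * Y) a b * ((1 + mu a) * (1 + mu b))) +
        40 * P.t * (dh xi mu (X * Y) a b * dh xi mu (X * Y) a b)) := by
    refine h.wt.avgE (fun a b => ?_) fun a b hw => (le_abs_self _).trans (h.abs_wc_le h' hw)
    have := g.dh_nonneg (X * Y) a b
    have := g.dh_nonneg (X * X) a b
    have := g.mu_nonneg a
    have := g.mu_nonneg b
    have := g.t_nonneg
    positivity
  rw [ssum_add, ssum_add, ssum_smul, ssum_smul, ssum_smul] at e1
  have e2 := sum_mul_le_frob _ _ (g.frob_dh (X * X) h.f4) g.frob_mm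
  have e3 := sum_mul_le_frob _ _ (g.frob_dh (X * Y) hτ) g.frob_mm
  have e4 := mul_le_mul_of_nonneg_left
    (sum_mul_le_frob _ _ (g.frob_dh (X * Y) hτ) (g.frob_dh (X * Y) hτ)) g.t_nonneg
  linarith

end Sd

/-- The drift of `trace (X * X * Y)`; `Y` is `X` itself or the other kernel. -/
theorem drift_t3 {P : Pr} {s : ℝ} {X : Matrix ι ι ℝ} {w sg : ι → ι → ℝ} {xi mu : ι → ℝ}
    {s' τ G : ℝ} {Y : Matrix ι ι ℝ} (h : Sd P s X w sg xi mu)
    (h' : Sd P s' Y w sg xi mu) (hτ : frob (X * Y) ≤ τ) (hG : frob (X * Y * X) ≤ G) :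
    ∑ a, ∑ b, w a b * (trace (stepM s X a b * stepM s X a b * stepM s' Y a b) -
        trace (X * X * Y)) ≤
      (2 * (trace (X * X) - Fintype.card ι) + 4 * (s * s' * trace (X * Y) - Fintype.card ι)) *
          trace (X * X * Y) +
        4 * (trace X * trace (X * X * X * Y) - s * ∑ a, ∑ b, sg a b * (X * X * Y * X) a b) +
        2 * (trace Y * trace (X * X * Y * Y) - s' * ∑ a, ∑ b, sg a b * (Y * X * X * Y) a b) +
        P.eT (Fintype.card ι) τ G := by
  have W := h.wt
  have W' := h'.wt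
  have g := h.gl
  have hss : |s * s'| = 1 := by rw [abs_mul, W.abs_s, W'.abs_s, one_mul]
  have hl := g.plam_nonneg
  have hτ0 : 0 ≤ τ := (frob_nonneg _).trans hτ
  have hG0 : 0 ≤ G := (frob_nonneg _).trans hG
  have e0 : ∑ a, ∑ b, w a b * (trace (stepM s X a b * stepM s X a b * stepM s' Y a b) -
      trace (X * X * Y)) = 2 * ∑ a, ∑ b, w a b * wl s X (X * X * Y * X) (s * s') a b +
      ∑ a, ∑ b, w a b * wl s' Y (Y * X * X * Y) 1 a b + ∑ a, ∑ b, w a b * wq s s' X Y a b +
      4 * ∑ a, ∑ b, w a b * wk s s' X Y a b + 2 * ∑ a, ∑ b, w a b * wc s s' X Y a b := by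
    rw [W.avg_congr fun a b hw => t3_ident W.sgn W'.sgn W.isSymm W'.isSymm (W.ne a b hw)
      (W.den_ne hw) (W'.den_ne hw), wsum_add, wsum_add, wsum_add, wsum_add, wsum_add, wsum_smul,
      wsum_smul, wsum_add, W.avg_swap (wk s s' X Y), W.avg_swap (wc s s' X Y)]
    ring
  have hmu : P.lam * P.lam * nrm mu ≤ P.lam * P.lam * P.u :=
    mul_le_mul_of_nonneg_left g.mu_le (by positivity)
  have e1 := h.sum_wl_le (M := X * X * Y * X) (r := s * s * s' * s) (A := P.lam * P.lam * P.u)
    (B := P.lam * G) hss (by simp only [abs_mul, W.abs_s, W'.abs_s, one_mul])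
    (sum_row_mul (sum_row_mul (sum_row_mul W.rowsum W.rowsum) W'.rowsum) W.rowsum)
    (by
      rw [Matrix.mul_assoc X X Y]
      exact (h.nrm_word_le h ((opn_mul_le X Y).trans
        (mul_le_mul h.op h'.op (opn_nonneg _) hl))).trans hmu)
    (by
      rw [Matrix.mul_assoc X X Y, Matrix.mul_assoc X (X * Y) X]
      exact (frob_mul_le_opn_frob _ _).trans (mul_le_mul h.op hG (frob_nonneg _) hl))
  have e2 := h'.sum_wl_le (M := Y * X * X * Y) (c := 1) (r := s' * s * s * s')
    (A := P.lam * P.lam * P.u) (B := τ * τ) abs_one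
    (by simp only [abs_mul, W.abs_s, W'.abs_s, one_mul])
    (sum_row_mul (sum_row_mul (sum_row_mul W'.rowsum W.rowsum) W.rowsum) W'.rowsum)
    (by
      rw [Matrix.mul_assoc Y X X]
      exact (h'.nrm_word_le h' ((opn_mul_le X X).trans
        (mul_le_mul h.op h.op (opn_nonneg _) hl))).trans hmu)
    (by
      have a1 : frob (Y * X) = frob (X * Y) := by
        rw [← frob_transpose, transpose_mul, W.symm, W'.symm]
      rw [Matrix.mul_assoc (Y * X) X Y]
      exact (frob_mul_le _ _).trans (mul_le_mul (a1.trans_le hτ) hτ (frob_nonneg _) hτ0))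
  have e3 := h.sum_wq_le h' hG
  have e4 := h.sum_wk_le h' hτ
  have e5 := h.sum_wc_le h' hτ
  have t1 : trace (X * X * Y * X) = trace (X * X * X * Y) := by
    rw [trace_mul_comm, ← Matrix.mul_assoc, ← Matrix.mul_assoc]
  have t2 : trace (Y * X * X * Y) = trace (X * X * Y * Y) := by
    rw [Matrix.mul_assoc Y X X, Matrix.mul_assoc Y, trace_mul_comm]
  rw [t1] at e1
  rw [t2] at e2
  rw [e0]
  unfold Pr.eT
  have k0 : (0 : ℝ) ≤ Fintype.card ι := Nat.cast_nonneg _
  have q0 := Real.sqrt_nonneg (Fintype.card ι)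
  have v0 := g.pv_nonneg
  have u0 := g.pu_nonneg
  have g0 := g.pg_nonneg
  have t0 := g.t_nonneg
  have x0 := h.x0_nonneg
  have x1 := h.x1_nonneg
  have d0 := h.dd_nonneg
  have f0 := h.f_nonneg
  generalize (Fintype.card ι : ℝ) = k at *
  have n1 : 0 ≤ P.dd * k := by positivity
  have n2 : 0 ≤ P.x1 * P.v * P.lam ^ 2 * P.u := by positivity
  have n3 : 0 ≤ P.x1 * P.v * √k := by positivity
  have n4 : 0 ≤ P.x0 * P.lam * G := by positivity
  have n5 : 0 ≤ P.x0 * τ ^ 2 := by positivity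
  have n6 : 0 ≤ P.x1 * P.lam * P.g ^ 2 := by positivity
  have n7 : 0 ≤ P.lam * (P.v * P.g + P.f) * (P.v * P.g) := by positivity
  have n8 : 0 ≤ (P.v * P.g + P.f) * G := by positivity
  have n9 : 0 ≤ k * (P.v * P.g + P.f) := by positivity
  have n10 : 0 ≤ P.lam * (P.v * P.g + τ) ^ 2 := by positivity
  have n11 : 0 ≤ k * (P.v * P.g + τ) := by positivity
  have n12 : 0 ≤ (P.v * P.g) * P.g ^ 2 := by positivity
  have n13 : 0 ≤ P.f * P.g ^ 2 := by positivity
  have n14 : 0 ≤ τ * P.g ^ 2 := by positivity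
  have n15 : 0 ≤ P.t * (P.v * P.g + τ) ^ 2 := by positivity
  linarith

end Vale.Agent.P049
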