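import Vale.Agent.P049.EnvU

/-!
The envelope step for the three linear potentials of traces of words.
-/

namespace Vale.Agent.P049

open Matrix Finset

variable {ι : Type*} [Fintype ι] {E : Env ℝ} {k ε : ℝ} {w : ι → ι → ℝ}

/-- ES -/
theorem Sc.envS (h : Sc E k (∑ a, ∑ b, w a b) ε) {S e1 : ℝ} (S' : ι → ι → ℝ)
    (h1 : ∑ a, ∑ b, w a b * (S' a b - S) ≤ e1) (b1 : e1 ≤ ε * E.Sb * k) :
    ∑ a, ∑ b, w a b * (E.fS (S' a b) - E.fS S) ≤ 1000 * ε * k := by
  have hk := h.hk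
  have hε := h.ε_pos
  have hS := h.Sb_pos
  have hεk : 0 < ε * k := by positivity
  unfold Env.fS
  refine (eu_core (B := ε * k) S' hS hS (by linarith) hεk.le ?_).trans (by linarith)
  rw [div_self hS.ne', sub_self, mul_zero, mul_zero, add_zero]
  linarith

/-- EC -/
theorem Sc.envC (h : Sc E k (∑ a, ∑ b, w a b) ε) {C e1 : ℝ} (C' : ι → ι → ℝ) (h0 : 0 ≤ C)
    (hC : E.fC k C ≤ 1) (h1 : ∑ a, ∑ b, w a b * (C' a b - C) ≤ -2 * k * C + e1)
    (b1 : e1 ≤ ε * (E.uC * k) * k) :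
    ∑ a, ∑ b, w a b * (E.fC (k - 2) (C' a b) - E.fC k C) ≤ 1000 * ε * k := by
  have hk := h.hk
  have hk0 : 0 < k := by linarith
  have hk2 : 0 < k - 2 := by linarith
  have hε := h.ε_pos
  have hu := h.uC_pos
  have hεk : 0 < ε * k := by positivity
  have he : 0 < E.uC * k := by positivity
  have hC' : C ≤ E.uC * k := (div_le_one he).1 hC
  have hr : 1 - E.uC * (k - 2) / (E.uC * k) = 2 / k := by field_simp; ring
  have hz := h.eu_loss (x := 2 / k) (c := 2) (le_of_eq (by field_simp)) (by norm_num) (by norm_num)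
  unfold Env.fC
  refine (eu_core (B := 6 * ε * k) C' he (by positivity) (by nlinarith) (by positivity)
    ?_).trans (by linarith)
  rw [hr]
  have a1 := mul_le_mul_of_nonneg_left hz h0
  have a4 := mul_le_mul_of_nonneg_left hC' hεk.le
  linarith

/-- ER -/
theorem Sc.envR (h : Sc E k (∑ a, ∑ b, w a b) ε) {R e1 : ℝ} (R' : ι → ι → ℝ) (h0 : 1 ≤ R)
    (hF : E.fR k R ≤ 1) (hR : R ≤ k * E.q k + 8 * ε * k)
    (h1 : ∑ a, ∑ b, w a b * (R' a b - R) ≤ 2 * R ^ 2 - 4 * k * R + 4 * k + e1)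
    (b1 : 2 + e1 ≤ ε * (k * E.q k) * k) :
    ∑ a, ∑ b, w a b * (E.fR (k - 2) (R' a b) - E.fR k R) ≤ 1000 * ε * k := by
  obtain ⟨θ, hθ0, hq', hθ, hq0, hq1, -⟩ := h.eu_theta
  have hk := h.hk
  have hk0 : 0 < k := by linarith
  have hk2 : 0 < k - 2 := by linarith
  have hε := h.ε_pos
  have hε1 := h.ε_le
  have hεk := h.εk
  have hθ1 : θ ≤ 1 / 1000 := by
    refine le_of_mul_le_mul_left ?_ hk0
    linarith
  have hθ2 : 0 < 1 - θ := by linarith
  have he : 0 < 8 * (k * E.q k) := by positivity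
  have hB : R - 1 ≤ 8 * (k * E.q k) := (div_le_one he).1 hF
  have hB0 : 0 ≤ R - 1 := by linarith
  have hr : k * (1 - 8 * ((k - 2) * (E.q k * (1 - θ))) / (8 * (k * E.q k))) =
      2 + k * θ - 2 * θ := by field_simp; ring
  have hz := h.eu_loss (x := 1 - 8 * ((k - 2) * (E.q k * (1 - θ))) / (8 * (k * E.q k)))
    (c := 4 - 2 * E.q k + 6 * ε) (by rw [hr]; linarith) (by linarith) (by linarith)
  have hh : k ≤ 2 * ((k - 2) * (1 - θ)) := by nlinarith
  unfold Env.fR
  rw [hq']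
  refine (eu_core (B := 40 * ε * k) (fun a b => R' a b - 1) he (by positivity)
    (by nlinarith [mul_le_mul_of_nonneg_left hh hq0.le]) (by positivity) ?_).trans (by nlinarith)
  have e1' : ∀ a b, R' a b - 1 - (R - 1) = R' a b - R := fun a b => by ring
  simp only [e1']
  have a1 := mul_le_mul_of_nonneg_left hz hB0
  have a2 := mul_le_mul_of_nonneg_left hR hB0
  have a3 := mul_le_mul_of_nonneg_left hεk hB0
  have a4 := mul_le_mul_of_nonneg_left hB (show 0 ≤ ε * k by positivity)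
  have a5 : 0 ≤ ε * k * (k * E.q k) := by positivity
  nlinarith

end Vale.Agent.P049
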