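import Vale.Agent.P049.Iface
import Vale.Agent.P049.Tilt

/-!
The tilt inequalities in the form used by the drift estimates.
-/

namespace Vale.Agent.P049

open Matrix Finset

variable {ι : Type*} [Fintype ι] [DecidableEq ι]

/-- The hypotheses of the tilt inequalities. -/
structure Tl (X Y : Matrix ι ι ℝ) (L lam dd tt ρ τ f : ℝ) : Prop where
  sX : Xᵀ = X
  sY : Yᵀ = Y
  pX : (X + 1).PosSemidef
  pY : (Y + 1).PosSemidef
  oX : opn X ≤ lam
  oY : opn Y ≤ lam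
  tX : |trace X| ≤ dd
  tY : |trace Y| ≤ dd
  hL : 1 ≤ L
  htt : 1 ≤ tt
  hdL : dd * L ≤ tt ^ 2
  hρ : dd * tt + 1 ≤ ρ
  hτ : frob (X * Y) ≤ τ
  fX : frob (X * X) ≤ f
  fY : frob (Y * Y) ≤ f

variable {X Y : Matrix ι ι ℝ} {L lam dd tt ρ τ f : ℝ}

theorem Tl.symm (h : Tl X Y L lam dd tt ρ τ f) : Tl Y X L lam dd tt ρ τ f :=
  ⟨h.sY, h.sX, h.pY, h.pX, h.oY, h.oX, h.tY, h.tX, h.hL, h.htt, h.hdL, h.hρ,
    (frob_mul_comm_symm h.sY h.sX).trans_le h.hτ, h.fY, h.fX⟩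

omit [DecidableEq ι] in
theorem tilt_swap (L : ℝ) (X Y : Matrix ι ι ℝ) (a b : ι) : tilt L Y X a b = -tilt L X Y a b := by
  unfold tilt; ring

omit [DecidableEq ι] in
theorem sw_nonneg (X : Matrix ι ι ℝ) : 0 ≤ sw X := by unfold sw; split_ifs <;> norm_num

omit [DecidableEq ι] in
theorem sw_le_one (X : Matrix ι ι ℝ) : sw X ≤ 1 := by unfold sw; split_ifs <;> norm_num

omit [DecidableEq ι] in
theorem sw_of_pos {X : Matrix ι ι ℝ} (h : 0 < trace X) : sw X = 1 := if_pos h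

omit [DecidableEq ι] in
theorem trace_mul_sw_nonneg (X : Matrix ι ι ℝ) : 0 ≤ trace X * sw X := by
  unfold sw; split_ifs with h
  · linarith
  · simp

omit [DecidableEq ι] in
theorem tilt_symm (hX : Xᵀ = X) (hY : Yᵀ = Y) (L : ℝ) (a b : ι) :
    tilt L X Y a b = tilt L X Y b a := by
  have h1 : (X * X)ᵀ = X * X := by rw [transpose_mul, hX]
  have h2 : (Y * Y)ᵀ = Y * Y := by rw [transpose_mul, hY]
  unfold tilt
  rw [symm_apply h1 a b, symm_apply h2 a b]

/-- the tilt against a matrix -/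
theorem sum_tilt_eq (hX : Xᵀ = X) (hY : Yᵀ = Y) (L : ℝ) (M : Matrix ι ι ℝ) :
    ∑ a, ∑ b, tilt L X Y a b * M a b =
      sw X * trace (X ^ 2 * M) / L - sw Y * trace (Y ^ 2 * M) / L := by
  rw [← sum_sum_ker_eq_trace (pow_symm hX 2), ← sum_sum_ker_eq_trace (pow_symm hY 2)]
  simp only [Finset.mul_sum, Finset.sum_div, ← Finset.sum_sub_distrib, sq]
  refine Finset.sum_congr rfl fun a _ => Finset.sum_congr rfl fun b _ => ?_
  unfold tilt; ring

omit [DecidableEq ι] in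
theorem sw_mul_div_le {Z : Matrix ι ι ℝ} {x y : ℝ} (hL : 1 ≤ L) (h : |x| ≤ y) :
    sw Z * x / L ≤ y / L := by
  refine div_le_div_of_nonneg_right ?_ (by linarith)
  have h1 := sw_nonneg Z
  have h2 := sw_le_one Z
  have h3 := abs_le.mp h
  nlinarith [abs_nonneg x]

namespace Tl

variable (h : Tl X Y L lam dd tt ρ τ f)

include h

theorem L_pos : 0 < L := by linarith [h.hL]

theorem dd_nonneg : 0 ≤ dd := (abs_nonneg _).trans h.tX

theorem lam_nonneg : 0 ≤ lam := (opn_nonneg _).trans h.oX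

theorem τ_nonneg : 0 ≤ τ := (frob_nonneg _).trans h.hτ

theorem nu_le : trace (X ^ 2 * Y ^ 2) ≤ τ ^ 2 := by
  rw [trace_sq_mul_sq_eq h.sX h.sY]
  exact pow_le_pow_left₀ (frob_nonneg _) h.hτ 2

theorem coef_le : dd * tt + 1 / L ≤ ρ := by
  have : 1 / L ≤ 1 := by rw [div_le_one h.L_pos]; exact h.hL
  linarith [h.hρ]

theorem dd_le : dd ≤ ρ := by nlinarith [h.hρ, h.htt, h.dd_nonneg]

theorem cross_pow (j : ℕ) : |trace (Y ^ 2 * X ^ (j + 2))| ≤ lam ^ j * τ ^ 2 :=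
  (abs_trace_sq_pow_le h.sX h.sY h.oX j).trans
    (mul_le_mul_of_nonneg_left h.nu_le (pow_nonneg h.lam_nonneg j))

theorem even (hP : X ^ 2 = X * X) :
    trace Y * trace (Y ^ 2 * X ^ 2) - sw Y * trace (Y ^ 4 * X ^ 2) / L ≤
      ρ * (trace (X * X * Y) + 2 * trace (X * X)) := by
  have h1 := tilt_trace2 h.sY h.pY (psd_sq h.sX) h.L_pos (sw_nonneg Y) sw_of_pos
    ((le_abs_self _).trans h.tY) h.dd_nonneg (zero_le_one.trans h.htt) h.hdL
  have h2 : trace ((Y + 1) * X ^ 2) = trace (X * X * Y) + trace (X * X) := by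
    rw [trace_mul_comm, Matrix.mul_add, trace_add, Matrix.mul_one, hP]
  have h3 : 0 ≤ trace ((Y + 1) * X ^ 2) := trace_mul_psd_nonneg h.pY (psd_sq h.sX)
  have h4 : 0 ≤ trace (X ^ 2) := psd_trace (psd_sq h.sX)
  have h5 := mul_le_mul_of_nonneg_right (show dd * tt ≤ ρ by linarith [h.hρ]) h3
  have h6 := mul_le_mul_of_nonneg_right h.dd_le h4
  rw [h2] at h1 h5
  rw [hP] at h1 h6 ⊢
  linarith

/-- TD -/
theorem tD :
    -(trace X * ∑ a, ∑ b, tilt L X Y a b * (X * X) a b) ≤ |trace X| * (τ ^ 2 / L) := by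
  rw [sum_tilt_eq h.sX h.sY, ← sq]
  have h1 : 0 ≤ trace (X ^ 2 * X ^ 2) := trace_mul_psd_nonneg (psd_sq h.sX) (psd_sq h.sX)
  have h2 := h.cross_pow 0
  rw [pow_zero, one_mul, zero_add] at h2
  have h3 : 0 ≤ trace X * sw X * trace (X ^ 2 * X ^ 2) / L :=
    div_nonneg (mul_nonneg (trace_mul_sw_nonneg X) h1) h.L_pos.le
  have h4 : |sw Y * trace (Y ^ 2 * X ^ 2) / L| ≤ τ ^ 2 / L := by
    rw [abs_div, abs_of_pos h.L_pos, abs_mul, abs_of_nonneg (sw_nonneg Y)]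
    refine div_le_div_of_nonneg_right ?_ h.L_pos.le
    nlinarith [sw_nonneg Y, sw_le_one Y, abs_nonneg (trace (Y ^ 2 * X ^ 2))]
  have h5 : trace X * (sw Y * trace (Y ^ 2 * X ^ 2) / L) ≤ |trace X| * (τ ^ 2 / L) := by
    refine (le_abs_self _).trans ?_
    rw [abs_mul]
    exact mul_le_mul_of_nonneg_left h4 (abs_nonneg _)
  have h6 : trace X * (sw X * trace (X ^ 2 * X ^ 2) / L) =
      trace X * sw X * trace (X ^ 2 * X ^ 2) / L := by ring
  rw [mul_sub]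
  linarith

/-- TR -/
theorem tR :
    trace X * trace (X * X * X) - ∑ a, ∑ b, tilt L X Y a b * (X * X * X) a b ≤
      ρ * trace (X * X) + lam * τ ^ 2 / L := by
  have e3 : X * X * X = X ^ 3 := by noncomm_ring
  rw [sum_tilt_eq h.sX h.sY, e3, ← sq, ← pow_add]
  have h1 := tilt_trace1_one h.sX h.pX h.L_pos (sw_nonneg X) (sw_le_one X) sw_of_pos h.tX h.htt
    h.hdL
  have h2 := h.cross_pow 1
  rw [pow_one] at h2
  have h3 := sw_mul_div_le (Z := Y) h.hL h2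
  have h4 := mul_le_mul_of_nonneg_right h.coef_le (psd_trace (psd_sq h.sX))
  norm_num at h3 ⊢
  linarith

/-- TU -/
theorem tU :
    trace X * trace (m2 X) - ∑ a, ∑ b, tilt L X Y a b * m2 X a b ≤
      (ρ + τ * lam / L) * uu X := by
  have e0 : ∀ M : Matrix ι ι ℝ, trace (M * m2 X) = ∑ c, rsq X c * (X ^ 2 * M * X) c c := by
    intro M
    unfold m2
    calc trace (M * (X * diagonal (rsq X) * (X * X)))
        = trace ((M * X) * (diagonal (rsq X) * (X * X))) := by simp only [Matrix.mul_assoc]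
      _ = trace (diagonal (rsq X) * (X ^ 2 * M * X)) := by
          rw [trace_mul_comm]; simp only [sq, Matrix.mul_assoc]
      _ = _ := by simp [trace]
  have e1 : trace (m2 X) = ∑ c, rsq X c * (X ^ 3) c c := by
    have := e0 1
    rw [Matrix.one_mul, Matrix.mul_one, ← pow_succ] at this
    exact this
  have e2 : trace (X ^ 2 * m2 X) = ∑ c, rsq X c * (X ^ 5) c c := by
    rw [e0, ← pow_add, ← pow_succ]
  have e3 : ∀ c, rsq X c = (X ^ 2) c c := fun c => by rw [sq_diag_eq h.sX]; rfl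
  rw [sum_tilt_eq h.sX h.sY, e1, e2, e0, uu]
  simp only [Finset.mul_sum, Finset.sum_div, ← Finset.sum_sub_distrib, ← sq]
  refine Finset.sum_le_sum fun c _ => ?_
  have h0 := sq_diag_nonneg h.sX c
  have h1 := tilt_diag1 h.sX h.pX h.L_pos (sw_nonneg X) (sw_le_one X) sw_of_pos h.tX h.htt
    h.hdL c
  have h2 := abs_cross_diag_le' h.sX h.sY c
  have h3 : opn Y * opn (Y * X) ≤ lam * τ :=
    mul_le_mul h.oY ((opn_le_frob _).trans h.symm.hτ) (opn_nonneg _) h.lam_nonneg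
  have h4 := sw_mul_div_le (Z := Y) h.hL (h2.trans (mul_le_mul_of_nonneg_right h3 h0))
  have h5 := mul_le_mul_of_nonneg_right h.coef_le h0
  have h6 := mul_le_mul_of_nonneg_left (add_le_add (h1.trans h5) h4) h0
  rw [e3]
  refine le_trans (le_of_eq ?_) (h6.trans (le_of_eq ?_)) <;> ring

/-- TS -/
theorem tS :
    trace X * trace (X * X * X * X) - ∑ a, ∑ b, tilt L X Y a b * (X * X * X * X) a b ≤
      ρ * (trace (X * X * X) + 2 * trace (X * X)) + lam ^ 2 * τ ^ 2 / L := by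
  have e4 : X * X * X * X = X ^ 4 := by noncomm_ring
  have hXX : Tl X X L lam dd tt ρ f f :=
    ⟨h.sX, h.sX, h.pX, h.pX, h.oX, h.oX, h.tX, h.tX, h.hL, h.htt, h.hdL, h.hρ, h.fX, h.fX, h.fX⟩
  have h1 := hXX.even (sq X)
  have h2 := sw_mul_div_le (Z := Y) h.hL (h.cross_pow 2)
  rw [sum_tilt_eq h.sX h.sY, e4]
  simp only [← pow_add] at h1 h2 ⊢
  norm_num at h1 h2 ⊢
  linarith

/-- TC1 -/
theorem tC1 :
    trace X * trace (X * X * X * Y) - ∑ a, ∑ b, tilt L X Y a b * (X * X * Y * X) a b ≤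
      ρ * (trace (X * X * Y) + trace (X * X)) + dd * lam * trace (X * X) + lam * f ^ 2 / L +
        τ ^ 3 / L := by
  have e3 : X * X * X = X ^ 3 := by noncomm_ring
  have e5 : trace (X ^ 2 * (X ^ 2 * Y * X)) = trace (X ^ 5 * Y) := by
    rw [← Matrix.mul_assoc, trace_mul_comm]; congr 1; noncomm_ring
  rw [sum_tilt_eq h.sX h.sY, e3, ← sq, e5]
  have h1 := tilt_trace1 h.sX h.pX h.pY h.L_pos (sw_nonneg X) (sw_le_one X) sw_of_pos h.tX h.htt
    h.hdL
  have h2 := mul_le_mul_of_nonneg_right h.coef_le (cross_nonneg h.sX h.pY)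
  simp only [Matrix.mul_add, Matrix.mul_one, trace_add] at h1 h2
  have h3 := sw_mul_div_le (Z := Y) h.hL ((abs_trace_cross_cube_le h.sX h.sY).trans
    (pow_le_pow_left₀ (frob_nonneg _) h.hτ 3))
  have h4 : |trace (X ^ 5)| ≤ lam * f ^ 2 := by
    have h5 := abs_trace_pow_mul_le h.sX h.oX (psd_sq h.sX) 1
    rw [← pow_add, ← pow_add, pow_one, ← frob_sq_sq h.sX, sq X] at h5
    exact h5.trans (mul_le_mul_of_nonneg_left (pow_le_pow_left₀ (frob_nonneg _) h.fX 2)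
      h.lam_nonneg)
  have h5 := sw_mul_div_le (Z := X) h.hL h4
  have h6 : -(trace X * trace (X ^ 3)) ≤ dd * lam * trace (X ^ 2) := by
    refine (neg_le_abs _).trans ?_
    have h7 := abs_trace_pow_le h.sX h.oX 1
    rw [pow_one] at h7
    rw [abs_mul, mul_assoc]
    exact mul_le_mul h.tX h7 (abs_nonneg _) h.dd_nonneg
  have e6 : sw X * (trace (X ^ 5 * Y) + trace (X ^ 5)) / L =
      sw X * trace (X ^ 5 * Y) / L + sw X * trace (X ^ 5) / L := by ring
  rw [e6, mul_add] at h1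
  linarith

/-- TC2 -/
theorem tC2 {G : ℝ} (hG : frob (X * Y * X) ≤ G) :
    trace Y * trace (X * X * Y * Y) - ∑ a, ∑ b, tilt L Y X a b * (Y * X * X * Y) a b ≤
      ρ * (trace (X * X * Y) + 2 * trace (X * X)) + G ^ 2 / L := by
  have h1 := h.even (sq X)
  have e1 : trace (X * X * Y * Y) = trace (Y ^ 2 * X ^ 2) := by
    rw [trace_mul_comm (Y ^ 2)]; congr 1; noncomm_ring
  have e2 : trace (Y ^ 2 * (Y * X * X * Y)) = trace (Y ^ 4 * X ^ 2) := by
    rw [← Matrix.mul_assoc, trace_mul_comm]; congr 1; noncomm_ring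
  have e3 : trace (X ^ 2 * (Y * X * X * Y)) = frob (X * Y * X) ^ 2 := by
    rw [← trace_sandwich_eq h.sX h.sY]; congr 1; noncomm_ring
  have h2 : |frob (X * Y * X) ^ 2| ≤ G ^ 2 := by
    rw [abs_of_nonneg (sq_nonneg _)]; exact pow_le_pow_left₀ (frob_nonneg _) hG 2
  have h3 := sw_mul_div_le (Z := X) h.hL h2
  rw [sum_tilt_eq h.sY h.sX, e1, e2, e3]
  linarith

end Tl

end Vale.Agent.P049
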