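import Vale.Agent.P049.Avg

/-!
Weights `1 - T` on an allowed set of ordered pairs, and the generic bounds on their kernels.
-/

namespace Vale.Agent.P049

open Matrix Finset

variable {ι : Type*}

open Classical in
/-- the tilted weight supported on the allowed pairs -/
noncomputable def wOf (ok : ι → ι → Prop) (T : ι → ι → ℝ) (a b : ι) : ℝ :=
  if ok a b then 1 - T a b else 0

open Classical in
/-- the indicator function of the excluded pairs -/
noncomputable def bad (ok : ι → ι → Prop) (a b : ι) : ℝ := if ok a b then 0 else 1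

variable {ok : ι → ι → Prop} {T : ι → ι → ℝ}

theorem wOf_pos {a b : ι} (h : ok a b) : wOf ok T a b = 1 - T a b := by simp [wOf, h]

theorem wOf_neg {a b : ι} (h : ¬ ok a b) : wOf ok T a b = 0 := by simp [wOf, h]

theorem ok_of_wOf_ne {a b : ι} (h : wOf ok T a b ≠ 0) : ok a b := by
  by_contra h1; exact h (wOf_neg h1)

theorem bad_pos {a b : ι} (h : ok a b) : bad ok a b = 0 := by simp [bad, h]

theorem bad_neg {a b : ι} (h : ¬ ok a b) : bad ok a b = 1 := by simp [bad, h]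

theorem bad_nonneg (a b : ι) : 0 ≤ bad ok a b := by unfold bad; split_ifs <;> norm_num

theorem bad_le_one (a b : ι) : bad ok a b ≤ 1 := by unfold bad; split_ifs <;> norm_num

theorem bad_sq (a b : ι) : bad ok a b ^ 2 = bad ok a b := by unfold bad; split_ifs <;> norm_num

theorem bad_le {ψ : ℝ} {a b : ι} (h0 : 0 ≤ ψ) (h : ¬ ok a b → 1 ≤ ψ) : bad ok a b ≤ ψ := by
  by_cases h1 : ok a b
  · rw [bad_pos h1]; exact h0
  · rw [bad_neg h1]; exact h h1

theorem wOf_symm (h1 : ∀ a b, ok a b → ok b a) (h2 : ∀ a b, T a b = T b a) (a b : ι) :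
    wOf ok T a b = wOf ok T b a := by
  by_cases h : ok a b
  · rw [wOf_pos h, wOf_pos (h1 a b h), h2]
  · rw [wOf_neg h, wOf_neg fun h' => h (h1 b a h')]

theorem wOf_nonneg {ξ : ℝ} (hξ : ξ ≤ 1) (h : ∀ a b, ok a b → |T a b| ≤ ξ) (a b : ι) :
    0 ≤ wOf ok T a b := by
  by_cases h1 : ok a b
  · rw [wOf_pos h1]; linarith [(abs_le.mp (h a b h1)).2]
  · rw [wOf_neg h1]

theorem wOf_le {ξ : ℝ} (hξ : 0 ≤ ξ) (h : ∀ a b, ok a b → |T a b| ≤ ξ) (a b : ι) :
    wOf ok T a b ≤ 1 + ξ := by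
  by_cases h1 : ok a b
  · rw [wOf_pos h1]; linarith [(abs_le.mp (h a b h1)).1]
  · rw [wOf_neg h1]; linarith

/-- the deviation from one, with a factor `ρ` close to one on the allowed set -/
theorem abs_wOf_mul_sub_le {ξ : ℝ} (hξ : 0 ≤ ξ) (h : ∀ a b, ok a b → |T a b| ≤ ξ)
    {ρ e : ι → ι → ℝ} (he : ∀ a b, 0 ≤ e a b) (hρ : ∀ a b, ok a b → |ρ a b - 1| ≤ e a b)
    (a b : ι) : |wOf ok T a b * ρ a b - 1| ≤ bad ok a b + |T a b| + (1 + ξ) * e a b := by
  by_cases h1 : ok a b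
  · rw [wOf_pos h1, bad_pos h1, zero_add]
    have e1 : (1 - T a b) * ρ a b - 1 = -T a b + (1 - T a b) * (ρ a b - 1) := by ring
    have e2 : |1 - T a b| ≤ 1 + ξ := (abs_sub _ _).trans (by rw [abs_one]; linarith [h a b h1])
    rw [e1]
    refine (abs_add_le _ _).trans ?_
    rw [abs_neg, abs_mul]
    have := mul_le_mul e2 (hρ a b h1) (abs_nonneg _) ((abs_nonneg _).trans e2)
    linarith
  · rw [wOf_neg h1, bad_neg h1, zero_mul, zero_sub, abs_neg, abs_one]
    have := mul_nonneg (show 0 ≤ 1 + ξ by linarith) (he a b)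
    linarith [abs_nonneg (T a b)]

theorem abs_wOf_mul_add_le {ξ : ℝ} (hξ : 0 ≤ ξ) (h : ∀ a b, ok a b → |T a b| ≤ ξ)
    {ρ e : ι → ι → ℝ} (he : ∀ a b, 0 ≤ e a b) (hρ : ∀ a b, ok a b → |ρ a b - 1| ≤ e a b)
    (a b : ι) :
    |wOf ok T a b * ρ a b - 1 + T a b| ≤ bad ok a b * (1 + |T a b|) + (1 + ξ) * e a b := by
  by_cases h1 : ok a b
  · rw [wOf_pos h1, bad_pos h1, zero_mul, zero_add]
    have e1 : (1 - T a b) * ρ a b - 1 + T a b = (1 - T a b) * (ρ a b - 1) := by ring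
    have e2 : |1 - T a b| ≤ 1 + ξ := (abs_sub _ _).trans (by rw [abs_one]; linarith [h a b h1])
    rw [e1, abs_mul]
    exact mul_le_mul e2 (hρ a b h1) (abs_nonneg _) ((abs_nonneg _).trans e2)
  · rw [wOf_neg h1, bad_neg h1, zero_mul, zero_sub, one_mul]
    have := mul_nonneg (show 0 ≤ 1 + ξ by linarith) (he a b)
    have e2 := abs_add_le (-1) (T a b)
    rw [abs_neg, abs_one] at e2
    linarith

variable [Fintype ι]

theorem nrm_le_of_abs_le {x y : ι → ℝ} (h : ∀ a, |x a| ≤ y a) : nrm x ≤ nrm y :=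
  nrm_mono fun a => (h a).trans (le_abs_self _)

theorem frob_le_of_abs_le {X Y : Matrix ι ι ℝ} (h : ∀ a b, |X a b| ≤ Y a b) : frob X ≤ frob Y :=
  frob_mono fun a b => (h a b).trans (le_abs_self _)

theorem nrm_abs' (x : ι → ℝ) : nrm (fun a => |x a|) = nrm x := by simp [nrm]

theorem frob_abs' (X : ι → ι → ℝ) : frob (Matrix.of fun a b => |X a b|) = frob (Matrix.of X) := by
  simp [frob]

theorem nrm_bad (a : ι) : nrm (bad ok a) = √(∑ b, bad ok a b) := by
  simp only [nrm, bad_sq]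

theorem frob_bad : frob (Matrix.of (bad ok)) = √(∑ a, ∑ b, bad ok a b) := by
  simp only [frob, of_apply, bad_sq]

theorem frob_bad_mul (g : ι → ι → ℝ) :
    frob (Matrix.of fun a b => bad ok a b * g a b) = √(∑ a, ∑ b, bad ok a b * g a b ^ 2) := by
  simp only [frob, of_apply, mul_pow, bad_sq]

section Kernel

variable {ξ : ℝ} (hξ : 0 ≤ ξ) (h : ∀ a b, ok a b → |T a b| ≤ ξ)
    {ρ e : ι → ι → ℝ} (he : ∀ a b, 0 ≤ e a b) (hρ : ∀ a b, ok a b → |ρ a b - 1| ≤ e a b)

include hξ h he hρ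

theorem nrm_wOf_mul_sub_le (a : ι) : nrm (fun b => wOf ok T a b * ρ a b - 1) ≤
    √(∑ b, bad ok a b) + nrm (T a) + (1 + ξ) * nrm (e a) := by
  refine (nrm_le_of_abs_le (y := bad ok a + (fun b => |T a b|) + (1 + ξ) • e a)
    fun b => abs_wOf_mul_sub_le hξ h he hρ a b).trans ?_
  refine (nrm_add_le _ _).trans (add_le_add ((nrm_add_le _ _).trans ?_) ?_)
  · rw [nrm_bad, nrm_abs']
  · rw [nrm_smul, abs_of_nonneg (by linarith)]

theorem frob_wOf_mul_sub_le : frob (Matrix.of fun a b => wOf ok T a b * ρ a b - 1) ≤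
    √(∑ a, ∑ b, bad ok a b) + frob (Matrix.of T) + (1 + ξ) * frob (Matrix.of e) := by
  refine (frob_le_of_abs_le (Y := Matrix.of (bad ok) + (Matrix.of fun a b => |T a b|) +
    (1 + ξ) • Matrix.of e) fun a b => abs_wOf_mul_sub_le hξ h he hρ a b).trans ?_
  refine (frob_add_le _ _).trans (add_le_add ((frob_add_le _ _).trans ?_) ?_)
  · rw [frob_bad, frob_abs']
  · rw [frob_smul, abs_of_nonneg (by linarith)]

theorem frob_wOf_mul_add_le : frob (Matrix.of fun a b => wOf ok T a b * ρ a b - 1 + T a b) ≤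
    √(∑ a, ∑ b, bad ok a b * (1 + |T a b|) ^ 2) + (1 + ξ) * frob (Matrix.of e) := by
  refine (frob_le_of_abs_le (Y := (Matrix.of fun a b => bad ok a b * (1 + |T a b|)) +
    (1 + ξ) • Matrix.of e) fun a b => abs_wOf_mul_add_le hξ h he hρ a b).trans ?_
  refine (frob_add_le _ _).trans (add_le_add ?_ ?_)
  · rw [frob_bad_mul]
  · rw [frob_smul, abs_of_nonneg (by linarith)]

end Kernel

section Plain

variable {ξ : ℝ} (hξ : 0 ≤ ξ) (h : ∀ a b, ok a b → |T a b| ≤ ξ)

include hξ h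

theorem nrm_wOf_sub_le (a : ι) :
    nrm (fun b => wOf ok T a b - 1) ≤ √(∑ b, bad ok a b) + nrm (T a) := by
  have := nrm_wOf_mul_sub_le hξ h (ρ := fun _ _ => 1) (e := fun _ _ => 0) (fun _ _ => le_rfl)
    (fun _ _ _ => by simp) a
  simpa [nrm_const] using this

theorem frob_wOf_sub_le : frob (Matrix.of fun a b => wOf ok T a b - 1) ≤
    √(∑ a, ∑ b, bad ok a b) + frob (Matrix.of T) := by
  have := frob_wOf_mul_sub_le hξ h (ρ := fun _ _ => 1) (e := fun _ _ => 0) (fun _ _ => le_rfl)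
    (fun _ _ _ => by simp)
  simpa [frob] using this

theorem frob_wOf_add_le : frob (Matrix.of fun a b => wOf ok T a b - 1 + T a b) ≤
    √(∑ a, ∑ b, bad ok a b * (1 + |T a b|) ^ 2) := by
  have := frob_wOf_mul_add_le hξ h (ρ := fun _ _ => 1) (e := fun _ _ => 0) (fun _ _ => le_rfl)
    (fun _ _ _ => by simp)
  simpa [frob] using this

end Plain

section Counting

open Classical in
theorem sum_ite_le_of_card {Fb : ι → Prop} {dd : ℕ}
    (h : (Finset.univ.filter fun b => Fb b).card ≤ dd) :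
    ∑ b, (if Fb b then (1 : ℝ) else 0) ≤ dd := by
  rw [Finset.sum_boole]; exact_mod_cast h

end Counting

end Vale.Agent.P049
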