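import Vale.Agent.P049.TiltL
import Vale.Agent.P049.WGen

/-!
Construction of the averaging weights.
-/

namespace Vale.Agent.P049

open Matrix Finset

variable {ι : Type*} [Fintype ι]

/-- the common majorant of the diagonal entries -/
def xiW (A B : Matrix ι ι ℝ) (a : ι) : ℝ := |A a a| + |B a a|

/-- the common majorant of the squared row norms -/
def muW (A B : Matrix ι ι ℝ) (a : ι) : ℝ := rsq A a + rsq B a

/-- the allowed pairs -/
def okW (Fb : ι → ι → Prop) (A B : Matrix ι ι ℝ) (t : ℝ) (a b : ι) : Prop :=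
  ¬ Fb a b ∧ |A a b| ≤ 1 / 1000 ∧ |B a b| ≤ 1 / 1000 ∧ xiW A B a * xiW A B b ≤ 1 / 1000 ∧
    xiW A B b * (1 + muW A B a) ≤ t ∧ xiW A B a * (1 + muW A B b) ≤ t ∧
    (1 + muW A B a) * (1 + muW A B b) ≤ t ^ 2

/-- a majorant of the indicator function of the excluded pairs -/
noncomputable def psiW (Fb : ι → ι → Prop) [DecidableRel Fb] (A B : Matrix ι ι ℝ) (t : ℝ)
    (a b : ι) : ℝ :=
  (if Fb a b then 1 else 0) + 10 ^ 6 * (A a b ^ 2 + B a b ^ 2 + xiW A B a ^ 2 * xiW A B b ^ 2) +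
    (1 + muW A B a) ^ 2 * xiW A B b ^ 2 / t ^ 2 + xiW A B a ^ 2 * (1 + muW A B b) ^ 2 / t ^ 2 +
    (1 + muW A B a) ^ 2 * (1 + muW A B b) ^ 2 / t ^ 4

variable {A B : Matrix ι ι ℝ} {Fb : ι → ι → Prop} {t L : ℝ}

omit [Fintype ι] in
theorem xiW_nonneg (a : ι) : 0 ≤ xiW A B a := add_nonneg (abs_nonneg _) (abs_nonneg _)

theorem muW_nonneg (a : ι) : 0 ≤ muW A B a := add_nonneg (rsq_nonneg _ _) (rsq_nonneg _ _)

theorem okW_symm (hA : Aᵀ = A) (hB : Bᵀ = B) (Fsymm : ∀ a b, Fb a b → Fb b a) (a b : ι)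
    (h : okW Fb A B t a b) : okW Fb A B t b a := by
  obtain ⟨h1, h2, h3, h4, h5, h6, h7⟩ := h
  refine ⟨fun h' => h1 (Fsymm _ _ h'), ?_, ?_, ?_, h6, h5, ?_⟩
  · rwa [symm_apply hA b a]
  · rwa [symm_apply hB b a]
  · rwa [mul_comm]
  · rwa [mul_comm]

theorem abs_mul_self_apply_le (hA : Aᵀ = A) (a b : ι) : |(A * A) a b| ≤ nrm (A a) * nrm (A b) := by
  have h := abs_mul_apply_le A A a b
  have h1 : (fun c => A c b) = A b := funext fun c => symm_apply hA c b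
  rwa [h1] at h

theorem abs_tilt_le (hL : 0 < L) (a b : ι) :
    |tilt L A B a b| * L ≤ |(A * A) a b| + |(B * B) a b| := by
  unfold tilt
  rw [abs_div, abs_of_pos hL, div_mul_cancel₀ _ hL.ne']
  refine (abs_sub _ _).trans (add_le_add ?_ ?_) <;> rw [abs_mul, abs_of_nonneg (sw_nonneg _)] <;>
    exact mul_le_of_le_one_left (abs_nonneg _) (sw_le_one _)

theorem tilt_sq_le (hA : Aᵀ = A) (hB : Bᵀ = B) (hL : 0 < L) (a b : ι) :
    tilt L A B a b ^ 2 * L ^ 2 ≤ (1 + muW A B a) * (1 + muW A B b) := by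
  have h1 := (abs_tilt_le (A := A) (B := B) hL a b).trans
    (add_le_add (abs_mul_self_apply_le hA a b) (abs_mul_self_apply_le hB a b))
  have h2 := pow_le_pow_left₀ (mul_nonneg (abs_nonneg _) hL.le) h1 2
  rw [mul_pow, sq_abs] at h2
  refine h2.trans ?_
  simp only [muW, rsq_eq_nrm]
  nlinarith [sq_nonneg (nrm (A a) * nrm (B b) - nrm (B a) * nrm (A b)), sq_nonneg (nrm (A a)),
    sq_nonneg (nrm (A b)), sq_nonneg (nrm (B a)), sq_nonneg (nrm (B b))]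

theorem abs_tilt_le_of_ok (hA : Aᵀ = A) (hB : Bᵀ = B) (ht : 1 ≤ t) (hL : 1000 * t ≤ L) (a b : ι)
    (h : (1 + muW A B a) * (1 + muW A B b) ≤ t ^ 2) : |tilt L A B a b| ≤ 1 / 1000 := by
  have hL0 : 0 < L := by linarith
  have h1 := (tilt_sq_le hA hB hL0 a b).trans h
  have h2 : (1000 * t) ^ 2 ≤ L ^ 2 := pow_le_pow_left₀ (by linarith) hL 2
  have h3 : tilt L A B a b ^ 2 ≤ (1 / 1000) ^ 2 := by
    by_contra hc
    rw [not_le] at hc
    have h4 : 0 < L ^ 2 := by positivity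
    nlinarith
  exact abs_le_of_sq_le_sq' h3 (by norm_num) |> abs_le.mpr

variable [DecidableRel Fb]

theorem psiW_nonneg (a b : ι) : 0 ≤ psiW Fb A B t a b := by
  unfold psiW
  have : (0 : ℝ) ≤ if Fb a b then 1 else 0 := by split_ifs <;> norm_num
  positivity

theorem one_le_sq_div {x y : ℝ} (hy : 0 < y) (h : y < x) : 1 ≤ x ^ 2 / y ^ 2 := by
  rw [le_div_iff₀ (by positivity), one_mul]
  exact pow_le_pow_left₀ hy.le h.le 2

theorem one_le_mul_sq {x : ℝ} (h : 1 / 1000 < x) : 1 ≤ 10 ^ 6 * x ^ 2 := by nlinarith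

theorem bad_le_psiW (ht : 1 ≤ t) (a b : ι) : bad (okW Fb A B t) a b ≤ psiW Fb A B t a b := by
  refine bad_le (psiW_nonneg a b) fun h => ?_
  have ht0 : 0 < t := by linarith
  have p0 : (0 : ℝ) ≤ if Fb a b then 1 else 0 := by split_ifs <;> norm_num
  have p1 := sq_nonneg (A a b)
  have p2 := sq_nonneg (B a b)
  have p3 : 0 ≤ xiW A B a ^ 2 * xiW A B b ^ 2 := by positivity
  have p4 : 0 ≤ (1 + muW A B a) ^ 2 * xiW A B b ^ 2 / t ^ 2 := by positivity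
  have p5 : 0 ≤ xiW A B a ^ 2 * (1 + muW A B b) ^ 2 / t ^ 2 := by positivity
  have p6 : 0 ≤ (1 + muW A B a) ^ 2 * (1 + muW A B b) ^ 2 / t ^ 4 := by positivity
  unfold okW at h
  unfold psiW
  simp only [not_and_or, not_not, not_le] at h
  rcases h with h | h | h | h | h | h | h
  · rw [if_pos h]; linarith
  · have := one_le_mul_sq h
    rw [sq_abs] at this
    linarith
  · have := one_le_mul_sq h
    rw [sq_abs] at this
    linarith
  · have := one_le_mul_sq h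
    rw [mul_pow] at this
    linarith
  · have := one_le_sq_div ht0 h
    rw [mul_pow, mul_comm] at this
    linarith
  · have := one_le_sq_div ht0 h
    rw [mul_pow] at this
    linarith
  · have := one_le_sq_div (by positivity) h
    rw [mul_pow, ← pow_mul] at this
    linarith

theorem bad_mul_le_psiW (hA : Aᵀ = A) (hB : Bᵀ = B) (ht : 1 ≤ t) (hL : 1000 * t ≤ L) (a b : ι) :
    bad (okW Fb A B t) a b * (1 + |tilt L A B a b|) ^ 2 ≤ 6 * psiW Fb A B t a b := by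
  have h1 := bad_le_psiW (Fb := Fb) (A := A) (B := B) ht a b
  have h0 := bad_nonneg (ok := okW Fb A B t) a b
  have h01 := bad_le_one (ok := okW Fb A B t) a b
  have h2 : (1 + |tilt L A B a b|) ^ 2 ≤ 2 + 2 * tilt L A B a b ^ 2 := by
    rw [← sq_abs (tilt L A B a b)]
    nlinarith [sq_nonneg (1 - |tilt L A B a b|)]
  have h3 : bad (okW Fb A B t) a b * tilt L A B a b ^ 2 ≤ psiW Fb A B t a b := by
    rcases le_or_gt ((1 + muW A B a) * (1 + muW A B b)) (t ^ 2) with h | h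
    · have h4 := abs_tilt_le_of_ok hA hB ht hL a b h
      have h5 : tilt L A B a b ^ 2 ≤ 1 := by
        rw [← sq_abs]; nlinarith [abs_nonneg (tilt L A B a b)]
      nlinarith
    · have hL0 : 0 < L := by linarith
      have ht0 : 0 < t := by linarith
      have h4 := tilt_sq_le hA hB hL0 a b
      have h5 : t ^ 2 ≤ L ^ 2 := pow_le_pow_left₀ ht0.le (by linarith) 2
      have h6 : tilt L A B a b ^ 2 ≤ (1 + muW A B a) ^ 2 * (1 + muW A B b) ^ 2 / t ^ 4 := by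
        rw [le_div_iff₀ (by positivity), ← mul_pow]
        set Q := (1 + muW A B a) * (1 + muW A B b)
        have h7 : tilt L A B a b ^ 2 * t ^ 2 ≤ Q :=
          (mul_le_mul_of_nonneg_left h5 (sq_nonneg _)).trans h4
        have h8 : 0 ≤ Q := (sq_nonneg t).trans h.le
        calc tilt L A B a b ^ 2 * t ^ 4 = (tilt L A B a b ^ 2 * t ^ 2) * t ^ 2 := by ring
          _ ≤ Q * Q := mul_le_mul h7 h.le (sq_nonneg _) h8
          _ = Q ^ 2 := by ring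
      have h9 : (1 + muW A B a) ^ 2 * (1 + muW A B b) ^ 2 / t ^ 4 ≤ psiW Fb A B t a b := by
        unfold psiW
        have p0 : (0 : ℝ) ≤ if Fb a b then 1 else 0 := by split_ifs <;> norm_num
        have : 0 ≤ (if Fb a b then 1 else 0) +
            10 ^ 6 * (A a b ^ 2 + B a b ^ 2 + xiW A B a ^ 2 * xiW A B b ^ 2) +
            (1 + muW A B a) ^ 2 * xiW A B b ^ 2 / t ^ 2 +
            xiW A B a ^ 2 * (1 + muW A B b) ^ 2 / t ^ 2 := by positivity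
        linarith
      nlinarith [sq_nonneg (tilt L A B a b)]
  nlinarith [mul_le_mul_of_nonneg_left h2 h0]

theorem sum_psiW_row (a : ι) : ∑ b, psiW Fb A B t a b =
    (univ.filter (Fb a)).card + 10 ^ 6 * (muW A B a + xiW A B a ^ 2 * nrm (xiW A B) ^ 2) +
      (1 + muW A B a) ^ 2 * nrm (xiW A B) ^ 2 / t ^ 2 +
      xiW A B a ^ 2 * nrm (fun b => 1 + muW A B b) ^ 2 / t ^ 2 +
      (1 + muW A B a) ^ 2 * nrm (fun b => 1 + muW A B b) ^ 2 / t ^ 4 := by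
  simp only [psiW, Finset.sum_add_distrib, ← Finset.mul_sum, ← Finset.sum_div, nrm_sq,
    Finset.sum_boole]
  rfl

theorem sum_psiW_le {dF v g R : ℝ} (hA : Aᵀ = A) (hB : Bᵀ = B)
    (Frow : ∀ a, ((univ.filter (Fb a)).card : ℝ) ≤ dF) (hv : nrm (xiW A B) ≤ v)
    (hg : nrm (fun b => 1 + muW A B b) ≤ g) (rA : trace (A * A) ≤ R) (rB : trace (B * B) ≤ R) :
    ∑ a, ∑ b, psiW Fb A B t a b ≤
      dF * Fintype.card ι + 10 ^ 6 * (2 * R + v ^ 4) + 2 * (v ^ 2 * g ^ 2 / t ^ 2) +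
        g ^ 4 / t ^ 4 := by
  have h1 : ∑ a, ((univ.filter (Fb a)).card : ℝ) ≤ dF * Fintype.card ι := by
    refine (Finset.sum_le_sum fun a _ => Frow a).trans (le_of_eq ?_)
    simp [mul_comm]
  have h2 : ∑ a, muW A B a ≤ 2 * R := by
    simp only [muW, Finset.sum_add_distrib, sum_rsq, frob_sq_of_symm hA, frob_sq_of_symm hB]
    linarith
  have h3 : nrm (xiW A B) ^ 2 ≤ v ^ 2 := pow_le_pow_left₀ (nrm_nonneg _) hv 2
  have h4 : nrm (fun b => 1 + muW A B b) ^ 2 ≤ g ^ 2 := pow_le_pow_left₀ (nrm_nonneg _) hg 2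
  simp only [sum_psiW_row, Finset.sum_add_distrib, ← Finset.mul_sum, ← Finset.sum_div,
    ← Finset.sum_mul, ← nrm_sq]
  set x := nrm (xiW A B) ^ 2
  set y := nrm (fun b => 1 + muW A B b) ^ 2
  have hx : 0 ≤ x := sq_nonneg _
  have hy : 0 ≤ y := sq_nonneg _
  have e1 : x * x ≤ v ^ 4 := by nlinarith
  have e2 : y * x / t ^ 2 ≤ v ^ 2 * g ^ 2 / t ^ 2 :=
    div_le_div_of_nonneg_right (by nlinarith) (sq_nonneg _)
  have e3 : x * y / t ^ 2 ≤ v ^ 2 * g ^ 2 / t ^ 2 :=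
    div_le_div_of_nonneg_right (by nlinarith) (sq_nonneg _)
  have e4 : y * y / t ^ 4 ≤ g ^ 4 / t ^ 4 :=
    div_le_div_of_nonneg_right (by nlinarith) (by positivity)
  linarith

theorem sum_psiW_row_le {dF v g nn : ℝ}
    (Frow : ∀ a, ((univ.filter (Fb a)).card : ℝ) ≤ dF) (hv : nrm (xiW A B) ≤ v)
    (hg : nrm (fun b => 1 + muW A B b) ≤ g) (hn : ∀ a, muW A B a ≤ nn ^ 2) (a : ι) :
    ∑ b, psiW Fb A B t a b ≤
      dF + 10 ^ 6 * (nn ^ 2 + v ^ 4) + v ^ 2 * (1 + nn ^ 2) ^ 2 / t ^ 2 + v ^ 2 * g ^ 2 / t ^ 2 +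
        (1 + nn ^ 2) ^ 2 * g ^ 2 / t ^ 4 := by
  have h3 : nrm (xiW A B) ^ 2 ≤ v ^ 2 := pow_le_pow_left₀ (nrm_nonneg _) hv 2
  have h4 : nrm (fun b => 1 + muW A B b) ^ 2 ≤ g ^ 2 := pow_le_pow_left₀ (nrm_nonneg _) hg 2
  have h5 : xiW A B a ^ 2 ≤ v ^ 2 := by
    rw [← sq_abs]; exact pow_le_pow_left₀ (abs_nonneg _) ((abs_le_nrm _ a).trans hv) 2
  have h6 : (1 + muW A B a) ^ 2 ≤ (1 + nn ^ 2) ^ 2 :=
    pow_le_pow_left₀ (by linarith [muW_nonneg (A := A) (B := B) a]) (by linarith [hn a]) 2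
  rw [sum_psiW_row]
  set x := nrm (xiW A B) ^ 2
  set y := nrm (fun b => 1 + muW A B b) ^ 2
  set p := xiW A B a ^ 2
  set q := (1 + muW A B a) ^ 2
  have hx : 0 ≤ x := sq_nonneg _
  have hy : 0 ≤ y := sq_nonneg _
  have hp : 0 ≤ p := sq_nonneg _
  have hq : 0 ≤ q := sq_nonneg _
  have e1 : p * x ≤ v ^ 4 := by nlinarith
  have e2 : q * x / t ^ 2 ≤ v ^ 2 * (1 + nn ^ 2) ^ 2 / t ^ 2 :=
    div_le_div_of_nonneg_right (by nlinarith) (sq_nonneg _)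
  have e3 : p * y / t ^ 2 ≤ v ^ 2 * g ^ 2 / t ^ 2 :=
    div_le_div_of_nonneg_right (by nlinarith) (sq_nonneg _)
  have e4 : q * y / t ^ 4 ≤ (1 + nn ^ 2) ^ 2 * g ^ 2 / t ^ 4 :=
    div_le_div_of_nonneg_right (by nlinarith) (by positivity)
  linarith [Frow a, hn a]

omit [DecidableRel Fb]

theorem nrm_xiW_le : nrm (xiW A B) ≤ nrm (dgv A) + nrm (dgv B) := by
  have := nrm_add_le (fun a => |dgv A a|) (fun a => |dgv B a|)
  rwa [nrm_abs', nrm_abs'] at this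

theorem nrm_muW_le : nrm (muW A B) ≤ nrm (rsq A) + nrm (rsq B) := nrm_add_le (rsq A) (rsq B)

theorem nrm_one_add_le (x : ι → ℝ) : nrm (fun a => 1 + x a) ≤ √(Fintype.card ι) + nrm x := by
  have := nrm_add_le (fun _ : ι => (1 : ℝ)) x
  rwa [nrm_one] at this

theorem frob_tilt_le (hL : 0 < L) :
    frob (Matrix.of (tilt L A B)) ≤ (frob (A * A) + frob (B * B)) / L := by
  have e : Matrix.of (tilt L A B) = (sw A / L) • (A * A) - (sw B / L) • (B * B) := by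
    ext a b
    simp only [of_apply, tilt, Matrix.sub_apply, Matrix.smul_apply, smul_eq_mul]
    ring
  have h : ∀ Z : Matrix ι ι ℝ, |sw Z / L| ≤ 1 / L := fun Z => by
    rw [abs_of_nonneg (div_nonneg (sw_nonneg Z) hL.le)]
    exact div_le_div_of_nonneg_right (sw_le_one Z) hL.le
  rw [e]
  refine (frob_sub_le _ _).trans ?_
  rw [frob_smul, frob_smul]
  have h1 := mul_le_mul_of_nonneg_right (h A) (frob_nonneg (A * A))
  have h2 := mul_le_mul_of_nonneg_right (h B) (frob_nonneg (B * B))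
  have e2 : (frob (A * A) + frob (B * B)) / L = 1 / L * frob (A * A) + 1 / L * frob (B * B) := by
    ring
  linarith

theorem nrm_tilt_le [DecidableEq ι] (hL : 0 < L) {lam nn : ℝ} (oA : opn A ≤ lam) (oB : opn B ≤ lam)
    (hn0 : 0 ≤ nn) (a : ι) (hn : muW A B a ≤ nn ^ 2) :
    nrm (tilt L A B a) ≤ 2 * (lam * nn / L) := by
  have e : tilt L A B a = (sw A / L) • (A * A) a - (sw B / L) • (B * B) a := by
    ext b
    simp only [tilt, Pi.sub_apply, Pi.smul_apply, smul_eq_mul]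
    ring
  have h : ∀ Z : Matrix ι ι ℝ, |sw Z / L| ≤ 1 / L := fun Z => by
    rw [abs_of_nonneg (div_nonneg (sw_nonneg Z) hL.le)]
    exact div_le_div_of_nonneg_right (sw_le_one Z) hL.le
  have h0 : ∀ Z : Matrix ι ι ℝ, opn Z ≤ lam → rsq Z a ≤ nn ^ 2 → nrm ((Z * Z) a) ≤ lam * nn := by
    intro Z h1 h2
    rw [rsq_eq_nrm] at h2
    have h3 : nrm (Z a) ≤ nn := (pow_le_pow_iff_left₀ (nrm_nonneg _) hn0 two_ne_zero).mp h2
    refine (nrm_row_mul_le Z Z a).trans ?_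
    rw [mul_comm]
    exact mul_le_mul h1 h3 (nrm_nonneg _) ((opn_nonneg _).trans h1)
  have hA := h0 A oA (by unfold muW at hn; linarith [rsq_nonneg B a])
  have hB := h0 B oB (by unfold muW at hn; linarith [rsq_nonneg A a])
  rw [e]
  refine (nrm_sub_le _ _).trans ?_
  rw [nrm_smul, nrm_smul]
  have hL' : 0 ≤ 1 / L := by positivity
  have h1 := mul_le_mul (h A) hA (nrm_nonneg _) hL'
  have h2 := mul_le_mul (h B) hB (nrm_nonneg _) hL'
  have e2 : 2 * (lam * nn / L) = 1 / L * (lam * nn) + 1 / L * (lam * nn) := by ring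
  linarith

theorem abs_sum_tilt_le (hL : 1 ≤ L) (rA : ∀ a, ∑ b, A a b = 1) (rB : ∀ a, ∑ b, B a b = -1) :
    |∑ a, ∑ b, tilt L A B a b| ≤ Fintype.card ι := by
  have e : ∀ a, ∑ b, tilt L A B a b = (sw A - sw B) / L := by
    intro a
    simp only [tilt, ← Finset.sum_div, Finset.sum_sub_distrib, ← Finset.mul_sum,
      sum_row_mul rA rA, sum_row_mul rB rB]
    ring
  rw [sum_sum_of_row e, abs_mul, Nat.abs_cast]
  refine mul_le_of_le_one_right (Nat.cast_nonneg _) ?_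
  rw [abs_div, abs_of_pos (show 0 < L by linarith), div_le_one (by linarith)]
  refine le_trans (abs_le.mpr ⟨?_, ?_⟩) hL
  · linarith [sw_nonneg A, sw_le_one B]
  · linarith [sw_le_one A, sw_nonneg B]

theorem sc_e_sq {R v e : ℝ} (hR : 0 ≤ R) (he : 2 * √R + v ^ 2 ≤ e) : 2 * R + v ^ 4 ≤ e ^ 2 := by
  have hsR := Real.sqrt_nonneg R
  have h1 := pow_le_pow_left₀ (by positivity) he 2
  have h2 := Real.sq_sqrt hR
  nlinarith [mul_nonneg hsR (sq_nonneg v)]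

theorem sc_le_of_sq {x y : ℝ} (hy : 0 ≤ y) (h : x ^ 2 ≤ y ^ 2) : x ≤ y :=
  (abs_le_of_sq_le_sq' h hy).2

theorem wW_total {x : ℝ} (hL : 1 ≤ L) (rA : ∀ a, ∑ b, A a b = 1) (rB : ∀ a, ∑ b, B a b = -1)
    {ok : ι → ι → Prop} (hT : ∀ a b, ok a b → |tilt L A B a b| ≤ 1 / 1000)
    (h : ∑ a, ∑ b, bad ok a b * (1 + |tilt L A B a b|) ^ 2 + Fintype.card ι ≤ x) :
    |∑ a, ∑ b, wOf ok (tilt L A B) a b - (Fintype.card ι : ℝ) ^ 2| ≤ x := by
  have e : ∑ a, ∑ b, wOf ok (tilt L A B) a b - (Fintype.card ι : ℝ) ^ 2 =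
      ∑ a, ∑ b, (wOf ok (tilt L A B) a b * 1 - 1 + tilt L A B a b) -
        ∑ a, ∑ b, tilt L A B a b := by
    simp only [mul_one, Finset.sum_add_distrib, Finset.sum_sub_distrib, Finset.sum_const,
      Finset.card_univ, nsmul_eq_mul]
    ring
  have h1 := abs_sum_tilt_le (A := A) (B := B) hL rA rB
  have h2 : |∑ a, ∑ b, (wOf ok (tilt L A B) a b * 1 - 1 + tilt L A B a b)| ≤
      ∑ a, ∑ b, bad ok a b * (1 + |tilt L A B a b|) ^ 2 := by
    refine (Finset.abs_sum_le_sum_abs _ _).trans (Finset.sum_le_sum fun a _ =>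
      (Finset.abs_sum_le_sum_abs _ _).trans (Finset.sum_le_sum fun b _ => ?_))
    have h3 := abs_wOf_mul_add_le (by norm_num) hT (ρ := fun _ _ => 1) (e := fun _ _ => 0)
      (fun _ _ => le_rfl) (fun _ _ _ => by simp) a b
    rw [mul_zero, add_zero] at h3
    refine h3.trans (mul_le_mul_of_nonneg_left ?_ (bad_nonneg a b))
    nlinarith [abs_nonneg (tilt L A B a b)]
  rw [e]
  exact (abs_sub _ _).trans (by linarith)

theorem wW_bad [DecidableRel Fb] {dF v g R e x : ℝ} (hA : Aᵀ = A) (hB : Bᵀ = B) (ht : 1 ≤ t)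
    (hL : 1000 * t ≤ L) (hdk : (Fintype.card ι : ℝ) ≤ dF * Fintype.card ι)
    (Frow : ∀ a, ((univ.filter (Fb a)).card : ℝ) ≤ dF) (hv : nrm (xiW A B) ≤ v)
    (hg : nrm (fun b => 1 + muW A B b) ≤ g) (rA : trace (A * A) ≤ R) (rB : trace (B * B) ≤ R)
    (he : 2 * R + v ^ 4 ≤ e ^ 2)
    (hx : 10 ^ 8 * (dF * Fintype.card ι + e ^ 2 + g ^ 4 / t ^ 4 + v ^ 2 * g ^ 2 / t ^ 2) ≤ x) :
    ∑ a, ∑ b, bad (okW Fb A B t) a b * (1 + |tilt L A B a b|) ^ 2 + Fintype.card ι ≤ x := by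
  have hsum := sum_psiW_le (t := t) hA hB Frow hv hg rA rB
  have h1 : ∑ a, ∑ b, bad (okW Fb A B t) a b * (1 + |tilt L A B a b|) ^ 2 ≤
      6 * ∑ a, ∑ b, psiW Fb A B t a b := by
    simp only [Finset.mul_sum]
    exact Finset.sum_le_sum fun a _ => Finset.sum_le_sum fun b _ =>
      bad_mul_le_psiW hA hB ht hL a b
  have q1 : 0 ≤ g ^ 4 / t ^ 4 := by positivity
  have q2 : 0 ≤ v ^ 2 * g ^ 2 / t ^ 2 := by positivity
  have hk0 : (0 : ℝ) ≤ Fintype.card ι := Nat.cast_nonneg _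
  linarith [sq_nonneg e]

theorem wW_row [DecidableRel Fb] [DecidableEq ι] {dF v g nn lam ro : ℝ} (hA : Aᵀ = A) (hB : Bᵀ = B)
    (ht : 1 ≤ t) (hL : 1000 * t ≤ L) (hdF : 0 ≤ dF)
    (Frow : ∀ a, ((univ.filter (Fb a)).card : ℝ) ≤ dF) (hv : nrm (xiW A B) ≤ v)
    (hg : nrm (fun b => 1 + muW A B b) ≤ g) (hn0 : 0 ≤ nn) (hn : ∀ a, muW A B a ≤ nn ^ 2)
    (oA : opn A ≤ lam) (oB : opn B ≤ lam) (hro : 0 ≤ ro)
    (hro' : 10 ^ 8 * (dF + nn ^ 2 + v ^ 4 + (1 + nn ^ 2) ^ 2 * g ^ 2 / t ^ 4 +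
      v ^ 2 * (1 + nn ^ 2) ^ 2 / t ^ 2 + v ^ 2 * g ^ 2 / t ^ 2 + lam ^ 2 * nn ^ 2 / L ^ 2) ≤ ro ^ 2)
    (a : ι) : nrm (fun b => wOf (okW Fb A B t) (tilt L A B) a b - 1) ≤ ro := by
  have hL0 : 0 < L := by linarith
  have hT : ∀ a b, okW Fb A B t a b → |tilt L A B a b| ≤ 1 / 1000 :=
    fun a b h => abs_tilt_le_of_ok hA hB ht hL a b h.2.2.2.2.2.2
  have r1 : 0 ≤ (1 + nn ^ 2) ^ 2 * g ^ 2 / t ^ 4 := by positivity
  have r2 : 0 ≤ v ^ 2 * (1 + nn ^ 2) ^ 2 / t ^ 2 := by positivity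
  have r3 : 0 ≤ lam ^ 2 * nn ^ 2 / L ^ 2 := by positivity
  have r4 : 0 ≤ v ^ 4 := by positivity
  have r5 := sq_nonneg nn
  have r6 : 0 ≤ v ^ 2 * g ^ 2 / t ^ 2 := by positivity
  have h1 := nrm_wOf_sub_le (by norm_num) hT a
  have h2 := nrm_tilt_le hL0 oA oB hn0 a (hn a)
  have h3 : ∑ b, bad (okW Fb A B t) a b ≤ ∑ b, psiW Fb A B t a b :=
    Finset.sum_le_sum fun b _ => bad_le_psiW ht a b
  have h4 := sum_psiW_row_le (t := t) Frow hv hg hn a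
  have e1 : (ro / 2) ^ 2 = ro ^ 2 / 4 := by ring
  have e2 : (2 * (lam * nn / L)) ^ 2 = 4 * (lam ^ 2 * nn ^ 2 / L ^ 2) := by ring
  generalize (1 + nn ^ 2) ^ 2 * g ^ 2 / t ^ 4 = z1 at *
  generalize v ^ 2 * (1 + nn ^ 2) ^ 2 / t ^ 2 = z2 at *
  generalize lam ^ 2 * nn ^ 2 / L ^ 2 = z3 at *
  generalize v ^ 2 * g ^ 2 / t ^ 2 = z4 at *
  have h6 : √(∑ b, bad (okW Fb A B t) a b) ≤ ro / 2 :=
    Real.sqrt_le_iff.mpr ⟨by linarith, by linarith⟩
  have h7 : 2 * (lam * nn / L) ≤ ro / 2 := sc_le_of_sq (by linarith) (by linarith)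
  linarith

theorem wW_sd [DecidableEq ι] {P : Pr} {m s : ℝ} {X : Matrix ι ι ℝ} {w sg : ι → ι → ℝ}
    {xi mu : ι → ℝ} (hm : m ≤ 1) (hs : s ^ 2 = 1) (hX : Ker s m univ X) (hGl : Gl P w xi mu)
    (w0 : ∀ a b, 0 ≤ w a b) (w1 : ∀ a b, w a b ≤ 1 + 1 / 1000) (w2 : ∀ a b, w a b = w b a)
    (w3 : ∀ a b, sg a b = sg b a) (w4 : ∀ a b, w a b ≠ 0 → a ≠ b)
    (hfr : frob (Matrix.of fun a b => w a b - 1) ≤ P.x1)
    (hfr1 : frob (Matrix.of fun a b => w a b - 1 + sg a b) ≤ P.x0)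
    (hrow : ∀ a, nrm (fun b => w a b - 1) ≤ P.ro) (hx01 : P.x0 ≤ P.x1) (hex : P.e ≤ P.x0)
    (he : 2 * √P.R + P.v ^ 2 ≤ P.e) (hro2 : ∀ _ : ι, P.nn + P.v ^ 2 ≤ P.ro)
    (d1 : ∀ a, |X a a| ≤ xi a) (d2 : ∀ a, rsq X a ≤ mu a)
    (d3 : ∀ a b, w a b ≠ 0 → |X a b| ≤ 1 / 1000) (d4 : 2 * nrm (dgv X) ≤ P.v)
    (d5 : opn X ≤ P.lam) (d6 : frob (X * X) ≤ P.f) (d7 : |trace X| ≤ P.dd)
    (d8 : trace (X * X) ≤ P.R) : Sd P s X w sg xi mu := by
  have sX : Xᵀ = X := by ext a b; exact hX.symm b a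
  have rowX : ∀ a, ∑ b, X a b = s := fun a => hX.row a (mem_univ a)
  have h2 := nrm_nonneg (dgv X)
  have hv : nrm (dgv X) ^ 2 ≤ P.v ^ 2 := pow_le_pow_left₀ h2 (by linarith) 2
  have hee : frob X + nrm (dgv X) ^ 2 ≤ P.e := by
    have h1 : frob X ≤ √P.R := frob_le_sqrt (by rw [frob_sq_of_symm sX]; exact d8)
    linarith [Real.sqrt_nonneg P.R]
  refine ⟨⟨hs, sX, rowX, by norm_num, by norm_num, w0, w1, w2, w3, w4, d3, ?_, ?_, hfr, hfr1, hrow,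
    hee.trans hex, hx01, ?_⟩, hGl,
    psd_add_one sX (by nlinarith) hm rowX hX.psd, d1, d2, d5, d6, d7, d8, hee⟩
  · intro a b h
    rw [abs_mul]
    exact (mul_le_mul (d1 a) (d1 b) (abs_nonneg _) (hGl.xi_nonneg a)).trans (hGl.xx a b h)
  · intro a b h
    have h0 := hGl.mu_nonneg a
    have h1 := pow_le_pow_left₀ (mul_nonneg (hGl.xi_nonneg b) (by linarith)) (hGl.xm a b h) 2
    have h2 : X b b ^ 2 ≤ xi b ^ 2 := by
      rw [← sq_abs]; exact pow_le_pow_left₀ (abs_nonneg _) (d1 b) 2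
    have h3 : rsq X a ≤ (1 + mu a) ^ 2 := by nlinarith [d2 a]
    rw [mul_pow] at h1
    exact (mul_le_mul h2 h3 (rsq_nonneg _ _) (sq_nonneg _)).trans h1
  · intro a
    have h1 : nrm (X a) ≤ P.nn := by
      refine sc_le_of_sq hGl.nn_nonneg ?_
      rw [← rsq_eq_nrm]; exact (d2 a).trans (hGl.nn_le a)
    have h3 := mul_le_mul_of_nonneg_right (abs_diag_le_nrm X a) h2
    have h4 := hro2 a
    rw [← sq] at h3
    linarith

/-- W: construction of the weights. -/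
theorem exists_weights [DecidableEq ι] {A B : Matrix ι ι ℝ} {m L dF : ℝ} {P : Pr}
    (Fb : ι → ι → Prop)
    [DecidableRel Fb] (hm : m ≤ 1) (hA : Ker 1 m univ A) (hB : Ker (-1) m univ B)
    (Frefl : ∀ a, Fb a a) (Fsymm : ∀ a b, Fb a b → Fb b a)
    (Frow : ∀ a, ((univ.filter (Fb a)).card : ℝ) ≤ dF)
    (vA : 2 * nrm (dgv A) ≤ P.v) (vB : 2 * nrm (dgv B) ≤ P.v)
    (uA : 2 * nrm (rsq A) ≤ P.u) (uB : 2 * nrm (rsq B) ≤ P.u)
    (hg : √(Fintype.card ι) + P.u ≤ P.g) (hn0 : 0 ≤ P.nn) (hn : P.u ≤ P.nn ^ 2)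
    (hlam : 1 ≤ P.lam) (oA : opn A ≤ P.lam) (oB : opn B ≤ P.lam)
    (fA : frob (A * A) ≤ P.f) (fB : frob (B * B) ≤ P.f)
    (tA : |trace A| ≤ P.dd) (tB : |trace B| ≤ P.dd)
    (rA : trace (A * A) ≤ P.R) (rB : trace (B * B) ≤ P.R)
    (he : 2 * √P.R + P.v ^ 2 ≤ P.e) (ht : 1 ≤ P.t) (hL : 1000 * P.t ≤ L)
    (hx0 : 0 ≤ P.x0) (hro : 0 ≤ P.ro)
    (hx0' : 10 ^ 8 * (dF * Fintype.card ι + P.e ^ 2 + P.g ^ 4 / P.t ^ 4 +
      P.v ^ 2 * P.g ^ 2 / P.t ^ 2) ≤ P.x0 ^ 2)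
    (hx1 : P.x0 + 2 * P.f / L ≤ P.x1)
    (hro' : 10 ^ 8 * (dF + P.nn ^ 2 + P.v ^ 4 + (1 + P.nn ^ 2) ^ 2 * P.g ^ 2 / P.t ^ 4 +
      P.v ^ 2 * (1 + P.nn ^ 2) ^ 2 / P.t ^ 2 + P.v ^ 2 * P.g ^ 2 / P.t ^ 2 +
      P.lam ^ 2 * P.nn ^ 2 / L ^ 2) ≤ P.ro ^ 2) :
    ∃ (w : ι → ι → ℝ) (xi mu : ι → ℝ), Sd P 1 A w (tilt L A B) xi mu ∧
      Sd P (-1) B w (tilt L A B) xi mu ∧ (∀ a b, w a b ≠ 0 → ¬ Fb a b) ∧
      |∑ a, ∑ b, w a b - (Fintype.card ι : ℝ) ^ 2| ≤ P.x0 ^ 2 := by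
  have sA : Aᵀ = A := by ext a b; exact hA.symm b a
  have sB : Bᵀ = B := by ext a b; exact hB.symm b a
  have rowA : ∀ a, ∑ b, A a b = 1 := fun a => hA.row a (mem_univ a)
  have rowB : ∀ a, ∑ b, B a b = -1 := fun a => hB.row a (mem_univ a)
  have hL0 : 0 < L := by linarith
  have hL1 : 1 ≤ L := by linarith
  have hT : ∀ a b, okW Fb A B P.t a b → |tilt L A B a b| ≤ 1 / 1000 :=
    fun a b h => abs_tilt_le_of_ok sA sB ht hL a b h.2.2.2.2.2.2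
  have hxi : nrm (xiW A B) ≤ P.v := nrm_xiW_le.trans (by linarith only [vA, vB])
  have hmu : nrm (muW A B) ≤ P.u := nrm_muW_le.trans (by linarith only [uA, uB])
  have hg' : nrm (fun a => 1 + muW A B a) ≤ P.g :=
    (nrm_one_add_le _).trans (by linarith only [hmu, hg])
  have hnn : ∀ a, muW A B a ≤ P.nn ^ 2 := fun a =>
    (le_abs_self _).trans ((abs_le_nrm _ a).trans (hmu.trans hn))
  have hdF : ∀ _ : ι, 1 ≤ dF := fun a => by
    refine le_trans ?_ (Frow a)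
    exact_mod_cast Finset.card_pos.mpr ⟨a, mem_filter.mpr ⟨mem_univ a, Frefl a⟩⟩
  have hdk : (Fintype.card ι : ℝ) ≤ dF * Fintype.card ι := by
    rcases isEmpty_or_nonempty ι with hι | ⟨⟨a⟩⟩
    · simp
    · exact le_mul_of_one_le_left (Nat.cast_nonneg _) (hdF a)
  have hk0 : (0 : ℝ) ≤ Fintype.card ι := Nat.cast_nonneg _
  have hR0 : 0 ≤ P.R := by
    rw [← frob_sq_of_symm sA] at rA
    exact (sq_nonneg _).trans rA
  have hbad := wW_bad sA sB ht hL hdk Frow hxi hg' rA rB (sc_e_sq hR0 he) hx0'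
  have hfr1 : frob (Matrix.of fun a b =>
      wOf (okW Fb A B P.t) (tilt L A B) a b - 1 + tilt L A B a b) ≤ P.x0 :=
    (frob_wOf_add_le (by norm_num) hT).trans
      (Real.sqrt_le_iff.mpr ⟨hx0, by linarith only [hbad, hk0]⟩)
  have hf0 : 0 ≤ P.f := (frob_nonneg _).trans fA
  have hft : frob (Matrix.of (tilt L A B)) ≤ 2 * P.f / L :=
    (frob_tilt_le hL0).trans (div_le_div_of_nonneg_right (by linarith only [fA, fB]) hL0.le)
  have hfr : frob (Matrix.of fun a b => wOf (okW Fb A B P.t) (tilt L A B) a b - 1) ≤ P.x1 := by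
    have e : (Matrix.of fun a b => wOf (okW Fb A B P.t) (tilt L A B) a b - 1) =
        (Matrix.of fun a b => wOf (okW Fb A B P.t) (tilt L A B) a b - 1 + tilt L A B a b) -
          Matrix.of (tilt L A B) := by
      ext a b; simp
    rw [e]
    exact (frob_sub_le _ _).trans (by linarith only [hfr1, hft, hx1])
  have hx01 : P.x0 ≤ P.x1 := by
    have : 0 ≤ 2 * P.f / L := by positivity
    linarith only [this, hx1]
  have hex : P.e ≤ P.x0 := by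
    refine sc_le_of_sq hx0 ?_
    have q1 : 0 ≤ P.g ^ 4 / P.t ^ 4 := by positivity
    have q2 : 0 ≤ P.v ^ 2 * P.g ^ 2 / P.t ^ 2 := by positivity
    linarith only [hx0', q1, q2, hdk, hk0, sq_nonneg P.e]
  have hrow : ∀ a, nrm (fun b => wOf (okW Fb A B P.t) (tilt L A B) a b - 1) ≤ P.ro := fun a =>
    wW_row sA sB ht hL (zero_le_one.trans (hdF a)) Frow hxi hg' hn0 hnn oA oB hro hro' a
  have hro2 : ∀ _ : ι, P.nn + P.v ^ 2 ≤ P.ro := fun a => by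
    refine sc_le_of_sq hro ?_
    have r0 := hdF a
    have r1 : 0 ≤ (1 + P.nn ^ 2) ^ 2 * P.g ^ 2 / P.t ^ 4 := by positivity
    have r2 : 0 ≤ P.v ^ 2 * (1 + P.nn ^ 2) ^ 2 / P.t ^ 2 := by positivity
    have r3 : 0 ≤ P.lam ^ 2 * P.nn ^ 2 / L ^ 2 := by positivity
    have r4 : 0 ≤ P.v ^ 4 := by positivity
    have r6 : 0 ≤ P.v ^ 2 * P.g ^ 2 / P.t ^ 2 := by positivity
    have r7 : (P.nn + P.v ^ 2) ^ 2 ≤ 2 * P.nn ^ 2 + 2 * P.v ^ 4 := by
      nlinarith only [sq_nonneg (P.nn - P.v ^ 2)]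
    linarith only [hro', r0, r1, r2, r3, r4, r6, r7, sq_nonneg P.nn]
  have hGl : Gl P (wOf (okW Fb A B P.t) (tilt L A B)) (xiW A B) (muW A B) :=
    ⟨xiW_nonneg, muW_nonneg, hxi, hmu, hg', hn0, hnn, hlam, zero_le_one.trans ht,
      fun a b h => (ok_of_wOf_ne h).2.2.2.1, fun a b h => (ok_of_wOf_ne h).2.2.2.2.1,
      fun a b h => (ok_of_wOf_ne h).2.2.2.2.2.2⟩
  have w0 := wOf_nonneg (by norm_num) hT
  have w1 := wOf_le (by norm_num) hT
  have w2 := wOf_symm (okW_symm (t := P.t) sA sB Fsymm) (tilt_symm sA sB L)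
  have w3 := tilt_symm sA sB L
  have w4 : ∀ a b, wOf (okW Fb A B P.t) (tilt L A B) a b ≠ 0 → a ≠ b := by
    rintro a b h rfl
    exact (ok_of_wOf_ne h).1 (Frefl a)
  exact ⟨wOf (okW Fb A B P.t) (tilt L A B), xiW A B, muW A B,
    wW_sd hm (by norm_num) hA hGl w0 w1 w2 w3 w4 hfr hfr1 hrow hx01 hex he hro2
      (fun a => le_add_of_nonneg_right (abs_nonneg _))
      (fun a => le_add_of_nonneg_right (rsq_nonneg _ _)) (fun a b h => (ok_of_wOf_ne h).2.1)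
      vA oA fA tA rA,
    wW_sd hm (by norm_num) hB hGl w0 w1 w2 w3 w4 hfr hfr1 hrow hx01 hex he hro2
      (fun a => le_add_of_nonneg_left (abs_nonneg _))
      (fun a => le_add_of_nonneg_left (rsq_nonneg _ _)) (fun a b h => (ok_of_wOf_ne h).2.2.1)
      vB oB fB tB rB,
    fun a b h => (ok_of_wOf_ne h).1, wW_total hL1 rowA rowB hT hbad⟩

end Vale.Agent.P049
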