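import Vale.Agent.P049.EnvL
import Vale.Agent.P049.EnvM
import Vale.Agent.P049.DriftB
import Vale.Agent.P049.DriftU
import Vale.Agent.P049.DriftV
import Vale.Agent.P049.DriftW
import Vale.Agent.P049.Weights
import Vale.Agent.P049.TiltL
import Vale.Agent.P049.Apriori

/-!
# One averaged step of the potential
-/

namespace Vale.Agent.P049

open Matrix Finset

variable {ι : Type*} [Fintype ι] [DecidableEq ι] {E : Env ℝ} {P : Pr} {a : Aux} {G G' m : ℝ}

/-- All seven terms of the potential of one side are at most one. -/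
structure Le1 (E : Env ℝ) (k G : ℝ) (X Y : Matrix ι ι ℝ) : Prop where
  fD : E.fD k (trace X) ≤ 1
  fE : E.fE k (trace (X * X)) ≤ 1
  fR : E.fR k (trace (X * X)) ≤ 1
  fS : E.fS (trace (X * X * X) + trace (X * X)) ≤ 1
  fC : E.fC k (trace (X * X * Y) + trace (X * X)) ≤ 1
  fV : E.fV k (vv X) ≤ 1
  fU : E.fU k G (uu X) ≤ 1

theorem Sc.core_q_pos {k Z ε : ℝ} (h : Sc E k Z ε) : 0 < E.q k := by
  have := h.hk
  have := h.kap_pos
  unfold Env.q
  positivity

omit [DecidableEq ι] in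
theorem core_vv_nonneg (X : Matrix ι ι ℝ) : 0 ≤ vv X := sum_nonneg fun _ _ => sq_nonneg _

omit [DecidableEq ι] in
theorem core_uu_nonneg (X : Matrix ι ι ℝ) : 0 ≤ uu X := sum_nonneg fun _ _ => sq_nonneg _

theorem core_le1 {k Z ε : ℝ} (h : Sc E k Z ε) (hG : 0 < G) {X Y : Matrix ι ι ℝ} (sX : Xᵀ = X)
    (pX : (X + 1).PosSemidef) (pY : (Y + 1).PosSemidef) (h1 : 1 ≤ trace (X * X)) :
    0 ≤ mSide E k G X Y ∧ (mSide E k G X Y ≤ 1 → Le1 E k G X Y) := by
  have hq := h.core_q_pos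
  have hk : 0 < k := by linarith [h.hk]
  have t1 : 0 ≤ E.fD k (trace X) := by unfold Env.fD; positivity
  have t2 : 0 ≤ E.fE k (trace (X * X)) := by unfold Env.fE; split_ifs <;> positivity
  have t3 : 0 ≤ E.fR k (trace (X * X)) := div_nonneg (by linarith) (by positivity)
  have t4 : 0 ≤ E.fS (trace (X * X * X) + trace (X * X)) :=
    div_nonneg (t3_nonneg sX pX) h.Sb_pos.le
  have t5 : 0 ≤ E.fC k (trace (X * X * Y) + trace (X * X)) :=
    div_nonneg (t3_nonneg sX pY) (mul_pos h.uC_pos hk).le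
  have t6 : 0 ≤ E.fV k (vv X) := div_nonneg (core_vv_nonneg X) (mul_pos h.Vb_pos hq).le
  have t7 : 0 ≤ E.fU k G (uu X) :=
    div_nonneg (core_uu_nonneg X) (mul_pos (mul_pos h.Mu_pos (mul_pos hk hq)) hG).le
  unfold mSide Env.side
  refine ⟨by linarith, fun h => ⟨?_, ?_, ?_, ?_, ?_, ?_, ?_⟩⟩ <;> linarith

/-- The bounds which follow for one side. -/
structure Apr (E : Env ℝ) (P : Pr) (a : Aux) (k G : ℝ) (X Y : Matrix ι ι ℝ) : Prop where
  R0 : 1 ≤ trace (X * X)
  R1 : trace (X * X) ≤ k * E.q k + 8 * a.ε * k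
  R2 : trace (X * X) ≤ k
  R3 : trace (X * X) ≤ P.R
  D : |trace X| ≤ P.dd
  S : trace (X * X * X) + trace (X * X) ≤ E.Sb
  C : trace (X * X * Y) + trace (X * X) ≤ E.uC * k
  v : 2 * nrm (dgv X) ≤ P.v
  u : 2 * nrm (rsq X) ≤ P.u
  op : opn X ≤ P.lam
  f : frob (X * X) ≤ P.f

theorem core_apr {k : ℝ} (hN : Num E P a k G) {X Y : Matrix ι ι ℝ} (sX : Xᵀ = X)
    (pX : (X + 1).PosSemidef) (h1 : 1 ≤ trace (X * X)) (h : Le1 E k G X Y) :
    Apr E P a k G X Y := by
  have hs := hN.sc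
  have hq := hs.core_q_pos
  have hk : 0 < k := by linarith [hs.hk]
  obtain ⟨r1, r2, r3⟩ := hs.near h.fE h.fR
  have r4 : trace (X * X) ≤ P.R := r3.trans hN.R
  have hS : trace (X * X * X) + trace (X * X) ≤ E.Sb := (div_le_one hs.Sb_pos).1 h.fS
  have hT : trace (X * X) = frob X ^ 2 := (frob_sq_of_symm sX).symm
  have hl := hN.lam1
  have hop : opn X ≤ P.lam := by
    rcases hN.lam with ⟨h1, -⟩ | h1
    · refine opn_le_of_cube sX pX hl ?_
      rw [trace_sq_mul_add_one]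
      exact hS.trans h1
    · exact (opn_le_frob X).trans (abs_le_of_sq_le_sq' (hT ▸ r4.trans h1) (by linarith)).2
  refine ⟨h1, r1, r2, r4, ?_, hS, (div_le_one (mul_pos hs.uC_pos hk)).1 h.fC, ?_, ?_, hop, ?_⟩
  · have hp := mul_pos hs.Db_pos hq
    have h2 : trace X ^ 2 ≤ (E.Db * E.q k) ^ 2 := (div_le_one (by positivity)).1 h.fD
    exact (abs_le.2 (abs_le_of_sq_le_sq' h2 hp.le)).trans hN.dd
  · have h2 : vv X ≤ E.Vb * E.q k := (div_le_one (mul_pos hs.Vb_pos hq)).1 h.fV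
    refine (abs_le_of_sq_le_sq' ?_ hN.v0).2
    rw [mul_pow, nrm_sq]
    have : ∑ c, dgv X c ^ 2 = vv X := rfl
    linarith [hN.v]
  · rcases hN.u with h3 | h3
    · have h2 : uu X ≤ E.Mu * (k * E.q k) * G :=
        (div_le_one (mul_pos (mul_pos hs.Mu_pos (mul_pos hk hq)) hN.G_pos)).1 h.fU
      refine (abs_le_of_sq_le_sq' ?_ hN.u0).2
      rw [mul_pow, nrm_sq, ← uu_eq_sum sX]
      linarith
    · have h2 : nrm (rsq X) ≤ trace (X * X) := by
        rw [trace_mul_self_eq_sum sX]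
        refine nrm_le_of_sq_le (sum_nonneg fun c _ => rsq_nonneg X c) ?_
        rw [sq (∑ c, rsq X c), sum_mul]
        refine sum_le_sum fun c _ => ?_
        rw [sq]
        exact mul_le_mul_of_nonneg_left (single_le_sum (f := rsq X) (fun c _ => rsq_nonneg X c)
          (mem_univ c)) (rsq_nonneg X c)
      linarith
  · refine le_trans ?_ hN.f
    rcases hN.lam with ⟨h2, h3⟩ | h2
    · have h4 := frob_mul_sq_le sX sX pX hop
      have h5 := mul_le_mul_of_nonneg_left (hS.trans h2) (show 0 ≤ P.lam by linarith)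
      refine (abs_le_of_sq_le_sq' ?_ (by positivity)).2
      have h6 : 0 ≤ P.lam ^ 4 := by positivity
      nlinarith
    · have h4 := frob_mul_le X X
      nlinarith [sq_nonneg P.lam]

theorem core_eR1_mono (P : Pr) {J J' : ℝ} (h : J ≤ J') : P.eR1 J ≤ P.eR1 J' := by
  unfold Pr.eR1; linarith

omit [DecidableEq ι] in
theorem core_sum_sg {s : ℝ} {sg tl : ι → ι → ℝ} (h : ∀ x y, s * sg x y = tl x y)
    (M : Matrix ι ι ℝ) : s * ∑ x, ∑ y, sg x y * M x y = ∑ x, ∑ y, tl x y * M x y := by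
  simp only [mul_sum]
  exact sum_congr rfl fun x _ => sum_congr rfl fun y _ => by rw [← h, mul_assoc]

omit [DecidableEq ι] in
theorem core_sum_add (w f g : ι → ι → ℝ) (c e : ℝ) :
    ∑ x, ∑ y, w x y * (f x y + g x y - (c + e)) =
      ∑ x, ∑ y, w x y * (f x y - c) + ∑ x, ∑ y, w x y * (g x y - e) := by
  simp only [← sum_add_distrib]
  exact sum_congr rfl fun x _ => sum_congr rfl fun y _ => by ring

/-- The averaged step for one side. -/
theorem core_side [Nonempty ι] {s s' : ℝ} {X Y : Matrix ι ι ℝ} {w sg : ι → ι → ℝ} {xi mu : ι → ℝ}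
    (hN : Num E P a (Fintype.card ι) G)
    (hG' : G * (1 + 11 / 10 / ((Fintype.card ι : ℝ) + E.kap)) ≤ G')
    (hX : Sd P s X w sg xi mu) (hY : Sd P s' Y w sg xi mu) (hss : s * s' = -1)
    (hsg : ∀ x y, s * sg x y = tilt a.L X Y x y) (hsg' : ∀ x y, s' * sg x y = tilt a.L Y X x y)
    (hT : Tl X Y a.L P.lam P.dd a.tt a.ρ a.τ P.f)
    (hZ : |∑ x, ∑ y, w x y - (Fintype.card ι : ℝ) ^ 2| ≤ P.x0 ^ 2)
    (hl : Le1 E (Fintype.card ι) G X Y) (hA : Apr E P a (Fintype.card ι) G X Y)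
    (hB : Apr E P a (Fintype.card ι) G Y X)
    (hc : -trace (X * Y) ≤ Fintype.card ι / 2 + |trace X| + |trace Y| + 3)
    (hp : p4 X ≤ 101 / 200 * trace (X * X) + 1000 * (P.v * P.u + P.v ^ 4)) :
    ∑ x, ∑ y, w x y * (mSide E ((Fintype.card ι : ℝ) - 2) G' (stepM s X x y) (stepM s' Y x y) -
      mSide E (Fintype.card ι) G X Y) ≤ 7000 * a.ε * Fintype.card ι := by
  set k : ℝ := (Fintype.card ι : ℝ) with hkdef
  have hs0 := hN.sc
  have hs : Sc E k (∑ x, ∑ y, w x y) a.ε := { hs0 with hZ := hZ.trans hN.bZ }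
  have hk : 0 < k := by linarith [hs.hk]
  have hρ : 0 ≤ a.ρ := by
    have := mul_nonneg ((abs_nonneg _).trans hA.D) (zero_le_one.trans hN.tt1)
    linarith [hN.ρ]
  have hR0 := hA.R0
  have hρR := mul_le_mul_of_nonneg_left hA.R3 hρ
  -- the trace
  have eD := hs.envD (fun x y => trace (stepM s X x y)) hl.fD hA.R1
    (e1 := 2 * k + 2 * (a.τ ^ 2 / a.L) + P.eD1) (by
      have h1 := drift_t1 hX
      have h2 := hT.tD
      rw [mul_assoc 2 s (∑ x, ∑ y, _), core_sum_sg hsg, ← hkdef] at h1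
      set δ := ∑ x, ∑ y, w x y * (trace (stepM s X x y) - trace X) -
        (2 * trace X * (trace (X * X) - k) + 2 * s * k -
          2 * ∑ x, ∑ y, tilt a.L X Y x y * (X * X) x y) with hδ
      have h3 : trace X * δ ≤ |trace X| * P.eD1 :=
        (le_abs_self _).trans (by rw [abs_mul]; exact mul_le_mul_of_nonneg_left h1 (abs_nonneg _))
      have h4 : trace X * s ≤ |trace X| := (le_abs_self _).trans (by
        rw [abs_mul, hX.wt.abs_s, mul_one])
      have h5 := mul_le_mul_of_nonneg_right h4 hk.le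
      rw [hδ] at h3
      linarith) (var_t1 hX) hN.bD1 hN.bD2
  -- the trace of the square
  have dR : ∀ J, min (P.x1 * √k * P.u) (P.ro * P.R * √k) ≤ J →
      ∑ x, ∑ y, w x y * (trace (stepM s X x y * stepM s X x y) - trace (X * X)) ≤
        2 * trace (X * X) ^ 2 - 4 * k * trace (X * X) + 4 * k + eRR P a J := fun J hJ => by
    have h1 := drift_t2 hX
    have h2 := hT.tR
    have h3 := core_eR1_mono P hJ
    rw [core_sum_sg hsg, ← hkdef] at h1
    unfold eRR
    linarith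
  have dR1 := dR _ (min_le_left _ _)
  have dR2 := dR _ (min_le_right _ _)
  have eE := hs.envE hX.wt.w_nonneg (fun x y => trace (stepM s X x y * stepM s X x y)) hl.fE hZ
    (e1 := 4 * k + eRR P a (P.x1 * √k * P.u)) (by linarith) (var_t2 hX) hN.bE1 hN.bE2
  have eR := hs.envR (fun x y => trace (stepM s X x y * stepM s X x y)) hR0 hl.fR hA.R1 dR2 hN.bR
  have hRR : 2 * trace (X * X) ^ 2 - 4 * k * trace (X * X) ≤ 0 := by nlinarith [hA.R2]
  have hkR := mul_le_mul_of_nonneg_left hA.R3 hk.le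
  -- the cubic word
  have hS0 := t3_nonneg hX.wt.symm hX.psd
  have eS := hs.envS (S := trace (X * X * X) + trace (X * X))
    (fun x y => trace (stepM s X x y * stepM s X x y * stepM s X x y) +
      trace (stepM s X x y * stepM s X x y)) (by
      have h1 := drift_t3 hX hX hA.f ((frob_conj_le hX.wt.symm hX.psd).trans
        (le_trans (add_le_add hA.S hA.f) hN.GS))
      have h2 := hT.tS
      rw [core_sum_sg hsg, ← hkdef, ← sq s, hX.wt.sgn, one_mul] at h1
      have h3 := mul_le_mul_of_nonneg_left (add_le_add hA.S hA.R3) hρ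
      have h4 := mul_nonneg (sub_nonneg.2 hA.R2) hS0
      have h5 := sq_nonneg (trace (X * X))
      rw [core_sum_add]
      linarith) hN.bS
  -- the mixed word
  have hC0 := t3_nonneg hX.wt.symm hY.psd
  have eC := hs.envC (C := trace (X * X * Y) + trace (X * X))
    (fun x y => trace (stepM s X x y * stepM s X x y * stepM s' Y x y) +
      trace (stepM s X x y * stepM s X x y)) hC0 hl.fC (by
      have hG := (frob_conj_le hX.wt.symm hY.psd).trans (le_trans (add_le_add hA.C hA.f) hN.GC)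
      have h1 := drift_t3 hX hY hT.hτ hG
      have h2 := hT.tC1
      have h2' := hT.tC2 hG
      rw [core_sum_sg hsg, core_sum_sg hsg', ← hkdef, hss] at h1
      have h3 := mul_le_mul_of_nonneg_left hA.C hρ
      have hd0 : 0 ≤ P.dd := (abs_nonneg _).trans hA.D
      have h4 := mul_le_mul_of_nonneg_left hA.R3 (mul_nonneg hd0 (zero_le_one.trans hN.lam1))
      have h5 : trace (X * Y) ≤ k := by
        refine (le_abs_self _).trans ((abs_trace_mul_le X Y).trans ?_)
        have g1 := hA.R2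
        have g2 := hB.R2
        rw [hX.trace_eq] at g1
        rw [hY.trace_eq] at g2
        nlinarith [sq_nonneg (frob X - frob Y)]
      set c := 2 * (trace (X * X) - k) + 4 * (-1 * trace (X * Y) - k) with hcdef
      have h6 : c ≤ -2 * k + (8 * P.dd + 12) := by linarith [hA.D, hB.D, hA.R2]
      have h7 : -c ≤ 10 * k := by linarith
      have h8 := mul_le_mul_of_nonneg_right h6 hC0
      have h9 := mul_le_mul_of_nonneg_right h7 (zero_le_one.trans hR0)
      have h10 := mul_le_mul_of_nonneg_left hA.C (show 0 ≤ 8 * P.dd + 12 by linarith)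
      rw [core_sum_add]
      linarith) hN.bC
  -- the diagonal and the rows
  have hp1 : p4 X ≤ 101 / 200 * (k * E.q k + 8 * a.ε * k) + a.ε * k := by linarith [hA.R1, hN.bP]
  have eV := hs.envV (fun x y => vv (stepM s X x y)) (core_vv_nonneg X) hl.fV hp1 (drift_vv hX)
    hN.bV
  have hp2 : p4 X ≤ a.p := by linarith [hA.R3, hN.p]
  have hp0 : 0 ≤ p4 X := by rw [p4_eq_frob_had]; positivity
  have eU := hs.envU (fun x y => uu (stepM s X x y)) (core_uu_nonneg X) hN.G_pos hG' hl.fU hA.R1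
    hp1 (by
      have h1 := drift_uu hX hp2
      have h2 := hT.tU
      rw [core_sum_sg hsg, ← hkdef] at h1
      have h3 : uu X ≤ P.u ^ 2 := by
        rw [uu_eq_sum hX.wt.symm, ← nrm_sq]
        exact pow_le_pow_left₀ (nrm_nonneg _) hX.nrm_rsq_le 2
      have h4 : 0 ≤ a.ρ + a.τ * P.lam / a.L :=
        add_nonneg hρ (div_nonneg (mul_nonneg hN.τ0 (zero_le_one.trans hN.lam1))
          (zero_le_one.trans hT.hL))
      have h5 := mul_le_mul_of_nonneg_left h3 h4
      have h6 := mul_le_mul_of_nonneg_left hp2 hk.le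
      have h7 := mul_nonneg hk.le hp0
      linarith) hN.bU
  unfold mSide Env.side
  simp only [core_sum_add]
  linarith

/-- One averaged step on the matrix level. -/
theorem core_step {ι : Type*} [Fintype ι] [DecidableEq ι] {E : Env ℝ} {P : Pr} {a : Aux}
    {G G' m : ℝ} {A B : Matrix ι ι ℝ} (hN : Num E P a (Fintype.card ι) G)
    (hG' : G * (1 + 11 / 10 / ((Fintype.card ι : ℝ) + E.kap)) ≤ G')
    (hm0 : 0 ≤ m) (hm : m ^ 2 ≤ 1 / 2) (hA : Ker 1 m univ A) (hB : Ker (-1) m univ B)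
    (Fb : ι → ι → Prop) [DecidableRel Fb] (Frefl : ∀ x, Fb x x) (Fsymm : ∀ x y, Fb x y → Fb y x)
    (Frow : ∀ x, ((univ.filter (Fb x)).card : ℝ) ≤ a.dF)
    (hΦ : mSide E (Fintype.card ι) G A B + mSide E (Fintype.card ι) G B A ≤ 1) :
    ∃ w : ι → ι → ℝ, (∀ x y, 0 ≤ w x y) ∧ (∀ x y, w x y ≤ 2) ∧ (∀ x y, w x y = w y x) ∧
      (∀ x, ∑ y, |w x y - 1| ≤ a.ε * Fintype.card ι) ∧
      (∀ x y, w x y ≠ 0 → ¬ Fb x y ∧ 0 < den 1 A x y ∧ 0 < den (-1) B x y) ∧
      ∑ x, ∑ y, w x y *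
        (mSide E ((Fintype.card ι : ℝ) - 2) G' (stepM 1 A x y) (stepM (-1) B x y) +
          mSide E ((Fintype.card ι : ℝ) - 2) G' (stepM (-1) B x y) (stepM 1 A x y) -
          (mSide E (Fintype.card ι) G A B + mSide E (Fintype.card ι) G B A)) ≤
        14000 * a.ε * Fintype.card ι := by
  have hs := hN.sc
  have hk3 : 3000 ≤ Fintype.card ι := by exact_mod_cast hs.hk
  have hk0 : 0 < Fintype.card ι := by omega
  have : Nonempty ι := Fintype.card_pos_iff.1 hk0
  have hm1 : m ≤ 1 := by nlinarith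
  have sA := hA.transpose_eq
  have sB := hB.transpose_eq
  have pA := psd_add_one sA (by norm_num) hm1 hA.rowsum hA.psd
  have pB := psd_add_one sB (by norm_num) hm1 hB.rowsum hB.psd
  have oA := one_le_t2 (by norm_num) hA hk0
  have oB := one_le_t2 (by norm_num) hB hk0
  obtain ⟨nA, lA⟩ := core_le1 hs hN.G_pos sA pA pB oA
  obtain ⟨nB, lB⟩ := core_le1 hs hN.G_pos sB pB pA oB
  have lA := lA (by linarith)
  have lB := lB (by linarith)
  have aA := core_apr hN sA pA oA lA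
  have aB := core_apr hN sB pB oB lB
  obtain ⟨w, xi, mu, dA, dB, hF, hZ⟩ := exists_weights (L := a.L) Fb hm1 hA hB Frefl Fsymm Frow
    aA.v aB.v aA.u aB.u hN.g hN.nn0 hN.nn hN.lam1 aA.op aB.op aA.f aB.f aA.D aB.D aA.R3 aB.R3
    hN.e hN.t1 hN.L hN.x00 hN.ro0 hN.x0 hN.x1 hN.ro
  have hτ : frob (A * B) ≤ a.τ := by
    rw [← frob_transpose, transpose_mul, sA, sB]
    have h1 := frob_mul_sq_le sB sA pA aA.op
    have h2 := mul_le_mul_of_nonneg_left aB.C (zero_le_one.trans hN.lam1)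
    exact (abs_le_of_sq_le_sq' (by linarith [hN.τ, aB.R3]) hN.τ0).2
  have hT : Tl A B a.L P.lam P.dd a.tt a.ρ a.τ P.f :=
    ⟨sA, sB, pA, pB, aA.op, aB.op, aA.D, aB.D, by linarith [hN.L, hN.t1], hN.tt1, hN.tt, hN.ρ, hτ,
      aA.f, aB.f⟩
  have hc := cross_le hm0 hm hA hB hk0
  have t1 : ∀ x y, 1 * tilt a.L A B x y = tilt a.L A B x y := fun x y => one_mul _
  have t2 : ∀ x y, -1 * tilt a.L A B x y = tilt a.L B A x y := fun x y => by
    rw [tilt_swap a.L A B, neg_one_mul]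
  have sdA := core_side hN hG' dA dB (by norm_num) t1 t2 hT hZ lA aA aB hc
    (p4_le (by norm_num) hm0 hm hA hk3 dA.nrm_dgv_le dA.nrm_rsq_le)
  have sdB := core_side hN hG' dB dA (by norm_num) t2 t1 hT.symm hZ lB aB aA
    (by rw [trace_mul_comm]; linarith)
    (p4_le (by norm_num) hm0 hm hB hk3 dB.nrm_dgv_le dB.nrm_rsq_le)
  refine ⟨w, dA.wt.w_nonneg, dA.wt.w_le_two, dA.wt.w_symm, fun x => ?_,
    fun x y h => ⟨hF x y h, dA.wt.den_pos h, dB.wt.den_pos h⟩, ?_⟩
  · refine (sum_abs_le_sqrt_card fun y => w x y - 1).trans ?_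
    have h1 := mul_le_mul_of_nonneg_left ((dA.wt.row x).trans hN.bro)
      (Real.sqrt_nonneg (Fintype.card ι : ℝ))
    refine h1.trans (le_of_eq ?_)
    rw [mul_left_comm, Real.mul_self_sqrt (Nat.cast_nonneg _)]
  · rw [core_sum_add]
    linarith

end Vale.Agent.P049
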