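import Vale.Agent.P049.Pot
import Vale.Agent.P049.DriftW
import Vale.Agent.P049.DriftB
import Vale.Agent.P049.TiltL
import Vale.Agent.P049.Apriori

/-!
The averaged increments of the two cubic observables, after the tilt inequalities.
-/

namespace Vale.Agent.P049

open Matrix Finset

variable {ι : Type*} [Fintype ι] [DecidableEq ι]
variable {P : Pr} {a : Aux} {s s' : ℝ} {X Y : Matrix ι ι ℝ} {w sg : ι → ι → ℝ} {xi mu : ι → ℝ}

omit [DecidableEq ι] in
theorem sc_tilt {T : ι → ι → ℝ} (hsg : ∀ x y, s * sg x y = T x y) (M : Matrix ι ι ℝ) :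
    s * ∑ x, ∑ y, sg x y * M x y = ∑ x, ∑ y, T x y * M x y := by
  simp only [mul_sum, ← hsg, mul_assoc]

theorem sc_rho (hT : Tl X Y a.L P.lam P.dd a.tt a.ρ a.τ P.f) : 0 ≤ a.ρ :=
  hT.dd_nonneg.trans hT.dd_le

theorem sc_R (h : Sd P s X w sg xi mu) (hT : Tl X Y a.L P.lam P.dd a.tt a.ρ a.τ P.f)
    (hsg : ∀ x y, s * sg x y = tilt a.L X Y x y) (hR : trace (X * X) ≤ Fintype.card ι) :
    ∑ x, ∑ y, w x y * (trace (stepM s X x y * stepM s X x y) - trace (X * X)) ≤
      4 * Fintype.card ι + eRR P a (P.ro * P.R * √(Fintype.card ι)) := by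
  have e1 := drift_t2 h
  rw [sc_tilt hsg] at e1
  have e2 := hT.tR
  have e3 := mul_le_mul_of_nonneg_left h.r2 (sc_rho hT)
  have e4 : 0 ≤ trace (X * X) := by rw [← frob_sq_of_symm h.wt.symm]; positivity
  have e5 := min_le_right (P.x1 * √(Fintype.card ι) * P.u) (P.ro * P.R * √(Fintype.card ι))
  have e6 := mul_le_mul_of_nonneg_right hR e4
  have e7 : 0 ≤ (Fintype.card ι : ℝ) * trace (X * X) := mul_nonneg (Nat.cast_nonneg _) e4
  unfold eRR
  unfold Pr.eR1 at *
  nlinarith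

/-- The increment of `tr X ^ 3 + tr X ^ 2`. -/
theorem sc_S {Sb : ℝ} (h : Sd P s X w sg xi mu) (hT : Tl X Y a.L P.lam P.dd a.tt a.ρ a.τ P.f)
    (hsg : ∀ x y, s * sg x y = tilt a.L X Y x y) (hR : trace (X * X) ≤ Fintype.card ι)
    (hS : trace (X * X * X) + trace (X * X) ≤ Sb) (hG : Sb + P.f ≤ a.GS) :
    ∑ x, ∑ y, w x y * (trace (stepM s X x y * stepM s X x y * stepM s X x y) +
        trace (stepM s X x y * stepM s X x y) - (trace (X * X * X) + trace (X * X))) ≤
      6 * Fintype.card ι * P.R + 6 * (a.ρ * (Sb + P.R) + P.lam ^ 2 * a.τ ^ 2 / a.L) +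
        P.eT (Fintype.card ι) P.f a.GS + 4 * Fintype.card ι +
        eRR P a (P.ro * P.R * √(Fintype.card ι)) := by
  have e0 := frob_conj_le h.wt.symm h.psd
  have e1 := drift_t3 h h h.f4 (G := a.GS) (by linarith [h.f4])
  rw [sc_tilt hsg, ← sq s, h.wt.sgn, one_mul] at e1
  have e2 := sc_R h hT hsg hR
  have e3 := hT.tS
  have e4 : 0 ≤ trace (X * X) := by rw [← frob_sq_of_symm h.wt.symm]; positivity
  have e5 := t3_nonneg h.wt.symm h.psd
  have k0 : (0 : ℝ) ≤ Fintype.card ι := Nat.cast_nonneg _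
  have e6 : a.ρ * (trace (X * X * X) + 2 * trace (X * X)) ≤ a.ρ * (Sb + P.R) :=
    mul_le_mul_of_nonneg_left (by linarith [h.r2]) (sc_rho hT)
  have e7 := mul_nonneg (sub_nonneg.2 hR) e5
  have e8 := mul_le_mul_of_nonneg_left h.r2 k0
  have e9 := mul_nonneg e4 e4
  have e : ∑ x, ∑ y, w x y * (trace (stepM s X x y * stepM s X x y * stepM s X x y) +
      trace (stepM s X x y * stepM s X x y) - (trace (X * X * X) + trace (X * X))) =
      ∑ x, ∑ y, w x y * (trace (stepM s X x y * stepM s X x y * stepM s X x y) -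
        trace (X * X * X)) +
      ∑ x, ∑ y, w x y * (trace (stepM s X x y * stepM s X x y) - trace (X * X)) := by
    rw [← wsum_add]
    exact sum_congr rfl fun x _ => sum_congr rfl fun y _ => by ring
  rw [e]
  linarith

/-- The increment of `tr X ^ 2 Y + tr X ^ 2`. -/
theorem sc_C {Cb : ℝ} (h : Sd P s X w sg xi mu) (h' : Sd P s' Y w sg xi mu)
    (hT : Tl X Y a.L P.lam P.dd a.tt a.ρ a.τ P.f) (hss : s' = -s)
    (hsg : ∀ x y, s * sg x y = tilt a.L X Y x y) (hR : trace (X * X) ≤ Fintype.card ι)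
    (hR' : trace (Y * Y) ≤ Fintype.card ι)
    (hc : -trace (X * Y) ≤ Fintype.card ι / 2 + |trace X| + |trace Y| + 3)
    (hC : trace (X * X * Y) + trace (X * X) ≤ Cb) (hG : Cb + P.f ≤ a.GC) :
    ∑ x, ∑ y, w x y * (trace (stepM s X x y * stepM s X x y * stepM s' Y x y) +
        trace (stepM s X x y * stepM s X x y) - (trace (X * X * Y) + trace (X * X))) ≤
      -2 * Fintype.card ι * (trace (X * X * Y) + trace (X * X)) +
        ((8 * P.dd + 12) * Cb + 10 * Fintype.card ι * P.R +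
          4 * (a.ρ * Cb + P.dd * P.lam * P.R + P.lam * P.f ^ 2 / a.L + a.τ ^ 3 / a.L) +
          2 * (a.ρ * (Cb + P.R) + a.GC ^ 2 / a.L) + P.eT (Fintype.card ι) a.τ a.GC +
          4 * Fintype.card ι + eRR P a (P.ro * P.R * √(Fintype.card ι))) := by
  have e0 := frob_conj_le h.wt.symm h'.psd
  have hG' : frob (X * Y * X) ≤ a.GC := by linarith [h.f4]
  have e1 := drift_t3 h h' hT.hτ hG'
  have hsg' : ∀ x y, s' * sg x y = tilt a.L Y X x y := fun x y => by
    rw [tilt_swap, ← hsg, hss, neg_mul]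
  have hs1 : s * s' = -1 := by rw [hss, mul_neg, ← sq, h.wt.sgn]
  rw [sc_tilt hsg, sc_tilt hsg', hs1] at e1
  have e2 := sc_R h hT hsg hR
  have e3 := hT.tC1
  have e3' := hT.tC2 hG'
  have e4 : 0 ≤ trace (X * X) := by rw [← frob_sq_of_symm h.wt.symm]; positivity
  have e5 := t3_nonneg h.wt.symm h'.psd
  have k0 : (0 : ℝ) ≤ Fintype.card ι := Nat.cast_nonneg _
  have d0 := hT.dd_nonneg
  have e6 : a.ρ * (trace (X * X * Y) + 2 * trace (X * X)) ≤ a.ρ * (Cb + P.R) :=
    mul_le_mul_of_nonneg_left (by linarith [h.r2]) (sc_rho hT)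
  have e6' := mul_le_mul_of_nonneg_left hC (sc_rho hT)
  have e7 := mul_le_mul_of_nonneg_left h.r2 (mul_nonneg d0 hT.lam_nonneg)
  have e8 := mul_le_mul_of_nonneg_left h.r2 k0
  have e9 : trace (X * Y) ≤ Fintype.card ι := by
    have a1 := (le_abs_self _).trans (abs_trace_mul_le X Y)
    rw [← frob_sq_of_symm h.wt.symm] at hR
    rw [← frob_sq_of_symm h'.wt.symm] at hR'
    nlinarith [sq_nonneg (frob X - frob Y)]
  have e10 : (2 * (trace (X * X) - Fintype.card ι) + 4 * (-1 * trace (X * Y) - Fintype.card ι)) *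
      (trace (X * X * Y) + trace (X * X)) ≤ (-2 * Fintype.card ι + (8 * P.dd + 12)) *
      (trace (X * X * Y) + trace (X * X)) :=
    mul_le_mul_of_nonneg_right (by linarith [h.tr, h'.tr]) e5
  have e11 : -(2 * (trace (X * X) - Fintype.card ι) + 4 * (-1 * trace (X * Y) - Fintype.card ι)) *
      trace (X * X) ≤ 10 * Fintype.card ι * trace (X * X) :=
    mul_le_mul_of_nonneg_right (by linarith) e4
  have e12 := mul_le_mul_of_nonneg_left hC (by linarith : 0 ≤ 8 * P.dd + 12)
  have e : ∑ x, ∑ y, w x y * (trace (stepM s X x y * stepM s X x y * stepM s' Y x y) +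
      trace (stepM s X x y * stepM s X x y) - (trace (X * X * Y) + trace (X * X))) =
      ∑ x, ∑ y, w x y * (trace (stepM s X x y * stepM s X x y * stepM s' Y x y) -
        trace (X * X * Y)) +
      ∑ x, ∑ y, w x y * (trace (stepM s X x y * stepM s X x y) - trace (X * X)) := by
    rw [← wsum_add]
    exact sum_congr rfl fun x _ => sum_congr rfl fun y _ => by ring
  rw [e]
  linarith

end Vale.Agent.P049
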