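import Vale.Agent.P049.Transfer

/-!
# The two counting potentials

`cntL` counts ordered pairs of distinct free half-edges at the same vertex, `cntB` counts ordered
forbidden pairs of distinct free half-edges.
-/

namespace Vale.Agent.P049

open Finset Vale.Agent.Lib.PolyTime

section Defs

variable (K : Type*) [Field K]

/-- Pairs of free half-edges at the same vertex. -/
def cntL (d N : ℕ) (π : ℕ → ℕ) : K :=
  ∑ c ∈ range N, ∑ e ∈ range N,
    if N ≤ π c ∧ N ≤ π e ∧ c ≠ e ∧ c / d = e / d then 1 else 0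

/-- Forbidden pairs of free half-edges. -/
def cntB (d N : ℕ) (π : ℕ → ℕ) : K :=
  ∑ c ∈ range N, ∑ e ∈ range N,
    if N ≤ π c ∧ N ≤ π e ∧ c ≠ e ∧ Forb d N π c e then 1 else 0

end Defs

theorem cast_cntL (d N : ℕ) (π : ℕ → ℕ) : ((cntL ℚ d N π : ℚ) : ℝ) = cntL ℝ d N π := by
  simp only [cntL, Rat.cast_sum]
  refine sum_congr rfl fun c _ => sum_congr rfl fun e _ => ?_
  split_ifs <;> simp

theorem cast_cntB (d N : ℕ) (π : ℕ → ℕ) : ((cntB ℚ d N π : ℚ) : ℝ) = cntB ℝ d N π := by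
  simp only [cntB, Rat.cast_sum]
  refine sum_congr rfl fun c _ => sum_congr rfl fun e _ => ?_
  split_ifs <;> simp

theorem sum_alive_pairs (N : ℕ) (π : ℕ → ℕ) (R : ℕ → ℕ → Prop) [DecidableRel R] :
    (∑ c ∈ range N, ∑ e ∈ range N, if N ≤ π c ∧ N ≤ π e ∧ R c e then (1 : ℝ) else 0) =
      ∑ c ∈ alive N π, ∑ e ∈ alive N π, if R c e then (1 : ℝ) else 0 := by
  unfold alive
  rw [sum_filter]
  refine sum_congr rfl fun c _ => ?_
  by_cases hc : N ≤ π c
  · rw [if_pos hc, sum_filter]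
    refine sum_congr rfl fun e _ => ?_
    by_cases he : N ≤ π e <;> simp [hc, he]
  · simp [hc]

theorem cntL_eq (d N : ℕ) (π : ℕ → ℕ) : cntL ℝ d N π =
    ∑ c ∈ alive N π, ∑ e ∈ alive N π, if c ≠ e ∧ c / d = e / d then (1 : ℝ) else 0 :=
  sum_alive_pairs N π fun c e => c ≠ e ∧ c / d = e / d

theorem cntB_eq (d N : ℕ) (π : ℕ → ℕ) : cntB ℝ d N π =
    ∑ c ∈ alive N π, ∑ e ∈ alive N π, if c ≠ e ∧ Forb d N π c e then (1 : ℝ) else 0 :=
  sum_alive_pairs N π fun c e => c ≠ e ∧ Forb d N π c e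

theorem cntL_nonneg (d N : ℕ) (π : ℕ → ℕ) : 0 ≤ cntL ℝ d N π :=
  sum_nonneg fun _ _ => sum_nonneg fun _ _ => by split_ifs <;> norm_num

theorem cntB_nonneg (d N : ℕ) (π : ℕ → ℕ) : 0 ≤ cntB ℝ d N π :=
  sum_nonneg fun _ _ => sum_nonneg fun _ _ => by split_ifs <;> norm_num

/-- Removal of two indices from a symmetric double sum. -/
theorem sum_sum_rest {ι : Type*} [DecidableEq ι] {H : Finset ι} {a b : ι} (ha : a ∈ H) (hb : b ∈ H)
    (hab : a ≠ b) {g : ι → ι → ℝ} (hg : ∀ c e, g c e = g e c) :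
    ∑ c ∈ rest H a b, ∑ e ∈ rest H a b, g c e = ∑ c ∈ H, ∑ e ∈ H, g c e - 2 * ∑ e ∈ H, g a e -
      2 * ∑ e ∈ H, g b e + g a a + g b b + 2 * g a b := by
  have h1 : ∀ c, ∑ e ∈ rest H a b, g c e = ∑ e ∈ H, g c e - g a c - g b c := fun c => by
    rw [sum_rest ha hb hab (g c), hg a c, hg b c]; ring
  rw [sum_congr rfl fun c _ => h1 c, sum_sub_distrib, sum_sub_distrib, h1 a, h1 b,
    sum_rest ha hb hab fun c => ∑ e ∈ H, g c e, hg b a]
  ring

/-- The number of other free half-edges at the vertex of `a`. -/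
noncomputable def rowL (d : ℕ) (H : Finset ℕ) (a : ℕ) : ℝ :=
  ∑ e ∈ H, if a ≠ e ∧ a / d = e / d then 1 else 0

/-- The number of forbidden partners of `a`. -/
noncomputable def rowB (d N : ℕ) (π : ℕ → ℕ) (a : ℕ) : ℝ :=
  ∑ e ∈ alive N π, if a ≠ e ∧ Forb d N π a e then 1 else 0

theorem rowL_nonneg (d : ℕ) (H : Finset ℕ) (a : ℕ) : 0 ≤ rowL d H a :=
  sum_nonneg fun _ _ => by split_ifs <;> norm_num

theorem rowB_nonneg (d N : ℕ) (π : ℕ → ℕ) (a : ℕ) : 0 ≤ rowB d N π a :=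
  sum_nonneg fun _ _ => by split_ifs <;> norm_num

theorem cntL_upd {d N : ℕ} {π : ℕ → ℕ} {a b : ℕ} (ha : a ∈ alive N π) (hb : b ∈ alive N π)
    (hab : ¬ Forb d N π a b) : cntL ℝ d N (upd π a b) =
      cntL ℝ d N π - 2 * rowL d (alive N π) a - 2 * rowL d (alive N π) b := by
  have h0 : a / d ≠ b / d := fun h => hab (Or.inl h)
  rw [cntL_eq, cntL_eq, alive_upd (mem_alive.1 ha).1 (mem_alive.1 hb).1,
    sum_sum_rest ha hb (ne_of_not_forb hab) fun c e => by simp only [ne_comm, eq_comm]]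
  simp [rowL, h0]

theorem cntB_upd {d N : ℕ} {π : ℕ → ℕ} (hπ : IsMatch d N π) {a b : ℕ} (ha : a ∈ alive N π)
    (hb : b ∈ alive N π) (hab : ¬ Forb d N π a b) : cntB ℝ d N (upd π a b) ≤
      cntB ℝ d N π - 2 * rowB d N π a - 2 * rowB d N π b +
        2 * (rowL d (alive N π) a * rowL d (alive N π) b) := by
  have hsym : ∀ c e, Forb d N π c e ↔ Forb d N π e c := fun c e =>
    ⟨fun h => h.symm hπ, fun h => h.symm hπ⟩
  have h1 := sum_sum_rest ha hb (ne_of_not_forb hab)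
    (g := fun c e => if c ≠ e ∧ Forb d N π c e then (1 : ℝ) else 0)
    fun c e => by simp only [ne_comm, hsym c e]
  simp only [ne_eq, not_true_eq_false, false_and, if_false, add_zero, hab, and_false,
    mul_zero] at h1
  have h2 : ∀ x, x ∈ alive N π → ∀ y, ∑ c ∈ rest (alive N π) x y,
      (if x / d = c / d then (1 : ℝ) else 0) ≤ rowL d (alive N π) x := fun x _ y => by
    refine le_trans (le_of_eq (sum_congr rfl fun c hc => ?_))
      (sum_le_sum_of_subset_of_nonneg (rest_subset _ x y) fun _ _ _ => by split_ifs <;> norm_num)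
    have := (mem_rest.1 hc).2.1
    simp [this.symm]
  have hr : rest (alive N π) b a = rest (alive N π) a b := by
    ext c; simp only [mem_rest]; tauto
  have ha' := h2 a ha b
  have hb' := h2 b hb a
  rw [hr] at hb'
  have h3 : ∀ c e, (if c ≠ e ∧ Forb d N (upd π a b) c e then (1 : ℝ) else 0) ≤
      (if c ≠ e ∧ Forb d N π c e then (1 : ℝ) else 0) +
      (if a / d = c / d then (1 : ℝ) else 0) * (if b / d = e / d then (1 : ℝ) else 0) +
      (if b / d = c / d then (1 : ℝ) else 0) * (if a / d = e / d then (1 : ℝ) else 0) := by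
    intro c e
    simp only [forb_upd ha hb]
    split_ifs <;> first | (norm_num; done) | tauto
  rw [cntB_eq, cntB_eq, alive_upd (mem_alive.1 ha).1 (mem_alive.1 hb).1]
  refine (sum_le_sum fun c _ => sum_le_sum fun e _ => h3 c e).trans ?_
  simp only [sum_add_distrib, ← sum_mul_sum]
  have n1 : 0 ≤ ∑ c ∈ rest (alive N π) a b, (if a / d = c / d then (1 : ℝ) else 0) :=
    sum_nonneg fun _ _ => by split_ifs <;> norm_num
  have n2 : 0 ≤ ∑ c ∈ rest (alive N π) a b, (if b / d = c / d then (1 : ℝ) else 0) :=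
    sum_nonneg fun _ _ => by split_ifs <;> norm_num
  have h4 := mul_le_mul ha' hb' n2 (rowL_nonneg _ _ _)
  unfold rowB
  simp only [ne_eq]
  rw [h1]
  nlinarith

theorem sum_rowL (d N : ℕ) (π : ℕ → ℕ) :
    ∑ a : alive N π, rowL d (alive N π) a = cntL ℝ d N π := by
  rw [cntL_eq]
  exact sum_coe_sort (alive N π) fun a => rowL d (alive N π) a

theorem sum_rowB (d N : ℕ) (π : ℕ → ℕ) : ∑ a : alive N π, rowB d N π a = cntB ℝ d N π := by
  rw [cntB_eq]
  exact sum_coe_sort (alive N π) fun a => rowB d N π a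

section Avg

variable {ι : Type*} [Fintype ι]

theorem row_ge {w : ι → ι → ℝ} {ε : ℝ} (hrow : ∀ a, ∑ b, |w a b - 1| ≤ ε * Fintype.card ι)
    (a : ι) : (1 - ε) * Fintype.card ι ≤ ∑ b, w a b := by
  have h1 : ∑ b, (1 - w a b) ≤ ∑ b, |w a b - 1| :=
    sum_le_sum fun b _ => by rw [abs_sub_comm]; exact le_abs_self _
  rw [sum_sub_distrib, sum_const, card_univ, nsmul_eq_mul] at h1
  linarith [hrow a]

theorem row_le {w : ι → ι → ℝ} {ε : ℝ} (hrow : ∀ a, ∑ b, |w a b - 1| ≤ ε * Fintype.card ι)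
    (a : ι) : ∑ b, w a b ≤ (1 + ε) * Fintype.card ι := by
  have h1 : ∑ b, (w a b - 1) ≤ ∑ b, |w a b - 1| := sum_le_sum fun b _ => le_abs_self _
  rw [sum_sub_distrib, sum_const, card_univ, nsmul_eq_mul] at h1
  linarith [hrow a]

theorem total_ge {w : ι → ι → ℝ} {ε : ℝ} (hrow : ∀ a, ∑ b, |w a b - 1| ≤ ε * Fintype.card ι) :
    (1 - ε) * (Fintype.card ι : ℝ) ^ 2 ≤ ∑ a, ∑ b, w a b := by
  have := sum_le_sum (s := univ) fun a _ => row_ge hrow a
  rw [sum_const, card_univ, nsmul_eq_mul] at this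
  linarith

theorem total_le {w : ι → ι → ℝ} {ε : ℝ} (hrow : ∀ a, ∑ b, |w a b - 1| ≤ ε * Fintype.card ι) :
    ∑ a, ∑ b, w a b ≤ (1 + ε) * (Fintype.card ι : ℝ) ^ 2 := by
  have := sum_le_sum (s := univ) fun a _ => row_le hrow a
  rw [sum_const, card_univ, nsmul_eq_mul] at this
  linarith

/-- A potential which loses twice the rows of the matched pair, with envelope `lam * k ^ 2`. -/
theorem markov_quad {w : ι → ι → ℝ} {ε : ℝ} (hε : 0 ≤ ε) (hw : ∀ a b, 0 ≤ w a b)
    (hs : ∀ a b, w a b = w b a) (hrow : ∀ a, ∑ b, |w a b - 1| ≤ ε * Fintype.card ι)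
    (hk : 4 ≤ Fintype.card ι) {f : ι → ℝ} (hf : ∀ a, 0 ≤ f a) {X : ι → ι → ℝ} {g : ι → ι → ℝ}
    (hX : ∀ a b, w a b ≠ 0 → X a b ≤ ∑ c, f c - 2 * f a - 2 * f b + g a b) {G lam : ℝ}
    (hG0 : 0 ≤ G) (hG : ∑ a, ∑ b, w a b * g a b ≤ G) (hl : 0 < lam)
    (h1 : ∑ c, f c ≤ lam * (Fintype.card ι : ℝ) ^ 2) :
    ∑ a, ∑ b, w a b * (X a b / (lam * ((Fintype.card ι : ℝ) - 2) ^ 2) -
      (∑ c, f c) / (lam * (Fintype.card ι : ℝ) ^ 2)) ≤
      32 * ε * Fintype.card ι + 4 * G / (lam * (Fintype.card ι : ℝ) ^ 2) := by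
  set k : ℝ := (Fintype.card ι : ℝ) with hkdef
  have hk4 : (4 : ℝ) ≤ k := by rw [hkdef]; exact_mod_cast hk
  set T := ∑ c, f c with hT
  set Z := ∑ a, ∑ b, w a b with hZ
  have hT0 : 0 ≤ T := sum_nonneg fun c _ => hf c
  have hZ1 : Z ≤ (1 + ε) * k ^ 2 := total_le hrow
  have e1 : (1 - ε) * k * T ≤ ∑ a, ∑ b, w a b * f a := by
    rw [hT, mul_sum]
    refine sum_le_sum fun a _ => ?_
    rw [← sum_mul]
    exact mul_le_mul_of_nonneg_right (row_ge hrow a) (hf a)
  have e2 : ∑ a, ∑ b, w a b * f b = ∑ a, ∑ b, w a b * f a := by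
    rw [sum_comm]
    exact sum_congr rfl fun a _ => sum_congr rfl fun b _ => by rw [hs]
  have e3 : ∑ a, ∑ b, w a b * X a b ≤ Z * T - 4 * ((1 - ε) * k * T) + G := by
    have : ∑ a, ∑ b, w a b * X a b ≤ ∑ a, ∑ b, (w a b * T - 2 * (w a b * f a) -
        2 * (w a b * f b) + w a b * g a b) := by
      refine sum_le_sum fun a _ => sum_le_sum fun b _ => ?_
      by_cases h : w a b = 0
      · simp [h]
      · have := mul_le_mul_of_nonneg_left (hX a b h) (hw a b)
        linarith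
    simp only [sum_add_distrib, sum_sub_distrib, ← mul_sum, ← sum_mul] at this e1 e2
    linarith
  have hk2 : 0 < (k - 2) ^ 2 := by have : 0 < k - 2 := by linarith
                                   positivity
  have hk0 : 0 < k := by linarith
  have e4 : ∑ a, ∑ b, w a b * (X a b / (lam * (k - 2) ^ 2) - T / (lam * k ^ 2)) =
      (∑ a, ∑ b, w a b * X a b) / (lam * (k - 2) ^ 2) - Z * (T / (lam * k ^ 2)) := by
    generalize T / (lam * k ^ 2) = τ
    rw [hZ, sum_div, sum_mul, ← sum_sub_distrib]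
    refine sum_congr rfl fun a _ => ?_
    rw [sum_div, sum_mul, ← sum_sub_distrib]
    exact sum_congr rfl fun b _ => by ring
  rw [e4]
  set τ := T / (lam * k ^ 2) with hτ
  have hτ0 : 0 ≤ τ := by positivity
  have hτ1 : τ ≤ 1 := by rw [hτ, div_le_one (by positivity)]; exact h1
  have hTτ : T = τ * (lam * k ^ 2) := by rw [hτ]; field_simp
  have e5 : (Z * T - 4 * ((1 - ε) * k * T) + G) / (lam * (k - 2) ^ 2) - Z * τ =
      τ * ((Z * (4 * k - 4) - 4 * (1 - ε) * k ^ 3) / (k - 2) ^ 2) + G / (lam * (k - 2) ^ 2) := by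
    have hk3 : k - 2 ≠ 0 := by linarith
    rw [hTτ]
    field_simp
    ring
  have e6 : (Z * (4 * k - 4) - 4 * (1 - ε) * k ^ 3) / (k - 2) ^ 2 ≤ 32 * ε * k := by
    rw [div_le_iff₀ hk2]
    have a1 : Z * (4 * k - 4) ≤ (1 + ε) * k ^ 2 * (4 * k) :=
      (mul_le_mul_of_nonneg_right hZ1 (by linarith)).trans
        (mul_le_mul_of_nonneg_left (by linarith) (by positivity))
    have a2 : k ^ 2 ≤ 4 * (k - 2) ^ 2 := by nlinarith
    have a3 := mul_le_mul_of_nonneg_left a2 (by positivity : 0 ≤ 8 * ε * k)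
    nlinarith
  have e7 : G / (lam * (k - 2) ^ 2) ≤ 4 * G / (lam * k ^ 2) := by
    rw [div_le_div_iff₀ (by positivity) (by positivity)]
    have a2 : k ^ 2 ≤ 4 * (k - 2) ^ 2 := by nlinarith
    have := mul_le_mul_of_nonneg_left a2 (by positivity : 0 ≤ G * lam)
    nlinarith
  have e8 := div_le_div_of_nonneg_right e3 (by positivity : 0 ≤ lam * (k - 2) ^ 2)
  have e9 : τ * ((Z * (4 * k - 4) - 4 * (1 - ε) * k ^ 3) / (k - 2) ^ 2) ≤ 32 * ε * k :=
    (mul_le_mul_of_nonneg_left e6 hτ0).trans (mul_le_of_le_one_left (by positivity) hτ1)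
  linarith

end Avg

/-- The drift of the first counting potential. -/
theorem drift_cntL {d N : ℕ} {π : ℕ → ℕ} {w : alive N π → alive N π → ℝ} {ε : ℝ} (hε : 0 ≤ ε)
    (hw : ∀ a b, 0 ≤ w a b) (hs : ∀ a b, w a b = w b a)
    (hrow : ∀ a, ∑ b, |w a b - 1| ≤ ε * Fintype.card (alive N π))
    (hF : ∀ a b, w a b ≠ 0 → ¬ Forb d N π a b) (hk : 4 ≤ Fintype.card (alive N π)) {lam : ℝ}
    (hl : 0 < lam) (h1 : cntL ℝ d N π ≤ lam * (Fintype.card (alive N π) : ℝ) ^ 2) :
    ∑ a, ∑ b, w a b * (cntL ℝ d N (upd π a b) / (lam * ((Fintype.card (alive N π) : ℝ) - 2) ^ 2) -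
      cntL ℝ d N π / (lam * (Fintype.card (alive N π) : ℝ) ^ 2)) ≤
      32 * ε * Fintype.card (alive N π) := by
  have := markov_quad hε hw hs hrow hk (f := fun a => rowL d (alive N π) a)
    (fun a => rowL_nonneg _ _ _) (X := fun a b => cntL ℝ d N (upd π a b)) (g := fun _ _ => 0)
    (fun a b h => by rw [cntL_upd a.2 b.2 (hF a b h), sum_rowL, add_zero]) (G := 0) le_rfl
    (by simp) hl (by rw [sum_rowL]; exact h1)
  rw [sum_rowL] at this
  simpa using this

/-- The drift of the second counting potential. -/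
theorem drift_cntB {d N : ℕ} {π : ℕ → ℕ} (hπ : IsMatch d N π) {w : alive N π → alive N π → ℝ}
    {ε : ℝ} (hε : 0 ≤ ε) (hw : ∀ a b, 0 ≤ w a b) (hw2 : ∀ a b, w a b ≤ 2)
    (hs : ∀ a b, w a b = w b a) (hrow : ∀ a, ∑ b, |w a b - 1| ≤ ε * Fintype.card (alive N π))
    (hF : ∀ a b, w a b ≠ 0 → ¬ Forb d N π a b) (hk : 4 ≤ Fintype.card (alive N π)) {lam bet : ℝ}
    (hb : 0 < bet) (h1 : cntL ℝ d N π ≤ lam * (Fintype.card (alive N π) : ℝ) ^ 2)
    (h2 : cntB ℝ d N π ≤ bet * (Fintype.card (alive N π) : ℝ) ^ 2) :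
    ∑ a, ∑ b, w a b * (cntB ℝ d N (upd π a b) / (bet * ((Fintype.card (alive N π) : ℝ) - 2) ^ 2) -
      cntB ℝ d N π / (bet * (Fintype.card (alive N π) : ℝ) ^ 2)) ≤
      32 * ε * Fintype.card (alive N π) + 16 * lam ^ 2 / bet * (Fintype.card (alive N π) : ℝ) ^ 2 := by
  have hL := cntL_nonneg d N π
  have hG : ∑ a : alive N π, ∑ b : alive N π, w a b *
      (2 * (rowL d (alive N π) a * rowL d (alive N π) b)) ≤
      4 * (lam * (Fintype.card (alive N π) : ℝ) ^ 2) ^ 2 := by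
    have h3 : ∑ a : alive N π, ∑ b : alive N π, w a b *
        (2 * (rowL d (alive N π) a * rowL d (alive N π) b)) ≤
        ∑ a : alive N π, ∑ b : alive N π, 4 * (rowL d (alive N π) a * rowL d (alive N π) b) := by
      refine sum_le_sum fun a _ => sum_le_sum fun b _ => ?_
      have := mul_nonneg (rowL_nonneg d (alive N π) a) (rowL_nonneg d (alive N π) b)
      nlinarith [hw2 a b]
    refine h3.trans ?_
    simp only [← mul_sum, ← sum_mul, sum_rowL]
    nlinarith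
  have := markov_quad hε hw hs hrow hk (f := fun a => rowB d N π a)
    (fun a => rowB_nonneg _ _ _ _) (X := fun a b => cntB ℝ d N (upd π a b))
    (g := fun a b => 2 * (rowL d (alive N π) a * rowL d (alive N π) b))
    (fun a b h => by rw [sum_rowB]; exact cntB_upd hπ a.2 b.2 (hF a b h)) (by positivity) hG hb
    (by rw [sum_rowB]; exact h2)
  rw [sum_rowB] at this
  refine this.trans (le_of_eq ?_)
  have hk0 : (Fintype.card (alive N π) : ℝ) ≠ 0 := by
    have : 0 < Fintype.card (alive N π) := by omega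
    exact_mod_cast this.ne'
  field_simp
  ring

theorem cntB_le_ini {d : ℕ} (hd : 0 < d) (N : ℕ) : cntB ℝ d N (fun _ => N) ≤ N * d := by
  rw [cntB_eq, alive_const]
  refine (sum_le_card_nsmul _ _ (d : ℝ) fun c _ => ?_).trans (by simp)
  refine le_trans (sum_le_sum (g := fun e => if e / d = c / d then (1 : ℝ) else 0) fun e _ => ?_) ?_
  · have : Forb d N (fun _ => N) c e ↔ e / d = c / d := by simp [Forb, eq_comm]
    simp only [this]
    split_ifs <;> first | (norm_num; done) | tauto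
  · rw [sum_boole]
    exact_mod_cast card_same_le hd _ _

theorem cntL_le_cntB (d N : ℕ) (π : ℕ → ℕ) : cntL ℝ d N π ≤ cntB ℝ d N π := by
  rw [cntL_eq, cntB_eq]
  refine sum_le_sum fun c _ => sum_le_sum fun e _ => ?_
  by_cases h : c ≠ e ∧ c / d = e / d
  · rw [if_pos h, if_pos ⟨h.1, Or.inl h.2⟩]
  · rw [if_neg h]; split_ifs <;> norm_num

theorem not_forb_of_cntB_lt {d N : ℕ} {π : ℕ → ℕ} (h : cntB ℝ d N π < 1) {a b : ℕ}
    (ha : a ∈ alive N π) (hb : b ∈ alive N π) (hab : a ≠ b) : ¬ Forb d N π a b := by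
  intro hF
  rw [cntB_eq] at h
  have h1 := single_le_sum (s := alive N π) (f := fun c => ∑ e ∈ alive N π,
    if c ≠ e ∧ Forb d N π c e then (1 : ℝ) else 0)
    (fun _ _ => sum_nonneg fun _ _ => by split_ifs <;> norm_num) ha
  have h2 := single_le_sum (s := alive N π)
    (f := fun e => if a ≠ e ∧ Forb d N π a e then (1 : ℝ) else 0)
    (fun _ _ => by split_ifs <;> norm_num) hb
  simp only [if_pos (And.intro hab hF)] at h2
  linarith

section PT

variable {α : Type*} [Enc α]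

theorem PT_cntL (d : ℕ) {N : α → ℕ} {l : α → List ℕ} (hN : PT ∅ N) (hNb : PBd N) (hl : PT ∅ l) :
    PT ∅ fun x => cntL ℚ d (N x) (look (N x) (l x)) := by
  unfold cntL
  refine PT_ratSumRange hN hNb (PT_ratSumRange (hN.comp PT.fst') (hNb.comp (A := ∅) PT.fst') ?_)
  refine PT.ite (PT.decide_and (by fun_prop) (PT.decide_and (by fun_prop) (PT.decide_and
    (PT.decide_not (by fun_prop)) (by fun_prop)))) (PT.const 1) (PT.const 0)

theorem PT_cntB (d : ℕ) {N : α → ℕ} {l : α → List ℕ} (hN : PT ∅ N) (hNb : PBd N) (hl : PT ∅ l) :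
    PT ∅ fun x => cntB ℚ d (N x) (look (N x) (l x)) := by
  unfold cntB
  refine PT_ratSumRange hN hNb (PT_ratSumRange (hN.comp PT.fst') (hNb.comp (A := ∅) PT.fst') ?_)
  refine PT.ite (PT.decide_and (by fun_prop) (PT.decide_and (by fun_prop) (PT.decide_and
    (PT.decide_not (by fun_prop)) ?_))) (PT.const 1) (PT.const 0)
  exact PT_forb d (hN.comp PT.fst'.fst) (hNb.comp (A := ∅) PT.fst'.fst) (hl.comp PT.fst'.fst)
    PT.fst'.snd PT.snd'

theorem PT_cardAlive {N : α → ℕ} {l : α → List ℕ} (hN : PT ∅ N) (hNb : PBd N) (hl : PT ∅ l) :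
    PT ∅ fun x => (alive (N x) (look (N x) (l x))).card :=
  (PT.filter (f := fun x a => decide (N x ≤ look (N x) (l x) a)) (PT.range hN hNb)
    (by fun_prop)).length.congr fun x => length_aliveL (N x) (l x)

end PT

end Vale.Agent.P049
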