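import Vale.Agent.P049.Step
import Mathlib.Algebra.Order.Chebyshev

/-!
# The link between the kernels and the spectrum of the final graph

`Inv s m H F y c` bounds a Legendre transform of the quadratic form of `m + F`.  It is propagated
by the Schur step as long as `den > 0`, it is monotone in `F`, and at the end it bounds the
quadratic form of every perfect matching of the free half-edges.
-/

namespace Vale.Agent.P049

open Finset

variable {ι : Type*} [DecidableEq ι]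

theorem sign_cases {s : ℝ} (hs : s ^ 2 = 1) : s = 1 ∨ s = -1 := by
  have : (s - 1) * (s + 1) = 0 := by linear_combination hs
  rcases mul_eq_zero.1 this with h | h
  · left; linarith
  · right; linarith

/-- The quadratic form of a kernel on `H`. -/
def qf (H : Finset ι) (F : ι → ι → ℝ) (x : ι → ℝ) : ℝ := ∑ c ∈ H, ∑ e ∈ H, x c * F c e * x e

/-- The invariant of the process, for one test vector `y`. -/
def Inv (s m : ℝ) (H : Finset ι) (F : ι → ι → ℝ) (y : ι → ℝ) (c : ℝ) : Prop :=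
  ∀ x : ι → ℝ, (s + m) * ∑ i ∈ H, x i = ∑ i ∈ H, y i →
    (1 - m ^ 2) * (2 * ∑ i ∈ H, x i * y i - m * ∑ i ∈ H, x i ^ 2 - qf H F x) ≤ c

/-- `m + F` is positive semidefinite on vectors of sum zero. -/
def Psd (m : ℝ) (H : Finset ι) (F : ι → ι → ℝ) : Prop :=
  ∀ x : ι → ℝ, ∑ i ∈ H, x i = 0 → 0 ≤ m * ∑ i ∈ H, x i ^ 2 + qf H F x

omit [DecidableEq ι] in
theorem psd_iff_inv {s m : ℝ} (hs : s + m ≠ 0) (hm : m ^ 2 < 1) {H : Finset ι} {F : ι → ι → ℝ} :
    Psd m H F ↔ Inv s m H F 0 0 := by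
  have hc : 0 < 1 - m ^ 2 := by linarith
  constructor
  · intro h x hx
    have h0 : ∑ i ∈ H, x i = 0 := by simpa [hs] using hx
    have := h x h0
    simp only [Pi.zero_apply, mul_zero, sum_const_zero]
    nlinarith
  · intro h x hx
    have := h x (by simp [hx])
    simp only [Pi.zero_apply, mul_zero, sum_const_zero] at this
    by_contra hneg
    push Not at hneg
    nlinarith

omit [DecidableEq ι] in
theorem Inv.mono_const {s m : ℝ} {H : Finset ι} {F : ι → ι → ℝ} {y : ι → ℝ} {c c' : ℝ}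
    (h : Inv s m H F y c) (hc : c ≤ c') : Inv s m H F y c' := fun x hx => (h x hx).trans hc

omit [DecidableEq ι] in
/-- The invariant is monotone in the kernel. -/
theorem Inv.mono {s m : ℝ} (hm : m ^ 2 ≤ 1) {H : Finset ι} {F G : ι → ι → ℝ} {y : ι → ℝ} {c : ℝ}
    (h : Inv s m H F y c) (hFG : ∀ x, qf H F x ≤ qf H G x) : Inv s m H G y c := fun x hx => by
  refine le_trans ?_ (h x hx)
  have := hFG x
  exact mul_le_mul_of_nonneg_left (by linarith) (by linarith)

omit [DecidableEq ι] in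
theorem Psd.mono {m : ℝ} {H : Finset ι} {F G : ι → ι → ℝ} (h : Psd m H F)
    (hFG : ∀ x, qf H F x ≤ qf H G x) : Psd m H G := fun x hx => by
  have := hFG x
  have := h x hx
  linarith

/-- A symmetric `2 × 2` form with negative determinant takes a positive value. -/
theorem exists_pos_form {al be k : ℝ} (h : 0 < k ^ 2 - al * be) :
    ∃ p r : ℝ, 0 < -al * p ^ 2 + 2 * k * p * r - be * r ^ 2 := by
  rcases lt_trichotomy al 0 with h1 | h1 | h1
  · exact ⟨1, 0, by linarith⟩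
  · subst h1
    have hk : k ≠ 0 := by rintro rfl; simp at h
    refine ⟨(be + 1) / (2 * k), 1, ?_⟩
    have : 2 * k * ((be + 1) / (2 * k)) = be + 1 := by field_simp
    rw [this]
    linarith
  · exact ⟨k, al, by nlinarith⟩

/-- The two-dimensional lemma: `G` has nonpositive determinant and `G - N` is positive
semidefinite, `N` has negative determinant. -/
theorem two_dim {g1 g2 g3 al be k : ℝ} (hG : g1 * g3 ≤ g2 ^ 2) (hN : 0 < k ^ 2 - al * be)
    (hK : ∀ p r : ℝ, -al * p ^ 2 + 2 * k * p * r - be * r ^ 2 ≤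
      g1 * p ^ 2 + 2 * g2 * p * r + g3 * r ^ 2) (e1 e2 k1 k2 : ℝ) :
    ∃ t1 t2 : ℝ, g1 * (t1 - e1) ^ 2 + 2 * g2 * (t1 - e1) * (t2 - e2) + g3 * (t2 - e2) ^ 2 ≤
      -al * (t1 - k1) ^ 2 + 2 * k * (t1 - k1) * (t2 - k2) - be * (t2 - k2) ^ 2 := by
  obtain ⟨p, r, hpr⟩ := exists_pos_form hN
  have hg : 0 < g1 * p ^ 2 + 2 * g2 * p * r + g3 * r ^ 2 := hpr.trans_le (hK p r)
  set γ := g1 * p ^ 2 + 2 * g2 * p * r + g3 * r ^ 2 with hγ
  set t := -(g1 * (k1 - e1) * p + g2 * ((k1 - e1) * r + (k2 - e2) * p) + g3 * (k2 - e2) * r) / γ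
    with ht
  refine ⟨k1 + t * p, k2 + t * r, ?_⟩
  set u := k1 + t * p - e1 with hu
  set v := k2 + t * r - e2 with hv
  have horth : g1 * u * p + g2 * (u * r + v * p) + g3 * v * r = 0 := by
    have : g1 * u * p + g2 * (u * r + v * p) + g3 * v * r =
        (g1 * (k1 - e1) * p + g2 * ((k1 - e1) * r + (k2 - e2) * p) + g3 * (k2 - e2) * r) +
          t * γ := by rw [hu, hv, hγ]; ring
    rw [this, ht]
    field_simp
    ring
  have hid : γ * (g1 * u ^ 2 + 2 * g2 * u * v + g3 * v ^ 2) =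
      (g1 * u * p + g2 * (u * r + v * p) + g3 * v * r) ^ 2 +
        (g1 * g3 - g2 ^ 2) * (p * v - r * u) ^ 2 := by rw [hγ]; ring
  have h1 : g1 * u ^ 2 + 2 * g2 * u * v + g3 * v ^ 2 ≤ 0 := by
    by_contra hneg
    push Not at hneg
    have h2 := mul_pos hg hneg
    rw [hid, horth] at h2
    nlinarith [sq_nonneg (p * v - r * u)]
  have h2 : -al * (k1 + t * p - k1) ^ 2 + 2 * k * (k1 + t * p - k1) * (k2 + t * r - k2) -
      be * (k2 + t * r - k2) ^ 2 = t ^ 2 * (-al * p ^ 2 + 2 * k * p * r - be * r ^ 2) := by ring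
  rw [h2]
  exact h1.trans (by positivity)

/-- Expansion of the quadratic form for a vector which is changed at `a`, `b` and by a constant. -/
theorem qf_extend {s : ℝ} {F : ι → ι → ℝ} {H : Finset ι} (hF : ∀ c e, F c e = F e c)
    (hrow : ∀ c ∈ H, ∑ e ∈ H, F c e = s) {a b : ι} (ha : a ∈ H) (hb : b ∈ H) (hab : a ≠ b)
    (x : ι → ℝ) (t1 t2 t : ℝ) (z : ι → ℝ) (hza : z a = t1 + t) (hzb : z b = t2 + t)
    (hz : ∀ c ∈ rest H a b, z c = x c + t) :
    qf H F z = qf (rest H a b) F x +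
      2 * (t1 * ∑ e ∈ rest H a b, F a e * x e + t2 * ∑ e ∈ rest H a b, F b e * x e) +
      (F a a * t1 ^ 2 + 2 * F a b * t1 * t2 + F b b * t2 ^ 2) +
      2 * t * s * (∑ e ∈ rest H a b, x e + t1 + t2) + t ^ 2 * s * H.card := by
  set w : ι → ℝ := fun c => z c - t with hw
  have hzw : ∀ c, z c = w c + t := fun c => by simp [hw]
  have hwa : w a = t1 := by simp [hw, hza]
  have hwb : w b = t2 := by simp [hw, hzb]
  have hwx : ∀ c ∈ rest H a b, w c = x c := fun c hc => by simp [hw, hz c hc]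
  have e1 : qf H F z = qf H F w + 2 * t * s * ∑ c ∈ H, w c + t ^ 2 * s * H.card := by
    have h1 : ∀ c ∈ H, ∑ e ∈ H, z c * F c e * z e =
        ∑ e ∈ H, w c * F c e * w e + t * s * w c + t * ∑ e ∈ H, F c e * w e + t ^ 2 * s := by
      intro c hc
      have : ∀ e ∈ H, z c * F c e * z e =
          w c * F c e * w e + t * w c * F c e + t * (F c e * w e) + t ^ 2 * F c e := fun e _ => by
        rw [hzw c, hzw e]; ring
      rw [sum_congr rfl this, sum_add_distrib, sum_add_distrib, sum_add_distrib, ← mul_sum,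
        ← mul_sum, ← mul_sum, hrow c hc]
      ring
    have h2 : ∑ c ∈ H, ∑ e ∈ H, F c e * w e = s * ∑ e ∈ H, w e := by
      rw [sum_comm, mul_sum]
      refine sum_congr rfl fun e he => ?_
      rw [← sum_mul, ← hrow e he]
      congr 1
      exact sum_congr rfl fun c _ => hF c e
    unfold qf
    rw [sum_congr rfl h1, sum_add_distrib, sum_add_distrib, sum_add_distrib, ← mul_sum, ← mul_sum,
      h2, sum_const, nsmul_eq_mul]
    ring
  have e2 : ∑ c ∈ H, w c = ∑ e ∈ rest H a b, x e + t1 + t2 := by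
    rw [sum_rest ha hb hab, hwa, hwb, sum_congr rfl hwx]
  have e3 : ∀ c, ∑ e ∈ H, w c * F c e * w e =
      w c * ∑ e ∈ rest H a b, F c e * x e + w c * F c a * t1 + w c * F c b * t2 := fun c => by
    rw [sum_rest ha hb hab, hwa, hwb, mul_sum]
    congr 2
    exact sum_congr rfl fun e he => by rw [hwx e he]; ring
  have e4 : qf H F w = qf (rest H a b) F x +
      2 * (t1 * ∑ e ∈ rest H a b, F a e * x e + t2 * ∑ e ∈ rest H a b, F b e * x e) +
      (F a a * t1 ^ 2 + 2 * F a b * t1 * t2 + F b b * t2 ^ 2) := by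
    unfold qf
    rw [sum_congr rfl fun c _ => e3 c, sum_rest ha hb hab, hwa, hwb]
    have h3 : ∑ c ∈ rest H a b, (w c * ∑ e ∈ rest H a b, F c e * x e + w c * F c a * t1 +
        w c * F c b * t2) = ∑ c ∈ rest H a b, ∑ e ∈ rest H a b, x c * F c e * x e +
        t1 * ∑ e ∈ rest H a b, F a e * x e + t2 * ∑ e ∈ rest H a b, F b e * x e := by
      rw [mul_sum, mul_sum, ← sum_add_distrib, ← sum_add_distrib]
      refine sum_congr rfl fun c hc => ?_
      have h4 : x c * ∑ e ∈ rest H a b, F c e * x e = ∑ e ∈ rest H a b, x c * F c e * x e := by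
        rw [mul_sum]
        exact sum_congr rfl fun e _ => by ring
      rw [hwx c hc, hF a c, hF b c, h4]
      ring
    rw [h3, hF b a]
    ring
  rw [e1, e2, e4]

omit [DecidableEq ι] in
/-- The quadratic form of the new kernel. -/
theorem qf_nxt {s : ℝ} {F : ι → ι → ℝ} (hF : ∀ c e, F c e = F e c) (H : Finset ι) (a b : ι)
    (x : ι → ℝ) :
    qf H (nxt s F a b) x = qf H F x +
      (F b b * (∑ e ∈ H, F a e * x e) ^ 2 + F a a * (∑ e ∈ H, F b e * x e) ^ 2 +
        2 * (s - F a b) * (∑ e ∈ H, F a e * x e) * (∑ e ∈ H, F b e * x e)) / den s F a b := by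
  have h1 : ∀ f g : ι → ℝ, (∑ e ∈ H, f e * x e) * (∑ e ∈ H, g e * x e) =
      ∑ c ∈ H, ∑ e ∈ H, f c * x c * (g e * x e) := fun f g => sum_mul_sum _ _ _ _
  have h2 : 2 * (s - F a b) * (∑ e ∈ H, F a e * x e) * (∑ e ∈ H, F b e * x e) =
      (s - F a b) * ((∑ e ∈ H, F a e * x e) * (∑ e ∈ H, F b e * x e)) +
      (s - F a b) * ((∑ e ∈ H, F b e * x e) * (∑ e ∈ H, F a e * x e)) := by ring
  rw [h2, sq, sq, h1, h1, h1, h1]
  unfold qf
  simp only [mul_sum, ← sum_add_distrib, sum_div]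
  refine sum_congr rfl fun c _ => sum_congr rfl fun e _ => ?_
  unfold nxt
  rw [hF c a, hF c b]
  ring

/-- The vector `x` extended by `t1`, `t2` at `a`, `b` and shifted by `t`. -/
def extv (x : ι → ℝ) (a b : ι) (t1 t2 t : ℝ) (c : ι) : ℝ :=
  (if c = a then t1 else if c = b then t2 else x c) + t

theorem extv_a (x : ι → ℝ) (a b : ι) (t1 t2 t : ℝ) : extv x a b t1 t2 t a = t1 + t := by
  simp [extv]

theorem extv_b (x : ι → ℝ) {a b : ι} (hab : a ≠ b) (t1 t2 t : ℝ) :
    extv x a b t1 t2 t b = t2 + t := by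
  simp [extv, hab.symm]

theorem extv_rest (x : ι → ℝ) {H : Finset ι} {a b : ι} (t1 t2 t : ℝ) {c : ι}
    (hc : c ∈ rest H a b) : extv x a b t1 t2 t c = x c + t := by
  obtain ⟨-, h1, h2⟩ := mem_rest.1 hc
  simp [extv, h1, h2]

theorem sum_extv (x : ι → ℝ) {H : Finset ι} {a b : ι} (ha : a ∈ H) (hb : b ∈ H) (hab : a ≠ b)
    (t1 t2 t : ℝ) :
    ∑ c ∈ H, extv x a b t1 t2 t c = ∑ c ∈ rest H a b, x c + t1 + t2 + t * H.card := by
  have hc : (H.card : ℝ) = (rest H a b).card + 2 := by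
    rw [← card_rest ha hb hab]; push_cast; ring
  rw [sum_rest ha hb hab, extv_a, extv_b x hab, sum_congr rfl fun c hc => extv_rest x t1 t2 t hc,
    sum_add_distrib, sum_const, nsmul_eq_mul, hc]
  ring

theorem sum_sq_extv (x : ι → ℝ) {H : Finset ι} {a b : ι} (ha : a ∈ H) (hb : b ∈ H) (hab : a ≠ b)
    (t1 t2 t : ℝ) :
    ∑ c ∈ H, extv x a b t1 t2 t c ^ 2 = ∑ c ∈ rest H a b, x c ^ 2 + t1 ^ 2 + t2 ^ 2 +
      2 * t * (∑ c ∈ rest H a b, x c + t1 + t2) + t ^ 2 * H.card := by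
  have hc : (H.card : ℝ) = (rest H a b).card + 2 := by
    rw [← card_rest ha hb hab]; push_cast; ring
  have h1 : ∀ c ∈ rest H a b, extv x a b t1 t2 t c ^ 2 = x c ^ 2 + 2 * t * x c + t ^ 2 :=
    fun c hc => by rw [extv_rest x t1 t2 t hc]; ring
  rw [sum_rest ha hb hab, extv_a, extv_b x hab, sum_congr rfl h1,
    sum_add_distrib, sum_add_distrib, ← mul_sum, sum_const, nsmul_eq_mul, hc]
  ring

theorem sum_mul_extv (x y : ι → ℝ) {H : Finset ι} {a b : ι} (ha : a ∈ H) (hb : b ∈ H)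
    (hab : a ≠ b) (t1 t2 t : ℝ) :
    ∑ c ∈ H, extv x a b t1 t2 t c * y c = ∑ c ∈ rest H a b, x c * y c + t1 * y a + t2 * y b +
      t * ∑ c ∈ H, y c := by
  have h1 : ∀ c ∈ rest H a b, extv x a b t1 t2 t c * y c = x c * y c + t * y c :=
    fun c hc => by rw [extv_rest x t1 t2 t hc]; ring
  rw [sum_rest ha hb hab, extv_a, extv_b x hab, sum_congr rfl h1, sum_add_distrib, ← mul_sum,
    sum_rest ha hb hab y]
  ring

/-- The step lemma. -/
theorem Inv.step {s m : ℝ} (hs : s ^ 2 = 1) (hm : m ^ 2 < 1) {F : ι → ι → ℝ} {H : Finset ι}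
    (hF : ∀ c e, F c e = F e c) (hrow : ∀ c ∈ H, ∑ e ∈ H, F c e = s) (hP : Psd m H F)
    {a b : ι} (ha : a ∈ H) (hb : b ∈ H) (hab : a ≠ b) (hD : 0 < den s F a b) {y : ι → ℝ} {c : ℝ}
    (h : Inv s m H F y c) :
    Inv s m (rest H a b) (nxt s F a b) y (c - (2 * s * y a * y b - m * (y a ^ 2 + y b ^ 2))) := by
  intro x hx
  have hcard : (H.card : ℝ) = (rest H a b).card + 2 := by
    rw [← card_rest ha hb hab]; push_cast; ring
  set R : ℝ := (H.card : ℝ) with hR
  have hR2 : 2 ≤ R := by rw [hcard]; linarith [Nat.cast_nonneg (α := ℝ) (rest H a b).card]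
  have hR0 : R ≠ 0 := by linarith
  have hc : 0 < 1 - m ^ 2 := by linarith
  have hsm : s + m ≠ 0 := by
    intro h0
    have : s = -m := by linarith
    rw [this] at hs
    nlinarith
  have hK : ∀ p r : ℝ, -F a a * p ^ 2 + 2 * (s - F a b) * p * r - F b b * r ^ 2 ≤
      (m - (s + m) / R) * p ^ 2 + 2 * (s - (s + m) / R) * p * r + (m - (s + m) / R) * r ^ 2 := by
    intro p r
    have h0 := hP (extv 0 a b p r (-(p + r) / R)) (by
      rw [sum_extv _ ha hb hab]
      simp only [Pi.zero_apply, sum_const_zero]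
      rw [← hR]
      field_simp
      ring)
    rw [sum_sq_extv _ ha hb hab, qf_extend hF hrow ha hb hab 0 p r (-(p + r) / R) _
      (extv_a ..) (extv_b _ hab ..) fun c hc => extv_rest _ _ _ _ hc] at h0
    simp only [qf, Pi.zero_apply, mul_zero, sum_const_zero, ne_eq, OfNat.ofNat_ne_zero,
      not_false_eq_true, zero_pow, zero_add] at h0
    rw [← hR] at h0
    have e : (m - (s + m) / R) * p ^ 2 + 2 * (s - (s + m) / R) * p * r + (m - (s + m) / R) * r ^ 2 -
        (-F a a * p ^ 2 + 2 * (s - F a b) * p * r - F b b * r ^ 2) =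
        m * (p ^ 2 + r ^ 2 + 2 * (-(p + r) / R) * (p + r) + (-(p + r) / R) ^ 2 * R) +
        (F a a * p ^ 2 + 2 * F a b * p * r + F b b * r ^ 2 + 2 * (-(p + r) / R) * s * (p + r) +
          (-(p + r) / R) ^ 2 * s * R) := by
      field_simp
      ring
    linarith
  have hG : (m - (s + m) / R) * (m - (s + m) / R) ≤ (s - (s + m) / R) ^ 2 := by
    have e : (s - (s + m) / R) ^ 2 - (m - (s + m) / R) * (m - (s + m) / R) =
        (s ^ 2 - m ^ 2) * ((R - 2) / R) := by
      field_simp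
      ring
    have : 0 ≤ (s ^ 2 - m ^ 2) * ((R - 2) / R) :=
      mul_nonneg (by linarith) (div_nonneg (by linarith) (by linarith))
    linarith
  set φ1 := ∑ e ∈ rest H a b, F a e * x e with hφ1
  set φ2 := ∑ e ∈ rest H a b, F b e * x e with hφ2
  set D := den s F a b with hDdef
  have hD' : D = (s - F a b) ^ 2 - F a a * F b b := rfl
  have hc0 : 1 - m ^ 2 ≠ 0 := hc.ne'
  obtain ⟨η1, η2, hya, hyb⟩ : ∃ η1 η2 : ℝ, y a = m * η1 + s * η2 ∧ y b = s * η1 + m * η2 := by
    refine ⟨(s * y b - m * y a) / (1 - m ^ 2), (s * y a - m * y b) / (1 - m ^ 2), ?_, ?_⟩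
    · field_simp
      linear_combination (-y a) * hs
    · field_simp
      linear_combination (-y b) * hs
  obtain ⟨t1, t2, ht⟩ := two_dim hG (hD' ▸ hD) hK η1 η2 ((F b b * φ1 + (s - F a b) * φ2) / D)
    ((F a a * φ2 + (s - F a b) * φ1) / D)
  set t := (η1 + η2 - t1 - t2) / R with htdef
  have htR : t * R = η1 + η2 - t1 - t2 := by rw [htdef]; field_simp
  have hY : ∑ i ∈ H, y i = (s + m) * ∑ i ∈ rest H a b, x i + y a + y b := by
    rw [sum_rest ha hb hab, hx]
  have h0 := h (extv x a b t1 t2 t) (by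
    rw [sum_extv _ ha hb hab, hY, ← hR, htR, hya, hyb]
    ring)
  rw [sum_sq_extv _ ha hb hab, sum_mul_extv _ _ ha hb hab, qf_extend hF hrow ha hb hab x t1 t2 t _
    (extv_a ..) (extv_b _ hab ..) fun c hc => extv_rest _ _ _ _ hc, hY, ← hR, ← hφ1, ← hφ2] at h0
  rw [qf_nxt hF, ← hφ1, ← hφ2, ← hDdef]
  have hD0 : D ≠ 0 := hD.ne'
  have eN : -F a a * (t1 - (F b b * φ1 + (s - F a b) * φ2) / D) ^ 2 +
      2 * (s - F a b) * (t1 - (F b b * φ1 + (s - F a b) * φ2) / D) *
        (t2 - (F a a * φ2 + (s - F a b) * φ1) / D) -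
      F b b * (t2 - (F a a * φ2 + (s - F a b) * φ1) / D) ^ 2 =
      -F a a * t1 ^ 2 + 2 * (s - F a b) * t1 * t2 - F b b * t2 ^ 2 - 2 * (t1 * φ1 + t2 * φ2) +
      (F b b * φ1 ^ 2 + F a a * φ2 ^ 2 + 2 * (s - F a b) * φ1 * φ2) / D := by
    field_simp
    rw [hD']
    ring
  have eG : (m - (s + m) / R) * (t1 - η1) ^ 2 + 2 * (s - (s + m) / R) * (t1 - η1) * (t2 - η2) +
      (m - (s + m) / R) * (t2 - η2) ^ 2 =
      m * (t1 ^ 2 + t2 ^ 2) + 2 * s * t1 * t2 - 2 * (t1 * y a + t2 * y b) -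
        t ^ 2 * R * (s + m) + (m * η1 ^ 2 + 2 * s * η1 * η2 + m * η2 ^ 2) := by
    rw [hya, hyb, htdef]
    field_simp
    ring
  have eq : 2 * s * y a * y b - m * (y a ^ 2 + y b ^ 2) =
      (1 - m ^ 2) * (m * η1 ^ 2 + 2 * s * η1 * η2 + m * η2 ^ 2) := by
    rw [hya, hyb]
    linear_combination (m * η1 ^ 2 + 2 * s * η1 * η2 + m * η2 ^ 2) * hs
  rw [eG, eN] at ht
  have e : t * ((s + m) * ∑ i ∈ rest H a b, x i + y a + y b) =
      t * (s + m) * (∑ i ∈ rest H a b, x i + t1 + t2) + t ^ 2 * R * (s + m) := by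
    rw [hya, hyb]
    linear_combination (-t * (s + m)) * htR
  rw [e] at h0
  rw [eq, le_sub_iff_add_le, ← mul_add]
  refine le_trans (mul_le_mul_of_nonneg_left ?_ hc.le) h0
  linarith

/-- Positivity is preserved by the step. -/
theorem Psd.step {s m : ℝ} (hs : s ^ 2 = 1) (hm : m ^ 2 < 1) {F : ι → ι → ℝ} {H : Finset ι}
    (hF : ∀ c e, F c e = F e c) (hrow : ∀ c ∈ H, ∑ e ∈ H, F c e = s) (hP : Psd m H F)
    {a b : ι} (ha : a ∈ H) (hb : b ∈ H) (hab : a ≠ b) (hD : 0 < den s F a b) :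
    Psd m (rest H a b) (nxt s F a b) := by
  have hsm : s + m ≠ 0 := by
    intro h0
    have : s = -m := by linarith
    rw [this] at hs
    nlinarith
  have := Inv.step hs hm hF hrow hP ha hb hab hD ((psd_iff_inv hsm hm).1 hP)
  rw [psd_iff_inv hsm hm]
  simpa using this

omit [DecidableEq ι] in
/-- The end lemma: if `F ≤ 1` on vectors of sum zero, then every permutation of the free
half-edges is good. -/
theorem Inv.final {s m : ℝ} (hs : s ^ 2 = 1) (hm : m ^ 2 < 1) {F : ι → ι → ℝ} {H : Finset ι}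
    (hF : ∀ c e, F c e = F e c) (hrow : ∀ c ∈ H, ∑ e ∈ H, F c e = s)
    (hle : ∀ x : ι → ℝ, ∑ i ∈ H, x i = 0 → qf H F x ≤ ∑ i ∈ H, x i ^ 2) {y : ι → ℝ} {c : ℝ}
    (h : Inv s m H F y c) {π : ι → ι} (hπ : ∀ f : ι → ℝ, ∑ i ∈ H, f (π i) = ∑ i ∈ H, f i) :
    ∑ i ∈ H, (s * y i * y (π i) - m * y i ^ 2) ≤ c := by
  have hm1 : -1 < m := by nlinarith
  have hm2 : m < 1 := by nlinarith
  have hsm : s + m ≠ 0 := by
    intro h0
    have : s = -m := by linarith
    rw [this] at hs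
    nlinarith
  rcases H.eq_empty_or_nonempty with rfl | hne
  · simpa [qf] using h 0 (by simp)
  have hR : (0 : ℝ) < H.card := by exact_mod_cast hne.card_pos
  set R : ℝ := (H.card : ℝ) with hRdef
  set Y := ∑ i ∈ H, y i with hY
  set w : ι → ℝ := fun i => (y i - Y / R) / (1 + m) with hw
  have h1m : 1 + m ≠ 0 := by linarith
  have hw0 : ∑ i ∈ H, w i = 0 := by
    simp only [hw, ← sum_div, sum_sub_distrib, sum_const, nsmul_eq_mul, ← hY, ← hRdef]
    field_simp
    ring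
  set t := Y / (R * (s + m)) with ht
  have hwy : ∀ i, y i = (1 + m) * w i + Y / R := fun i => by
    simp only [hw]; field_simp; ring
  have h0 := h (fun i => w i + t) (by
    simp only [sum_add_distrib, hw0, sum_const, nsmul_eq_mul, ← hRdef, ← hY, ht]
    field_simp
    ring)
  have e1 : ∑ i ∈ H, (w i + t) * y i = (1 + m) * ∑ i ∈ H, w i ^ 2 + t * Y := by
    have : ∀ i ∈ H, (w i + t) * y i = (1 + m) * w i ^ 2 + Y / R * w i + t * y i := fun i _ => by
      have := hwy i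
      linear_combination (w i) * this
    rw [sum_congr rfl this, sum_add_distrib, sum_add_distrib, ← mul_sum, ← mul_sum, ← mul_sum, hw0]
    ring
  have e2 : ∑ i ∈ H, (w i + t) ^ 2 = ∑ i ∈ H, w i ^ 2 + t ^ 2 * R := by
    have : ∀ i ∈ H, (w i + t) ^ 2 = w i ^ 2 + 2 * t * w i + t ^ 2 := fun i _ => by ring
    rw [sum_congr rfl this, sum_add_distrib, sum_add_distrib, ← mul_sum, hw0, sum_const,
      nsmul_eq_mul]
    ring
  have e3 : qf H F (fun i => w i + t) = qf H F w + t ^ 2 * s * R := by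
    have h1 : ∀ c ∈ H, ∑ e ∈ H, (w c + t) * F c e * (w e + t) =
        ∑ e ∈ H, w c * F c e * w e + t * s * w c + t * ∑ e ∈ H, F c e * w e + t ^ 2 * s := by
      intro c hc
      have : ∀ e ∈ H, (w c + t) * F c e * (w e + t) =
          w c * F c e * w e + t * w c * F c e + t * (F c e * w e) + t ^ 2 * F c e :=
        fun e _ => by ring
      rw [sum_congr rfl this, sum_add_distrib, sum_add_distrib, sum_add_distrib, ← mul_sum,
        ← mul_sum, ← mul_sum, hrow c hc]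
      ring
    have h2 : ∑ c ∈ H, ∑ e ∈ H, F c e * w e = s * ∑ e ∈ H, w e := by
      rw [sum_comm, mul_sum]
      refine sum_congr rfl fun e he => ?_
      rw [← sum_mul, ← hrow e he]
      congr 1
      exact sum_congr rfl fun c _ => hF c e
    unfold qf
    rw [sum_congr rfl h1, sum_add_distrib, sum_add_distrib, sum_add_distrib, ← mul_sum, ← mul_sum,
      h2, hw0, sum_const, nsmul_eq_mul]
    ring
  have e4 : ∑ i ∈ H, y i ^ 2 = (1 + m) ^ 2 * ∑ i ∈ H, w i ^ 2 + Y ^ 2 / R := by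
    have : ∀ i ∈ H, y i ^ 2 = (1 + m) ^ 2 * w i ^ 2 + 2 * (1 + m) * (Y / R) * w i + (Y / R) ^ 2 :=
      fun i _ => by rw [hwy i]; ring
    rw [sum_congr rfl this, sum_add_distrib, sum_add_distrib, ← mul_sum, ← mul_sum, hw0, sum_const,
      nsmul_eq_mul]
    field_simp
    ring
  rw [e1, e2, e3] at h0
  have h5 := hle w hw0
  have hc : 0 < 1 - m ^ 2 := by linarith
  have e5 : (1 - m ^ 2) * (2 * t * Y - (m + s) * t ^ 2 * R) = (s - m) * (Y ^ 2 / R) := by
    have : 1 - m ^ 2 = (s + m) * (s - m) := by linear_combination -hs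
    rw [this, ht]
    field_simp
    ring
  have h6 : (1 - m) * ∑ i ∈ H, y i ^ 2 + (s - 1) * (Y ^ 2 / R) ≤ c := by
    refine le_trans ?_ h0
    have := mul_le_mul_of_nonneg_left h5 hc.le
    rw [e4]
    nlinarith
  refine le_trans ?_ h6
  have e6 : ∑ i ∈ H, y (π i) ^ 2 = ∑ i ∈ H, y i ^ 2 := hπ fun i => y i ^ 2
  have e7 : ∑ i ∈ H, y (π i) = Y := hπ y
  rw [sum_sub_distrib, ← mul_sum]
  rcases sign_cases hs with rfl | rfl
  · have : ∑ i ∈ H, 1 * y i * y (π i) ≤ ∑ i ∈ H, (y i ^ 2 + y (π i) ^ 2) / 2 :=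
      sum_le_sum fun i _ => by nlinarith [sq_nonneg (y i - y (π i))]
    rw [← sum_div, sum_add_distrib, e6] at this
    linarith
  · have h7 := sq_sum_le_card_mul_sum_sq (s := H) (f := fun i => y i + y (π i))
    have e8 : ∑ i ∈ H, (y i + y (π i)) ^ 2 =
        2 * ∑ i ∈ H, y i ^ 2 - 2 * ∑ i ∈ H, -1 * y i * y (π i) := by
      have : ∀ i ∈ H, (y i + y (π i)) ^ 2 = y i ^ 2 + y (π i) ^ 2 - 2 * (-1 * y i * y (π i)) :=
        fun i _ => by ring
      rw [sum_congr rfl this, sum_sub_distrib, sum_add_distrib, e6, ← mul_sum]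
      ring
    rw [e8, sum_add_distrib, e7, ← hY, ← hRdef] at h7
    have h8 : 2 * (Y ^ 2 / R) ≤ ∑ i ∈ H, y i ^ 2 - ∑ i ∈ H, -1 * y i * y (π i) := by
      rw [← mul_div_assoc, div_le_iff₀ hR]
      nlinarith
    linarith

end Vale.Agent.P049
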