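import Vale.Agent.P049.Iface

/-!
# The drift of the trace
-/

namespace Vale.Agent.P049

open Matrix Finset

variable {ι : Type*} [Fintype ι] [DecidableEq ι]

/-- The increment of the trace. -/
noncomputable def dT (s : ℝ) (K : Matrix ι ι ℝ) (a b : ι) : ℝ := -(rho1 s K a b / den s K a b)

theorem rsq_eq_sq {K : Matrix ι ι ℝ} (hK : Kᵀ = K) (a : ι) : (K ^ 2) a a = rsq K a := by
  rw [rsq_eq_mul hK, pow_two]

theorem pow2_apply_sq_le {K : Matrix ι ι ℝ} (hK : Kᵀ = K) (a b : ι) :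
    (K ^ 2) a b ^ 2 ≤ rsq K a * rsq K b := by
  have := psd_entry_sq_le (psd_even_pow hK 1) a b
  rwa [mul_one, rsq_eq_sq hK, rsq_eq_sq hK] at this

theorem sum_pow_row {s : ℝ} {K : Matrix ι ι ℝ} (hrow : ∀ c, ∑ e, K c e = s) (j : ℕ) (a : ι) :
    ∑ b, (K ^ j) a b = s ^ j := by
  induction j generalizing a with
  | zero => simp [one_apply]
  | succ j ih =>
    simp only [pow_succ', mul_apply]
    rw [sum_comm]
    simp only [← mul_sum, ih]
    rw [← sum_mul, hrow]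

theorem sum_sum_pow {s : ℝ} {K : Matrix ι ι ℝ} (hrow : ∀ c, ∑ e, K c e = s) (j : ℕ) :
    ∑ a, ∑ b, (K ^ j) a b = Fintype.card ι * s ^ j := by
  simp [sum_pow_row hrow]

omit [DecidableEq ι] in
theorem sum_sum_mul (f g : ι → ℝ) : ∑ a, ∑ b, f a * g b = (∑ a, f a) * ∑ b, g b :=
  (sum_mul_sum _ _ _ _).symm

omit [DecidableEq ι] in
theorem sum_sum_mul' (f g : ι → ℝ) : ∑ a, ∑ b, f b * g a = (∑ a, f a) * ∑ b, g b := by
  rw [sum_comm, sum_sum_mul]

namespace Wt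

variable {s : ℝ} {K : Matrix ι ι ℝ} {w sg : ι → ι → ℝ} {ξ Lx Om Om1 vp : ℝ}
  (h : Wt s K w sg ξ Lx Om Om1 vp)

include h

theorem trace_step {a b : ι} (hw : w a b ≠ 0) : trace (stepM s K a b) = trace K + dT s K a b := by
  rw [trace_stepM h.sgn h.isSymm (h.ne a b hw) (h.den_ne hw), dT]
  ring

theorem dT_eq (a b : ι) : dT s K a b = p1 s K a b * ((rsq K a - 1) * K b b) +
    p1 s K a b * (K a a * (rsq K b - 1)) + 2 * s * (p2 s K a b * (K ^ 2) a b) := by
  unfold dT rho1 p1 p2 wo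
  rw [rsq_eq_sq h.symm, rsq_eq_sq h.symm]
  linear_combination (-2 * (s - K a b) * (K ^ 2) a b / den s K a b) * h.sgn

omit [DecidableEq ι] h in
theorem sum_rsq_sub : ∑ a, (rsq K a - 1) = frob K ^ 2 - Fintype.card ι := by
  rw [sum_sub_distrib, sum_rsq]
  simp

/-- The sum of the two product terms in the increment of the trace. -/
theorem sum_dT_split : ∑ a, ∑ b, w a b * dT s K a b =
    2 * ∑ a, ∑ b, w a b * (p1 s K a b * ((rsq K a - 1) * K b b)) +
      2 * s * ∑ a, ∑ b, w a b * (p2 s K a b * (K ^ 2) a b) := by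
  have e1 : ∑ a, ∑ b, w a b * (p1 s K a b * (K a a * (rsq K b - 1))) =
      ∑ a, ∑ b, w a b * (p1 s K a b * ((rsq K a - 1) * K b b)) := by
    rw [← h.avg_swap fun a b => p1 s K a b * ((rsq K a - 1) * K b b)]
    refine sum_congr rfl fun a _ => sum_congr rfl fun b _ => ?_
    rw [p1_swap h.symm]
    ring
  rw [two_mul (∑ a, ∑ b, w a b * (p1 s K a b * ((rsq K a - 1) * K b b)))]
  nth_rw 2 [← e1]
  simp only [mul_sum, ← sum_add_distrib]
  refine sum_congr rfl fun a _ => sum_congr rfl fun b _ => ?_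
  rw [h.dT_eq]
  ring

theorem avg_sq_entry : |∑ a, ∑ b, w a b * (p2 s K a b * (K ^ 2) a b) - Fintype.card ι +
    ∑ a, ∑ b, sg a b * (K ^ 2) a b| ≤ 5 * Om1 * frob (K ^ 2) := by
  have e := h.avgL h.near_p2 (K ^ 2)
  rw [sum_sum_pow h.rowsum, h.sgn, mul_one] at e
  refine e.trans (le_of_eq ?_)
  ring

/-- The mean of the increment of the trace, with the Frobenius bound for the product terms. -/
theorem dT_mean : |∑ a, ∑ b, w a b * dT s K a b - (2 * trace K * (frob K ^ 2 - Fintype.card ι) +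
    2 * s * Fintype.card ι - 2 * s * ∑ a, ∑ b, sg a b * (K ^ 2) a b)| ≤
    14 * Om * (nrm (fun a => rsq K a - 1) * nrm (dgv K)) + 10 * Om1 * frob (K ^ 2) := by
  have e1 := h.avgPP h.near_p1 (fun a => rsq K a - 1) (dgv K)
  rw [sum_rsq_sub] at e1
  have e2 := h.avg_sq_entry
  have e3 : ∑ b, dgv K b = trace K := rfl
  rw [e3] at e1
  rw [h.sum_dT_split]
  simp only [dgv_apply] at e1
  have f1 := abs_le.1 e1
  have f2 := abs_le.1 e2
  rcases sgn_cases h.sgn with rfl | rfl <;> rw [abs_le] <;> constructor <;> linarith [f1.1, f1.2]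

/-- The mean of the increment of the trace, with the row bound for the product terms. -/
theorem dT_mean_row : |∑ a, ∑ b, w a b * dT s K a b -
    (2 * trace K * (frob K ^ 2 - Fintype.card ι) +
    2 * s * Fintype.card ι - 2 * s * ∑ a, ∑ b, sg a b * (K ^ 2) a b)| ≤
    14 * vp * ((∑ a, |rsq K a - 1|) * nrm (dgv K)) + 10 * Om1 * frob (K ^ 2) := by
  have e1 := h.avgR h.near_p1 (fun a => rsq K a - 1) (dgv K)
  rw [sum_rsq_sub] at e1
  have e2 := h.avg_sq_entry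
  have e3 : ∑ b, dgv K b = trace K := rfl
  rw [e3] at e1
  rw [h.sum_dT_split]
  simp only [dgv_apply] at e1
  have f1 := abs_le.1 e1
  have f2 := abs_le.1 e2
  rcases sgn_cases h.sgn with rfl | rfl <;> rw [abs_le] <;> constructor <;> linarith [f1.1, f1.2]

theorem abs_dT_le {a b : ι} (hw : w a b ≠ 0) : |dT s K a b| ≤
    11 / 10 * (|(rsq K a - 1) * K b b| + |K a a * (rsq K b - 1)| + 2 * |(K ^ 2) a b|) := by
  have e1 := h.abs_p1_le hw
  have e2 := h.abs_p2_le hw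
  rw [h.dT_eq]
  refine (abs_add_three _ _ _).trans ?_
  rw [abs_mul (p1 s K a b), abs_mul (p1 s K a b), abs_mul (2 * s), abs_mul 2, h.abs_s,
    abs_mul (p2 s K a b), abs_two]
  have f1 := mul_le_mul_of_nonneg_right e1 (abs_nonneg ((rsq K a - 1) * K b b))
  have f2 := mul_le_mul_of_nonneg_right e1 (abs_nonneg (K a a * (rsq K b - 1)))
  have f3 := mul_le_mul_of_nonneg_right e2 (abs_nonneg ((K ^ 2) a b))
  linarith

theorem dT_sq_le {a b : ι} (hw : w a b ≠ 0) : dT s K a b ^ 2 ≤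
    4 * ((rsq K a - 1) ^ 2 * K b b ^ 2) + 4 * (K a a ^ 2 * (rsq K b - 1) ^ 2) +
      15 * (K ^ 2) a b ^ 2 := by
  have e1 := pow_le_pow_left₀ (abs_nonneg _) (h.abs_dT_le hw) 2
  rw [sq_abs] at e1
  refine e1.trans ?_
  rw [← mul_pow, ← mul_pow, ← sq_abs ((rsq K a - 1) * K b b), ← sq_abs (K a a * (rsq K b - 1)),
    ← sq_abs ((K ^ 2) a b)]
  set x := |(rsq K a - 1) * K b b|
  set y := |K a a * (rsq K b - 1)|
  set z := |(K ^ 2) a b|
  nlinarith [sq_nonneg (x - y), sq_nonneg (x - 2 * z), sq_nonneg (y - 2 * z)]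

/-- The second moment of the increment of the trace. -/
theorem dT_var : ∑ a, ∑ b, w a b * dT s K a b ^ 2 ≤
    16 * (nrm (fun a => rsq K a - 1) * nrm (dgv K)) ^ 2 + 30 * frob (K ^ 2) ^ 2 := by
  refine (h.avgE (fun a b => by positivity) fun a b hw => h.dT_sq_le hw).trans (le_of_eq ?_)
  simp only [sum_add_distrib, ← mul_sum, ← sum_mul]
  rw [mul_pow, nrm_sq, nrm_sq, frob_sq]
  simp only [dgv_apply]
  ring

end Wt

namespace Sd

variable {P : Pr} {s : ℝ} {X : Matrix ι ι ℝ} {w sg : ι → ι → ℝ} {xi mu : ι → ℝ}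
  (h : Sd P s X w sg xi mu)

include h

theorem trace_eq : trace (X * X) = frob X ^ 2 := (frob_sq_of_symm h.wt.symm).symm

theorem nrm_dgv_le : nrm (dgv X) ≤ P.v :=
  (nrm_mono fun a => (h.dg_le a).trans (le_abs_self _)).trans h.gl.xi_le

theorem nrm_rsq_le : nrm (rsq X) ≤ P.u := by
  refine (nrm_mono fun a => ?_).trans h.gl.mu_le
  rw [abs_of_nonneg (rsq_nonneg X a)]
  exact (h.rs_le a).trans (le_abs_self _)

theorem abs_rsq_sub_le (a : ι) : |rsq X a - 1| ≤ 1 + mu a := by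
  have := rsq_nonneg X a
  have := h.rs_le a
  rw [abs_le]
  constructor <;> linarith

theorem nrm_rsq_sub_le : nrm (fun a => rsq X a - 1) ≤ P.g :=
  (nrm_mono fun a => (h.abs_rsq_sub_le a).trans (le_abs_self _)).trans h.gl.g_le

theorem prod_le : nrm (fun a => rsq X a - 1) * nrm (dgv X) ≤ P.v * P.g := by
  rw [mul_comm]
  exact mul_le_mul h.nrm_dgv_le h.nrm_rsq_sub_le (nrm_nonneg _) ((nrm_nonneg _).trans h.nrm_dgv_le)

theorem prod_sq_le : (nrm (fun a => rsq X a - 1) * nrm (dgv X)) ^ 2 ≤ P.v ^ 2 * P.g ^ 2 := by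
  rw [← mul_pow]
  exact pow_le_pow_left₀ (mul_nonneg (nrm_nonneg _) (nrm_nonneg _)) h.prod_le 2

theorem frob_sq_le : frob (X ^ 2) ≤ P.f := by rw [pow_two]; exact h.f4

theorem frob_sq_sq_le : frob (X ^ 2) ^ 2 ≤ P.f ^ 2 :=
  pow_le_pow_left₀ (frob_nonneg _) h.frob_sq_le 2

theorem frob_cube_le : frob (X ^ 3) ≤ P.lam * P.f := by
  rw [pow_succ, mul_comm P.lam]
  exact (frob_mul_le_frob_opn _ _).trans
    (mul_le_mul h.frob_sq_le h.op (opn_nonneg _) ((frob_nonneg _).trans h.frob_sq_le))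

theorem frob_sq_le_e : frob X ^ 2 ≤ P.e ^ 2 :=
  pow_le_pow_left₀ (frob_nonneg _) (by linarith [h.ee, sq_nonneg (nrm (dgv X))]) 2

theorem diag_mul_sq_le {a b : ι} (hw : w a b ≠ 0) : (rsq X a - 1) ^ 2 * X b b ^ 2 ≤ P.t ^ 2 := by
  have e1 : |rsq X a - 1| * |X b b| ≤ P.t := by
    refine le_trans ?_ (h.gl.xm a b hw)
    rw [mul_comm]
    exact mul_le_mul (h.dg_le b) (h.abs_rsq_sub_le a) (abs_nonneg _) (h.gl.xi_nonneg b)
  have e2 := pow_le_pow_left₀ (by positivity) e1 2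
  rwa [mul_pow, sq_abs, sq_abs] at e2

theorem sq_entry_le {a b : ι} (hw : w a b ≠ 0) : (X ^ 2) a b ^ 2 ≤ P.t ^ 2 := by
  refine (pow2_apply_sq_le h.wt.symm a b).trans (le_trans ?_ (h.gl.mm a b hw))
  have := h.rs_le a
  have := h.rs_le b
  exact mul_le_mul (by linarith) (by linarith) (rsq_nonneg X b) (by linarith [rsq_nonneg X a])

theorem card_le : (Fintype.card ι : ℝ) ≤ P.g ^ 2 := by
  have e1 : nrm (fun _ : ι => (1 : ℝ)) ≤ P.g := by
    refine (nrm_mono fun a => ?_).trans h.gl.g_le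
    rw [abs_one]
    linarith [h.gl.mu_nonneg a, le_abs_self (1 + mu a)]
  have e2 := pow_le_pow_left₀ (nrm_nonneg _) e1 2
  rwa [nrm_one, Real.sq_sqrt (Nat.cast_nonneg _)] at e2

theorem card_mul_le : Fintype.card ι * nrm (dgv X) ^ 2 ≤ P.v ^ 2 * P.g ^ 2 := by
  rw [mul_comm]
  exact mul_le_mul (pow_le_pow_left₀ (nrm_nonneg _) h.nrm_dgv_le 2) h.card_le (Nat.cast_nonneg _)
    (sq_nonneg _)

end Sd

variable {P : Pr} {s : ℝ} {X : Matrix ι ι ℝ} {w sg : ι → ι → ℝ} {xi mu : ι → ℝ}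

/-- The mean drift of the trace. -/
theorem drift_t1 (h : Sd P s X w sg xi mu) :
    |∑ a, ∑ b, w a b * (trace (stepM s X a b) - trace X) -
      (2 * trace X * (trace (X * X) - Fintype.card ι) + 2 * s * Fintype.card ι -
        2 * s * ∑ a, ∑ b, sg a b * (X * X) a b)| ≤ P.eD1 := by
  have e0 : ∑ a, ∑ b, w a b * (trace (stepM s X a b) - trace X) =
      ∑ a, ∑ b, w a b * dT s X a b := h.wt.avg_congr fun a b hw => by
    rw [h.wt.trace_step hw]; ring
  rw [e0, h.trace_eq, ← pow_two]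
  refine h.wt.dT_mean.trans ?_
  have f1 := mul_le_mul_of_nonneg_left h.prod_le h.wt.om_nonneg
  have f2 := mul_le_mul_of_nonneg_left h.frob_sq_le h.wt.om1_nonneg
  have g1 := mul_nonneg h.wt.om_nonneg
    (mul_nonneg (nrm_nonneg fun a => rsq X a - 1) (nrm_nonneg (dgv X)))
  have g2 := mul_nonneg h.wt.om1_nonneg (frob_nonneg (X ^ 2))
  unfold Pr.eD1
  linarith

/-- The second moment of the increment of the trace. -/
theorem var_t1 (h : Sd P s X w sg xi mu) :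
    ∑ a, ∑ b, w a b * (trace (stepM s X a b) - trace X) ^ 2 ≤ P.eD2 := by
  have e0 : ∑ a, ∑ b, w a b * (trace (stepM s X a b) - trace X) ^ 2 =
      ∑ a, ∑ b, w a b * dT s X a b ^ 2 := h.wt.avg_congr fun a b hw => by
    rw [h.wt.trace_step hw]; ring
  rw [e0]
  refine h.wt.dT_var.trans ?_
  have f1 := h.prod_sq_le
  have f2 := h.frob_sq_sq_le
  have g1 : 0 ≤ P.v ^ 2 * P.g ^ 2 := by positivity
  have g2 := sq_nonneg P.f
  unfold Pr.eD2
  linarith

end Vale.Agent.P049
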