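import Vale.Agent.P049.Wt

/-!
The exact increment of the trace of a word `X X Y` in one step, and pointwise bounds of its terms.
-/

namespace Vale.Agent.P049

open Matrix Finset

variable {ι : Type*} [Fintype ι] [DecidableEq ι]

/-- `tr W ([M] - c)`. -/
noncomputable def wl (s : ℝ) (X M : Matrix ι ι ℝ) (c : ℝ) (a b : ι) : ℝ :=
  wd s X a b * (M a a - c) + wo s X a b * (M a b + M b a) + wd s X b a * (M b b - c)

/-- `tr W G W ([X Y X] - s' σ)`. -/
noncomputable def wq (s s' : ℝ) (X Y : Matrix ι ι ℝ) (a b : ι) : ℝ :=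
  hz s X a b * (X * Y * X) a a + 2 * ho s X a b * ((X * Y * X) a b - s') +
    hz s X b a * (X * Y * X) b b

/-- The diagonal entry of `W H`, `H = [X Y] - s s'`. -/
noncomputable def bd (s s' : ℝ) (X Y : Matrix ι ι ℝ) (a b : ι) : ℝ :=
  wd s X a b * ((X * Y) a a - s * s') + wo s X a b * (X * Y) b a

/-- The off-diagonal entry of `W H`. -/
noncomputable def bo (s s' : ℝ) (X Y : Matrix ι ι ℝ) (a b : ι) : ℝ :=
  wd s X a b * (X * Y) a b + wo s X a b * ((X * Y) b b - s * s')

/-- One half of `tr W H W' ([Y X X] - s' σ)`. -/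
noncomputable def wk (s s' : ℝ) (X Y : Matrix ι ι ℝ) (a b : ι) : ℝ :=
  (bd s s' X Y a b * wd s' Y a b + bo s s' X Y a b * wo s' Y a b) * (Y * X * X) a a +
    (bd s s' X Y a b * wo s' Y a b + bo s s' X Y a b * wd s' Y b a) * ((Y * X * X) b a - s')

/-- One half of `tr W G W H W' Hᵀ`. -/
noncomputable def wc (s s' : ℝ) (X Y : Matrix ι ι ℝ) (a b : ι) : ℝ :=
  bd s s X X a b * (bd s s' X Y a b * bd s' s Y X a b + bo s s' X Y a b * bo s' s Y X b a) +
    bo s s X X a b * (bo s s' X Y b a * bd s' s Y X a b + bd s s' X Y b a * bo s' s Y X b a)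

theorem t3_ident {s s' : ℝ} {X Y : Matrix ι ι ℝ} {a b : ι} (hs : s ^ 2 = 1) (hs' : s' ^ 2 = 1)
    (hX : X.IsSymm) (hY : Y.IsSymm) (hab : a ≠ b) (hD : den s X a b ≠ 0)
    (hD' : den s' Y a b ≠ 0) :
    trace (stepM s X a b * stepM s X a b * stepM s' Y a b) - trace (X * X * Y) =
      2 * wl s X (X * X * Y * X) (s * s') a b + wl s' Y (Y * X * X * Y) 1 a b + wq s s' X Y a b +
        2 * (wk s s' X Y a b + wk s s' X Y b a) + (wc s s' X Y a b + wc s s' X Y b a) := by
  have hN := isSymm_mul_self hX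
  have e1 : ∀ i j, (X * Y * (X * X)) i j = (X * X * Y * X) j i := fun i j => by
    rw [mul3_apply_swap hX hY hN]
  have e2 : ∀ i j, (Y * (X * X)) i j = (Y * X * X) i j := fun i j => by rw [Matrix.mul_assoc]
  have e3 : ∀ i j, (X * X * Y) i j = (Y * X * X) j i := fun i j => mul3_apply_swap hX hX hY i j
  have e4 : ∀ i j, (Y * (X * X) * Y) i j = (Y * X * X * Y) i j := fun i j => by
    rw [Matrix.mul_assoc Y X X]
  have e5 : ∀ i j, (Y * X) i j = (X * Y) j i := fun i j => mul_apply_swap hY hX i j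
  have e6 : (Y * X * X * Y) b a = (Y * X * X * Y) a b := by
    rw [← e4, ← e4]; exact mul3_apply_swap hY hN hY b a
  have e7 : (X * X) b a = (X * X) a b := hN.apply a b
  have e8 : Y b a = Y a b := hY.apply a b
  rw [trace_stepM_sq_mul_stepM hX hab hs' hY hD', trace_stepM_sq_mul hs hX hab hD hY,
    conj_stepM_sq hs hX hab hD hY, conj_stepM_sq hs hX hab hD hY, conj_stepM_sq hs hX hab hD hY]
  unfold wl wq wk wc bd bo cz co gz go phc hz ho
  simp only [e1, e2, e3, e4, e5, e6, e7, e8, wo_swap hX s a b, wo_swap hY s' a b]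
  generalize wd s X a b = p
  generalize wd s X b a = q
  generalize wo s X a b = r
  have r1 : wd s' Y a b = Y b b / den s' Y a b := rfl
  have r2 : wd s' Y b a = Y a a / den s' Y a b := by rw [← den_swap hY]; rfl
  have r3 : wo s' Y a b = (s' - Y a b) / den s' Y a b := rfl
  rw [r1, r2, r3]
  field_simp
  unfold den
  rcases sgn_cases hs with rfl | rfl <;> rcases sgn_cases hs' with rfl | rfl <;> ring

end Vale.Agent.P049
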