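import Vale.Agent.P049.Iface
import Vale.Agent.P049.DriftW1

/-!
Pointwise bounds for the blocks in the increment of the trace of a word with three letters.
-/

namespace Vale.Agent.P049

open Matrix Finset

variable {ι : Type*} [Fintype ι]

/-- The majorant of the products of a diagonal entry and a squared row norm. -/
def dz (xi mu : ι → ℝ) (a b : ι) : ℝ := xi b * (1 + mu a) + xi a * (1 + mu b)

/-- The majorant of the small entries of a block. -/
def dh (xi mu : ι → ℝ) (M : Matrix ι ι ℝ) (a b : ι) : ℝ := dz xi mu a b + |M a b| + |M b a|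

omit [Fintype ι] in
theorem dz_swap (xi mu : ι → ℝ) (a b : ι) : dz xi mu b a = dz xi mu a b := by unfold dz; ring

omit [Fintype ι] in
theorem dh_swap (xi mu : ι → ℝ) (M : Matrix ι ι ℝ) (a b : ι) :
    dh xi mu M b a = dh xi mu M a b := by unfold dh dz; ring

theorem sum_mul_le_frob (F G : ι → ι → ℝ) {A B : ℝ} (hF : frob (Matrix.of F) ≤ A)
    (hG : frob (Matrix.of G) ≤ B) : ∑ a, ∑ b, F a b * G a b ≤ A * B :=
  ((le_abs_self _).trans (abs_sum_sum_mul_le (Matrix.of F) (Matrix.of G))).trans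
    (mul_le_mul hF hG (frob_nonneg _) ((frob_nonneg _).trans hF))

theorem frob_const (c : ℝ) : frob (Matrix.of fun _ _ : ι => c) = |c| * Fintype.card ι := by
  have e : (Matrix.of fun _ _ : ι => c) = c • vecMulVec (fun _ : ι => (1 : ℝ)) fun _ => 1 := by
    ext a b; simp [vecMulVec_apply]
  rw [e, frob_smul, frob_vecMulVec, nrm_one, Real.mul_self_sqrt (Nat.cast_nonneg _)]

theorem frob_abs_sub_le (M : Matrix ι ι ℝ) {c : ℝ} (hc : |c| = 1) :
    frob (Matrix.of fun a b => |M a b - c|) ≤ frob M + Fintype.card ι := by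
  have e1 : frob (Matrix.of fun a b => |M a b - c|) ≤ frob (M - Matrix.of fun _ _ : ι => c) :=
    frob_mono fun a b => by simp
  have e2 := frob_sub_le M (Matrix.of fun _ _ : ι => c)
  rw [frob_const, hc, one_mul] at e2
  linarith

namespace Gl

variable {P : Pr} {w : ι → ι → ℝ} {xi mu : ι → ℝ} (g : Gl P w xi mu)

include g

theorem pv_nonneg : 0 ≤ P.v := (nrm_nonneg _).trans g.xi_le

theorem pu_nonneg : 0 ≤ P.u := (nrm_nonneg _).trans g.mu_le

theorem pg_nonneg : 0 ≤ P.g := (nrm_nonneg _).trans g.g_le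

theorem plam_nonneg : 0 ≤ P.lam := by linarith [g.one_le_lam]

theorem nrm_mu_le_g : nrm mu ≤ P.g := by
  refine le_trans (nrm_mono fun a => ?_) g.g_le
  have := g.mu_nonneg a
  rw [abs_of_nonneg this, abs_of_nonneg (by linarith)]
  linarith

theorem dz_nonneg (a b : ι) : 0 ≤ dz xi mu a b := by
  have := g.xi_nonneg a
  have := g.xi_nonneg b
  have := g.mu_nonneg a
  have := g.mu_nonneg b
  unfold dz
  positivity

theorem dh_nonneg (M : Matrix ι ι ℝ) (a b : ι) : 0 ≤ dh xi mu M a b := by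
  have := g.dz_nonneg a b
  unfold dh
  positivity

theorem le_dz (a b : ι) : xi b * (1 + mu a) ≤ dz xi mu a b := by
  have := g.xi_nonneg a
  have := g.mu_nonneg b
  unfold dz
  have : 0 ≤ xi a * (1 + mu b) := by positivity
  linarith

theorem frob_dz : frob (Matrix.of (dz xi mu)) ≤ 2 * (P.v * P.g) := by
  have e : Matrix.of (dz xi mu) =
      vecMulVec (fun a => 1 + mu a) xi + vecMulVec xi fun a => 1 + mu a := by
    ext a b; simp only [dz, of_apply, Matrix.add_apply, vecMulVec_apply]; ring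
  have e1 : nrm xi * nrm (fun a => 1 + mu a) ≤ P.v * P.g :=
    mul_le_mul g.xi_le g.g_le (nrm_nonneg _) g.pv_nonneg
  have e2 := frob_add_le (vecMulVec (fun a => 1 + mu a) xi) (vecMulVec xi fun a => 1 + mu a)
  rw [frob_vecMulVec, frob_vecMulVec] at e2
  rw [e]
  linarith

theorem frob_dh (M : Matrix ι ι ℝ) {τ : ℝ} (hτ : frob M ≤ τ) :
    frob (Matrix.of (dh xi mu M)) ≤ 2 * (P.v * P.g + τ) := by
  have e : Matrix.of (dh xi mu M) = Matrix.of (dz xi mu) + Matrix.of (fun a b => |M a b|) +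
      Matrix.of fun a b => |Mᵀ a b| := by
    ext a b; simp [dh]
  have e1 : frob (Matrix.of fun a b => |M a b|) ≤ frob M := frob_mono fun a b => by simp
  have e2 : frob (Matrix.of fun a b => |Mᵀ a b|) ≤ frob Mᵀ := frob_mono fun a b => by simp
  rw [frob_transpose] at e2
  have e3 := frob_add_le (Matrix.of (dz xi mu) + Matrix.of (fun a b => |M a b|))
    (Matrix.of fun a b => |Mᵀ a b|)
  have e4 := frob_add_le (Matrix.of (dz xi mu)) (Matrix.of fun a b => |M a b|)
  rw [e]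
  linarith [g.frob_dz]

theorem frob_mm : frob (Matrix.of fun a b => (1 + mu a) * (1 + mu b)) ≤ P.g ^ 2 := by
  have e : (Matrix.of fun a b => (1 + mu a) * (1 + mu b)) =
      vecMulVec (fun a => 1 + mu a) fun a => 1 + mu a := by
    ext a b; simp [vecMulVec_apply]
  rw [e, frob_vecMulVec, sq]
  exact mul_le_mul g.g_le g.g_le (nrm_nonneg _) g.pg_nonneg

end Gl

theorem off_mul_off {xa xb ma mb o₁ o₂ : ℝ} (hxx : xa * xb ≤ 1 / 1000) (h1 : 0 ≤ o₁) (h2 : 0 ≤ o₂)
    (ha : 0 ≤ xa) (hb : 0 ≤ xb) (hma : 0 ≤ ma) (hmb : 0 ≤ mb) (e1 : o₁ ^ 2 ≤ ma * mb)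
    (e2 : o₂ ^ 2 ≤ ma * mb) :
    (xb * o₁ + mb) * (xa * o₂ + ma) ≤ 2 * (ma * mb) + (xb * ma + xa * mb) * (o₁ + o₂) := by
  have e3 : o₁ * o₂ ≤ ma * mb := by nlinarith [sq_nonneg (o₁ - o₂)]
  have e4 : xa * xb * (o₁ * o₂) ≤ 1 * (ma * mb) :=
    mul_le_mul (by linarith) e3 (by positivity) (by norm_num)
  have e5 : 0 ≤ xb * ma * o₂ := by positivity
  have e6 : 0 ≤ xa * mb * o₁ := by positivity
  nlinarith

variable [DecidableEq ι]

namespace Sd

variable {P : Pr} {s s' : ℝ} {X Y : Matrix ι ι ℝ} {w sg : ι → ι → ℝ} {xi mu : ι → ℝ}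

theorem abs_wd_le (h : Sd P s X w sg xi mu) {a b : ι} (hw : w a b ≠ 0) :
    |wd s X a b| ≤ 11 / 10 * xi b := by
  rw [wd_eq, abs_mul]
  exact mul_le_mul (h.wt.abs_p1_le hw) (h.dg_le b) (abs_nonneg _) (by norm_num)

theorem nrm_row_sq_le (h : Sd P s X w sg xi mu) (a : ι) : nrm (X a) ^ 2 ≤ mu a := by
  rw [← rsq_eq_nrm]; exact h.rs_le a

theorem col_eq (h : Sd P s X w sg xi mu) (a : ι) : (fun c => X c a) = X a :=
  funext fun c => symm_apply h.wt.symm c a

theorem mul_sq_le (h : Sd P s X w sg xi mu) (h' : Sd P s' Y w sg xi mu) (a b : ι) :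
    (X * Y) a b ^ 2 ≤ mu a * mu b := by
  have e1 := abs_mul_apply_le X Y a b
  rw [h'.col_eq] at e1
  have e2 := pow_le_pow_left₀ (abs_nonneg _) e1 2
  rw [sq_abs, mul_pow] at e2
  exact e2.trans (mul_le_mul (h.nrm_row_sq_le a) (h'.nrm_row_sq_le b) (sq_nonneg _)
    (h.gl.mu_nonneg a))

theorem abs_mul_sq_le (h : Sd P s X w sg xi mu) (h' : Sd P s' Y w sg xi mu) (a b : ι) :
    |(X * Y) a b| ^ 2 ≤ (1 + mu a) * (1 + mu b) := by
  rw [sq_abs]
  nlinarith [h.mul_sq_le h' a b, h.gl.mu_nonneg a, h.gl.mu_nonneg b]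

theorem abs_shift_le (h : Sd P s X w sg xi mu) (h' : Sd P s' Y w sg xi mu) (a : ι) :
    |(X * Y) a a - s * s'| ≤ 1 + mu a := by
  have e1 : |(X * Y) a a| ≤ mu a :=
    abs_le_of_sq_le_sq' (by rw [sq (mu a)]; exact h.mul_sq_le h' a a) (h.gl.mu_nonneg a) |>
      abs_le.2
  have e2 : |s * s'| = 1 := by rw [abs_mul, h.wt.abs_s, h'.wt.abs_s, one_mul]
  linarith [abs_sub ((X * Y) a a) (s * s')]

/-- The diagonal of a word with a middle part of bounded operator norm. -/
theorem abs_word_le (h : Sd P s X w sg xi mu) (h' : Sd P s' Y w sg xi mu) {M : Matrix ι ι ℝ}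
    {c : ℝ} (hM : opn M ≤ c) (a : ι) : |(X * M * Y) a a| ≤ c * mu a := by
  have e1 := abs_mul_mul_apply_le X M Y a a
  rw [h'.col_eq] at e1
  have e2 : nrm (X a) * nrm (Y a) ≤ mu a := by
    nlinarith [h.nrm_row_sq_le a, h'.nrm_row_sq_le a, sq_nonneg (nrm (X a) - nrm (Y a))]
  have e3 := mul_le_mul hM e2 (mul_nonneg (nrm_nonneg _) (nrm_nonneg _))
    ((opn_nonneg _).trans hM)
  linarith [mul_assoc (opn M) (nrm (X a)) (nrm (Y a))]

theorem nrm_word_le (h : Sd P s X w sg xi mu) (h' : Sd P s' Y w sg xi mu) {M : Matrix ι ι ℝ}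
    {c : ℝ} (hM : opn M ≤ c) : nrm (fun a => (X * M * Y) a a) ≤ c * nrm mu := by
  have hc : 0 ≤ c := (opn_nonneg _).trans hM
  have e1 : nrm (fun a => (X * M * Y) a a) ≤ nrm (c • mu) := nrm_mono fun a =>
    (h.abs_word_le h' hM a).trans (le_abs_self _)
  rwa [nrm_smul, abs_of_nonneg hc] at e1

theorem abs_bd_le (h : Sd P s X w sg xi mu) (h' : Sd P s' Y w sg xi mu) {a b : ι}
    (hw : w a b ≠ 0) : |bd s s' X Y a b| ≤ 11 / 10 * dh xi mu (X * Y) a b := by
  have e1 : |wd s X a b * ((X * Y) a a - s * s')| ≤ 11 / 10 * xi b * (1 + mu a) := by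
    rw [abs_mul]
    exact mul_le_mul (h.abs_wd_le hw) (h.abs_shift_le h' a) (abs_nonneg _)
      (by have := h.gl.xi_nonneg b; positivity)
  have e2 : |wo s X a b * (X * Y) b a| ≤ 11 / 10 * |(X * Y) b a| := by
    rw [abs_mul]; exact mul_le_mul_of_nonneg_right (h.wt.abs_wo_le hw) (abs_nonneg _)
  have e3 := h.gl.le_dz a b
  unfold bd dh
  linarith [abs_add_le (wd s X a b * ((X * Y) a a - s * s')) (wo s X a b * (X * Y) b a),
    abs_nonneg ((X * Y) a b)]

theorem abs_bo_le (h : Sd P s X w sg xi mu) (h' : Sd P s' Y w sg xi mu) {a b : ι}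
    (hw : w a b ≠ 0) : |bo s s' X Y a b| ≤ 11 / 10 * (xi b * |(X * Y) a b| + (1 + mu b)) := by
  have e1 : |wd s X a b * (X * Y) a b| ≤ 11 / 10 * xi b * |(X * Y) a b| := by
    rw [abs_mul]; exact mul_le_mul_of_nonneg_right (h.abs_wd_le hw) (abs_nonneg _)
  have e2 : |wo s X a b * ((X * Y) b b - s * s')| ≤ 11 / 10 * (1 + mu b) := by
    rw [abs_mul]
    exact mul_le_mul (h.wt.abs_wo_le hw) (h.abs_shift_le h' b) (abs_nonneg _) (by norm_num)
  unfold bo
  linarith [abs_add_le (wd s X a b * (X * Y) a b) (wo s X a b * ((X * Y) b b - s * s'))]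

theorem abs_bo_mul_le {r r' : ℝ} {U V : Matrix ι ι ℝ} (h : Sd P s X w sg xi mu)
    (h' : Sd P s' Y w sg xi mu) (k : Sd P r U w sg xi mu) (k' : Sd P r' V w sg xi mu) {a b : ι}
    (hw : w a b ≠ 0) : |bo s s' X Y a b * bo r r' U V b a| ≤
      121 / 100 * (2 * ((1 + mu a) * (1 + mu b)) +
        dz xi mu a b * (|(X * Y) a b| + |(U * V) b a|)) := by
  have g := h.gl
  have e1 := h.abs_bo_le h' hw
  have e2 := k.abs_bo_le k' (h.wt.w_ne_swap hw)
  have ha := g.mu_nonneg a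
  have hb := g.mu_nonneg b
  have e3 := off_mul_off (g.xx a b hw) (abs_nonneg ((X * Y) a b)) (abs_nonneg ((U * V) b a))
    (g.xi_nonneg a) (g.xi_nonneg b) (by linarith : 0 ≤ 1 + mu a) (by linarith : 0 ≤ 1 + mu b)
    (h.abs_mul_sq_le h' a b) (by rw [mul_comm]; exact k.abs_mul_sq_le k' b a)
  have e4 := mul_le_mul e1 e2 (abs_nonneg _) ((abs_nonneg _).trans e1)
  rw [abs_mul]
  unfold dz
  linarith

theorem dh_comm (h : Sd P s X w sg xi mu) (h' : Sd P s' Y w sg xi mu) (a b : ι) :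
    dh xi mu (Y * X) a b = dh xi mu (X * Y) a b := by
  unfold dh
  rw [mul_apply_swap h'.wt.isSymm h.wt.isSymm a b, mul_apply_swap h'.wt.isSymm h.wt.isSymm b a]
  ring

theorem dh_le_t (h : Sd P s X w sg xi mu) (h' : Sd P s' Y w sg xi mu) {a b : ι}
    (hw : w a b ≠ 0) : dh xi mu (X * Y) a b ≤ 4 * P.t := by
  have g := h.gl
  have e1 : |(X * Y) a b| ≤ P.t :=
    abs_le_of_sq_le_sq' ((h.abs_mul_sq_le h' a b).trans (g.mm a b hw)) g.t_nonneg |>.2
  have hw' := h.wt.w_ne_swap hw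
  have e2 : |(X * Y) b a| ≤ P.t :=
    abs_le_of_sq_le_sq' ((h.abs_mul_sq_le h' b a).trans (g.mm b a hw')) g.t_nonneg |>.2
  unfold dh dz
  linarith [g.xm a b hw, g.xm b a hw']

theorem abs_wc_le (h : Sd P s X w sg xi mu) (h' : Sd P s' Y w sg xi mu) {a b : ι}
    (hw : w a b ≠ 0) : |wc s s' X Y a b| ≤
      3 * (dh xi mu (X * X) a b * ((1 + mu a) * (1 + mu b))) +
        6 * (dh xi mu (X * Y) a b * ((1 + mu a) * (1 + mu b))) +
        40 * P.t * (dh xi mu (X * Y) a b * dh xi mu (X * Y) a b) := by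
  have g := h.gl
  have hw' := h.wt.w_ne_swap hw
  have a1 := h.abs_bd_le h hw
  have a2 := h.abs_bd_le h' hw
  have a3 := h'.abs_bd_le h hw
  have a4 := h.abs_bd_le h' hw'
  have b1 := h.abs_bo_mul_le h' h' h hw
  have b2 := h.abs_bo_mul_le h h h' hw
  have b3 := h.abs_bo_mul_le h h' h hw
  rw [h.dh_comm h'] at a3
  rw [dh_swap] at a4
  rw [mul_apply_swap h'.wt.isSymm h.wt.isSymm b a] at b1 b3
  have ht := h.dh_le_t h hw
  have z0 := g.dz_nonneg a b
  have m0 : 0 ≤ (1 + mu a) * (1 + mu b) := by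
    have := g.mu_nonneg a
    have := g.mu_nonneg b
    positivity
  have c1 : dz xi mu a b + |(X * X) a b| ≤ dh xi mu (X * X) a b := by
    unfold dh; linarith [abs_nonneg ((X * X) b a)]
  have c2 : dz xi mu a b + |(X * Y) a b| + |(X * Y) b a| = dh xi mu (X * Y) a b := rfl
  have e : wc s s' X Y a b = bd s s X X a b * (bd s s' X Y a b * bd s' s Y X a b) +
      bd s s X X a b * (bo s s' X Y a b * bo s' s Y X b a) +
      bd s' s Y X a b * (bo s s X X a b * bo s s' X Y b a) +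
      bd s s' X Y b a * (bo s s X X a b * bo s' s Y X b a) := by unfold wc; ring
  have n1 := abs_nonneg ((X * X) a b)
  have n2 := abs_nonneg ((X * Y) a b)
  have n3 := abs_nonneg ((X * Y) b a)
  generalize |(X * X) a b| = o₁ at *
  generalize |(X * Y) a b| = o₂ at *
  generalize |(X * Y) b a| = o₃ at *
  generalize dh xi mu (X * X) a b = G at *
  generalize dh xi mu (X * Y) a b = H at *
  generalize dz xi mu a b = z at *
  generalize (1 + mu a) * (1 + mu b) = m at *
  have G0 : 0 ≤ G := by linarith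
  have H0 : 0 ≤ H := by linarith
  have t1 : |bd s s X X a b * (bd s s' X Y a b * bd s' s Y X a b)| ≤
      11 / 10 * G * (11 / 10 * H * (11 / 10 * H)) := by
    rw [abs_mul, abs_mul]
    exact mul_le_mul a1 (mul_le_mul a2 a3 (abs_nonneg _) (by positivity)) (by positivity)
      (by positivity)
  have t2 : |bd s s X X a b * (bo s s' X Y a b * bo s' s Y X b a)| ≤
      11 / 10 * G * (121 / 100 * (2 * m + 2 * (H * H))) := by
    rw [abs_mul]
    refine mul_le_mul a1 (b1.trans ?_) (abs_nonneg _) (by positivity)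
    have : z * o₂ ≤ H * H := mul_le_mul (by linarith) (by linarith) n2 H0
    linarith
  have t3 : |bd s' s Y X a b * (bo s s X X a b * bo s s' X Y b a)| ≤
      11 / 10 * H * (121 / 100 * (2 * m + 2 * (G * H))) := by
    rw [abs_mul]
    refine mul_le_mul a3 (b2.trans ?_) (abs_nonneg _) (by positivity)
    have u1 : o₁ * z ≤ G * H := mul_le_mul (by linarith) (by linarith) z0 G0
    have u2 : z * o₃ ≤ G * H := mul_le_mul (by linarith) (by linarith) n3 G0
    linarith
  have t4 : |bd s s' X Y b a * (bo s s X X a b * bo s' s Y X b a)| ≤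
      11 / 10 * H * (121 / 100 * (2 * m + 2 * (G * H))) := by
    rw [abs_mul]
    refine mul_le_mul a4 (b3.trans ?_) (abs_nonneg _) (by positivity)
    have u1 : o₁ * z ≤ G * H := mul_le_mul (by linarith) (by linarith) z0 G0
    have u2 : z * o₂ ≤ G * H := mul_le_mul (by linarith) (by linarith) n2 G0
    linarith
  have t5 : G * (H * H) ≤ 4 * P.t * (H * H) := mul_le_mul_of_nonneg_right ht (by positivity)
  have t6 : 0 ≤ G * (H * H) := by positivity
  have t7 : 0 ≤ G * m := by positivity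
  have t8 : 0 ≤ H * m := by positivity
  rw [e]
  refine (abs_add_le _ _).trans ?_
  refine le_trans (add_le_add ((abs_add_le _ _).trans (add_le_add (abs_add_le _ _) le_rfl))
    le_rfl) ?_
  linarith

end Sd

end Vale.Agent.P049
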