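import Vale.Agent.P049.EnvU

/-!
The envelope step for the two quadratic potentials, and the a priori bound on the trace of the
square.
-/

namespace Vale.Agent.P049

open Matrix Finset

variable {ι : Type*} [Fintype ι] {E : Env ℝ} {k ε : ℝ} {w : ι → ι → ℝ}

theorem Sc.el_q {Z : ℝ} (h : Sc E k Z ε) : (k + E.kap) * E.q k = k := by
  have : k + E.kap ≠ 0 := by linarith [h.hk, h.kap_pos]
  unfold Env.q
  field_simp

theorem Sc.el_db {Z : ℝ} (h : Sc E k Z ε) :
    E.db * E.q k ^ 2 ≤ ε * k ∧ E.db * E.q k ^ 2 ≤ k * (1 - E.q k) := by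
  obtain ⟨θ, -, -, -, hq0, hq1, -⟩ := h.eu_theta
  have hk : 0 < k := by linarith [h.hk]
  have hε := h.ε_pos
  have hε1 := h.ε_le
  have e1 : E.kap * E.q k = k * (1 - E.q k) := by linarith [h.el_q]
  have e2 : E.db * E.q k ^ 2 ≤ ε * E.q k * (k * (1 - E.q k)) := by
    rw [← e1]
    have := mul_le_mul_of_nonneg_right h.db_le (sq_nonneg (E.q k))
    linarith
  have e3 : 0 ≤ k * (1 - E.q k) := mul_nonneg hk.le (by linarith)
  have e4 : ε * E.q k ≤ ε := by nlinarith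
  have e5 : k * (1 - E.q k) ≤ k := by nlinarith
  constructor
  · exact e2.trans (mul_le_mul e4 e5 e3 hε.le)
  · exact e2.trans (by nlinarith)

theorem Sc.el_max {Z R : ℝ} (h : Sc E k Z ε) (hd : E.db ≤ k) (h1 : E.fE k R ≤ 1) :
    max (R - k * E.q k) 0 ≤ E.db * E.q k ^ 2 := by
  obtain ⟨θ, -, -, -, hq0, -, -⟩ := h.eu_theta
  have hdb := h.db_pos
  have hs : 0 < E.db * E.q k ^ 2 := by positivity
  unfold Env.fE at h1
  rw [if_pos hd, div_le_one (by positivity)] at h1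
  exact (abs_le_of_sq_le_sq' h1 hs.le).2

/-- N0: the trace of the square is close to or below `k q`. -/
theorem Sc.near {Z R : ℝ} (h : Sc E k Z ε) (h1 : E.fE k R ≤ 1) (h2 : E.fR k R ≤ 1) :
    R ≤ k * E.q k + 8 * ε * k ∧ R ≤ k ∧ R ≤ 8 * (k * E.q k) + 1 := by
  obtain ⟨θ, -, -, -, hq0, hq1, -⟩ := h.eu_theta
  have hk := h.hk
  have hk0 : 0 < k := by linarith
  have hε := h.ε_pos
  have hε1 := h.ε_le
  have hεk := h.εk
  have h3 : R ≤ 8 * (k * E.q k) + 1 := by
    unfold Env.fR at h2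
    rw [div_le_one (by positivity)] at h2
    linarith
  by_cases hd : E.db ≤ k
  · have e1 := (le_max_left _ _).trans (h.el_max hd h1)
    have e2 := h.el_db
    exact ⟨by linarith [e2.1], by linarith [e2.2], h3⟩
  · have e1 : E.q k ≤ ε := by
      unfold Env.q
      rw [div_le_iff₀ (by linarith [h.kap_pos])]
      have := h.db_le
      linarith [not_le.1 hd]
    have e2 := mul_le_mul_of_nonneg_left e1 hk0.le
    have e3 := mul_le_mul_of_nonneg_left hε1 hk0.le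
    exact ⟨by linarith, by linarith, h3⟩

/-- ED -/
theorem Sc.envD (h : Sc E k (∑ a, ∑ b, w a b) ε) {D R e1 e2 : ℝ} (D' : ι → ι → ℝ)
    (hD : E.fD k D ≤ 1) (hR : R ≤ k * E.q k + 8 * ε * k)
    (h1 : D * ∑ a, ∑ b, w a b * (D' a b - D) ≤ 2 * D ^ 2 * (R - k) + |D| * e1)
    (h2 : ∑ a, ∑ b, w a b * (D' a b - D) ^ 2 ≤ e2)
    (b1 : e1 ≤ ε * (E.Db * E.q k) * k) (b2 : e2 ≤ ε * (E.Db * E.q k) ^ 2 * k) :
    ∑ a, ∑ b, w a b * (E.fD (k - 2) (D' a b) - E.fD k D) ≤ 1000 * ε * k := by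
  obtain ⟨θ, hθ0, hq', hθ, hq0, hq1, -⟩ := h.eu_theta
  have hk := h.hk
  have hk0 : 0 < k := by linarith
  have hε := h.ε_pos
  have hε1 := h.ε_le
  have hDb := h.Db_pos
  have hθ1 : θ ≤ 1 / 1000 := by
    refine le_of_mul_le_mul_left ?_ hk0
    linarith
  have hs : 0 < E.Db * E.q k := by positivity
  have hD2 : D ^ 2 ≤ (E.Db * E.q k) ^ 2 := (div_le_one (by positivity)).1 hD
  have hDa : |D| ≤ E.Db * E.q k := abs_le_of_sq_le_sq hD2 hs.le
  have hθ2 : 0 < 1 - θ := by linarith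
  have hz := h.eu_loss hθ (by linarith) (by linarith)
  have hεk : 0 < ε * k := by positivity
  have hZ := h.eu_Z.1
  unfold Env.fD
  rw [hq', show E.Db * (E.q k * (1 - θ)) = E.Db * E.q k * (1 - θ) by ring]
  generalize E.Db * E.q k = s at *
  have hr : (s * (1 - θ)) ^ 2 / s ^ 2 = (1 - θ) ^ 2 := by field_simp
  have hs2 : 0 < s ^ 2 := by positivity
  refine (eu_core (B := 60 * ε * k) (fun a b => D' a b ^ 2) hs2 (by positivity) ?_
    (by positivity) ?_).trans (by linarith)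
  · have : 1 ≤ 2 * (1 - θ) ^ 2 := by nlinarith
    have := mul_le_mul_of_nonneg_left this hs2.le
    linarith
  · have e0 : ∑ a, ∑ b, w a b * (D' a b ^ 2 - D ^ 2) =
        2 * (D * ∑ a, ∑ b, w a b * (D' a b - D)) + ∑ a, ∑ b, w a b * (D' a b - D) ^ 2 := by
      simp only [mul_sum, ← sum_add_distrib]
      exact sum_congr rfl fun a _ => sum_congr rfl fun b _ => by ring
    rw [hr, e0]
    generalize ∑ a, ∑ b, w a b = Z at *
    have a1 := mul_le_mul_of_nonneg_left hz (sq_nonneg D)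
    have a2 := mul_le_mul_of_nonneg_left hR (sq_nonneg D)
    have a3 := mul_le_mul_of_nonneg_left b1 (abs_nonneg D)
    have a4 := mul_le_mul_of_nonneg_right hDa (show 0 ≤ ε * s * k by positivity)
    have a5 := mul_le_mul_of_nonneg_left hD2 hεk.le
    have a6 : 0 ≤ Z * (D ^ 2 * θ ^ 2) := by positivity
    have a7 : 0 ≤ ε * k * s ^ 2 := by positivity
    linarith

theorem el_max_sq (x d : ℝ) : max (x + d) 0 ^ 2 ≤ max x 0 ^ 2 + 2 * max x 0 * d + d ^ 2 := by
  rcases le_total x 0 with hx | hx <;> rcases le_total (x + d) 0 with hd | hd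
  · rw [max_eq_right hx, max_eq_right hd]; nlinarith
  · rw [max_eq_right hx, max_eq_left hd]; nlinarith
  · rw [max_eq_left hx, max_eq_right hd]; nlinarith [sq_nonneg (x + d)]
  · rw [max_eq_left hx, max_eq_left hd]; nlinarith

theorem Sc.el_phi {Z : ℝ} (h : Sc E k Z ε) :
    k * E.q k - (k - 2) * E.q (k - 2) ≤ 4 * E.q k - 2 * E.q k ^ 2 := by
  have hb : 0 < k - 2 + E.kap := by linarith [h.hk, h.kap_pos]
  have e1 := h.el_q
  have e2 : 2 * (k - 2) * E.q k - (k - 2 + E.kap) * E.q k ^ 2 ≤ (k - 2) * E.q (k - 2) := by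
    generalize E.q k = q
    unfold Env.q
    rw [← mul_div_assoc, le_div_iff₀ hb]
    nlinarith [sq_nonneg (k - 2 - (k - 2 + E.kap) * q)]
  have e3 : (k + E.kap) * E.q k ^ 2 = k * E.q k := by rw [sq, ← mul_assoc, e1]
  linarith

/-- EE -/
theorem Sc.envE (h : Sc E k (∑ a, ∑ b, w a b) ε) (hw : ∀ a b, 0 ≤ w a b) {R e1 e2 x : ℝ}
    (R' : ι → ι → ℝ) (hE : E.fE k R ≤ 1) (hx : |∑ a, ∑ b, w a b - k ^ 2| ≤ x)
    (h1 : ∑ a, ∑ b, w a b * (R' a b - R) ≤ 2 * R ^ 2 - 4 * k * R + e1)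
    (h2 : ∑ a, ∑ b, w a b * (R' a b - R) ^ 2 ≤ e2)
    (b1 : E.db ≤ k → e1 + 4 * E.q k * x ≤ ε * (E.db * E.q k ^ 2) * k)
    (b2 : E.db ≤ k → 2 * e2 + 64 * (k * E.q k) ^ 2 ≤ ε * (E.db * E.q k ^ 2) ^ 2 * k) :
    ∑ a, ∑ b, w a b * (E.fE (k - 2) (R' a b) - E.fE k R) ≤ 1000 * ε * k := by
  obtain ⟨θ, hθ0, hq', hθ, hq0, hq1, -⟩ := h.eu_theta
  have hk := h.hk
  have hk0 : 0 < k := by linarith
  have hε := h.ε_pos
  have hε1 := h.ε_le
  have hdb := h.db_pos
  have hεk : 0 < ε * k := by positivity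
  by_cases hd : E.db ≤ k
  swap
  · have hd' : ¬ E.db ≤ k - 2 := fun h' => hd (by linarith)
    unfold Env.fE
    simp only [if_neg hd, if_neg hd', sub_self, mul_zero, sum_const_zero]
    linarith
  have hθ1 : θ ≤ 1 / 1000 := by
    refine le_of_mul_le_mul_left ?_ hk0
    linarith
  have hθ2 : 0 < 1 - θ := by linarith
  have hu := h.el_max hd hE
  have hsε := h.el_db.1
  have hφ := h.el_phi
  have hφ0 : 0 ≤ k * E.q k - (k - 2) * E.q (k - 2) := by
    rw [hq']
    have : 0 ≤ E.q k * ((k - 2) * θ) := mul_nonneg hq0.le (mul_nonneg (by linarith) hθ0)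
    linarith
  have hz := h.eu_loss hθ (by linarith) (by linarith)
  obtain ⟨hZ0, hZ1⟩ := h.eu_Z
  replace b1 := b1 hd
  replace b2 := b2 hd
  have hs : 0 < E.db * E.q k ^ 2 := by positivity
  have hs' : E.db * E.q (k - 2) ^ 2 = E.db * E.q k ^ 2 * (1 - θ) ^ 2 := by rw [hq']; ring
  have step : ∑ a, ∑ b, w a b * (E.fE (k - 2) (R' a b) - E.fE k R) ≤
      ∑ a, ∑ b, w a b * (max (R' a b - (k - 2) * E.q (k - 2)) 0 ^ 2 /
        (E.db * E.q k ^ 2 * (1 - θ) ^ 2) ^ 2 -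
        max (R - k * E.q k) 0 ^ 2 / (E.db * E.q k ^ 2) ^ 2) := by
    refine sum_le_sum fun a _ => sum_le_sum fun b _ => mul_le_mul_of_nonneg_left ?_ (hw a b)
    unfold Env.fE
    rw [if_pos hd, hs']
    split_ifs
    · exact le_rfl
    · exact sub_le_sub_right (by positivity) _
  refine step.trans ?_
  obtain ⟨φ, hφe⟩ : ∃ φ, (k - 2) * E.q (k - 2) = k * E.q k - φ :=
    ⟨k * E.q k - (k - 2) * E.q (k - 2), by ring⟩
  rw [hφe, sub_sub_cancel] at hφ hφ0
  rw [hφe]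
  generalize E.db * E.q k ^ 2 = s at *
  generalize E.q k = q at *
  have hs2 : 0 < s ^ 2 := by positivity
  have hr : (s * (1 - θ) ^ 2) ^ 2 / s ^ 2 = (1 - θ) ^ 4 := by field_simp
  have hθ4 : 1 - 4 * θ ≤ (1 - θ) ^ 4 := by
    have := one_add_mul_le_pow (show (-2 : ℝ) ≤ -θ by linarith) 4
    simpa [sub_eq_add_neg] using this
  refine (eu_core (B := 60 * ε * k) (fun a b => max (R' a b - (k * q - φ)) 0 ^ 2) hs2
    (by positivity) ?_ (by positivity) ?_).trans (by linarith)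
  · have : 1 ≤ 2 * (1 - θ) ^ 4 := by linarith
    have := mul_le_mul_of_nonneg_left this hs2.le
    linarith
  · have hu0 : 0 ≤ max (R - k * q) 0 := le_max_right _ _
    have hux : max (R - k * q) 0 * (R - k * q) = max (R - k * q) 0 ^ 2 := by
      rcases le_total (R - k * q) 0 with h' | h'
      · rw [max_eq_right h']; ring
      · rw [max_eq_left h']; ring
    have e0 : ∑ a, ∑ b, w a b * (max (R' a b - (k * q - φ)) 0 ^ 2 - max (R - k * q) 0 ^ 2) ≤
        2 * max (R - k * q) 0 * (∑ a, ∑ b, w a b * (R' a b - R) + (∑ a, ∑ b, w a b) * φ) +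
          (2 * ∑ a, ∑ b, w a b * (R' a b - R) ^ 2 + 2 * ((∑ a, ∑ b, w a b) * φ ^ 2)) := by
      simp only [mul_sum, sum_mul, ← sum_add_distrib]
      refine sum_le_sum fun a _ => sum_le_sum fun b _ => ?_
      have t1 := el_max_sq (R - k * q) (R' a b - R + φ)
      rw [show R - k * q + (R' a b - R + φ) = R' a b - (k * q - φ) by ring] at t1
      have t2 : (R' a b - R + φ) ^ 2 ≤ 2 * (R' a b - R) ^ 2 + 2 * φ ^ 2 := by
        nlinarith [sq_nonneg (R' a b - R - φ)]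
      have t3 := mul_le_mul_of_nonneg_left (t1.trans (add_le_add le_rfl t2)) (hw a b)
      linarith
    rw [hr]
    generalize max (R - k * q) 0 = u at *
    generalize ∑ a, ∑ b, w a b = Z at *
    obtain ⟨y, rfl⟩ : ∃ y, R = k * q + y := ⟨R - k * q, by ring⟩
    rw [add_sub_cancel_left] at hux
    have hφ4 : φ ≤ 4 * q := by linarith [sq_nonneg q]
    have hx0 : 0 ≤ x := (abs_nonneg _).trans hx
    have c1 : Z * φ ≤ k ^ 2 * (4 * q - 2 * q ^ 2) + 4 * q * x := by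
      have t1 := mul_le_mul_of_nonneg_right (abs_le.1 hx).2 hφ0
      have t2 := mul_le_mul_of_nonneg_left hφ (sq_nonneg k)
      have t3 := mul_le_mul_of_nonneg_left hφ4 hx0
      linarith
    have c2 : Z * φ ^ 2 ≤ 2 * k ^ 2 * (4 * q) ^ 2 := by
      refine mul_le_mul (hZ1.trans ?_) (pow_le_pow_left₀ hφ0 hφ4 2) (by positivity)
        (by positivity)
      exact mul_le_mul_of_nonneg_right (by linarith) (by positivity)
    have c3 := mul_le_mul_of_nonneg_left (add_le_add h1 c1) hu0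
    have c4 : u * y ^ 2 = u ^ 2 * u := by
      rw [← hux, show u * y ^ 2 = u * y * y by ring, hux, show u ^ 2 * y = u * y * u by ring,
        hux]
    have c5 : u * y * (k * q) = u ^ 2 * (k * q) := by rw [hux]
    have c6 : u * y * k = u ^ 2 * k := by rw [hux]
    have c7 := mul_le_mul_of_nonneg_left b1 hu0
    have c8 := mul_le_mul_of_nonneg_left (hu.trans hsε) (sq_nonneg u)
    have c9 := mul_le_mul_of_nonneg_left hz (sq_nonneg u)
    have c10 := mul_le_mul_of_nonneg_left hθ4 (show 0 ≤ Z * u ^ 2 by positivity)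
    have c11 := mul_le_mul_of_nonneg_left (pow_le_pow_left₀ hu0 hu 2) hεk.le
    have c12 := mul_le_mul_of_nonneg_left hu (show 0 ≤ ε * s * k by positivity)
    have c13 : 0 ≤ ε * k * s ^ 2 := by positivity
    linarith

end Vale.Agent.P049
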