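import Vale.Agent.P049.Pot

/-!
The envelope step for the potentials of the diagonal and of the row norms.
-/

namespace Vale.Agent.P049

open Matrix Finset

variable {ι : Type*} [Fintype ι] {E : Env ℝ} {k ε : ℝ} {w : ι → ι → ℝ}

theorem eu_core {V e e' B : ℝ} (V' : ι → ι → ℝ) (he : 0 < e) (he' : 0 < e') (h2 : e ≤ 2 * e')
    (hB : 0 ≤ B) (h : ∑ a, ∑ b, w a b * (V' a b - V) + (∑ a, ∑ b, w a b) * (V * (1 - e' / e)) ≤
      B * e) : ∑ a, ∑ b, w a b * (V' a b / e' - V / e) ≤ 2 * B := by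
  have e1 : ∑ a, ∑ b, w a b * (V' a b / e' - V / e) = (∑ a, ∑ b, w a b * (V' a b - V) +
      (∑ a, ∑ b, w a b) * (V * (1 - e' / e))) / e' := by
    simp only [sum_mul, ← sum_add_distrib, sum_div]
    refine sum_congr rfl fun a _ => sum_congr rfl fun b _ => ?_
    field_simp
    ring
  rw [e1, div_le_iff₀ he']
  nlinarith

theorem Sc.eu_theta {Z : ℝ} (h : Sc E k Z ε) : ∃ θ : ℝ, 0 ≤ θ ∧ E.q (k - 2) = E.q k * (1 - θ) ∧
    k * θ ≤ 2 * (1 - E.q k) + 6 * ε ∧ 0 < E.q k ∧ E.q k ≤ 1 ∧ 1 / (k + E.kap) = E.q k / k := by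
  have hk := h.hk
  have hκ := h.kap_pos
  have hε := h.εk
  have h1 : 0 < k + E.kap := by linarith
  have h2 : 0 < k + E.kap - 2 := by linarith
  have h3 : 0 < k := by linarith
  refine ⟨2 * E.kap / (k * (k + E.kap - 2)), by positivity, ?_, ?_, ?_, ?_, ?_⟩
  · unfold Env.q
    have h4 : k - 2 + E.kap ≠ 0 := by linarith
    rw [show k + E.kap - 2 = k - 2 + E.kap by ring]
    field_simp
    ring
  · have e1 : k * (2 * E.kap / (k * (k + E.kap - 2))) =
        2 * (1 - E.q k) + 4 * (E.kap / (k + E.kap)) / (k + E.kap - 2) := by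
      unfold Env.q
      field_simp
      ring
    have e2 : E.kap / (k + E.kap) ≤ 1 := by rw [div_le_one h1]; linarith
    have e3 : 4 * (E.kap / (k + E.kap)) / (k + E.kap - 2) ≤ 6 * ε := by
      rw [div_le_iff₀ h2]
      nlinarith [h.ε_pos, h.ε_le]
    linarith
  · unfold Env.q; positivity
  · unfold Env.q; rw [div_le_one h1]; linarith
  · unfold Env.q; field_simp

theorem Sc.eu_Z {Z : ℝ} (h : Sc E k Z ε) : 0 ≤ Z ∧ Z ≤ (1 + ε) * k ^ 2 := by
  have h1 := abs_le.1 h.hZ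
  have h2 := mul_le_mul_of_nonneg_right h.ε_le (sq_nonneg k)
  constructor <;> nlinarith [sq_nonneg k]

/-- The loss of the envelope, weighted by the total weight. -/
theorem Sc.eu_loss {Z x c : ℝ} (h : Sc E k Z ε) (hx : k * x ≤ c) (hc0 : 0 ≤ c) (hc : c ≤ 5) :
    Z * x ≤ k * (c + 5 * ε) := by
  have hk : 0 < k := by linarith [h.hk]
  have h1 := h.eu_Z
  have hε := h.ε_pos
  have h2 : x ≤ c / k := by rw [le_div_iff₀ hk]; linarith
  calc Z * x ≤ Z * (c / k) := mul_le_mul_of_nonneg_left h2 h1.1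
    _ ≤ (1 + ε) * k ^ 2 * (c / k) := mul_le_mul_of_nonneg_right h1.2 (by positivity)
    _ = k * (c + c * ε) := by field_simp
    _ ≤ _ := mul_le_mul_of_nonneg_left (by nlinarith) hk.le

/-- EV -/
theorem Sc.envV (h : Sc E k (∑ a, ∑ b, w a b) ε) {V p e1 : ℝ} (V' : ι → ι → ℝ) (h0 : 0 ≤ V)
    (hV : E.fV k V ≤ 1) (hp : p ≤ 101 / 200 * (k * E.q k + 8 * ε * k) + ε * k)
    (h1 : ∑ a, ∑ b, w a b * (V' a b - V) ≤ -2 * k * V + 3 * V * p + e1)
    (b1 : e1 ≤ ε * (E.Vb * E.q k) * k) :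
    ∑ a, ∑ b, w a b * (E.fV (k - 2) (V' a b) - E.fV k V) ≤ 1000 * ε * k := by
  obtain ⟨θ, hθ0, hq', hθ, hq0, hq1, -⟩ := h.eu_theta
  have hk := h.hk
  have hε := h.ε_pos
  have hε1 := h.ε_le
  have hVb := h.Vb_pos
  have hθ1 : θ ≤ 1 / 2 := by nlinarith
  have he : 0 < E.Vb * E.q k := by positivity
  have hV' : V ≤ E.Vb * E.q k := (div_le_one he).1 hV
  have hr : E.Vb * (E.q k * (1 - θ)) / (E.Vb * E.q k) = 1 - θ := by field_simp
  have hz := h.eu_loss hθ (by nlinarith) (by nlinarith)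
  unfold Env.fV
  rw [hq']
  have hθ2 : 0 < 1 - θ := by linarith
  have hεk : 0 < ε * k := by positivity
  refine (eu_core (B := 28 * ε * k) V' he (by positivity)
    (by linarith [mul_le_mul_of_nonneg_left hθ1 he.le]) (by positivity) ?_).trans (by linarith)
  rw [hr, sub_sub_cancel]
  have a1 := mul_le_mul_of_nonneg_left hz h0
  have a2 := mul_le_mul_of_nonneg_left hp h0
  have a3 : 0 ≤ V * (k * E.q k) := by positivity
  have a4 := mul_le_mul_of_nonneg_left hV' (show 0 ≤ ε * k by positivity)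
  have a5 : 0 ≤ V * (ε * k) := by positivity
  linarith

theorem eu_ratio {k θ q g ε : ℝ} (hk : 3000 ≤ k) (hθ0 : 0 ≤ θ) (hθ1 : θ ≤ 1 / 1000)
    (hθ : k * θ ≤ 2 * (1 - q) + 6 * ε) (hq0 : 0 < q) (hq1 : q ≤ 1) (hε1 : ε ≤ 1 / 1000000)
    (hεk : 1 ≤ ε * k) (hg : k + 11 / 10 * q ≤ k * g) :
    k - (k - 2) * (1 - θ) * g ≤ 4 - 31 / 10 * q + 12 * ε ∧ k ≤ 2 * ((k - 2) * (1 - θ) * g) := by
  have hk0 : 0 < k := by linarith
  have hθ2 : 0 < 1 - θ := by linarith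
  have hk2 : 0 < k - 2 := by linarith
  have e1 : (k - 2) * (1 - θ) * (k + 11 / 10 * q) ≤ (k - 2) * (1 - θ) * (k * g) :=
    mul_le_mul_of_nonneg_left hg (by positivity)
  have e2 : (k - 2 - k * θ) * (k + 11 / 10 * q) ≤ (k - 2) * (1 - θ) * (k + 11 / 10 * q) :=
    mul_le_mul_of_nonneg_right (by linarith) (by positivity)
  have e3 : (2 + k * θ) * q ≤ 5 * 1 :=
    mul_le_mul (by linarith) hq1 hq0.le (by norm_num)
  have e4 := mul_le_mul_of_nonneg_left hθ hk0.le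
  have e5 : k - (k - 2) * (1 - θ) * g ≤ 4 - 31 / 10 * q + 12 * ε := by
    refine le_of_mul_le_mul_left ?_ hk0
    linarith
  exact ⟨e5, by linarith⟩

/-- EU -/
theorem Sc.envU (h : Sc E k (∑ a, ∑ b, w a b) ε) {U R p e1 G G' : ℝ} (U' : ι → ι → ℝ)
    (h0 : 0 ≤ U) (hG : 0 < G) (hG' : G * (1 + 11 / 10 / (k + E.kap)) ≤ G')
    (hU : E.fU k G U ≤ 1) (hR : R ≤ k * E.q k + 8 * ε * k)
    (hp : p ≤ 101 / 200 * (k * E.q k + 8 * ε * k) + ε * k)
    (h1 : ∑ a, ∑ b, w a b * (U' a b - U) ≤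
      -2 * k * U + 4 * (R - k) * U + 103 / 50 * U * p + 1 / 25 * k * U + e1)
    (b1 : e1 ≤ ε * (E.Mu * (k * E.q k) * G) * k) :
    ∑ a, ∑ b, w a b * (E.fU (k - 2) G' (U' a b) - E.fU k G U) ≤ 1000 * ε * k := by
  obtain ⟨θ, hθ0, hq', hθ, hq0, hq1, hi⟩ := h.eu_theta
  have hk := h.hk
  have hk0 : 0 < k := by linarith
  have hε := h.ε_pos
  have hε1 := h.ε_le
  have hεk := h.εk
  have hMu := h.Mu_pos
  have hθ1 : θ ≤ 1 / 1000 := by
    refine le_of_mul_le_mul_left ?_ hk0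
    linarith
  have he : 0 < E.Mu * (k * E.q k) * G := by positivity
  obtain ⟨g, hg, hg'⟩ : ∃ g, G' = G * g ∧ k + 11 / 10 * E.q k ≤ k * g := by
    refine ⟨G' / G, by field_simp, ?_⟩
    rw [div_eq_mul_one_div (11 / 10 : ℝ) (k + E.kap), hi, mul_comm G, ← le_div_iff₀ hG] at hG'
    have e2 := mul_le_mul_of_nonneg_left hG' hk0.le
    have e3 : k * (1 + 11 / 10 * (E.q k / k)) = k + 11 / 10 * E.q k := by field_simp
    linarith
  have hθ2 : 0 < 1 - θ := by linarith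
  have hk2 : 0 < k - 2 := by linarith
  have hg0 : 0 < g := (mul_pos_iff_of_pos_left hk0).1 (by linarith)
  have hr : k * (1 - E.Mu * ((k - 2) * (E.q k * (1 - θ))) * (G * g) /
      (E.Mu * (k * E.q k) * G)) = k - (k - 2) * (1 - θ) * g := by field_simp
  obtain ⟨hx, hy⟩ := eu_ratio hk hθ0 hθ1 hθ hq0 hq1 hε1 hεk hg'
  rw [← hr] at hx
  have hz := h.eu_loss hx (by linarith) (by linarith)
  unfold Env.fU
  rw [hq', hg]
  refine (eu_core (B := ε * k) U' he (by positivity) ?_ (by positivity) ?_).trans (by linarith)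
  · have e3 := mul_le_mul_of_nonneg_left hy (show 0 ≤ E.Mu * E.q k * G by positivity)
    linarith
  · have a1 := mul_le_mul_of_nonneg_left hz h0
    have a2 := mul_le_mul_of_nonneg_left hp h0
    have a3 := mul_le_mul_of_nonneg_left hR h0
    have a4 : 0 ≤ U * k := by positivity
    have a5 := mul_le_mul_of_nonneg_left hq1 a4
    have a6 := mul_le_mul_of_nonneg_left hε1 a4
    generalize 1 - E.Mu * ((k - 2) * (E.q k * (1 - θ))) * (G * g) /
      (E.Mu * (k * E.q k) * G) = x at a1 ⊢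
    linarith

end Vale.Agent.P049
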