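import Mathlib.Analysis.SpecialFunctions.Pow.Real
import Mathlib.Analysis.SpecialFunctions.Sqrt
import Mathlib.Analysis.SpecialFunctions.Log.Base
import Mathlib.Tactic

/-!
# A calculus of exponents

`Ub y c Q e` says `0 ≤ Q ≤ c * y ^ e` and `Lb y c Q e` says `y ^ e ≤ c * Q`.  The constant and the
exponent of a compound expression are found by unification.
-/

namespace Vale.Agent.P049

/-- Upper bound by a power of `y`. -/
def Ub (y c Q e : ℝ) : Prop := 0 ≤ Q ∧ Q ≤ c * y ^ e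

/-- Lower bound by a power of `y`. -/
def Lb (y c Q e : ℝ) : Prop := 0 < c ∧ y ^ e ≤ c * Q

variable {y c c' Q Q' e e' E : ℝ}

theorem Ub.nonneg (h : Ub y c Q e) : 0 ≤ Q := h.1

theorem Ub.le (h : Ub y c Q e) : Q ≤ c * y ^ e := h.2

theorem Ub.c_nonneg (hy : 1 ≤ y) (h : Ub y c Q e) : 0 ≤ c := by
  have : 0 < y ^ e := Real.rpow_pos_of_pos (by linarith) e
  by_contra hc
  push Not at hc
  have := mul_neg_of_neg_of_pos hc this
  linarith [h.1, h.2]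

theorem Lb.pos (hy : 1 ≤ y) (h : Lb y c Q e) : 0 < Q := by
  have : 0 < y ^ e := Real.rpow_pos_of_pos (by linarith) e
  exact (mul_pos_iff_of_pos_left h.1).1 (this.trans_le h.2)

theorem Ub.mono (hy : 1 ≤ y) (h : Ub y c Q e) (he : e ≤ E) : Ub y c Q E :=
  ⟨h.1, h.2.trans (mul_le_mul_of_nonneg_left (Real.rpow_le_rpow_of_exponent_le hy he)
    (h.c_nonneg hy))⟩

theorem Ub.of_le (h : Ub y c Q e) (h0 : 0 ≤ Q') (hQ : Q' ≤ Q) : Ub y c Q' e := ⟨h0, hQ.trans h.2⟩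

theorem Ub.mono_c (hy : 1 ≤ y) (h : Ub y c Q e) (hc : c ≤ c') : Ub y c' Q e :=
  ⟨h.1, h.2.trans (mul_le_mul_of_nonneg_right hc (Real.rpow_nonneg (by linarith) e))⟩

theorem Lb.mono (hy : 1 ≤ y) (h : Lb y c Q e) (he : E ≤ e) : Lb y c Q E :=
  ⟨h.1, (Real.rpow_le_rpow_of_exponent_le hy he).trans h.2⟩

theorem Lb.of_le (h : Lb y c Q e) (hQ : Q ≤ Q') : Lb y c Q' e :=
  ⟨h.1, h.2.trans (mul_le_mul_of_nonneg_left hQ h.1.le)⟩

theorem Ub.rpow (hy : 1 ≤ y) (e : ℝ) : Ub y 1 (y ^ e) e :=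
  ⟨Real.rpow_nonneg (by linarith) e, by rw [one_mul]⟩

theorem Lb.rpow (e : ℝ) : Lb y 1 (y ^ e) e := ⟨one_pos, by rw [one_mul]⟩

theorem Ub.npow (hy : 1 ≤ y) (n : ℕ) : Ub y 1 (y ^ n) n :=
  ⟨by positivity, by rw [one_mul, Real.rpow_natCast]⟩

theorem Lb.npow (n : ℕ) : Lb y 1 (y ^ n) n := ⟨one_pos, by rw [one_mul, Real.rpow_natCast]⟩

theorem Ub.self (hy : 1 ≤ y) : Ub y 1 y 1 := ⟨by linarith, by simp⟩

theorem Lb.self : Lb y 1 y 1 := ⟨one_pos, by simp⟩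

theorem Ub.const (hc : 0 ≤ c) : Ub y c c 0 := ⟨hc, by simp⟩

theorem Lb.const (hc : 0 < c) : Lb y c⁻¹ c 0 := ⟨inv_pos.2 hc, by simp [inv_mul_cancel₀ hc.ne']⟩

theorem Ub.mul (hy : 1 ≤ y) (h : Ub y c Q e) (h' : Ub y c' Q' e') :
    Ub y (c * c') (Q * Q') (e + e') := by
  refine ⟨mul_nonneg h.1 h'.1, (mul_le_mul h.2 h'.2 h'.1 (h.1.trans h.2)).trans (le_of_eq ?_)⟩
  rw [Real.rpow_add (by linarith)]
  ring

theorem Lb.mul (hy : 1 ≤ y) (h : Lb y c Q e) (h' : Lb y c' Q' e') :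
    Lb y (c * c') (Q * Q') (e + e') := by
  have h0 : 0 ≤ y ^ e' := Real.rpow_nonneg (by linarith) _
  have h1 : 0 ≤ y ^ e := Real.rpow_nonneg (by linarith) _
  refine ⟨mul_pos h.1 h'.1, ?_⟩
  rw [Real.rpow_add (by linarith)]
  exact (mul_le_mul h.2 h'.2 h0 (h1.trans h.2)).trans (le_of_eq (by ring))

theorem Ub.pow (hy : 1 ≤ y) (h : Ub y c Q e) (n : ℕ) : Ub y (c ^ n) (Q ^ n) (n * e) := by
  refine ⟨pow_nonneg h.1 n, (pow_le_pow_left₀ h.1 h.2 n).trans (le_of_eq ?_)⟩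
  rw [mul_pow, mul_comm (n : ℝ) e, Real.rpow_mul (by linarith), Real.rpow_natCast]

theorem Lb.pow (hy : 1 ≤ y) (h : Lb y c Q e) (n : ℕ) : Lb y (c ^ n) (Q ^ n) (n * e) := by
  refine ⟨pow_pos h.1 n, ?_⟩
  rw [mul_comm (n : ℝ) e, Real.rpow_mul (by linarith), Real.rpow_natCast, ← mul_pow]
  exact pow_le_pow_left₀ (Real.rpow_nonneg (by linarith) _) h.2 n

theorem Ub.div (hy : 1 ≤ y) (h : Ub y c Q e) (h' : Lb y c' Q' e') :
    Ub y (c * c') (Q / Q') (e - e') := by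
  have hp := h'.pos hy
  have h0 : 0 < y ^ e' := Real.rpow_pos_of_pos (by linarith) _
  refine ⟨div_nonneg h.1 hp.le, ?_⟩
  rw [Real.rpow_sub (by linarith), div_le_iff₀ hp]
  have h1 : c * y ^ e = c * y ^ e / y ^ e' * y ^ e' := by field_simp
  have h2 : 0 ≤ c * y ^ e / y ^ e' := div_nonneg (h.1.trans h.2) h0.le
  calc Q ≤ c * y ^ e / y ^ e' * y ^ e' := h1 ▸ h.2
    _ ≤ c * y ^ e / y ^ e' * (c' * Q') := mul_le_mul_of_nonneg_left h'.2 h2
    _ = _ := by ring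

theorem Lb.div (hy : 1 ≤ y) (h : Lb y c Q e) (h' : Ub y c' Q' e') (hQ : 0 < Q') :
    Lb y (c * c') (Q / Q') (e - e') := by
  have h0 : 0 < y ^ e' := Real.rpow_pos_of_pos (by linarith) _
  have hc' : 0 < c' := pos_of_mul_pos_right (mul_comm c' _ ▸ hQ.trans_le h'.2) h0.le
  refine ⟨mul_pos h.1 hc', ?_⟩
  rw [Real.rpow_sub (by linarith), div_le_iff₀ h0]
  have h1 : 0 ≤ c * Q / Q' := div_nonneg ((Real.rpow_nonneg (by linarith) _).trans h.2) hQ.le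
  calc y ^ e ≤ c * Q := h.2
    _ = c * Q / Q' * Q' := by field_simp
    _ ≤ c * Q / Q' * (c' * y ^ e') := mul_le_mul_of_nonneg_left h'.2 h1
    _ = _ := by ring

theorem Ub.sqrt (hy : 1 ≤ y) (h : Ub y c Q e) : Ub y (c + 1) (√Q) (e / 2) := by
  have hc := h.c_nonneg hy
  refine ⟨Real.sqrt_nonneg _, Real.sqrt_le_iff.2 ⟨by positivity, h.2.trans ?_⟩⟩
  rw [mul_pow, ← Real.rpow_natCast (y ^ (e / 2)), ← Real.rpow_mul (by linarith)]
  have : e / 2 * ((2 : ℕ) : ℝ) = e := by push_cast; ring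
  rw [this]
  exact mul_le_mul_of_nonneg_right (by nlinarith) (Real.rpow_nonneg (by linarith) _)

/-- Sums, with a common exponent. -/
theorem Ub.add (h : Ub y c Q E) (h' : Ub y c' Q' E) : Ub y (c + c') (Q + Q') E :=
  ⟨add_nonneg h.1 h'.1, by linarith [h.2, h'.2]⟩

/-- Sums, with the larger exponent. -/
theorem Ub.add_max (hy : 1 ≤ y) (h : Ub y c Q e) (h' : Ub y c' Q' e') :
    Ub y (c + c') (Q + Q') (max e e') :=
  (h.mono hy (le_max_left _ _)).add (h'.mono hy (le_max_right _ _))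

/-- A constant factor, with the same exponent. -/
theorem Ub.cmul {a : ℝ} (ha : 0 ≤ a) (h : Ub y c Q E) : Ub y (a * c) (a * Q) E :=
  ⟨mul_nonneg ha h.1, by rw [mul_assoc]; exact mul_le_mul_of_nonneg_left h.2 ha⟩

theorem Ub.min_left (h : Ub y c Q E) (h0 : 0 ≤ Q') : Ub y c (min Q Q') E :=
  ⟨le_min h.1 h0, (min_le_left _ _).trans h.2⟩

theorem Ub.min_right (h : Ub y c Q' E) (h0 : 0 ≤ Q) : Ub y c (min Q Q') E :=
  ⟨le_min h0 h.1, (min_le_right _ _).trans h.2⟩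

/-- The constant is absorbed by one factor `y`. -/
theorem Ub.absorb (hy : 1 ≤ y) (h : Ub y c Q e) (hc : c ≤ y) (he : e + 1 ≤ E) : Q ≤ y ^ E := by
  refine h.2.trans (le_trans ?_ (Real.rpow_le_rpow_of_exponent_le hy he))
  rw [Real.rpow_add (by linarith), Real.rpow_one, mul_comm]
  exact mul_le_mul_of_nonneg_left hc (Real.rpow_nonneg (by linarith) _)

/-- Comparison of two quantities. -/
theorem Ub.le_of_lb (hy : 1 ≤ y) (h : Ub y c Q e) (h' : Lb y c' Q' e') (hc : c * c' ≤ y)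
    (he : e + 1 ≤ e') : Q ≤ Q' := by
  have h1 := (h.div hy h').absorb hy hc (E := 0) (by linarith)
  rwa [Real.rpow_zero, div_le_one (h'.pos hy)] at h1

/-- Every positive number is a power of `y`. -/
theorem exists_expo (hy : 1 < y) (hQ : 0 < Q) : ∃ x : ℝ, Q = y ^ x :=
  ⟨Real.logb y Q, (Real.rpow_logb (by linarith) hy.ne' hQ).symm⟩

theorem expo_le_of_le (hy : 1 < y) (h : y ^ e ≤ y ^ E) : e ≤ E :=
  (Real.rpow_le_rpow_left_iff hy).1 h

end Vale.Agent.P049
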