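import Vale.Agent.P049.Process

/-!
# The initial kernel and the choice of the parameters `m`, `p`
-/

namespace Vale.Agent.P049

open Finset

/-! ### Entries, trace and rows of the initial kernel -/

theorem ini_diag {K : Type*} [Field K] (s m p : K) (d N a : ℕ) :
    ini s m p d N a a = p - m + (s + m - p * d) / N := by
  simp only [ini, if_true]
  ring

theorem ini_trace (s m p : ℝ) (d : ℕ) {N : ℕ} (hN : 0 < N) :
    ∑ a ∈ range N, ini s m p d N a a = N * (p - m) + (s + m - p * d) := by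
  have hN' : (N : ℝ) ≠ 0 := by exact_mod_cast hN.ne'
  rw [sum_congr rfl fun a _ => ini_diag s m p d N a, sum_const, card_range, nsmul_eq_mul]
  field_simp

/-- A sum over a row of a function of the entries. -/
theorem ini_row_fun (f : ℝ → ℝ) (s m p : ℝ) {d n a : ℕ} (ha : a ∈ range (n * d)) :
    ∑ b ∈ range (n * d), f (ini s m p d (n * d) a b) =
      f (p - m + (s + m - p * d) / (n * d : ℕ)) + (d - 1) * f (p + (s + m - p * d) / (n * d : ℕ)) +
        ((n * d : ℕ) - d) * f ((s + m - p * d) / (n * d : ℕ)) := by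
  set c := (s + m - p * d) / ((n * d : ℕ) : ℝ) with hc
  have h1 : ∀ b ∈ range (n * d), f (ini s m p d (n * d) a b) =
      (if a = b then f (p - m + c) - f (p + c) else 0) +
        (if a / d = b / d then f (p + c) - f c else 0) + f c := by
    intro b _
    unfold ini
    rw [← hc]
    by_cases h : a = b
    · subst h
      simp only [if_true]
      rw [show -m + p + c = p - m + c by ring]
      ring
    · by_cases h' : a / d = b / d
      · simp only [h, h', if_true, if_false, zero_add]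
        ring
      · simp only [h, h', if_false, zero_add]
  rw [sum_congr rfl h1, sum_add_distrib, sum_add_distrib,
    sum_block (fun _ => f (p + c) - f c) (mem_range.1 ha), sum_ite_eq, if_pos ha]
  simp only [sum_const, card_range, nsmul_eq_mul]
  ring

/-- The squared length of a row. -/
theorem ini_row_sq {s : ℝ} (hs : s ^ 2 = 1) (m p : ℝ) {d n a : ℕ} (ha : a ∈ range (n * d)) :
    ∑ b ∈ range (n * d), ini s m p d (n * d) a b ^ 2 =
      (p - m) ^ 2 + (d - 1) * p ^ 2 + (1 - (p * d - m) ^ 2) / (n * d : ℕ) := by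
  have hN : ((n * d : ℕ) : ℝ) ≠ 0 := by
    have := mem_range.1 ha
    exact_mod_cast (by omega : n * d ≠ 0)
  rw [ini_row_fun (fun x => x ^ 2) s m p ha]
  have e : (1 - (p * d - m) ^ 2) = s ^ 2 - (p * d - m) ^ 2 := by rw [hs]
  rw [e]
  field_simp
  ring

/-- The sum of the absolute values in a row. -/
theorem ini_row_abs {s m p : ℝ} (hs : s ^ 2 = 1) (hm0 : 0 ≤ m) (hm1 : m ≤ 1) (hp0 : 0 ≤ p)
    (hp1 : p ≤ 1) {d n a : ℕ} (ha : a ∈ range (n * d)) :
    ∑ b ∈ range (n * d), |ini s m p d (n * d) a b| ≤ 2 * d + 3 := by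
  have hN : (0 : ℝ) < ((n * d : ℕ) : ℝ) := by
    have := mem_range.1 ha
    exact_mod_cast (by omega : 0 < n * d)
  have hd : (0 : ℝ) ≤ d := Nat.cast_nonneg d
  have hc : |s + m - p * d| ≤ d + 2 := by
    have h1 : p * d ≤ d := by nlinarith
    have h2 : 0 ≤ p * d := by positivity
    rcases sign_cases hs with rfl | rfl <;> rw [abs_le] <;> constructor <;> linarith
  have h1 : ∀ b ∈ range (n * d), |ini s m p d (n * d) a b| ≤
      (if a = b then 1 else 0) + (if a / d = b / d then 1 else 0) + (d + 2) / (n * d : ℕ) := by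
    intro b _
    unfold ini
    refine (abs_add_le _ _).trans (add_le_add ((abs_add_le _ _).trans (add_le_add ?_ ?_)) ?_)
    · split_ifs
      · rw [abs_neg, abs_of_nonneg hm0]; exact hm1
      · simp
    · split_ifs
      · rw [abs_of_nonneg hp0]; exact hp1
      · simp
    · rw [abs_div, abs_of_pos hN]
      exact div_le_div_of_nonneg_right hc hN.le
  refine (sum_le_sum h1).trans (le_of_eq ?_)
  rw [sum_add_distrib, sum_add_distrib, sum_block (fun _ => (1 : ℝ)) (mem_range.1 ha), sum_ite_eq,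
    if_pos ha]
  simp only [sum_const, card_range, nsmul_eq_mul]
  field_simp
  ring

/-! ### Kernels with bounded rows -/

section Rows

variable {ι : Type*}

/-- All rows have absolute sum at most `C`. -/
def RowLe (H : Finset ι) (F : ι → ι → ℝ) (C : ℝ) : Prop := ∀ a ∈ H, ∑ b ∈ H, |F a b| ≤ C

theorem RowLe.nonneg {H : Finset ι} {F : ι → ι → ℝ} {C : ℝ} (h : RowLe H F C) {a : ι}
    (ha : a ∈ H) : 0 ≤ C := (sum_nonneg fun _ _ => abs_nonneg _).trans (h a ha)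

theorem RowLe.entry {H : Finset ι} {F : ι → ι → ℝ} {C : ℝ} (h : RowLe H F C) {a b : ι}
    (ha : a ∈ H) (hb : b ∈ H) : |F a b| ≤ C :=
  (single_le_sum (f := fun b => |F a b|) (fun _ _ => abs_nonneg _) hb).trans (h a ha)

theorem RowLe.mul {H : Finset ι} {F G : ι → ι → ℝ} {C D : ℝ} (hF : RowLe H F C)
    (hG : RowLe H G D) : RowLe H (fun a b => ∑ c ∈ H, F a c * G c b) (C * D) := by
  intro a ha
  calc ∑ b ∈ H, |∑ c ∈ H, F a c * G c b| ≤ ∑ b ∈ H, ∑ c ∈ H, |F a c| * |G c b| :=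
        sum_le_sum fun b _ => (abs_sum_le_sum_abs _ _).trans
          (le_of_eq (sum_congr rfl fun c _ => abs_mul _ _))
    _ = ∑ c ∈ H, |F a c| * ∑ b ∈ H, |G c b| := by
        rw [sum_comm]; exact sum_congr rfl fun c _ => (mul_sum _ _ _).symm
    _ ≤ ∑ c ∈ H, |F a c| * D :=
        sum_le_sum fun c hc => mul_le_mul_of_nonneg_left (hG c hc) (abs_nonneg _)
    _ ≤ C * D := by
        rw [← sum_mul]
        exact mul_le_mul_of_nonneg_right (hF a ha) (hG.nonneg ha)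

theorem RowLe.trace {H : Finset ι} {F : ι → ι → ℝ} {C : ℝ} (h : RowLe H F C) :
    |∑ a ∈ H, F a a| ≤ H.card * C := by
  refine (abs_sum_le_sum_abs _ _).trans ?_
  rw [← nsmul_eq_mul]
  exact sum_le_card_nsmul _ _ _ fun a ha => h.entry ha ha

theorem RowLe.mono {H : Finset ι} {F : ι → ι → ℝ} {C D : ℝ} (h : RowLe H F C) (hC : C ≤ D) :
    RowLe H F D := fun a ha => (h a ha).trans hC

theorem RowLe.add {H : Finset ι} {F G : ι → ι → ℝ} {C D : ℝ} (hF : RowLe H F C)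
    (hG : RowLe H G D) : RowLe H (fun a b => F a b + G a b) (C + D) := by
  intro a ha
  refine (sum_le_sum fun b _ => abs_add_le (F a b) (G a b)).trans ?_
  rw [sum_add_distrib]
  exact add_le_add (hF a ha) (hG a ha)

theorem RowLe.res [DecidableEq ι] {H : Finset ι} {F : ι → ι → ℝ} {C : ℝ} (h : RowLe H F C) :
    RowLe H (res H F) C := fun a ha => by
  rw [sum_congr rfl fun b hb => by rw [res_of_mem F ha hb]]
  exact h a ha

end Rows

theorem rowLe_ini {s m p : ℝ} (hs : s ^ 2 = 1) (hm0 : 0 ≤ m) (hm1 : m ≤ 1) (hp0 : 0 ≤ p)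
    (hp1 : p ≤ 1) (d n : ℕ) : RowLe (range (n * d)) (ini s m p d (n * d)) (2 * d + 3) :=
  fun _ ha => ini_row_abs hs hm0 hm1 hp0 hp1 ha

/-- The second moment at the start, without the eigenvalue of the all-ones vector. -/
theorem ini_sq_sum {s : ℝ} (hs : s ^ 2 = 1) (m p : ℝ) {d n : ℕ} (hN : 0 < n * d) :
    ∑ a ∈ range (n * d), ∑ b ∈ range (n * d), ini s m p d (n * d) a b ^ 2 - 1 =
      (n * d : ℕ) * ((p - m) ^ 2 + (d - 1) * p ^ 2) - (p * d - m) ^ 2 := by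
  have hN' : ((n * d : ℕ) : ℝ) ≠ 0 := by exact_mod_cast hN.ne'
  rw [sum_congr rfl fun a ha => ini_row_sq hs m p ha, sum_const, card_range, nsmul_eq_mul]
  field_simp
  ring

/-! ### The parameters -/

/-- The spectral parameter is at most `2 √(d - 1)`. -/
theorem par_spec {q m η : ℝ} (hq : 2 ≤ q) (hm0 : 0 < m) (hη0 : 0 < η) (hη : η ≤ 1 / 4)
    (h1 : (1 - 2 * η) ^ 2 ≤ q * m ^ 2) (h2 : q * m ^ 2 ≤ (1 - η) ^ 2) :
    m * (q + 1) + (1 - m ^ 2) / (m + 16 * η ^ 2) ≤ 2 * √q := by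
  set u := m * √q with hu
  have hq0 : 0 ≤ q := by linarith
  have hu2 : u ^ 2 = q * m ^ 2 := by rw [hu, mul_pow, Real.sq_sqrt hq0]; ring
  have hu0 : 0 ≤ u := by positivity
  have hu1 : 1 - 2 * η ≤ u := by
    refine abs_le_of_sq_le_sq' ?_ hu0 |>.2
    rw [hu2]; exact h1
  have hu3 : u ≤ 1 - η := by
    refine abs_le_of_sq_le_sq' ?_ (by linarith) |>.2
    rw [hu2]; exact h2
  have hm2 : m ^ 2 ≤ 1 / 2 := by nlinarith [sq_nonneg m]
  have hm1 : m ≤ 1 := by nlinarith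
  have h3 : (1 - u) ^ 2 ≤ 4 * η ^ 2 := by nlinarith
  have h4 : 4 * η ^ 2 ≤ 1 / 4 := by nlinarith
  have hp : 0 < m + 16 * η ^ 2 := by positivity
  rw [← le_sub_iff_add_le', div_le_iff₀ hp]
  have e : 2 * √q - m * (q + 1) = (1 - m ^ 2 - (1 - u) ^ 2) / m := by
    field_simp
    nlinarith
  rw [e, div_mul_eq_mul_div, le_div_iff₀ hm0]
  have h5 : m * (1 - u) ^ 2 ≤ 4 * η ^ 2 := by nlinarith [sq_nonneg (1 - u)]
  have h6 : 4 * η ^ 2 ≤ 16 * η ^ 2 * (1 - m ^ 2 - (1 - u) ^ 2) := by nlinarith [sq_nonneg η]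
  nlinarith

theorem par_m_sq {q m η : ℝ} (hq : 2 ≤ q) (hη0 : 0 < η) (hη : η ≤ 1 / 4)
    (h2 : q * m ^ 2 ≤ (1 - η) ^ 2) : m ^ 2 ≤ 1 / 2 := by nlinarith [sq_nonneg m]

/-- The start is subcritical. -/
theorem par_sub {q m η : ℝ} (hq : 2 ≤ q) (hm0 : 0 < m) (hη0 : 0 < η) (hη : 100 * q * η ≤ 1)
    (h2 : q * m ^ 2 ≤ (1 - η) ^ 2) :
    (m + 16 * η ^ 2 - m) ^ 2 + q * (m + 16 * η ^ 2) ^ 2 ≤ 1 - η := by
  have hη1 : η ≤ 1 / 200 := by nlinarith
  have hm2 : m ^ 2 ≤ 1 / 2 := par_m_sq hq hη0 (by linarith) h2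
  have hm1 : m ≤ 1 := by nlinarith
  have h3 : q * η ≤ 1 / 100 := by linarith
  have h4 : q * m * η ^ 2 ≤ η / 100 := by
    have : q * η * (m * η) ≤ 1 / 100 * η := by
      refine mul_le_mul h3 (by nlinarith) (by positivity) (by norm_num)
    nlinarith
  have h5 : q * η ^ 4 ≤ η / 100 * (1 / 200) ^ 2 := by
    have : q * η * η * η ^ 2 ≤ 1 / 100 * η * (1 / 200) ^ 2 :=
      mul_le_mul (mul_le_mul_of_nonneg_right h3 hη0.le) (by nlinarith) (by positivity)
        (by positivity)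
    nlinarith
  have h6 : η ^ 4 ≤ η * (1 / 200) ^ 3 := by
    have : η * η ^ 3 ≤ η * (1 / 200) ^ 3 :=
      mul_le_mul_of_nonneg_left (pow_le_pow_left₀ hη0.le hη1 3) hη0.le
    nlinarith
  have h7 : η ^ 2 ≤ η / 200 := by nlinarith
  nlinarith

/-- A rational approximation of `(1 - η) / √q` with denominator `M * M`, for `η = e / M`. -/
def parM (q M e : ℕ) : ℚ := (Nat.sqrt (M ^ 2 * (M - e) ^ 2 / q) : ℚ) / (M : ℚ) ^ 2

theorem parM_upper {q M e : ℕ} (hM : 0 < M) (he : e ≤ M) :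
    (q : ℝ) * (parM q M e : ℝ) ^ 2 ≤ (1 - (e : ℝ) / M) ^ 2 := by
  have hM' : (0 : ℝ) < M := by exact_mod_cast hM
  set X := M ^ 2 * (M - e) ^ 2 with hX
  have h1 : q * Nat.sqrt (X / q) ^ 2 ≤ X :=
    (Nat.mul_le_mul_left q (Nat.sqrt_le' _)).trans (Nat.mul_div_le X q)
  have h2 : (q : ℝ) * (Nat.sqrt (X / q) : ℝ) ^ 2 ≤ (M : ℝ) ^ 2 * ((M : ℝ) - e) ^ 2 := by
    have : ((q * Nat.sqrt (X / q) ^ 2 : ℕ) : ℝ) ≤ (X : ℝ) := by exact_mod_cast h1
    rw [hX] at this
    push_cast [Nat.cast_sub he] at this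
    exact this
  unfold parM
  rw [← hX]
  push_cast
  rw [div_pow, ← mul_div_assoc, div_le_iff₀ (by positivity)]
  refine h2.trans (le_of_eq ?_)
  field_simp

theorem parM_lower {q M e : ℕ} (hq : 0 < q) (hqM : q ≤ M) (he1 : 1 ≤ e) (he : 2 * e ≤ M) :
    (1 - 2 * ((e : ℝ) / M)) ^ 2 ≤ (q : ℝ) * (parM q M e : ℝ) ^ 2 := by
  have hM : 0 < M := by omega
  have hM' : (0 : ℝ) < M := by exact_mod_cast hM
  set X := M ^ 2 * (M - e) ^ 2 with hX
  set r := Nat.sqrt (X / q) with hr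
  have h1 : X < q * (r + 1) ^ 2 := by
    have h2 : X / q < (r + 1) ^ 2 := Nat.lt_succ_sqrt' _
    have h3 : X < q * (X / q + 1) := Nat.lt_mul_div_succ X hq
    exact h3.trans_le (Nat.mul_le_mul_left q h2)
  have h2 : (M : ℝ) ^ 2 * ((M : ℝ) - e) ^ 2 < (q : ℝ) * ((r : ℝ) + 1) ^ 2 := by
    have : (X : ℝ) < ((q * (r + 1) ^ 2 : ℕ) : ℝ) := by exact_mod_cast h1
    rw [hX] at this
    push_cast [Nat.cast_sub (by omega : e ≤ M)] at this
    exact this
  have hq' : (0 : ℝ) < q := by exact_mod_cast hq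
  have hqM' : (q : ℝ) ≤ M := by exact_mod_cast hqM
  have he1' : (1 : ℝ) ≤ e := by exact_mod_cast he1
  have he' : 2 * (e : ℝ) ≤ M := by exact_mod_cast he
  have hr0 : (0 : ℝ) ≤ r := Nat.cast_nonneg r
  set v := √(q : ℝ) with hv
  have hv0 : 0 < v := Real.sqrt_pos.2 hq'
  have hv2 : v ^ 2 = q := Real.sq_sqrt hq'.le
  have hq1 : (1 : ℝ) ≤ q := by exact_mod_cast hq
  have hvM : v ≤ M := by nlinarith
  have h3 : (M : ℝ) * (M - e) < v * (r + 1) := by
    refine lt_of_pow_lt_pow_left₀ 2 (by positivity) ?_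
    rw [mul_pow, mul_pow, hv2]
    exact h2
  have h4 : (M : ℝ) * (M - 2 * e) ≤ v * r := by nlinarith
  have h5 : ((M : ℝ) * (M - 2 * e)) ^ 2 ≤ (v * r) ^ 2 :=
    pow_le_pow_left₀ (mul_nonneg hM'.le (by linarith)) h4 2
  unfold parM
  rw [← hX, ← hr]
  push_cast
  have e2 : (q : ℝ) * ((r : ℝ) / (M : ℝ) ^ 2) ^ 2 = (v * r) ^ 2 / ((M : ℝ) ^ 2) ^ 2 := by
    rw [← hv2]; ring
  rw [e2, le_div_iff₀ (by positivity)]
  refine le_trans (le_of_eq ?_) h5
  field_simp

theorem parM_pos {q M e : ℕ} (hq : 0 < q) (hqM : q ≤ M) (he1 : 1 ≤ e) (he : 4 * e ≤ M) :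
    (0 : ℝ) < (parM q M e : ℝ) := by
  have h1 := parM_lower hq hqM he1 (by omega)
  have hM' : (0 : ℝ) < M := by exact_mod_cast (by omega : 0 < M)
  have he' : 4 * (e : ℝ) ≤ M := by exact_mod_cast he
  have h2 : (e : ℝ) / M ≤ 1 / 4 := by rw [div_le_iff₀ hM']; linarith
  have h3 : (0 : ℝ) ≤ (parM q M e : ℝ) := by
    unfold parM
    push_cast
    positivity
  rcases h3.lt_or_eq with h | h
  · exact h
  · rw [← h] at h1
    nlinarith

end Vale.Agent.P049
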