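import Vale.Agent.P049.Gro
import Vale.Agent.P049.Init
import Vale.Agent.P049.Apriori

/-!
The potential is nonnegative, and it is at most `1 / 2` at the start of the process.
-/

namespace Vale.Agent.P049

open Matrix Finset

theorem Env.side_nonneg {E : Env ℝ} {k G t1 t2 s3 c3 v u : ℝ} (hk : 0 ≤ k) (hG : 0 ≤ G)
    (kap : 0 ≤ E.kap) (Sb : 0 ≤ E.Sb) (uC : 0 ≤ E.uC) (Vb : 0 ≤ E.Vb) (Mu : 0 ≤ E.Mu)
    (h2 : 1 ≤ t2) (h3 : 0 ≤ s3 + t2) (h4 : 0 ≤ c3 + t2) (h5 : 0 ≤ v) (h6 : 0 ≤ u) :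
    0 ≤ E.side k G t1 t2 s3 c3 v u := by
  have hq : 0 ≤ E.q k := div_nonneg hk (by linarith)
  have a1 : 0 ≤ E.fD k t1 := by unfold Env.fD; positivity
  have a2 : 0 ≤ E.fE k t2 := by
    unfold Env.fE
    split_ifs
    · positivity
    · exact le_rfl
  have a3 : 0 ≤ E.fR k t2 := div_nonneg (by linarith) (by positivity)
  have a4 : 0 ≤ E.fS (s3 + t2) := div_nonneg h3 Sb
  have a5 : 0 ≤ E.fC k (c3 + t2) := div_nonneg h4 (by positivity)
  have a6 : 0 ≤ E.fV k v := div_nonneg h5 (by positivity)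
  have a7 : 0 ≤ E.fU k G u := div_nonneg h6 (by positivity)
  unfold Env.side
  linarith

theorem Ker.psd_one {ι : Type*} [Fintype ι] [DecidableEq ι] {m s : ℝ} (hm : m ≤ 1)
    (hs : s ^ 2 = 1) {X : Matrix ι ι ℝ} (hX : Ker s m univ X) : (X + 1).PosSemidef :=
  psd_add_one hX.transpose_eq (by rcases sign_cases hs with h | h <;> linarith) hm hX.rowsum hX.psd

theorem mSide_nonneg {ι : Type*} [Fintype ι] [DecidableEq ι] {y G m s s' : ℝ} (hy : 0 < y)
    (hG : 0 < G) (hm : m ≤ 1) (hs : s ^ 2 = 1) (hs' : s' ^ 2 = 1) {X Y : Matrix ι ι ℝ}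
    (hX : Ker s m univ X) (hY : Ker s' m univ Y) (hk : 0 < Fintype.card ι) :
    0 ≤ mSide (envY y) (Fintype.card ι) G X Y :=
  Env.side_nonneg (Nat.cast_nonneg _) hG.le (pow_nonneg hy.le _) (pow_nonneg hy.le _)
    (pow_nonneg hy.le _) (pow_nonneg hy.le _) (pow_nonneg hy.le _) (one_le_t2 hs hX hk)
    (t3_nonneg hX.transpose_eq (hX.psd_one hm hs)) (t3_nonneg hX.transpose_eq (hY.psd_one hm hs'))
    (sum_nonneg fun _ _ => sq_nonneg _) (sum_nonneg fun _ _ => sq_nonneg _)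

/-- The potential of one side at the start, for general envelopes. -/
theorem Env.side_init {E : Env ℝ} {N t1 t2 s3 c3 v u : ℝ} (hk : 0 < E.kap) (hN : E.kap ≤ N)
    (Db : 0 < E.Db) (Sb : 0 < E.Sb) (uC : 0 < E.uC) (Vb : 0 < E.Vb) (Mu : 0 < E.Mu)
    (h1 : 20 * |t1| ≤ E.Db) (h2 : t2 ≤ N - E.kap) (h3 : 100 * (s3 + N) ≤ E.Sb)
    (h4 : 100 * (c3 + N) ≤ E.uC * N) (h5 : 200 * v ≤ E.Vb) (h6 : 200 * u ≤ E.Mu * N) :
    E.side N 1 t1 t2 s3 c3 v u ≤ 1 / 4 := by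
  have hN0 : 0 < N := hk.trans_le hN
  have hq : 1 / 2 ≤ E.q N := by
    unfold Env.q
    rw [le_div_iff₀ (by linarith)]
    linarith
  have hq0 : 0 < E.q N := by linarith
  have hq1 : N - E.kap ≤ N * E.q N := by
    unfold Env.q
    rw [← mul_div_assoc, le_div_iff₀ (by linarith)]
    nlinarith
  have a1 : E.fD N t1 ≤ 1 / 100 := by
    unfold Env.fD
    rw [div_le_iff₀ (by positivity)]
    have b1 : 10 * |t1| ≤ E.Db * E.q N := by nlinarith
    have b2 := pow_le_pow_left₀ (by positivity) b1 2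
    rw [mul_pow, sq_abs] at b2
    linarith
  have a2 : E.fE N t2 = 0 := by
    unfold Env.fE
    rw [max_eq_right (by linarith)]
    simp
  have a3 : E.fR N t2 ≤ 1 / 8 := by
    unfold Env.fR
    rw [div_le_iff₀ (by positivity)]
    linarith
  have a4 : E.fS (s3 + t2) ≤ 1 / 100 := by
    unfold Env.fS
    rw [div_le_iff₀ Sb]
    linarith
  have a5 : E.fC N (c3 + t2) ≤ 1 / 100 := by
    unfold Env.fC
    rw [div_le_iff₀ (by positivity)]
    linarith
  have a6 : E.fV N v ≤ 1 / 100 := by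
    unfold Env.fV
    rw [div_le_iff₀ (by positivity)]
    nlinarith
  have a7 : E.fU N 1 u ≤ 1 / 100 := by
    unfold Env.fU
    rw [div_le_iff₀ (by positivity)]
    have b1 : E.Mu * N * (1 / 2) ≤ E.Mu * N * E.q N :=
      mul_le_mul_of_nonneg_left hq (by positivity)
    nlinarith
  unfold Env.side
  linarith

theorem RowLe.matMul {ι : Type*} [Fintype ι] {X Y : Matrix ι ι ℝ} {C D : ℝ}
    (hX : RowLe univ X C) (hY : RowLe univ Y D) : RowLe univ (X * Y) (C * D) :=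
  RowLe.mul hX hY

theorem RowLe.trace_le {ι : Type*} [Fintype ι] {X : Matrix ι ι ℝ} {C : ℝ} (hX : RowLe univ X C) :
    Matrix.trace X ≤ Fintype.card ι * C :=
  (le_abs_self _).trans hX.trace

theorem RowLe.subM {H : Finset ℕ} {F : ℕ → ℕ → ℝ} {C : ℝ} (h : RowLe H F C) :
    RowLe univ (subM H F) C := fun a _ =>
  (sum_coe_sort H fun b => |F a b|).trans_le (h a a.2)

theorem trace_subM (H : Finset ℕ) (F : ℕ → ℕ → ℝ) : trace (subM H F) = ∑ a ∈ H, F a a :=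
  sum_coe_sort H fun a => F a a

theorem vv_subM (H : Finset ℕ) (F : ℕ → ℕ → ℝ) : vv (subM H F) = ∑ a ∈ H, F a a ^ 2 :=
  sum_coe_sort H fun a => F a a ^ 2

theorem trace_sq_subM (H : Finset ℕ) {F : ℕ → ℕ → ℝ} (hF : ∀ a b, F a b = F b a) :
    trace (subM H F * subM H F) = ∑ a ∈ H, ∑ b ∈ H, F a b ^ 2 := by
  rw [← sum_coe_sort H fun a => ∑ b ∈ H, F a b ^ 2]
  refine sum_congr rfl fun a _ => ?_
  rw [← sum_coe_sort H fun b => F a b ^ 2, diag_apply, mul_apply]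
  exact sum_congr rfl fun b _ => by rw [subM_apply, subM_apply, hF b a, sq]

theorem mul_pow_le_pow {y c : ℝ} (hy : 1 ≤ y) (hc : c ≤ y) {i j : ℕ} (h : i + 1 ≤ j) :
    c * y ^ i ≤ y ^ j := by
  refine le_trans ?_ (pow_le_pow_right₀ hy h)
  rw [pow_succ']
  exact mul_le_mul_of_nonneg_right hc (by positivity)

/-- The potential of one side at the start, for general envelopes. -/
theorem mSide_init_gen {d n : ℕ} {E : Env ℝ} {m η s s' N T C : ℝ} (hd : 3 ≤ d)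
    (hC : C = 2 * d + 3) (hN : N = (n * d : ℕ)) (hs : s ^ 2 = 1) (hs' : s' ^ 2 = 1) (hm : 0 < m)
    (hq : ((d : ℝ) - 1) * m ^ 2 ≤ (1 - η) ^ 2) (hηN : η * N = 2 * E.kap) (hκ1 : 1 ≤ E.kap)
    (hκN : 200 * d * E.kap ≤ N) (hT1 : 1 ≤ T) (hκ2 : E.kap ^ 2 ≤ T * N) (hT2 : T ^ 2 ≤ N)
    (hDb : 1300 * C * T ≤ E.Db) (hSb : 200 * C ^ 4 * N ≤ E.Sb) (huC : 200 * C ^ 4 ≤ E.uC)
    (hVb : 10 ^ 6 * C ^ 4 ≤ E.Vb) (hMu : 200 * C ^ 4 ≤ E.Mu) :
    mSide E N 1 (iniM s m (m + 16 * η ^ 2) d (n * d))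
      (iniM s' m (m + 16 * η ^ 2) d (n * d)) ≤ 1 / 4 := by
  have hd3 : (3 : ℝ) ≤ d := by exact_mod_cast hd
  have hC1 : 1 ≤ C := by linarith
  have hC3 : C ^ 3 ≤ C ^ 4 := pow_le_pow_right₀ hC1 (by norm_num)
  have hC2 : C ^ 2 ≤ C ^ 4 := pow_le_pow_right₀ hC1 (by norm_num)
  have hC4 : C ≤ C ^ 4 := le_self_pow₀ hC1 (by norm_num)
  have hκ3 : 600 * E.kap ≤ N :=
    le_trans (mul_le_mul_of_nonneg_right (by linarith) (by linarith)) hκN
  have hN0 : 0 < N := by linarith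
  have hNpos : 0 < n * d := by exact_mod_cast hN ▸ hN0
  have hη0 : 0 < η := (mul_pos_iff_of_pos_right hN0).1 (by linarith)
  have hηd : 100 * d * η ≤ 1 := by
    refine le_of_mul_le_mul_right ?_ hN0
    rw [mul_assoc, hηN]
    linarith
  have hη1 : 100 * ((d : ℝ) - 1) * η ≤ 1 := by linarith
  have hη2 : η ≤ 1 / 200 := by
    have := mul_le_mul_of_nonneg_right hd3 hη0.le
    linarith
  have hm2 : m ^ 2 ≤ 1 / 2 := par_m_sq (q := (d : ℝ) - 1) (by linarith) hη0 (by linarith) hq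
  have hm1 : m ≤ 3 / 4 := (abs_le_of_sq_le_sq' (by linarith) (by norm_num)).2
  have hsub := par_sub (q := (d : ℝ) - 1) (by linarith) hm hη0 hη1 hq
  have hη3 : η ^ 2 ≤ (1 / 200) ^ 2 := pow_le_pow_left₀ hη0.le hη2 2
  obtain ⟨p, hp⟩ : ∃ p, p = m + 16 * η ^ 2 := ⟨_, rfl⟩
  rw [← hp] at hsub ⊢
  have hp0 : 0 ≤ p := by rw [hp]; positivity
  have hp1 : p ≤ 1 := by linarith
  have hpm : p - m = 16 * η ^ 2 := by linarith
  have hc : |s + m - p * d| ≤ C := by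
    have b1 : p * d ≤ 1 * d := mul_le_mul_of_nonneg_right hp1 (by linarith)
    have b2 : 0 ≤ p * d := by positivity
    rcases sign_cases hs with rfl | rfl <;> rw [abs_le] <;> constructor <;> linarith
  have hNη : N * η ^ 2 ≤ 4 * T := by
    refine le_of_mul_le_mul_right ?_ hN0
    have : N * η ^ 2 * N = 4 * E.kap ^ 2 := by
      rw [show N * η ^ 2 * N = (η * N) ^ 2 by ring, hηN]; ring
    rw [this]
    linarith
  have hCT : C ≤ C * T := le_mul_of_one_le_right (by linarith) hT1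
  have hTC : T ≤ C * T := le_mul_of_one_le_left (by linarith) hC1
  have htr : |N * (p - m) + (s + m - p * d)| ≤ 65 * C * T := by
    refine (abs_add_le _ _).trans ?_
    rw [hpm, abs_of_nonneg (by positivity : 0 ≤ N * (16 * η ^ 2))]
    linarith
  have b4 : N * (C * C * C) ≤ N * C ^ 4 := mul_le_mul_of_nonneg_left (by linarith) hN0.le
  have b5 : N * 1 ≤ N * C ^ 4 := mul_le_mul_of_nonneg_left (by linarith) hN0.le
  have hcard : (Fintype.card (range (n * d)) : ℝ) = N := by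
    rw [Fintype.card_coe, card_range, hN]
  have e1 := ini_trace s m p d hNpos
  have e2 := ini_sq_sum hs m p hNpos
  have e3 : ∑ a ∈ range (n * d), ini s m p d (n * d) a a ^ 2 =
      (n * d : ℕ) * (p - m + (s + m - p * d) / (n * d : ℕ)) ^ 2 := by
    rw [sum_congr rfl fun a _ => by rw [ini_diag], sum_const, card_range, nsmul_eq_mul]
  rw [← hN] at e1 e2 e3
  have rX := (rowLe_ini hs hm.le (by linarith) hp0 hp1 d n).subM
  have rY := (rowLe_ini hs' hm.le (by linarith) hp0 hp1 d n).subM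
  rw [← hC] at rX rY
  unfold mSide iniM
  refine Env.side_init (by linarith) (by linarith) (by linarith) (by linarith) (by linarith)
    (by linarith) (by linarith) ?_ ?_ ?_ ?_ ?_ ?_
  · rw [trace_subM, e1]
    linarith
  · rw [trace_sq_subM _ (ini_symm s m p d (n * d))]
    have b := mul_le_mul_of_nonneg_left hsub hN0.le
    have := sq_nonneg (p * d - m)
    linarith
  · have b1 := ((rX.matMul rX).matMul rX).trace_le
    rw [hcard] at b1
    linarith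
  · have b1 := ((rX.matMul rX).matMul rY).trace_le
    rw [hcard] at b1
    have := mul_le_mul_of_nonneg_right huC hN0.le
    linarith
  · rw [vv_subM, e3]
    have b1 : N * (p - m + (s + m - p * d) / N) ^ 2 = (N * (p - m) + (s + m - p * d)) ^ 2 / N := by
      field_simp
    have b2 := pow_le_pow_left₀ (abs_nonneg _) htr 2
    rw [sq_abs] at b2
    have b3 : (N * (p - m) + (s + m - p * d)) ^ 2 / N ≤ 65 ^ 2 * C ^ 2 := by
      rw [div_le_iff₀ hN0]
      refine b2.trans ?_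
      rw [mul_pow, mul_pow]
      exact mul_le_mul_of_nonneg_left hT2 (by positivity)
    rw [b1]
    linarith
  · have b1 : uu (subM (range (n * d)) (ini s m p d (n * d))) ≤ N * C ^ 4 := by
      rw [← hcard, ← nsmul_eq_mul, ← card_univ]
      refine sum_le_card_nsmul _ _ _ fun a _ => ?_
      have b := pow_le_pow_left₀ (abs_nonneg _)
        ((rX.matMul rX).entry (mem_univ a) (mem_univ a)) 2
      rw [sq_abs] at b
      linarith
    have := mul_le_mul_of_nonneg_right hMu hN0.le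
    linarith

/-- The potential of one side at the start. -/
theorem mSide_init {d n : ℕ} (hd : 3 ≤ d) {y m η s s' : ℝ} (hs : s ^ 2 = 1) (hs' : s' ^ 2 = 1)
    (hy : 10 ^ 6 * (2 * (d : ℝ) + 3) ^ 4 ≤ y) (h1 : y ^ 1000000 ≤ (n * d : ℕ))
    (h2 : (n * d : ℕ) ≤ y ^ 1000001) (hm : 0 < m) (hη : η = 2 * y ^ 668668 / (n * d : ℕ))
    (hq : ((d : ℝ) - 1) * m ^ 2 ≤ (1 - η) ^ 2) :
    mSide (envY y) (n * d : ℕ) 1 (iniM s m (m + 16 * η ^ 2) d (n * d))
      (iniM s' m (m + 16 * η ^ 2) d (n * d)) ≤ 1 / 4 := by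
  have hd0 : (0 : ℝ) ≤ d := Nat.cast_nonneg d
  obtain ⟨C, hC⟩ : ∃ C : ℝ, C = 2 * d + 3 := ⟨_, rfl⟩
  rw [← hC] at hy
  have hC1 : 1 ≤ C := by linarith only [hC, hd0]
  have hC4 : C ≤ C ^ 4 := le_self_pow₀ hC1 (by norm_num)
  have hy1 : 1 ≤ y := by linarith only [hy, hC1, hC4]
  have hy2 : 200 * C ^ 4 ≤ y := by linarith only [hy, hC1, hC4]
  have hy3 : 1300 * C ≤ y := by linarith only [hy, hC1, hC4]
  have hy4 : 200 * (d : ℝ) ≤ y := by linarith only [hy3, hC, hd0]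
  have hN0 : (0 : ℝ) < (n * d : ℕ) := lt_of_lt_of_le one_pos ((one_le_pow₀ hy1).trans h1)
  refine mSide_init_gen (T := y ^ 337336) hd hC rfl hs hs' hm hq ?_ (one_le_pow₀ hy1)
    ((mul_pow_le_pow hy1 hy4 (by norm_num)).trans h1) (one_le_pow₀ hy1) ?_ ?_
    (mul_pow_le_pow hy1 hy3 (by norm_num)) ?_ (hy2.trans (le_self_pow₀ hy1 (by norm_num)))
    (hy.trans (le_self_pow₀ hy1 (by norm_num))) (hy2.trans (le_self_pow₀ hy1 (by norm_num)))
  · rw [hη, div_mul_cancel₀ _ hN0.ne']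
    rfl
  · refine le_trans (le_of_eq ?_) (mul_le_mul_of_nonneg_left h1 (by positivity))
    rw [← pow_add]
    exact (pow_mul y 668668 2).symm
  · rw [← pow_mul]
    exact (pow_le_pow_right₀ hy1 (by norm_num)).trans h1
  · exact (mul_le_mul_of_nonneg_left h2 (by positivity)).trans
      (mul_pow_le_pow hy1 hy2 (by norm_num))

/-- INIT: `η = 2 * y ^ 668668 / N`, `p = m + 16 * η ^ 2`. -/
theorem psi_init (d : ℕ) (hd : 3 ≤ d) : ∃ y₀ : ℝ, ∀ (y : ℝ) (n : ℕ) (m η : ℝ), y₀ ≤ y →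
    y ^ 1000000 ≤ (n * d : ℕ) → (n * d : ℕ) ≤ y ^ 1000001 → 0 < m →
    η = 2 * y ^ 668668 / (n * d : ℕ) → ((d : ℝ) - 1) * m ^ 2 ≤ (1 - η) ^ 2 →
    Psi (n * d) y (n * d) (mstats (iniM 1 m (m + 16 * η ^ 2) d (n * d))
      (iniM (-1) m (m + 16 * η ^ 2) d (n * d))) ≤ 1 / 2 := by
  refine ⟨10 ^ 6 * (2 * (d : ℝ) + 3) ^ 4, fun y n m η hy h1 h2 hm hη hq => ?_⟩
  rw [Psi_mstats, gro_self]
  have a := mSide_init (s := 1) (s' := -1) hd (by norm_num) (by norm_num) hy h1 h2 hm hη hq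
  have b := mSide_init (s := -1) (s' := 1) hd (by norm_num) (by norm_num) hy h1 h2 hm hη hq
  linarith

end Vale.Agent.P049
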