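import Vale.Agent.P049.NumEx1

/-!
# The choice of the exponents
-/

namespace Vale.Agent.P049

/-- The exponents for `334333 ≤ x ≤ 400000`. -/
noncomputable def exR0 (θ : ℝ) : Ex where
  x := 334333 + 65667 * θ
  q := (-334335) + 65667 * θ
  gU := (1822337 / 10)
  gL := (3644641 / 20)
  v := (-64167) + 32834 * θ
  u := 2 + 131332 * θ
  g := 167168 + 32833 * θ
  nn := 2 + 65666 * θ
  e := 2 + 65666 * θ
  f := 3 + 131332 * θ
  R := 1 + 131332 * θ
  lam := 1 + 65666 * θ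
  dd := 3202 + 65667 * θ
  t := 147167 + 32833 * θ
  x0 := 167168 + 32833 * θ
  x1 := 167169 + 32833 * θ
  ro := 3 + 65666 * θ
  L := 323333
  tt := 163268 + 32834 * θ
  rho := 166471 + 98501 * θ
  tau := 297168 + 65666 * θ
  GS := 1000201
  GC := 594334 + 65667 * θ
  p := 2 + 131332 * θ
  n1 := 4 + 131332 * θ
  dG := 103001 + 65667 * θ
  dH := 297168 + 65666 * θ
  dK := 297168 + 65666 * θ
  sS := 1000200
  sC := 594333 + 65667 * θ
  d1 := 3202 + 65667 * θ
  r1 := 166471 + 98501 * θ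

theorem exR0_M {θ : ℝ} (h0 : 0 ≤ θ) (h1 : θ ≤ 1) : ExM (exR0 θ) := by
  constructor <;> (try dsimp only [exR0]) <;> linarith

theorem exR0_L2 {θ : ℝ} (h0 : 0 ≤ θ) (h1 : θ ≤ 1) : ExL2 (exR0 θ) := by
  constructor <;> (try dsimp only [exR0]) <;> linarith

theorem exR0_U2 {θ : ℝ} (h0 : 0 ≤ θ) (h1 : θ ≤ 1) : ExU2 (exR0 θ) := by
  constructor <;> (try dsimp only [exR0]) <;> linarith

/-- The exponents for `400000 ≤ x ≤ 667734`. -/
noncomputable def exR1 (θ : ℝ) : Ex where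
  x := 400000 + 267734 * θ
  q := (-268668) + 267734 * θ
  gU := (1822337 / 10)
  gL := (3644641 / 20)
  v := (-31333) + 133867 * θ
  u := 156884 + 267734 * θ
  g := 200001 + 224618 * θ
  nn := 78443 + 133867 * θ
  e := 65668 + 267734 * θ
  f := 131335 + 535468 * θ
  R := 131333 + 535468 * θ
  lam := 65667 + 267734 * θ
  dd := 68869 + 267734 * θ
  t := 180000 + 133867 * θ
  x0 := 200001 + 133867 * θ
  x1 := 200002 + 143469 * θ
  ro := 78444 + 143935 * θ
  L := 323333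
  tt := 196102 + 133867 * θ
  rho := 264972 + 401601 * θ
  tau := 362834 + 267734 * θ
  GS := 1000201
  GC := 660001 + 267734 * θ
  p := 131334 + 535468 * θ
  n1 := 156886 + 267734 * θ
  dG := 168668 + 498135 * θ
  dH := 362834 + 267734 * θ
  dK := 362834 + 303969 * θ
  sS := 1000200
  sC := 660000 + 267734 * θ
  d1 := 68869 + 267734 * θ
  r1 := 264972 + 401601 * θ

theorem exR1_M {θ : ℝ} (h0 : 0 ≤ θ) (h1 : θ ≤ 1) : ExM (exR1 θ) := by
  constructor <;> (try dsimp only [exR1]) <;> linarith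

theorem exR1_L2 {θ : ℝ} (h0 : 0 ≤ θ) (h1 : θ ≤ 1) : ExL2 (exR1 θ) := by
  constructor <;> (try dsimp only [exR1]) <;> linarith

theorem exR1_U1 {θ : ℝ} (h0 : 0 ≤ θ) (h1 : θ ≤ 1) : ExU1 (exR1 θ) := by
  constructor <;> (try dsimp only [exR1]) <;> linarith

/-- The exponents for `667734 ≤ x ≤ 668468`. -/
noncomputable def exR2 (θ : ℝ) : Ex where
  x := 667734 + 734 * θ
  q := (-934) + 734 * θ
  gU := (1822337 / 10)
  gL := (3644641 / 20)
  v := 102534 + 367 * θ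
  u := 424618 + 734 * θ
  g := 424619 + 734 * θ
  nn := 212310 + 367 * θ
  e := 333402 + 734 * θ
  f := 666803
  R := 666801 + 1468 * θ
  lam := 333401
  dd := 336603 + 734 * θ
  t := 313867 + 367 * θ
  x0 := 333868 + 367 * θ
  x1 := 343471
  ro := 222379 + 367 * θ
  L := 323333
  tt := 329969 + 367 * θ
  rho := 666573 + 1101 * θ
  tau := 630568 + 367 * θ
  GS := 1000201
  GC := 927735 + 734 * θ
  p := 666802 + 1468 * θ
  n1 := 424620 + 734 * θ
  dG := 666803
  dH := 630568 + 367 * θ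
  dK := 666803
  sS := 1000200
  sC := 927734 + 734 * θ
  d1 := 336603 + 734 * θ
  r1 := 666573 + 1101 * θ

theorem exR2_M {θ : ℝ} (h0 : 0 ≤ θ) (h1 : θ ≤ 1) : ExM (exR2 θ) := by
  constructor <;> (try dsimp only [exR2]) <;> linarith

theorem exR2_L1 {θ : ℝ} (h0 : 0 ≤ θ) (h1 : θ ≤ 1) : ExL1 (exR2 θ) := by
  constructor <;> (try dsimp only [exR2]) <;> linarith

theorem exR2_U1 {θ : ℝ} (h0 : 0 ≤ θ) (h1 : θ ≤ 1) : ExU1 (exR2 θ) := by
  constructor <;> (try dsimp only [exR2]) <;> linarith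

/-- The exponents for `668468 ≤ x ≤ 668668`. -/
noncomputable def exR3 (θ : ℝ) : Ex where
  x := 668468 + 200 * θ
  q := (-200) + 200 * θ
  gU := (1822337 / 10)
  gL := (3644641 / 20)
  v := 102901 + 100 * θ
  u := 425352 + 200 * θ
  g := 425353 + 200 * θ
  nn := 212677 + 100 * θ
  e := 334136 + 200 * θ
  f := 666803
  R := 668269 + 400 * θ
  lam := 333401
  dd := 337337 + 200 * θ
  t := 314234 + 100 * θ
  x0 := 334235 + 102 * θ
  x1 := 343471
  ro := 222746 + 100 * θ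
  L := 323333
  tt := 330336 + 100 * θ
  rho := 667674 + 300 * θ
  tau := 630935 + 100 * θ
  GS := 1000201
  GC := 928469 + 200 * θ
  p := 668270 + 400 * θ
  n1 := 425354 + 200 * θ
  dG := 666803
  dH := 630935 + 100 * θ
  dK := 666803
  sS := 1000200
  sC := 928468 + 200 * θ
  d1 := 337337 + 200 * θ
  r1 := 667674 + 300 * θ

theorem exR3_M {θ : ℝ} (h0 : 0 ≤ θ) (h1 : θ ≤ 1) : ExM (exR3 θ) := by
  constructor <;> (try dsimp only [exR3]) <;> linarith

theorem exR3_L1 {θ : ℝ} (h0 : 0 ≤ θ) (h1 : θ ≤ 1) : ExL1 (exR3 θ) := by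
  constructor <;> (try dsimp only [exR3]) <;> linarith

theorem exR3_U1 {θ : ℝ} (h0 : 0 ≤ θ) (h1 : θ ≤ 1) : ExU1 (exR3 θ) := by
  constructor <;> (try dsimp only [exR3]) <;> linarith

theorem exR3_E {θ : ℝ} (h0 : 0 ≤ θ) (h1 : θ ≤ 1) : ExE (exR3 θ) := by
  constructor <;> (try dsimp only [exR3]) <;> linarith

/-- The exponents for `668668 ≤ x ≤ 1000001`. -/
noncomputable def exR4 (θ : ℝ) : Ex where
  x := 668668 + 331333 * θ
  q := 0
  gU := (1822337 / 10) + (-3644663 / 20) * θ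
  gL := (3644641 / 20) + (-3644663 / 20) * θ
  v := 103001
  u := 425552 + 74550 * θ
  g := 425553 + 74550 * θ
  nn := 212777 + 37275 * θ
  e := 334336 + 165666 * θ
  f := 666803
  R := 668669 + 331333 * θ
  lam := 333401
  dd := 337537
  t := 314334 + 8998 * θ
  x0 := 334337 + 165666 * θ
  x1 := 343471 + 156533 * θ
  ro := 222846 + 130698 * θ
  L := 323333
  tt := 330436
  rho := 667974
  tau := 631035 + 165667 * θ
  GS := 1000201
  GC := 928669 + 331333 * θ
  p := 668670 + 331333 * θ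
  n1 := 425554 + 74550 * θ
  dG := 666803
  dH := 631035 + 165667 * θ
  dK := 666803 + 129899 * θ
  sS := 1000200
  sC := 928668 + 331333 * θ
  d1 := 337537
  r1 := 667974 + 138796 * θ

theorem exR4_M {θ : ℝ} (h0 : 0 ≤ θ) (h1 : θ ≤ 1) : ExM (exR4 θ) := by
  constructor <;> (try dsimp only [exR4]) <;> linarith

theorem exR4_L1 {θ : ℝ} (h0 : 0 ≤ θ) (h1 : θ ≤ 1) : ExL1 (exR4 θ) := by
  constructor <;> (try dsimp only [exR4]) <;> linarith

theorem exR4_U1 {θ : ℝ} (h0 : 0 ≤ θ) (h1 : θ ≤ 1) : ExU1 (exR4 θ) := by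
  constructor <;> (try dsimp only [exR4]) <;> linarith

theorem exR4_E {θ : ℝ} (h0 : 0 ≤ θ) (h1 : θ ≤ 1) : ExE (exR4 θ) := by
  constructor <;> (try dsimp only [exR4]) <;> linarith

theorem exists_theta {a b x : ℝ} (hab : a < b) (h0 : a ≤ x) (h1 : x ≤ b) :
    ∃ θ : ℝ, 0 ≤ θ ∧ θ ≤ 1 ∧ x = a + (b - a) * θ := by
  have h : 0 < b - a := by linarith
  refine ⟨(x - a) / (b - a), div_nonneg (by linarith) h.le, by rw [div_le_one h]; linarith, ?_⟩
  field_simp
  ring

theorem exists_ex {x : ℝ} (h0 : 334333 ≤ x) (h1 : x ≤ 1000001) :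
    ∃ X : Ex, X.x = x ∧ X.q = x - max x 668668 ∧ X.gU = 11 / 20 * (1000002 - max x 668668) ∧
      X.gL = 11 / 20 * (999999 - max x 668668) ∧ ExM X ∧ (668468 ≤ x → ExE X) ∧
      (ExU1 X ∨ ExU2 X) ∧ (ExL1 X ∨ ExL2 X) := by
  rcases lt_or_ge x 400000 with g0 | g0
  · obtain ⟨θ, t0, t1, e⟩ := exists_theta (by norm_num) h0 g0.le
    have hm : max x 668668 = 668668 := max_eq_right (by linarith)
    refine ⟨exR0 θ, ?_, ?_, ?_, ?_, exR0_M t0 t1, fun h => absurd h (by linarith),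
      Or.inr (exR0_U2 t0 t1), Or.inr (exR0_L2 t0 t1)⟩ <;>
      simp only [hm, exR0] <;> linarith
  rcases lt_or_ge x 667734 with g1 | g1
  · obtain ⟨θ, t0, t1, e⟩ := exists_theta (by norm_num) g0 g1.le
    have hm : max x 668668 = 668668 := max_eq_right (by linarith)
    refine ⟨exR1 θ, ?_, ?_, ?_, ?_, exR1_M t0 t1, fun h => absurd h (by linarith),
      Or.inl (exR1_U1 t0 t1), Or.inr (exR1_L2 t0 t1)⟩ <;>
      simp only [hm, exR1] <;> linarith
  rcases lt_or_ge x 668468 with g2 | g2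
  · obtain ⟨θ, t0, t1, e⟩ := exists_theta (by norm_num) g1 g2.le
    have hm : max x 668668 = 668668 := max_eq_right (by linarith)
    refine ⟨exR2 θ, ?_, ?_, ?_, ?_, exR2_M t0 t1, fun h => absurd h (by linarith),
      Or.inl (exR2_U1 t0 t1), Or.inl (exR2_L1 t0 t1)⟩ <;>
      simp only [hm, exR2] <;> linarith
  rcases lt_or_ge x 668668 with g3 | g3
  · obtain ⟨θ, t0, t1, e⟩ := exists_theta (by norm_num) g2 g3.le
    have hm : max x 668668 = 668668 := max_eq_right (by linarith)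
    refine ⟨exR3 θ, ?_, ?_, ?_, ?_, exR3_M t0 t1, fun _ => exR3_E t0 t1,
      Or.inl (exR3_U1 t0 t1), Or.inl (exR3_L1 t0 t1)⟩ <;>
      simp only [hm, exR3] <;> linarith
  obtain ⟨θ, t0, t1, e⟩ := exists_theta (by norm_num) g3 h1
  have hm : max x 668668 = x := max_eq_left (by linarith)
  refine ⟨exR4 θ, ?_, ?_, ?_, ?_, exR4_M t0 t1, fun _ => exR4_E t0 t1,
    Or.inl (exR4_U1 t0 t1), Or.inl (exR4_L1 t0 t1)⟩ <;>
    simp only [hm, exR4] <;> linarith

/-- The bounds as powers of `y`. -/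
noncomputable def Ex.pr (X : Ex) (y : ℝ) : Pr :=
  ⟨y ^ X.v, y ^ X.u, y ^ X.g, y ^ X.nn, y ^ X.e, y ^ X.f, y ^ X.R, y ^ X.lam, y ^ X.dd, y ^ X.t,
    y ^ X.x0, y ^ X.x1, y ^ X.ro⟩

/-- The auxiliary numbers as powers of `y`. -/
noncomputable def Ex.aux (X : Ex) (y dF : ℝ) : Aux :=
  ⟨1 / y ^ 4, dF, y ^ X.L, y ^ X.tt, y ^ X.rho, y ^ X.tau, y ^ X.GS, y ^ X.GC, y ^ X.p⟩

theorem sqrt_rpow_eq {y : ℝ} (hy : 0 ≤ y) (e : ℝ) : √(y ^ e) = y ^ (e / 2) := by
  rw [Real.sqrt_eq_rpow, ← Real.rpow_mul hy, mul_one_div]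

theorem npow_eq_rpow (y : ℝ) (n : ℕ) [n.AtLeastTwo] :
    y ^ (OfNat.ofNat n : ℕ) = y ^ (OfNat.ofNat n : ℝ) := by
  rw [← Real.rpow_natCast, Nat.cast_ofNat]

/-- The numerical inequalities can be satisfied. -/
theorem num_exists (dF : ℝ) : ∃ y₀ : ℝ, ∀ y N k G : ℝ, y₀ ≤ y → y ^ 1000000 ≤ N →
    N ≤ y ^ 1000001 → y ^ 334333 ≤ k → k ≤ N →
    ((N + y ^ 668668) / (2 * (k + y ^ 668668))) ^ (11 / 20 : ℝ) ≤ G →
    G ≤ ((N + y ^ 668668) / (k + y ^ 668668)) ^ (11 / 20 : ℝ) →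
    ∃ (P : Pr) (a : Aux), a.ε = 1 / y ^ 4 ∧ a.dF = dF ∧ Num (envY y) P a k G := by
  refine ⟨max (10 ^ 30) |dF|, fun y N k G hy hN0 hN1 hk0 hk1 hG0 hG1 => ?_⟩
  have big : 10 ^ 30 ≤ y := (le_max_left _ _).trans hy
  have hdF : |dF| ≤ y := (le_max_right _ _).trans hy
  have hy4 : 4 ≤ y := le_trans (by norm_num) big
  have hy1 : 1 < y := by linarith
  have hy0 : 0 < y := by linarith
  rw [npow_eq_rpow] at hN0 hN1 hk0 hG0 hG1
  obtain ⟨x, rfl⟩ := exists_expo hy1 ((Real.rpow_pos_of_pos hy0 _).trans_le hk0)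
  have hx0 := expo_le_of_le hy1 hk0
  have hx1 := expo_le_of_le hy1 (hk1.trans hN1)
  obtain ⟨X, e1, e2, e3, e4, hM, hE, hU, hL⟩ := exists_ex hx0 hx1
  set M := max x 668668 with hMdef
  have m1 : y ^ x ≤ y ^ M := Real.rpow_le_rpow_of_exponent_le hy1.le (le_max_left _ _)
  have m2 : y ^ (668668 : ℝ) ≤ y ^ M := Real.rpow_le_rpow_of_exponent_le hy1.le (le_max_right _ _)
  have p1 : 0 < y ^ x := Real.rpow_pos_of_pos hy0 _
  have p2 : 0 < y ^ (668668 : ℝ) := Real.rpow_pos_of_pos hy0 _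
  have m3 : y ^ M ≤ y ^ x + y ^ (668668 : ℝ) := by
    rcases le_total x 668668 with h | h
    · rw [hMdef, max_eq_right h]; linarith
    · rw [hMdef, max_eq_left h]; linarith
  have us : Ub y 2 (y ^ x + y ^ (668668 : ℝ)) M := ⟨by positivity, by linarith⟩
  have ls : Lb y 1 (y ^ x + y ^ (668668 : ℝ)) M := ⟨one_pos, by linarith⟩
  have m4 : y ^ (668668 : ℝ) ≤ y ^ (1000001 : ℝ) :=
    Real.rpow_le_rpow_of_exponent_le hy1.le (by norm_num)
  have hN : 0 < N := p1.trans_le hk1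
  have uN : Ub y 2 (N + y ^ (668668 : ℝ)) 1000001 := ⟨by positivity, by linarith⟩
  have lN : Lb y 1 (N + y ^ (668668 : ℝ)) 1000000 := ⟨one_pos, by linarith⟩
  have g1 : (N + y ^ (668668 : ℝ)) / (y ^ x + y ^ (668668 : ℝ)) ≤ y ^ (1000002 - M) :=
    (uN.div hy1.le ls).absorb hy1.le (by linarith) (by linarith)
  have g0 : y ^ (999999 - M) ≤ (N + y ^ (668668 : ℝ)) / (2 * (y ^ x + y ^ (668668 : ℝ))) :=
    (Ub.rpow hy1.le _).le_of_lb hy1.le (lN.div hy1.le (us.cmul (a := 2) (by norm_num))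
      (by positivity)) (by linarith) (by linarith)
  have uG : G ≤ y ^ X.gU := by
    refine hG1.trans ((Real.rpow_le_rpow (by positivity) g1 (by norm_num)).trans (le_of_eq ?_))
    rw [← Real.rpow_mul hy0.le, e3, mul_comm]
  have lG : y ^ X.gL ≤ G := by
    refine le_trans (le_of_eq ?_) ((Real.rpow_le_rpow (by positivity) g0 (by norm_num)).trans hG0)
    rw [← Real.rpow_mul hy0.le, e4, mul_comm]
  have hq : (envY y).q (y ^ x) = y ^ x / (y ^ x + y ^ (668668 : ℝ)) := by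
    rw [← npow_eq_rpow]; rfl
  have hε : 1 / y ^ 4 = y ^ (-4 : ℝ) := by
    rw [Real.rpow_neg hy0.le, ← npow_eq_rpow, one_div]
  have U : ∀ {Q e : ℝ}, Q = y ^ e → Ub y 1 Q e := fun h => h ▸ Ub.rpow hy1.le _
  have L : ∀ {Q e : ℝ}, Q = y ^ e → Lb y 1 Q e := fun h => h ▸ Lb.rpow _
  have F : Fit y (envY y) (X.pr y) (X.aux y dF) (y ^ x) G X :=
    { big := big
      uv := U rfl
      lv := L rfl
      uu := U rfl
      lu := L rfl
      ug := U rfl
      lg := L rfl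
      unn := U rfl
      lnn := L rfl
      ue := U rfl
      le := L rfl
      uf := U rfl
      lf := L rfl
      uR := U rfl
      lR := L rfl
      ulam := U rfl
      llam := L rfl
      udd := U rfl
      ldd := L rfl
      ut := U rfl
      lt := L rfl
      ux0 := U rfl
      lx0 := L rfl
      ux1 := U rfl
      lx1 := L rfl
      uro := U rfl
      lro := L rfl
      uL := U rfl
      lL := L rfl
      utt := U rfl
      ltt := L rfl
      urho := U rfl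
      lrho := L rfl
      utau := U rfl
      ltau := L rfl
      uGS := U rfl
      lGS := L rfl
      uGC := U rfl
      lGC := L rfl
      up := U rfl
      lp := L rfl
      uk := U (by rw [e1])
      lk := L (by rw [e1])
      usk := U (by rw [e1, sqrt_rpow_eq hy0.le])
      lsk := L (by rw [e1, sqrt_rpow_eq hy0.le])
      usR := U (sqrt_rpow_eq hy0.le _)
      uq := by
        rw [hq, e2]
        simpa using (Ub.rpow hy1.le x).div hy1.le ls
      lq := by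
        rw [hq, e2]
        simpa using (Lb.rpow x).div hy1.le us (by positivity)
      ukap := U (npow_eq_rpow y _)
      lkap := L (npow_eq_rpow y _)
      uDb := U (npow_eq_rpow y _)
      lDb := L (npow_eq_rpow y _)
      udb := U (npow_eq_rpow y _)
      ldb := L (npow_eq_rpow y _)
      uSb := U (npow_eq_rpow y _)
      lSb := L (npow_eq_rpow y _)
      uuC := U (npow_eq_rpow y _)
      luC := L (npow_eq_rpow y _)
      uVb := U (npow_eq_rpow y _)
      lVb := L (npow_eq_rpow y _)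
      uMu := U (npow_eq_rpow y _)
      lMu := L (npow_eq_rpow y _)
      ueps := U hε
      leps := L hε
      udF := ⟨abs_nonneg _, by rw [one_mul, Real.rpow_one]; exact hdF⟩
      uG := ⟨(Real.rpow_pos_of_pos hy0 _).le.trans lG, by simpa using uG⟩
      lG := ⟨one_pos, by simpa using lG⟩ }
  refine ⟨X.pr y, X.aux y dF, rfl, rfl, F.num hM (fun h => hE ?_) hU hL⟩
  refine expo_le_of_le hy1 ?_
  rw [← npow_eq_rpow]
  exact h

end Vale.Agent.P049
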