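import Vale.Agent.P049.Glue
import Vale.Agent.P049.Init
import Mathlib.Analysis.SpecialFunctions.Pow.NthRootLemmas
import Mathlib.Analysis.Complex.ExponentialBounds

/-!
# Integer roots and other parameters in polynomial time
-/

namespace Vale.Agent.P049

open Finset Vale.Agent.Lib.PolyTime

theorem nthRoot_le_self {M : ℕ} (hM : M ≠ 0) (N : ℕ) : Nat.nthRoot M N ≤ N :=
  (Nat.le_self_pow hM _).trans (Nat.pow_nthRoot_le_iff.2 (Or.inl hM))

theorem nthRoot_eq_sum {M : ℕ} (hM : M ≠ 0) (N : ℕ) :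
    ∑ j ∈ range N, (if (j + 1) ^ M ≤ N then 1 else 0) = Nat.nthRoot M N := by
  have h : ∀ j, ((j + 1) ^ M ≤ N) ↔ j ∈ range (Nat.nthRoot M N) := fun j => by
    rw [← Nat.le_nthRoot_iff hM, mem_range]; omega
  simp only [h]
  rw [sum_boole, filter_mem_eq_inter, inter_eq_right.2 (range_mono (nthRoot_le_self hM N))]
  simp

variable {α : Type*} [Enc α]

theorem PT_nthRoot {M : ℕ} (hM : M ≠ 0) {N : α → ℕ} (hN : PT ∅ N) (hNb : PBd N) :
    PT ∅ fun x => Nat.nthRoot M (N x) := by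
  refine (PT.natSumRange (f := fun x j => if (j + 1) ^ M ≤ N x then 1 else 0) hN hNb ?_).congr
    fun x => nthRoot_eq_sum hM (N x)
  exact PT.ite (PT.le (PT.pow (PT.snd'.add (PT.const 1)) (PT.const M) (PBd.const M))
    (hN.comp PT.fst')) (PT.const 1) (PT.const 0)

theorem PT_parM (q : ℕ) {M e : α → ℕ} (hM : PT ∅ M) (he : PT ∅ e) :
    PT ∅ fun x => parM q (M x) (e x) := by
  unfold parM
  exact PT_ratDiv (PT_natCast (PT.natSqrt (((PT.pow hM (PT.const 2) (PBd.const 2)).mul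
    (PT.pow (hM.sub he) (PT.const 2) (PBd.const 2))).div (PT.const q))))
    (PT_ratPowConst (PT_natCast hM) 2)

/-- The root tends to infinity. -/
theorem le_nthRoot_of_le {M y₀ d n : ℕ} (hM : M ≠ 0) (hd : 0 < d) (hn : y₀ ^ M ≤ n) :
    y₀ ≤ Nat.nthRoot M (n * d) :=
  (Nat.le_nthRoot_iff hM).2 (hn.trans (Nat.le_mul_of_pos_right n hd))

theorem succ_pow_le_two_mul {M y : ℕ} (hy : 2 * M ≤ y) : ((y : ℝ) + 1) ^ M ≤ 2 * (y : ℝ) ^ M := by
  rcases Nat.eq_zero_or_pos M with rfl | hM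
  · norm_num
  have hy0 : (0 : ℝ) < y := by exact_mod_cast (by omega : 0 < y)
  have e : ((y : ℝ) + 1) ^ M = (1 + 1 / y) ^ M * (y : ℝ) ^ M := by
    rw [← mul_pow]; congr 1; field_simp
  rw [e]
  refine mul_le_mul_of_nonneg_right ?_ (by positivity)
  have h1 : (1 + 1 / (y : ℝ)) ^ M ≤ Real.exp (1 / y) ^ M :=
    pow_le_pow_left₀ (by positivity) (by linarith [Real.add_one_le_exp (1 / (y : ℝ))]) M
  rw [← Real.exp_nat_mul] at h1
  have h2 : (M : ℝ) * (1 / y) ≤ 1 / 2 := by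
    rw [mul_one_div, div_le_iff₀ hy0]
    have : (2 * M : ℝ) ≤ y := by exact_mod_cast hy
    linarith
  have h3 : Real.exp (1 / 2) ≤ 2 := by
    have := Real.exp_one_lt_d9
    have h4 : Real.exp (1 / 2) ^ 2 = Real.exp 1 := by rw [← Real.exp_nat_mul]; norm_num
    nlinarith [Real.exp_pos (1 / 2 : ℝ)]
  exact h1.trans ((Real.exp_le_exp.2 h2).trans h3)

/-- `y ^ M ≤ N ≤ 2 * y ^ M` for the integer root `y`. -/
theorem nthRoot_bounds {M N : ℕ} (hM : M ≠ 0) (hy : 2 * M ≤ Nat.nthRoot M N) :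
    ((Nat.nthRoot M N : ℕ) : ℝ) ^ M ≤ N ∧ (N : ℝ) ≤ 2 * ((Nat.nthRoot M N : ℕ) : ℝ) ^ M := by
  constructor
  · exact_mod_cast Nat.pow_nthRoot_le_iff.2 (Or.inl hM)
  · refine le_trans ?_ (succ_pow_le_two_mul hy)
    exact_mod_cast (Nat.lt_pow_nthRoot_add_one hM N).le

/-- The logarithm is small compared with the root. -/
theorem log_le_root {M : ℕ} {C N y : ℝ} (hC : 0 ≤ C) (hN0 : 0 < N) (hN : N ≤ 2 * y ^ M)
    (hy : (C * (2 * M + 2)) ^ 2 + 1 ≤ y) : C * (1 + Real.log N) ≤ y := by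
  have hy1 : 1 ≤ y := by nlinarith [sq_nonneg (C * (2 * M + 2))]
  have hy0 : 0 < y := by linarith
  have hs : 1 ≤ √y := Real.one_le_sqrt.2 hy1
  have h1 : Real.log N ≤ Real.log 2 + M * Real.log y := by
    rw [← Real.log_pow, ← Real.log_mul (by norm_num) (by positivity)]
    exact Real.log_le_log hN0 hN
  have h2 : Real.log 2 ≤ 1 := by linarith [Real.log_le_sub_one_of_pos (by norm_num : (0 : ℝ) < 2)]
  have h3 : Real.log y ≤ 2 * √y := by
    have e : Real.log y = 2 * Real.log (√y) := by rw [Real.log_sqrt hy0.le]; ring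
    rw [e]
    linarith [Real.log_le_sub_one_of_pos (by linarith : 0 < √y)]
  have h4 : C * (2 * M + 2) ≤ √y := Real.le_sqrt_of_sq_le (by linarith)
  have h5 : 1 + Real.log N ≤ (2 * M + 2) * √y := by
    have := mul_le_mul_of_nonneg_left h3 (Nat.cast_nonneg (α := ℝ) M)
    nlinarith
  calc C * (1 + Real.log N) ≤ C * ((2 * M + 2) * √y) := mul_le_mul_of_nonneg_left h5 hC
    _ = C * (2 * M + 2) * √y := by ring
    _ ≤ √y * √y := mul_le_mul_of_nonneg_right h4 (by linarith)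
    _ = y := Real.mul_self_sqrt hy0.le

end Vale.Agent.P049
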