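import Vale.Agent.P049.Core
import Vale.Agent.P049.InitPot
import Vale.Agent.P049.NumEx2
import Vale.Agent.P049.Tilt
import Vale.Agent.P049.Root

/-!
# The potential has all required properties, and the final theorem
-/

namespace Vale.Agent.P049

open Matrix Finset Vale.Agent.Lib.PolyTime

theorem qf_univ_eq {ι : Type*} [Fintype ι] (K : Matrix ι ι ℝ) (x : ι → ℝ) :
    qf univ K x = x ⬝ᵥ K *ᵥ x := by
  simp only [qf, dotProduct, mulVec, mul_sum, mul_assoc]

/-- At the end the kernel is at most one on vectors of sum zero. -/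
theorem end_side {ι : Type*} [Fintype ι] [DecidableEq ι] {y G m s s' : ℝ} (hy : 3 ≤ y)
    (hG : 0 < G) (hm : m ≤ 1) (hs : s ^ 2 = 1) (hs' : s' ^ 2 = 1) {X Y : Matrix ι ι ℝ}
    (hX : Ker s m univ X) (hY : Ker s' m univ Y) (hk0 : 0 < Fintype.card ι)
    (hk : (Fintype.card ι : ℝ) ≤ y ^ 334333)
    (h : mSide (envY y) (Fintype.card ι) G X Y ≤ 1) (x : ι → ℝ) (hx : ∑ i, x i = 0) :
    qf univ X x ≤ ∑ i, x i ^ 2 := by
  have hy0 : 0 < y := by linarith
  have hk0' : (0 : ℝ) < Fintype.card ι := by exact_mod_cast hk0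
  set k : ℝ := (Fintype.card ι : ℝ) with hkdef
  have hXt := hX.transpose_eq
  have hYt := hY.transpose_eq
  have pX := psd_add_one hXt (by nlinarith) hm (fun a => hX.row a (mem_univ a)) hX.psd
  have pY := psd_add_one hYt (by nlinarith) hm (fun a => hY.row a (mem_univ a)) hY.psd
  have c1 := cross_nonneg hXt pX
  have c2 := cross_nonneg hXt pY
  rw [Matrix.mul_add, Matrix.mul_one, trace_add, pow_two] at c1 c2
  have hq : 0 < (envY y).q k := by unfold Env.q envY; positivity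
  have n1 : 0 ≤ (envY y).fD k (trace X) := div_nonneg (sq_nonneg _) (sq_nonneg _)
  have n2 : 0 ≤ (envY y).fE k (trace (X * X)) := by
    unfold Env.fE
    split_ifs
    · exact div_nonneg (sq_nonneg _) (sq_nonneg _)
    · exact le_rfl
  have n3 : 0 ≤ (envY y).fS (trace (X * X * X) + trace (X * X)) :=
    div_nonneg c1 (by unfold envY; positivity)
  have n4 : 0 ≤ (envY y).fC k (trace (X * X * Y) + trace (X * X)) :=
    div_nonneg c2 (by unfold envY; positivity)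
  have n5 : 0 ≤ (envY y).fV k (vv X) :=
    div_nonneg (sum_nonneg fun _ _ => sq_nonneg _)
      (mul_nonneg (by unfold envY; positivity) hq.le)
  have n6 : 0 ≤ (envY y).fU k G (uu X) :=
    div_nonneg (sum_nonneg fun _ _ => sq_nonneg _)
      (mul_nonneg (mul_nonneg (by unfold envY; positivity) (by positivity)) hG.le)
  have h1 : (envY y).fR k (trace (X * X)) ≤ 1 := by
    unfold mSide Env.side at h
    linarith
  unfold Env.fR at h1
  rw [div_le_one (by positivity)] at h1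
  have h2 : 8 * (k * (envY y).q k) ≤ 1 := by
    have e : k * (envY y).q k = k ^ 2 / (k + y ^ 668668) := by unfold Env.q envY; ring
    rw [e, ← mul_div_assoc, div_le_one (by positivity)]
    have h3 : k ^ 2 ≤ (y ^ 334333) ^ 2 := by gcongr
    have h4 : y ^ 668668 = y ^ 2 * (y ^ 334333) ^ 2 := by rw [← pow_mul, ← pow_add]
    have h5 : 8 ≤ y ^ 2 := by nlinarith
    have h6 := mul_le_mul_of_nonneg_right h5 (sq_nonneg (y ^ 334333))
    rw [h4]
    linarith
  rw [qf_univ_eq]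
  refine quad_le_of_frob hs (fun a => hX.row a (mem_univ a)) ?_ x hx
  have e : ∑ a, ∑ b, X a b ^ 2 = trace (X * X) := by
    simp only [trace, diag_apply, mul_apply]
    exact sum_congr rfl fun a _ => sum_congr rfl fun b _ => by rw [hX.symm b a, sq]
  linarith

theorem eta_le {y N : ℝ} (hy : 1000 ≤ y) (hN : y ^ 1000000 ≤ N) : 2 * y ^ 668668 / N ≤ 2 / y := by
  have hy0 : 0 < y := by linarith
  have hN0 : 0 < N := lt_of_lt_of_le (by positivity) hN
  rw [div_le_div_iff₀ hN0 hy0]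
  have h1 : y ^ 668668 * y ≤ y ^ 1000000 := by
    rw [← pow_succ]
    exact pow_le_pow_right₀ (by linarith) (by norm_num)
  linarith

/-- ALL: `MatPot` with `k₀ = y ^ 334333`. -/
theorem matPot (d : ℕ) (hd : 3 ≤ d) : ∃ y₀ : ℕ, ∀ (y n : ℕ) (m η : ℝ), y₀ ≤ y →
    y ^ 1000000 ≤ n * d → n * d ≤ y ^ 1000001 → 0 < m →
    η = 2 * (y : ℝ) ^ 668668 / (n * d : ℕ) → ((d : ℝ) - 1) * m ^ 2 ≤ (1 - η) ^ 2 →
    MatPot d (n * d) m (m + 16 * η ^ 2) y (y ^ 334333) (Psi (n * d) (y : ℝ)) := by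
  obtain ⟨y₁, h₁⟩ := num_exists ((d + d ^ 2 : ℕ) : ℝ)
  obtain ⟨y₂, h₂⟩ := psi_init d hd
  refine ⟨max (max ⌈y₁⌉₊ ⌈y₂⌉₊) 1000, fun y n m η hy hN1 hN2 hm0 hη hm => ?_⟩
  have hy1 : y₁ ≤ y := (Nat.le_ceil y₁).trans (by exact_mod_cast (by omega : ⌈y₁⌉₊ ≤ y))
  have hy2 : y₂ ≤ y := (Nat.le_ceil y₂).trans (by exact_mod_cast (by omega : ⌈y₂⌉₊ ≤ y))
  have hy3 : 1000 ≤ y := by omega
  have hy3' : (1000 : ℝ) ≤ y := by exact_mod_cast hy3
  have hy0 : (0 : ℝ) < y := by linarith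
  have hN1' : (y : ℝ) ^ 1000000 ≤ (n * d : ℕ) := by exact_mod_cast hN1
  have hN2' : ((n * d : ℕ) : ℝ) ≤ (y : ℝ) ^ 1000001 := by exact_mod_cast hN2
  have hη0 : 0 ≤ η := by rw [hη]; positivity
  have hη1 : η ≤ 1 := by
    rw [hη]
    refine (eta_le hy3' hN1').trans ?_
    rw [div_le_one hy0]
    linarith
  have hd' : (3 : ℝ) ≤ d := by exact_mod_cast hd
  have hm2 : m ^ 2 ≤ 1 / 2 := by nlinarith [sq_nonneg m]
  have hm1 : m ≤ 1 := by nlinarith
  have hkap : (1 : ℝ) ≤ (y : ℝ) ^ 668668 := one_le_pow₀ (by linarith)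
  have hkap0 : (0 : ℝ) < (y : ℝ) ^ 668668 := by positivity
  have hk2 : 1000 ≤ y ^ 334333 := hy3.trans (Nat.le_self_pow (by norm_num) y)
  refine ⟨fun ι _ _ A B hA hB hk _ => ?_, ?_, fun ι _ _ A B Fb _ hA hB F1 F2 F3 hk hkN hΨ => ?_,
    fun ι _ _ A B hA hB hk hk' hΨ => ?_⟩
  · rw [Psi_mstats]
    exact add_nonneg
      (mSide_nonneg hy0 (gro_pos hkap0 _ _) hm1 (by norm_num) (by norm_num) hA hB (by omega))
      (mSide_nonneg hy0 (gro_pos hkap0 _ _) hm1 (by norm_num) (by norm_num) hB hA (by omega))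
  · exact h₂ y n m η hy2 hN1' hN2' hm0 hη hm
  · obtain ⟨P, a, ha1, ha2, hN⟩ := h₁ y (n * d : ℕ) (Fintype.card ι)
      (gro ((y : ℝ) ^ 668668) (n * d) (Fintype.card ι)) hy1 hN1' hN2'
      (by exact_mod_cast hk.le) (by exact_mod_cast hkN) (le_gro hkap hkN) (gro_le hkap0 hkN)
    rw [Psi_mstats] at hΨ
    obtain ⟨w, w0, w2, ws, wr, wF, wd⟩ := core_step hN
      (gro_step (kap := (y : ℝ) ^ 668668) hkap0 (N := n * d) (k := Fintype.card ι) (by omega) hkN)
      hm0.le hm2 hA hB Fb F1 F2 (fun x => by rw [ha2]; exact_mod_cast F3 x) hΨ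
    have hc : ((Fintype.card ι - 2 : ℕ) : ℝ) = (Fintype.card ι : ℝ) - 2 := by
      rw [Nat.cast_sub (by omega)]; norm_num
    have hy4 : 14000 * (1 / (y : ℝ) ^ 4) ≤ 1 / y := by
      rw [mul_one_div, div_le_div_iff₀ (by positivity) hy0]
      have h3 : (14000 : ℝ) ≤ (y : ℝ) ^ 3 := le_trans (by norm_num)
        (pow_le_pow_left₀ (by norm_num) hy3' 3)
      nlinarith
    have hy5 : 0 < 1 / (y : ℝ) ^ 4 := by positivity
    have hk0 : (0 : ℝ) ≤ Fintype.card ι := Nat.cast_nonneg _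
    refine ⟨w, w0, w2, ws, wF, fun x => (wr x).trans ?_, ?_⟩
    · rw [ha1]
      exact mul_le_mul_of_nonneg_right (by linarith) hk0
    · simp only [Psi_mstats, hc]
      refine wd.trans ?_
      rw [ha1, div_eq_mul_one_div (Fintype.card ι : ℝ), mul_comm (Fintype.card ι : ℝ)]
      exact mul_le_mul_of_nonneg_right hy4 hk0
  · rw [Psi_mstats] at hΨ
    have n1 := mSide_nonneg hy0 (gro_pos hkap0 (n * d) (Fintype.card ι)) hm1 (by norm_num)
      (by norm_num) hA hB (by omega)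
    have n2 := mSide_nonneg hy0 (gro_pos hkap0 (n * d) (Fintype.card ι)) hm1 (by norm_num)
      (by norm_num) hB hA (by omega)
    exact ⟨end_side (y := y) (by linarith) (gro_pos hkap0 _ _) hm1 (by norm_num) (by norm_num) hA hB
        (by omega) (by exact_mod_cast hk') (by linarith),
      end_side (y := y) (by linarith) (gro_pos hkap0 _ _) hm1 (by norm_num) (by norm_num) hB hA
        (by omega) (by exact_mod_cast hk') (by linarith)⟩

/-- The real envelopes of rational envelopes. -/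
def Env.cast (E : Env ℚ) : Env ℝ := ⟨E.kap, E.Db, E.db, E.Sb, E.uC, E.Vb, E.Mu⟩

theorem cast_envY (y : ℚ) : (envY y).cast = envY (y : ℝ) := by
  simp only [Env.cast, envY, Rat.cast_pow]

theorem cast_fE (E : Env ℚ) (k t2 : ℚ) : ((E.fE k t2 : ℚ) : ℝ) = E.cast.fE k t2 := by
  have h : (E.cast.db ≤ (k : ℝ)) ↔ E.db ≤ k := Rat.cast_le
  unfold Env.fE
  by_cases h1 : E.db ≤ k
  · rw [if_pos h1, if_pos (h.2 h1)]
    simp only [Env.q, Env.cast]
    push_cast
    rfl
  · rw [if_neg h1, if_neg fun h2 => h1 (h.1 h2), Rat.cast_zero]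

theorem cast_side (y k G t1 t2 s3 c3 v u : ℚ) :
    (((envY y).side k G t1 t2 s3 c3 v u : ℚ) : ℝ) = (envY (y : ℝ)).side k G t1 t2 s3 c3 v u := by
  rw [← cast_envY]
  generalize envY y = E
  simp only [Env.side, Rat.cast_add, cast_fE, Env.fD, Env.fR, Env.fS, Env.fC, Env.fV, Env.fU,
    Env.q, Env.cast]
  push_cast
  rfl

theorem cast_gro (kap : ℚ) (N k : ℕ) : ((gro kap N k : ℚ) : ℝ) = gro (kap : ℝ) N k := by
  unfold gro
  push_cast
  rfl

theorem cast_Psi (N : ℕ) (y : ℚ) (k : ℕ) (S : Stats ℚ) :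
    ((Psi N y k S : ℚ) : ℝ) = Psi N (y : ℝ) k S.cast := by
  unfold Psi
  rw [Rat.cast_add, cast_side, cast_side, cast_gro, Rat.cast_pow, Rat.cast_natCast]
  rfl

section PT

variable {α : Type*} [Enc α]

theorem PT_side {y k G t1 t2 s3 c3 v u : α → ℚ} (hy : PT ∅ y) (hk : PT ∅ k) (hG : PT ∅ G)
    (h1 : PT ∅ t1) (h2 : PT ∅ t2) (h3 : PT ∅ s3) (h4 : PT ∅ c3) (h5 : PT ∅ v) (h6 : PT ∅ u) :
    PT ∅ fun x => (envY (y x)).side (k x) (G x) (t1 x) (t2 x) (s3 x) (c3 x) (v x) (u x) := by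
  have a1 := PT_ratPowConst hy 668668
  have a2 := PT_ratPowConst hy 337536
  have a3 := PT_ratPowConst hy 668468
  have a4 := PT_ratPowConst hy 1000200
  have a5 := PT_ratPowConst hy 260000
  have a6 := PT_ratPowConst hy 206000
  have a7 := PT_ratPowConst hy 200
  have hq : PT ∅ fun x => (envY (y x)).q (k x) := PT_ratDiv hk (PT_ratAdd hk a1)
  have hkq := PT_ratMul hk hq
  refine PT_ratAdd (PT_ratAdd (PT_ratAdd (PT_ratAdd (PT_ratAdd (PT_ratAdd ?_ ?_) ?_) ?_) ?_) ?_) ?_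
  · exact PT_ratDiv (PT_ratPowConst h1 2) (PT_ratPowConst (PT_ratMul a2 hq) 2)
  · exact PT.ite (PT_ratLe a3 hk) (PT_ratDiv (PT_ratPowConst (PT_ratMax (PT_ratSub h2 hkq)
      (PT.const 0)) 2) (PT_ratPowConst (PT_ratMul a3 (PT_ratPowConst hq 2)) 2)) (PT.const 0)
  · exact PT_ratDiv (PT_ratSub h2 (PT.const 1)) (PT_ratMul (PT.const 8) hkq)
  · exact PT_ratDiv (PT_ratAdd h3 h2) a4
  · exact PT_ratDiv (PT_ratAdd h4 h2) (PT_ratMul a5 hk)
  · exact PT_ratDiv h5 (PT_ratMul a6 hq)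
  · exact PT_ratDiv h6 (PT_ratMul (PT_ratMul a7 hkq) hG)

theorem PT_gro {kap : α → ℚ} {N k : α → ℕ} (hkap : PT ∅ kap) (hN : PT ∅ N) (hNb : PBd N)
    (hk : PT ∅ k) : PT ∅ fun x => gro (kap x) (N x) (k x) := by
  have h : PT ∅ fun x => ∏ j ∈ range (N x + 1),
      if k x < j then (1 + 11 / 20 / ((j : ℚ) + kap x)) else 1 :=
    PT_ratProdRange (f := fun x j => if k x < j then (1 + 11 / 20 / ((j : ℚ) + kap x)) else 1)
      (hN.add (PT.const 1)) (hNb.add (PBd.const 1))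
      (PT.ite (PT.lt (hk.comp PT.fst') PT.snd') (PT_ratAdd (PT.const 1) (PT_ratDiv (PT.const _)
        (PT_ratAdd (PT_natCast PT.snd') (hkap.comp PT.fst')))) (PT.const 1))
  refine h.congr fun x => ?_
  rw [← prod_filter]
  unfold gro
  congr 1
  ext j
  simp [and_comm]

theorem PT_Psi {N k : α → ℕ} {y : α → ℚ} {S : α → Stats ℚ} (hN : PT ∅ N) (hNb : PBd N)
    (hy : PT ∅ y) (hk : PT ∅ k) (hS : PTStats S) : PT ∅ fun x => Psi (N x) (y x) (k x) (S x) := by
  have hG := PT_gro (PT_ratPowConst hy 668668) hN hNb hk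
  exact PT_ratAdd (PT_side hy (PT_natCast hk) hG hS.a1 hS.a2 hS.a3 hS.aab hS.da hS.ra)
    (PT_side hy (PT_natCast hk) hG hS.b1 hS.b2 hS.b3 hS.bba hS.db hS.rb)

end PT

/-- The scale of the construction. -/
def parY (d n : ℕ) : ℕ := Nat.nthRoot 1000000 (n * d)

/-- The parameter `m`. -/
def parM' (d n : ℕ) : ℚ := parM (d - 1) (n * d) (2 * parY d n ^ 668668)

/-- The parameter `p`. -/
def parP (d n : ℕ) : ℚ := parM' d n + 16 * (2 * (parY d n : ℚ) ^ 668668 / (n * d : ℕ)) ^ 2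

theorem ramanujan (d : ℕ) (hd : 3 ≤ d) :
    ∃ (out : ℕ → List Bool)
      (M : Turing.TM2ComputableInPolyTime (fun n : ℕ => List.replicate n true)
        (fun w : List Bool => w) out),
      (∀ k, Finite (M.tm.Γ k)) ∧
      ∃ n₀ : ℕ, ∀ n : ℕ, n₀ ≤ n → Even (d * n) →
        ∃ (G : SimpleGraph (Fin n)) (_ : DecidableRel G.Adj),
          G.IsRegularOfDegree d ∧
          out n = (List.finRange n).flatMap
            (fun i => (List.finRange n).map fun j => decide (G.Adj i j)) ∧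
          ∀ (μ : ℝ) (x : Fin n → ℝ), x ≠ 0 → ∑ i, x i = 0 →
            (G.adjMatrix ℝ).mulVec x = μ • x → |μ| ≤ 2 * √((d : ℝ) - 1) := by
  obtain ⟨y₀, h₀⟩ := matPot d hd
  have hN : PT ∅ fun u : Un => u.v * d := (PT.unVal PT.id).mul (PT.const d)
  have hNb : PBd fun u : Un => u.v * d := (PBd.unVal (A := ∅) PT.id).mul (PBd.const d)
  have hy : PT ∅ fun u : Un => parY d u.v := PT_nthRoot (by norm_num) hN hNb
  have hpow : ∀ j : ℕ, PT ∅ fun u : Un => parY d u.v ^ j := fun j =>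
    PT.pow hy (PT.const j) (PBd.const j)
  have hm : PT ∅ fun u : Un => parM' d u.v := PT_parM _ hN ((PT.const 2).mul (hpow _))
  have hp : PT ∅ fun u : Un => parP d u.v :=
    PT_ratAdd hm (PT_ratMul (PT.const 16) (PT_ratPowConst (PT_ratDiv (PT_ratMul (PT.const 2)
      (PT_ratPowConst (PT_natCast hy) _)) (PT_natCast hN)) 2))
  refine glue d (by omega) (parM' d) (parP d) (parY d) (fun n => parY d n ^ 334333)
    (fun n => Psi (n * d) (parY d n : ℚ)) (fun n => Psi (n * d) (parY d n : ℝ)) hm hp hy (hpow _)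
    (fun k S hk hS => PT_Psi (hN.comp PT.fst') (hNb.comp (A := ∅) PT.fst')
      (PT_natCast (hy.comp PT.fst')) hk hS)
    (fun n k S => by rw [cast_Psi, Rat.cast_natCast])
    ((max (max y₀ d) (10 ^ 20)) ^ 1000000) fun n hn => ?_
  have hy1 : max (max y₀ d) (10 ^ 20) ≤ parY d n := le_nthRoot_of_le (by norm_num) (by omega) hn
  have hb := nthRoot_bounds (M := 1000000) (N := n * d) (by norm_num)
    (le_trans (by norm_num) ((le_max_right _ _).trans hy1))
  have hM : parM' d n = parM (d - 1) (n * d) (2 * parY d n ^ 668668) := rfl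
  have hP : (parP d n : ℝ) =
      parM' d n + 16 * (2 * (parY d n : ℝ) ^ 668668 / (n * d : ℕ)) ^ 2 := by
    unfold parP
    rw [Rat.cast_add, Rat.cast_mul, Rat.cast_pow, Rat.cast_div, Rat.cast_mul, Rat.cast_pow,
      Rat.cast_natCast, Rat.cast_natCast, Rat.cast_ofNat, Rat.cast_ofNat]
  change ((parY d n : ℕ) : ℝ) ^ 1000000 ≤ _ ∧ _ ≤ 2 * ((parY d n : ℕ) : ℝ) ^ 1000000 at hb
  rw [hP]
  generalize parY d n = y at *
  generalize hNdef : n * d = N at *
  have hy2 : 10 ^ 20 ≤ y := (le_max_right _ _).trans hy1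
  have hyd : d ≤ y := ((le_max_right _ _).trans (le_max_left _ _)).trans hy1
  have hy0 : y₀ ≤ y := ((le_max_left _ _).trans (le_max_left _ _)).trans hy1
  have hy2' : (10 : ℝ) ^ 20 ≤ y := by exact_mod_cast hy2
  have hypos : (0 : ℝ) < y := lt_of_lt_of_le (by norm_num) hy2'
  have hy1' : (1 : ℝ) ≤ y := le_trans (by norm_num) hy2'
  have hN1 : y ^ 1000000 ≤ N := by exact_mod_cast hb.1
  have hN2' : (N : ℝ) ≤ (y : ℝ) ^ 1000001 := by
    rw [pow_succ (y : ℝ) 1000000, mul_comm]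
    exact hb.2.trans (mul_le_mul_of_nonneg_right (le_trans (by norm_num) hy2') (by positivity))
  have hN2 : N ≤ y ^ 1000001 := by exact_mod_cast hN2'
  have hN0 : (0 : ℝ) < N := lt_of_lt_of_le (by positivity) hb.1
  have hyN : y ≤ N := (Nat.le_self_pow (by norm_num) y).trans hN1
  have he1 : 1 ≤ 2 * y ^ 668668 := by
    have := Nat.one_le_pow 668668 y (by omega)
    omega
  have he4 : 4 * (2 * y ^ 668668) ≤ N := by
    have h1 : y ^ 668668 * y ≤ y ^ 1000000 := by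
      rw [← pow_succ]
      exact Nat.pow_le_pow_right (by omega) (by norm_num)
    have h2 : y ^ 668668 * 8 ≤ y ^ 668668 * y := Nat.mul_le_mul_left _ (by omega)
    omega
  have hq : ((d - 1 : ℕ) : ℝ) = (d : ℝ) - 1 := by rw [Nat.cast_sub (by omega)]; norm_num
  have hη : ((2 * y ^ 668668 : ℕ) : ℝ) = 2 * (y : ℝ) ^ 668668 := by
    rw [Nat.cast_mul, Nat.cast_pow, Nat.cast_ofNat]
  have m0 := parM_pos (q := d - 1) (M := N) (by omega) (by omega) he1 he4
  have m1 := parM_upper (q := d - 1) (M := N) (e := 2 * y ^ 668668) (by omega) (by omega)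
  have m2 := parM_lower (q := d - 1) (M := N) (by omega) (by omega) he1 (by omega)
  rw [← hM, hq, hη] at m1 m2
  rw [← hM] at m0
  set m : ℝ := (parM' d n : ℝ) with hmdef
  set η : ℝ := 2 * (y : ℝ) ^ 668668 / N with hηdef
  have hη0 : 0 < η := by positivity
  have hη1 : η ≤ 1 / 4 := by
    refine (eta_le (le_trans (by norm_num) hy2') hb.1).trans ?_
    rw [div_le_iff₀ hypos]
    linarith [le_trans (by norm_num : (8 : ℝ) ≤ 10 ^ 20) hy2']
  have hd' : (3 : ℝ) ≤ d := by exact_mod_cast hd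
  have m3 := par_m_sq (q := (d : ℝ) - 1) (by linarith) hη0 hη1 m1
  have m4 := par_spec (q := (d : ℝ) - 1) (by linarith) m0 hη0 hη1 m2 m1
  rw [sub_add_cancel] at m4
  refine ⟨by linarith, by positivity, m4, ?_, ?_, ?_, ?_, ?_⟩
  · exact le_trans (by omega) (Nat.le_self_pow (by norm_num) y)
  · exact (Nat.pow_le_pow_right (by omega) (by norm_num)).trans hN1
  · exact log_le_root (M := 1000000) (by norm_num) hN0 hb.2 (le_trans (by norm_num) hy2')
  · refine lt_of_lt_of_le ?_ hb.1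
    have hyd' : (d : ℝ) ≤ y := by exact_mod_cast hyd
    have h1 : (y : ℝ) ^ 3 * d ^ 2 * ((y ^ 334333 : ℕ) : ℝ) ^ 2 ≤
        (y : ℝ) ^ 3 * y ^ 2 * ((y : ℝ) ^ 334333) ^ 2 := by
      rw [Nat.cast_pow]
      gcongr
    refine h1.trans_lt ?_
    rw [← pow_mul, ← pow_add, ← pow_add]
    exact pow_lt_pow_right₀ (lt_of_lt_of_le (by norm_num) hy2') (by norm_num)
  · rw [← hNdef]
    refine h₀ y n m η hy0 (by rw [hNdef]; exact hN1) (by rw [hNdef]; exact hN2) m0
      (by rw [hNdef]) m1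

end Vale.Agent.P049
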