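import Vale.Agent.P049.Step

/-!
# Exact identities for one Schur step

`stepM s K a b` is the new kernel as a matrix on the old index type, with zero rows and columns at
`a` and `b`.  With `W = (s σ - K_TT)⁻¹ = [[wd a b, wo a b], [wo a b, wd b a]]` and the columns
`zv a b = K e_a - s e_b`, `zv b a = K e_b - s e_a` of `Z` we have
`stepM = K - s E σ Eᵀ + Z W Zᵀ`.
-/

namespace Vale.Agent.P049

open Finset Matrix

variable {ι : Type*} [Fintype ι] [DecidableEq ι]

/-- The new kernel, with zero rows and columns at `a` and `b`. -/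
noncomputable def stepM (s : ℝ) (K : Matrix ι ι ℝ) (a b : ι) : Matrix ι ι ℝ :=
  Matrix.of fun c e => if c = a ∨ c = b ∨ e = a ∨ e = b then 0 else nxt s K a b c e

/-- The entry `W_aa`; the entry `W_bb` is `wd s K b a`. -/
noncomputable def wd (s : ℝ) (K : Matrix ι ι ℝ) (a b : ι) : ℝ := K b b / den s K a b

/-- The entry `W_ab`. -/
noncomputable def wo (s : ℝ) (K : Matrix ι ι ℝ) (a b : ι) : ℝ := (s - K a b) / den s K a b

/-- The column `K e_a - s e_b` of `Z`. -/
def zv (s : ℝ) (K : Matrix ι ι ℝ) (a b : ι) : ι → ℝ := fun c => K c a - if c = b then s else 0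

/-- The `a` coordinate of `W Zᵀ x`; the `b` coordinate is `ph s K b a x`. -/
noncomputable def ph (s : ℝ) (K : Matrix ι ι ℝ) (a b : ι) (x : ι → ℝ) : ℝ :=
  wd s K a b * ((K *ᵥ x) a - s * x b) + wo s K a b * ((K *ᵥ x) b - s * x a)

/-- The vector `x + E W Zᵀ x`. -/
noncomputable def liftv (s : ℝ) (K : Matrix ι ι ℝ) (a b : ι) (x : ι → ℝ) : ι → ℝ :=
  fun c => x c + (if c = a then ph s K a b x else 0) + if c = b then ph s K b a x else 0

theorem sgn_cases {s : ℝ} (hs : s ^ 2 = 1) : s = 1 ∨ s = -1 := by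
  have : (s - 1) * (s + 1) = 0 := by linear_combination hs
  rcases mul_eq_zero.1 this with h | h
  · left; linarith
  · right; linarith

section Basic

variable {s : ℝ} {K : Matrix ι ι ℝ} {a b : ι}

omit [Fintype ι] [DecidableEq ι] in
theorem den_swap (hK : K.IsSymm) (s : ℝ) (a b : ι) : den s K b a = den s K a b := by
  unfold den
  rw [hK.apply a b]
  ring

omit [Fintype ι] [DecidableEq ι] in
theorem wo_swap (hK : K.IsSymm) (s : ℝ) (a b : ι) : wo s K b a = wo s K a b := by
  unfold wo
  rw [den_swap hK, hK.apply a b]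

omit [Fintype ι] in
theorem stepM_swap (hK : K.IsSymm) (s : ℝ) (a b : ι) : stepM s K b a = stepM s K a b := by
  ext c e
  simp only [stepM, of_apply]
  have h1 : (c = b ∨ c = a ∨ e = b ∨ e = a) ↔ (c = a ∨ c = b ∨ e = a ∨ e = b) := by tauto
  simp only [h1]
  split_ifs
  · rfl
  · unfold nxt
    rw [den_swap hK, hK.apply a b]
    ring

omit [Fintype ι] in
theorem stepM_isSymm (hK : K.IsSymm) (s : ℝ) (a b : ι) : (stepM s K a b).IsSymm := by
  refine IsSymm.ext fun c e => ?_
  simp only [stepM, of_apply]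
  have h1 : (e = a ∨ e = b ∨ c = a ∨ c = b) ↔ (c = a ∨ c = b ∨ e = a ∨ e = b) := by tauto
  simp only [h1]
  split_ifs
  · rfl
  · exact nxt_symm (fun c e => hK.apply e c) a b e c

omit [Fintype ι] in
theorem stepM_row_left (s : ℝ) (K : Matrix ι ι ℝ) (a b e : ι) : stepM s K a b a e = 0 := by
  simp [stepM]

omit [Fintype ι] in
theorem stepM_row_right (s : ℝ) (K : Matrix ι ι ℝ) (a b e : ι) : stepM s K a b b e = 0 := by
  simp [stepM]

omit [Fintype ι] in
theorem stepM_col_left (s : ℝ) (K : Matrix ι ι ℝ) (a b c : ι) : stepM s K a b c a = 0 := by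
  simp [stepM]

omit [Fintype ι] in
theorem stepM_col_right (s : ℝ) (K : Matrix ι ι ℝ) (a b c : ι) : stepM s K a b c b = 0 := by
  simp [stepM]

omit [Fintype ι] in
theorem stepM_of_ne (s : ℝ) (K : Matrix ι ι ℝ) {a b c e : ι} (h1 : c ≠ a) (h2 : c ≠ b)
    (h3 : e ≠ a) (h4 : e ≠ b) : stepM s K a b c e = nxt s K a b c e := by
  simp [stepM, h1, h2, h3, h4]

/-- The right side is `res (rest univ a b) (nxt s K a b) c e` by definition. -/
theorem stepM_eq_res (s : ℝ) (K : Matrix ι ι ℝ) (a b c e : ι) : stepM s K a b c e =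
    if c ∈ rest univ a b ∧ e ∈ rest univ a b then nxt s K a b c e else 0 := by
  simp only [stepM, of_apply, mem_rest, mem_univ, true_and]
  by_cases h : c = a ∨ c = b ∨ e = a ∨ e = b
  · rw [if_pos h, if_neg (by tauto)]
  · rw [if_neg h, if_pos (by tauto)]

omit [Fintype ι] in
/-- `stepM = K - s E σ Eᵀ + Z W Zᵀ`, entrywise. -/
theorem stepM_apply (hK : K.IsSymm) (hab : a ≠ b) (hD : den s K a b ≠ 0) (c e : ι) :
    stepM s K a b c e = K c e - (if c = a ∧ e = b then s else 0) - (if c = b ∧ e = a then s else 0) +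
      (wd s K a b * (zv s K a b c * zv s K a b e) + wd s K b a * (zv s K b a c * zv s K b a e) +
        wo s K a b * (zv s K a b c * zv s K b a e + zv s K b a c * zv s K a b e)) := by
  have hba : K b a = K a b := hK.apply a b
  have hD' : den s K a b = (s - K a b) ^ 2 - K a a * K b b := rfl
  have hea : K e a = K a e := hK.apply a e
  have heb : K e b = K b e := hK.apply b e
  unfold wd wo zv
  rw [den_swap hK s a b]
  by_cases hca : c = a
  · subst hca
    rw [stepM_row_left]
    by_cases h1 : e = c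
    · subst h1
      simp only [hab, and_false, false_and, if_false, if_true]
      field_simp
      rw [hD']; ring
    · by_cases h2 : e = b
      · subst h2
        simp only [hab, h1, and_true, false_and, if_false, if_true, hba]
        field_simp
        rw [hD']; ring
      · simp only [hab, h1, h2, and_false, if_false, if_true, hea, heb]
        field_simp
        rw [hD']; ring
  · by_cases hcb : c = b
    · subst hcb
      rw [stepM_row_right]
      by_cases h1 : e = a
      · subst h1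
        simp only [hab, hca, and_true, false_and, if_false, if_true, hba]
        field_simp
        rw [hD']; ring
      · by_cases h2 : e = c
        · subst h2
          simp only [hca, and_false, false_and, if_false, if_true, hba]
          field_simp
          rw [hD']; ring
        · simp only [hca, h1, h2, and_false, if_false, if_true, hea, heb, hba]
          field_simp
          rw [hD']; ring
    · by_cases h1 : e = a
      · subst h1
        rw [stepM_col_left]
        simp only [hab, hca, hcb, false_and, if_false, if_true]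
        field_simp
        rw [hD']; ring
      · by_cases h2 : e = b
        · subst h2
          rw [stepM_col_right]
          simp only [h1, hca, hcb, false_and, if_false, if_true, hba]
          field_simp
          rw [hD']; ring
        · rw [stepM_of_ne s K hca hcb h1 h2]
          simp only [h1, h2, hca, hcb, false_and, if_false, hea, heb]
          unfold nxt
          ring

theorem zv_dot (hK : K.IsSymm) (s : ℝ) (a b : ι) (x : ι → ℝ) :
    ∑ e, zv s K a b e * x e = (K *ᵥ x) a - s * x b := by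
  unfold zv
  simp only [sub_mul, sum_sub_distrib, ite_mul, zero_mul, sum_ite_eq', mem_univ, if_true, mulVec,
    dotProduct]
  congr 1
  exact sum_congr rfl fun e _ => by rw [hK.apply a e]

theorem mulVec_liftv (s : ℝ) (K M : Matrix ι ι ℝ) (a b : ι) (x : ι → ℝ) (c : ι) :
    (M *ᵥ liftv s K a b x) c = (M *ᵥ x) c + M c a * ph s K a b x + M c b * ph s K b a x := by
  simp only [mulVec, dotProduct, liftv, mul_add, sum_add_distrib, mul_ite, mul_zero, sum_ite_eq',
    mem_univ, if_true]

theorem liftv_left (s : ℝ) (K : Matrix ι ι ℝ) (hab : a ≠ b) (x : ι → ℝ) :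
    liftv s K a b x a = x a + ph s K a b x := by
  simp [liftv, hab]

theorem liftv_right (s : ℝ) (K : Matrix ι ι ℝ) (hab : a ≠ b) (x : ι → ℝ) :
    liftv s K a b x b = x b + ph s K b a x := by
  simp [liftv, hab.symm]

/-- The action of the new kernel on a vector. -/
theorem stepM_mulVec (hK : K.IsSymm) (hab : a ≠ b) (hD : den s K a b ≠ 0) (x : ι → ℝ) (c : ι) :
    (stepM s K a b *ᵥ x) c = (K *ᵥ x) c + K c a * ph s K a b x + K c b * ph s K b a x -
      (if c = a then s * (x b + ph s K b a x) else 0) -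
      (if c = b then s * (x a + ph s K a b x) else 0) := by
  have h1 : (stepM s K a b *ᵥ x) c = ∑ e, K c e * x e -
      ∑ e, (if c = a ∧ e = b then s else 0) * x e - ∑ e, (if c = b ∧ e = a then s else 0) * x e +
      ((wd s K a b * zv s K a b c + wo s K a b * zv s K b a c) * ∑ e, zv s K a b e * x e +
       (wd s K b a * zv s K b a c + wo s K a b * zv s K a b c) * ∑ e, zv s K b a e * x e) := by
    simp only [mulVec, dotProduct, mul_sum, ← sum_sub_distrib, ← sum_add_distrib]
    refine sum_congr rfl fun e _ => ?_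
    rw [stepM_apply hK hab hD]
    ring
  have h2 : ∑ e, (if c = a ∧ e = b then s else 0) * x e = if c = a then s * x b else 0 := by
    by_cases h : c = a <;> simp [h]
  have h3 : ∑ e, (if c = b ∧ e = a then s else 0) * x e = if c = b then s * x a else 0 := by
    by_cases h : c = b <;> simp [h]
  have h4 : ∑ e, K c e * x e = (K *ᵥ x) c := rfl
  rw [h1, h2, h3, h4, zv_dot hK, zv_dot hK]
  unfold ph zv
  rw [wo_swap hK s a b]
  split_ifs <;> ring

theorem mulVec_liftv_left (hK : K.IsSymm) (hab : a ≠ b) (hD : den s K a b ≠ 0) (x : ι → ℝ) :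
    (K *ᵥ x) a + K a a * ph s K a b x + K a b * ph s K b a x = s * (x b + ph s K b a x) := by
  have h := stepM_mulVec hK hab hD x a
  have h0 : (stepM s K a b *ᵥ x) a = 0 := by simp [mulVec, dotProduct, stepM_row_left]
  rw [h0] at h
  simp only [hab, if_true, if_false] at h
  linarith

theorem mulVec_liftv_right (hK : K.IsSymm) (hab : a ≠ b) (hD : den s K a b ≠ 0) (x : ι → ℝ) :
    (K *ᵥ x) b + K b a * ph s K a b x + K b b * ph s K b a x = s * (x a + ph s K a b x) := by
  have h := mulVec_liftv_left hK hab.symm ((den_swap hK s a b).symm ▸ hD) x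
  linarith

omit [DecidableEq ι] in
theorem symm_dot (hK : K.IsSymm) (x y : ι → ℝ) : (K *ᵥ x) ⬝ᵥ y = x ⬝ᵥ (K *ᵥ y) := by
  rw [dotProduct_mulVec, ← mulVec_transpose, hK.eq]

/-- The bilinear form of the new kernel. -/
theorem dot_stepM (hK : K.IsSymm) (hab : a ≠ b) (hD : den s K a b ≠ 0) (x y : ι → ℝ) :
    x ⬝ᵥ (stepM s K a b *ᵥ y) = x ⬝ᵥ (K *ᵥ y) - s * (x a * y b + x b * y a) +
      ((K *ᵥ x) a - s * x b) * ph s K a b y + ((K *ᵥ x) b - s * x a) * ph s K b a y := by
  have h1 : ∀ i, ∑ c, x c * K c i = (K *ᵥ x) i := fun i =>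
    sum_congr rfl fun c _ => by rw [hK.apply i c]; ring
  have h2 : x ⬝ᵥ (stepM s K a b *ᵥ y) = ∑ c, x c * (K *ᵥ y) c + (∑ c, x c * K c a) * ph s K a b y +
      (∑ c, x c * K c b) * ph s K b a y -
      ∑ c, (if c = a then x c * (s * (y b + ph s K b a y)) else 0) -
      ∑ c, (if c = b then x c * (s * (y a + ph s K a b y)) else 0) := by
    simp only [dotProduct, sum_mul, ← sum_sub_distrib, ← sum_add_distrib]
    refine sum_congr rfl fun c _ => ?_
    rw [stepM_mulVec hK hab hD]
    split_ifs <;> ring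
  rw [h2, h1, h1]
  simp only [sum_ite_eq', mem_univ, if_true, dotProduct]
  ring

/-- The bilinear form of the square of the new kernel: `stepM ^ 2 = Tᵀ (K ^ 2 - E Eᵀ) T`. -/
theorem dot_stepM_sq (hs : s ^ 2 = 1) (hK : K.IsSymm) (hab : a ≠ b) (hD : den s K a b ≠ 0)
    (x y : ι → ℝ) :
    (stepM s K a b *ᵥ x) ⬝ᵥ (stepM s K a b *ᵥ y) = (K *ᵥ x) ⬝ᵥ (K *ᵥ y) - x a * y a - x b * y b +
      (ph s K a b x * (((K * K) *ᵥ y) a - y a) + ph s K b a x * (((K * K) *ᵥ y) b - y b)) +
      (ph s K a b y * (((K * K) *ᵥ x) a - x a) + ph s K b a y * (((K * K) *ᵥ x) b - x b)) +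
      (ph s K a b x * ph s K a b y * ((K * K) a a - 1) +
        ph s K b a x * ph s K b a y * ((K * K) b b - 1) +
        (ph s K a b x * ph s K b a y + ph s K b a x * ph s K a b y) * (K * K) a b) := by
  have h1 : ∀ (i : ι) (v : ι → ℝ), ∑ c, K c i * (K *ᵥ v) c = ((K * K) *ᵥ v) i := fun i v => by
    rw [← mulVec_mulVec]
    exact sum_congr rfl fun c _ => by rw [hK.apply i c]
  have h2 : ∀ i j : ι, ∑ c, K c i * K c j = (K * K) i j := fun i j => by
    rw [mul_apply]
    exact sum_congr rfl fun c _ => by rw [hK.apply i c]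
  set p := ph s K a b x with hp
  set q := ph s K b a x with hq
  set p' := ph s K a b y with hp'
  set q' := ph s K b a y with hq'
  set u : ι → ℝ := fun c => (K *ᵥ x) c + K c a * p + K c b * q with hu
  set v : ι → ℝ := fun c => (K *ᵥ y) c + K c a * p' + K c b * q' with hv
  have hua : u a = s * (x b + q) := mulVec_liftv_left hK hab hD x
  have hub : u b = s * (x a + p) := mulVec_liftv_right hK hab hD x
  have hva : v a = s * (y b + q') := mulVec_liftv_left hK hab hD y
  have hvb : v b = s * (y a + p') := mulVec_liftv_right hK hab hD y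
  have h3 : (stepM s K a b *ᵥ x) ⬝ᵥ (stepM s K a b *ᵥ y) = ∑ c, u c * v c -
      ∑ c, (if c = a then u c * v c else 0) - ∑ c, (if c = b then u c * v c else 0) := by
    simp only [dotProduct, ← sum_sub_distrib]
    refine sum_congr rfl fun c _ => ?_
    rw [stepM_mulVec hK hab hD, stepM_mulVec hK hab hD, ← hp, ← hq, ← hp', ← hq']
    by_cases hca : c = a
    · subst hca
      simp only [hab, if_true, if_false, ← hua, ← hva, hu, hv]
      ring
    · by_cases hcb : c = b
      · subst hcb
        simp only [hca, if_true, if_false, ← hub, ← hvb, hu, hv]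
        ring
      · simp only [hca, hcb, if_false, hu, hv]
        ring
  have h4 : ∑ c, u c * v c = ∑ c, (K *ᵥ x) c * (K *ᵥ y) c +
      (p * ∑ c, K c a * (K *ᵥ y) c + q * ∑ c, K c b * (K *ᵥ y) c) +
      (p' * ∑ c, K c a * (K *ᵥ x) c + q' * ∑ c, K c b * (K *ᵥ x) c) +
      (p * p' * ∑ c, K c a * K c a + q * q' * ∑ c, K c b * K c b +
        (p * q' + q * p') * ∑ c, K c a * K c b) := by
    simp only [mul_sum, ← sum_add_distrib]
    refine sum_congr rfl fun c _ => ?_
    simp only [hu, hv]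
    ring
  rw [h3, h4]
  simp only [sum_ite_eq', mem_univ, if_true, h1, h2, hua, hub, hva, hvb, dotProduct]
  linear_combination (-(x b + q) * (y b + q') - (x a + p) * (y a + p')) * hs

end Basic

section Blocks

/-- `(Zᵀ Y Z)_aa`; the `bb` entry is `gz s K Y b a`. -/
def gz (s : ℝ) (K Y : Matrix ι ι ℝ) (a b : ι) : ℝ :=
  (K * Y * K) a a - 2 * s * (K * Y) a b + Y b b

/-- `(Zᵀ Y Z)_ab`. -/
def go (s : ℝ) (K Y : Matrix ι ι ℝ) (a b : ι) : ℝ :=
  (K * Y * K) a b - s * ((K * Y) a a + (K * Y) b b) + Y a b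

/-- `(Zᵀ Y (K ^ 2 - 1) E)_aa`; the `bb` entry is `cz s K Y b a`. -/
def cz (s : ℝ) (K Y : Matrix ι ι ℝ) (a b : ι) : ℝ :=
  (K * Y * (K * K)) a a - (K * Y) a a - s * ((Y * (K * K)) b a - Y b a)

/-- `(Zᵀ Y (K ^ 2 - 1) E)_ab`; the `ba` entry is `co s K Y b a`. -/
def co (s : ℝ) (K Y : Matrix ι ι ℝ) (a b : ι) : ℝ :=
  (K * Y * (K * K)) a b - (K * Y) a b - s * ((Y * (K * K)) b b - Y b b)

/-- `(W ([K ^ 2] - 1) W)_aa`; the `bb` entry is `hz s K b a`. -/
noncomputable def hz (s : ℝ) (K : Matrix ι ι ℝ) (a b : ι) : ℝ :=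
  wd s K a b ^ 2 * ((K * K) a a - 1) + 2 * wd s K a b * wo s K a b * (K * K) a b +
    wo s K a b ^ 2 * ((K * K) b b - 1)

/-- `(W ([K ^ 2] - 1) W)_ab`. -/
noncomputable def ho (s : ℝ) (K : Matrix ι ι ℝ) (a b : ι) : ℝ :=
  wd s K a b * wo s K a b * ((K * K) a a - 1) +
    (wd s K a b * wd s K b a + wo s K a b ^ 2) * (K * K) a b +
    wo s K a b * wd s K b a * ((K * K) b b - 1)

/-- The `a` coordinate of `W Zᵀ G e_i`; the `b` coordinate is `phc s K G b a i`. -/
noncomputable def phc (s : ℝ) (K G : Matrix ι ι ℝ) (a b i : ι) : ℝ :=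
  wd s K a b * ((K * G) a i - s * G b i) + wo s K a b * ((K * G) b i - s * G a i)

end Blocks

section Traces

variable {s : ℝ} {K : Matrix ι ι ℝ} {a b : ι}

omit [DecidableEq ι] in
theorem mulVec_col (M Y : Matrix ι ι ℝ) (i j : ι) : (M *ᵥ fun c => Y c i) j = (M * Y) j i := rfl

omit [DecidableEq ι] in
theorem ph_col (s : ℝ) (K G : Matrix ι ι ℝ) (a b i : ι) :
    ph s K a b (fun c => G c i) = phc s K G a b i := rfl

omit [DecidableEq ι] in
theorem sandwich_eq_dot {A : Matrix ι ι ℝ} (hA : A.IsSymm) (X Y : Matrix ι ι ℝ) (i j : ι) :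
    (Xᵀ * (A * A) * Y) i j = (A *ᵥ fun c => X c i) ⬝ᵥ (A *ᵥ fun c => Y c j) := by
  rw [symm_dot hA, mulVec_mulVec, Matrix.mul_assoc, mul_apply]
  rfl

/-- Entries of `Xᵀ stepM Y`. -/
theorem sandwich_stepM (hK : K.IsSymm) (hab : a ≠ b) (hD : den s K a b ≠ 0)
    (X Y : Matrix ι ι ℝ) (i j : ι) :
    (Xᵀ * stepM s K a b * Y) i j = (Xᵀ * K * Y) i j - s * (X a i * Y b j + X b i * Y a j) +
      ((K * X) a i - s * X b i) * phc s K Y a b j + ((K * X) b i - s * X a i) * phc s K Y b a j := by
  have h1 : ∀ A : Matrix ι ι ℝ, (Xᵀ * A * Y) i j = (fun c => X c i) ⬝ᵥ (A *ᵥ fun c => Y c j) :=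
    fun A => by rw [Matrix.mul_assoc, mul_apply]; rfl
  rw [h1, h1, dot_stepM hK hab hD]
  rfl

/-- Entries of `Xᵀ stepM ^ 2 Y`. -/
theorem sandwich_stepM_sq (hs : s ^ 2 = 1) (hK : K.IsSymm) (hab : a ≠ b) (hD : den s K a b ≠ 0)
    (X Y : Matrix ι ι ℝ) (i j : ι) :
    (Xᵀ * (stepM s K a b * stepM s K a b) * Y) i j = (Xᵀ * (K * K) * Y) i j -
      X a i * Y a j - X b i * Y b j +
      (phc s K X a b i * ((K * K * Y) a j - Y a j) + phc s K X b a i * ((K * K * Y) b j - Y b j)) +
      (phc s K Y a b j * ((K * K * X) a i - X a i) + phc s K Y b a j * ((K * K * X) b i - X b i)) +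
      (phc s K X a b i * phc s K Y a b j * ((K * K) a a - 1) +
        phc s K X b a i * phc s K Y b a j * ((K * K) b b - 1) +
        (phc s K X a b i * phc s K Y b a j + phc s K X b a i * phc s K Y a b j) * (K * K) a b) := by
  rw [sandwich_eq_dot (stepM_isSymm hK s a b), sandwich_eq_dot hK, dot_stepM_sq hs hK hab hD]
  rfl

theorem phc_one (hK : K.IsSymm) (s : ℝ) (a b i : ι) :
    phc s K 1 a b i = wd s K a b * zv s K a b i + wo s K a b * zv s K b a i := by
  unfold phc zv
  rw [Matrix.mul_one, hK.apply a i, hK.apply b i, one_apply, one_apply]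
  simp only [eq_comm (a := i)]
  split_ifs <;> ring

theorem phc_one_of_ne (hK : K.IsSymm) (s : ℝ) {a b c : ι} (h1 : c ≠ a) (h2 : c ≠ b) :
    phc s K 1 a b c = wd s K a b * K c a + wo s K a b * K c b := by
  rw [phc_one hK]
  simp [zv, h1, h2]

omit [Fintype ι] in
/-- The new diagonal entries. -/
theorem stepM_diag (hK : K.IsSymm) {c : ι} (h1 : c ≠ a) (h2 : c ≠ b) :
    stepM s K a b c c = K c c + (wd s K a b * K c a ^ 2 + 2 * wo s K a b * (K c a * K c b) +
      wd s K b a * K c b ^ 2) := by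
  rw [stepM_of_ne s K h1 h2 h1 h2]
  unfold nxt wd wo
  rw [den_swap hK s a b, hK.apply c a, hK.apply c b]
  ring

/-- The new squared row norms, with `p = W_aa K_ca + W_ab K_cb`, `q = W_ab K_ca + W_bb K_cb`. -/
theorem stepM_sq_diag (hs : s ^ 2 = 1) (hK : K.IsSymm) (hab : a ≠ b) (hD : den s K a b ≠ 0)
    {c : ι} (h1 : c ≠ a) (h2 : c ≠ b) {p q : ℝ}
    (hp : p = wd s K a b * K c a + wo s K a b * K c b)
    (hq : q = wo s K a b * K c a + wd s K b a * K c b) :
    (stepM s K a b * stepM s K a b) c c = (K * K) c c +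
      (2 * (p * (K * K) c a + q * (K * K) c b) +
        (p ^ 2 * ((K * K) a a - 1) + q ^ 2 * ((K * K) b b - 1) + 2 * p * q * (K * K) a b)) := by
  have hKK : (K * K).IsSymm := by
    unfold IsSymm; rw [transpose_mul, hK.eq]
  have h := sandwich_stepM_sq hs hK hab hD 1 1 c c
  rw [phc_one_of_ne hK s h1 h2, phc_one_of_ne hK s h2 h1, wo_swap hK s a b] at h
  simp only [transpose_one, Matrix.one_mul, Matrix.mul_one, one_apply_ne h1.symm,
    one_apply_ne h2.symm] at h
  rw [h, hp, hq, hKK.apply c a, hKK.apply c b]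
  ring

theorem stepM_sq_diag_left (s : ℝ) (K : Matrix ι ι ℝ) (a b : ι) :
    (stepM s K a b * stepM s K a b) a a = 0 := by
  simp [mul_apply, stepM_row_left]

theorem stepM_sq_diag_right (s : ℝ) (K : Matrix ι ι ℝ) (a b : ι) :
    (stepM s K a b * stepM s K a b) b b = 0 := by
  simp [mul_apply, stepM_row_right]

theorem sum_mul_zv (s : ℝ) (K X : Matrix ι ι ℝ) (a b j : ι) :
    ∑ i, X j i * zv s K a b i = (X * K) j a - s * X j b := by
  unfold zv
  simp only [mul_sub, sum_sub_distrib, mul_ite, mul_zero, sum_ite_eq', mem_univ, if_true, mul_apply]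
  ring

theorem sum_phc_one_mul (hK : K.IsSymm) (s : ℝ) (X : Matrix ι ι ℝ) (a b j : ι) :
    ∑ i, phc s K 1 a b i * X j i = wd s K a b * ((X * K) j a - s * X j b) +
      wo s K a b * ((X * K) j b - s * X j a) := by
  rw [← sum_mul_zv, ← sum_mul_zv, mul_sum, mul_sum, ← sum_add_distrib]
  exact sum_congr rfl fun i _ => by rw [phc_one hK]; ring

omit [DecidableEq ι] in
theorem mul_apply_swap {A B : Matrix ι ι ℝ} (hA : A.IsSymm) (hB : B.IsSymm) (i j : ι) :
    (A * B) i j = (B * A) j i := by
  rw [mul_apply, mul_apply]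
  exact sum_congr rfl fun c _ => by rw [hA.apply i c, hB.apply c j]; ring

omit [DecidableEq ι] in
theorem mul3_apply_swap {A B C : Matrix ι ι ℝ} (hA : A.IsSymm) (hB : B.IsSymm) (hC : C.IsSymm)
    (i j : ι) : (A * B * C) i j = (C * B * A) j i := by
  have : (A * B * C)ᵀ = C * B * A := by
    rw [transpose_mul, transpose_mul, hA.eq, hB.eq, hC.eq, Matrix.mul_assoc]
  rw [← this, transpose_apply]

omit [DecidableEq ι] in
theorem isSymm_mul_self (hK : K.IsSymm) : (K * K).IsSymm := by
  unfold IsSymm; rw [transpose_mul, hK.eq]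

/-- Identity M1. -/
theorem trace_stepM_mul (hs : s ^ 2 = 1) (hK : K.IsSymm) (hab : a ≠ b) (hD : den s K a b ≠ 0)
    {Y : Matrix ι ι ℝ} (hY : Y.IsSymm) :
    trace (stepM s K a b * Y) = trace (K * Y) - 2 * s * Y a b +
      (wd s K a b * gz s K Y a b + 2 * wo s K a b * go s K Y a b + wd s K b a * gz s K Y b a) := by
  have h1 : ∀ i, (Y * stepM s K a b) i i = (Y * K) i i -
      s * (Y a i * (1 : Matrix ι ι ℝ) b i + Y b i * (1 : Matrix ι ι ℝ) a i) +
      (phc s K 1 a b i * (K * Y) a i - s * (phc s K 1 a b i * Y b i)) +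
      (phc s K 1 b a i * (K * Y) b i - s * (phc s K 1 b a i * Y a i)) := fun i => by
    have h := sandwich_stepM hK hab hD Y 1 i i
    rw [hY.eq, Matrix.mul_one, Matrix.mul_one] at h
    rw [h]; ring
  rw [trace_mul_comm, trace_mul_comm K Y]
  simp only [trace, diag_apply, h1, sum_add_distrib, sum_sub_distrib, ← mul_sum,
    sum_phc_one_mul hK, one_apply, mul_ite, mul_one, mul_zero, sum_ite_eq, mem_univ, if_true]
  unfold gz go
  rw [wo_swap hK s a b, mul_apply_swap hY hK b a, mul_apply_swap hY hK b b,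
    mul_apply_swap hY hK a b, mul_apply_swap hY hK a a, hY.apply a b,
    mul3_apply_swap hK hY hK b a]
  linear_combination (wd s K a b * Y b b + wd s K b a * Y a a + 2 * wo s K a b * Y a b) * hs

/-- Identity M1 for a matrix `Y` whose rows `a` and `b` vanish. -/
theorem trace_stepM_mul_of_zero (hs : s ^ 2 = 1) (hK : K.IsSymm) (hab : a ≠ b)
    (hD : den s K a b ≠ 0) {Y : Matrix ι ι ℝ} (hY : Y.IsSymm) (ha : ∀ e, Y a e = 0)
    (hb : ∀ e, Y b e = 0) :
    trace (stepM s K a b * Y) = trace (K * Y) +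
      (wd s K a b * (K * Y * K) a a + 2 * wo s K a b * (K * Y * K) a b +
        wd s K b a * (K * Y * K) b b) := by
  have h1 : ∀ i, (K * Y) i a = 0 := fun i => by
    rw [mul_apply]; exact sum_eq_zero fun c _ => by rw [← hY.apply c a, ha, mul_zero]
  have h2 : ∀ i, (K * Y) i b = 0 := fun i => by
    rw [mul_apply]; exact sum_eq_zero fun c _ => by rw [← hY.apply c b, hb, mul_zero]
  rw [trace_stepM_mul hs hK hab hD hY]
  unfold gz go
  rw [h1, h1, h2, h2, ha, ha, hb]
  ring

/-- Identity M2. -/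
theorem trace_stepM_sq_mul (hs : s ^ 2 = 1) (hK : K.IsSymm) (hab : a ≠ b) (hD : den s K a b ≠ 0)
    {Y : Matrix ι ι ℝ} (hY : Y.IsSymm) :
    trace (stepM s K a b * stepM s K a b * Y) = trace (K * K * Y) - Y a a - Y b b +
      2 * (wd s K a b * cz s K Y a b + wo s K a b * (co s K Y a b + co s K Y b a) +
        wd s K b a * cz s K Y b a) +
      (hz s K a b * gz s K Y a b + 2 * ho s K a b * go s K Y a b + hz s K b a * gz s K Y b a) := by
  have hN := isSymm_mul_self hK
  set N := K * K with hNdef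
  have h1 : ∀ i, (stepM s K a b * stepM s K a b * Y) i i = (N * Y) i i -
      (1 : Matrix ι ι ℝ) a i * Y a i - (1 : Matrix ι ι ℝ) b i * Y b i +
      (phc s K 1 a b i * (N * Y) a i - phc s K 1 a b i * Y a i +
        (phc s K 1 b a i * (N * Y) b i - phc s K 1 b a i * Y b i)) +
      (wd s K a b * ((K * Y) a i * N i a) - wd s K a b * s * (Y b i * N i a) +
        wo s K a b * ((K * Y) b i * N i a) - wo s K a b * s * (Y a i * N i a) -
        (1 : Matrix ι ι ℝ) a i * phc s K Y a b i +
       (wd s K b a * ((K * Y) b i * N i b) - wd s K b a * s * (Y a i * N i b) +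
        wo s K a b * ((K * Y) a i * N i b) - wo s K a b * s * (Y b i * N i b) -
        (1 : Matrix ι ι ℝ) b i * phc s K Y b a i)) +
      ((wd s K a b * (N a a - 1) + wo s K a b * N a b) *
          (phc s K 1 a b i * (K * Y) a i - s * (phc s K 1 a b i * Y b i)) +
        (wo s K a b * (N a a - 1) + wd s K b a * N a b) *
          (phc s K 1 a b i * (K * Y) b i - s * (phc s K 1 a b i * Y a i)) +
        (wd s K a b * N a b + wo s K a b * (N b b - 1)) *
          (phc s K 1 b a i * (K * Y) a i - s * (phc s K 1 b a i * Y b i)) +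
        (wo s K a b * N a b + wd s K b a * (N b b - 1)) *
          (phc s K 1 b a i * (K * Y) b i - s * (phc s K 1 b a i * Y a i))) := fun i => by
    have h := sandwich_stepM_sq hs hK hab hD 1 Y i i
    rw [transpose_one, Matrix.one_mul, Matrix.one_mul, Matrix.mul_one, ← hNdef] at h
    rw [h, hN.apply a i, hN.apply b i]
    simp only [phc, wo_swap hK s a b]
    ring
  have h2 : ∀ (X : Matrix ι ι ℝ) (j l : ι), ∑ i, X j i * N i l = (X * N) j l := fun X j l =>
    (mul_apply).symm
  simp only [trace, diag_apply, h1, sum_add_distrib, sum_sub_distrib, ← mul_sum,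
    sum_phc_one_mul hK, one_apply, ite_mul, one_mul, zero_mul, sum_ite_eq, mem_univ, if_true, h2]
  unfold gz go cz co hz ho phc
  rw [← hNdef, wo_swap hK s a b, mul_apply_swap hY hK b a, mul_apply_swap hY hK b b,
    mul_apply_swap hY hK a b, mul_apply_swap hY hK a a, hY.apply a b, hN.apply a b,
    mul3_apply_swap hK hY hK b a, mul3_apply_swap hN hY hK a a, mul3_apply_swap hN hY hK a b,
    mul3_apply_swap hN hY hK b a, mul3_apply_swap hN hY hK b b, mul_apply_swap hN hY a a,
    mul_apply_swap hN hY a b, mul_apply_swap hN hY b a, mul_apply_swap hN hY b b]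
  rcases sgn_cases hs with rfl | rfl <;> ring

/-- Identity M3, first half: the last factor is a second kernel `G` with its own sign. -/
theorem trace_stepM_sq_mul_stepM {s' : ℝ} {G : Matrix ι ι ℝ} (hK : K.IsSymm) (hab : a ≠ b)
    (hs' : s' ^ 2 = 1) (hG : G.IsSymm) (hD' : den s' G a b ≠ 0) :
    trace (stepM s K a b * stepM s K a b * stepM s' G a b) =
      trace (stepM s K a b * stepM s K a b * G) +
      (wd s' G a b * (G * (stepM s K a b * stepM s K a b) * G) a a +
        2 * wo s' G a b * (G * (stepM s K a b * stepM s K a b) * G) a b +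
        wd s' G b a * (G * (stepM s K a b * stepM s K a b) * G) b b) := by
  rw [trace_mul_comm _ (stepM s' G a b), trace_mul_comm _ G]
  refine trace_stepM_mul_of_zero hs' hG hab hD' (isSymm_mul_self (stepM_isSymm hK s a b)) ?_ ?_
  · intro e; simp [mul_apply, stepM_row_left]
  · intro e; simp [mul_apply, stepM_row_right]

/-- Identity M3, second half. -/
theorem conj_stepM_sq (hs : s ^ 2 = 1) (hK : K.IsSymm) (hab : a ≠ b) (hD : den s K a b ≠ 0)
    {G : Matrix ι ι ℝ} (hG : G.IsSymm) (i j : ι) :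
    (G * (stepM s K a b * stepM s K a b) * G) i j = (G * (K * K) * G) i j -
      G a i * G a j - G b i * G b j +
      (phc s K G a b i * ((K * K * G) a j - G a j) + phc s K G b a i * ((K * K * G) b j - G b j)) +
      (phc s K G a b j * ((K * K * G) a i - G a i) + phc s K G b a j * ((K * K * G) b i - G b i)) +
      (phc s K G a b i * phc s K G a b j * ((K * K) a a - 1) +
        phc s K G b a i * phc s K G b a j * ((K * K) b b - 1) +
        (phc s K G a b i * phc s K G b a j + phc s K G b a i * phc s K G a b j) * (K * K) a b) := by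
  have h := sandwich_stepM_sq hs hK hab hD G G i j
  rwa [hG.eq] at h

end Traces

section Scalar

/-- The coefficient `ρ₁` of the generating function of the trace increments. -/
def rho1 (s : ℝ) (K : Matrix ι ι ℝ) (a b : ι) : ℝ :=
  K a a + K b b - K a a * (K ^ 2) b b - (K ^ 2) a a * K b b - 2 * (K ^ 2) a b * (s - K a b)

/-- The coefficient `ρ₂`. -/
def rho2 (s : ℝ) (K : Matrix ι ι ℝ) (a b : ι) : ℝ :=
  (K ^ 2) a a + (K ^ 2) b b - (K ^ 2) a a * (K ^ 2) b b + K a a * K b b - K a a * (K ^ 3) b b -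
    (K ^ 3) a a * K b b - 2 * (K ^ 3) a b * (s - K a b) + (K ^ 2) a b ^ 2 - K a b ^ 2

/-- The coefficient `ρ₃`. -/
def rho3 (s : ℝ) (K : Matrix ι ι ℝ) (a b : ι) : ℝ :=
  (K ^ 3) a a + (K ^ 3) b b - (K ^ 2) a a * (K ^ 3) b b - (K ^ 3) a a * (K ^ 2) b b +
    K a a * (K ^ 2) b b + (K ^ 2) a a * K b b - K a a * (K ^ 4) b b - (K ^ 4) a a * K b b -
    2 * (K ^ 4) a b * (s - K a b) + 2 * (K ^ 2) a b * (K ^ 3) a b - 2 * K a b * (K ^ 2) a b

variable {s : ℝ} {K : Matrix ι ι ℝ} {a b : ι}

theorem rho1_swap (hK : K.IsSymm) (s : ℝ) (a b : ι) : rho1 s K b a = rho1 s K a b := by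
  unfold rho1
  rw [hK.apply a b, (hK.pow 2).apply a b]
  ring

theorem rho2_swap (hK : K.IsSymm) (s : ℝ) (a b : ι) : rho2 s K b a = rho2 s K a b := by
  unfold rho2
  rw [hK.apply a b, (hK.pow 2).apply a b, (hK.pow 3).apply a b]
  ring

theorem rho3_swap (hK : K.IsSymm) (s : ℝ) (a b : ι) : rho3 s K b a = rho3 s K a b := by
  unfold rho3
  rw [hK.apply a b, (hK.pow 2).apply a b, (hK.pow 3).apply a b, (hK.pow 4).apply a b]
  ring

/-- The increment of the trace. -/
theorem trace_stepM (hs : s ^ 2 = 1) (hK : K.IsSymm) (hab : a ≠ b) (hD : den s K a b ≠ 0) :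
    trace (stepM s K a b) = trace K - rho1 s K a b / den s K a b := by
  have h := trace_stepM_mul hs hK hab hD (isSymm_one (n := ι) (α := ℝ))
  rw [Matrix.mul_one, Matrix.mul_one] at h
  rw [h]
  have hD' : den s K a b = (s - K a b) ^ 2 - K a a * K b b := rfl
  unfold gz go wd wo rho1
  simp only [Matrix.mul_one, one_apply_eq, one_apply_ne hab, ← pow_two]
  rw [den_swap hK s a b, hK.apply a b]
  field_simp
  rcases sgn_cases hs with rfl | rfl <;> ring

/-- The increment of the trace of the square. -/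
theorem trace_stepM_sq (hs : s ^ 2 = 1) (hK : K.IsSymm) (hab : a ≠ b) (hD : den s K a b ≠ 0) :
    trace (stepM s K a b ^ 2) = trace (K ^ 2) - 2 * (rho2 s K a b / den s K a b) +
      (rho1 s K a b / den s K a b) ^ 2 := by
  have h := trace_stepM_sq_mul hs hK hab hD (isSymm_one (n := ι) (α := ℝ))
  rw [Matrix.mul_one, Matrix.mul_one, ← pow_two, ← pow_two] at h
  rw [h]
  have hD' : den s K a b = (s - K a b) ^ 2 - K a a * K b b := rfl
  have h3 : K * K ^ 2 = K ^ 3 := by rw [← pow_succ']
  unfold gz go cz co hz ho wd wo rho1 rho2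
  simp only [Matrix.mul_one, Matrix.one_mul, one_apply_eq, one_apply_ne hab, one_apply_ne hab.symm,
    ← pow_two, h3]
  rw [den_swap hK s a b, hK.apply a b, (hK.pow 2).apply a b, (hK.pow 3).apply a b]
  field_simp
  rw [hD']
  rcases sgn_cases hs with rfl | rfl <;> ring

/-- The increment of the trace of the cube. -/
theorem trace_stepM_cube (hs : s ^ 2 = 1) (hK : K.IsSymm) (hab : a ≠ b) (hD : den s K a b ≠ 0) :
    trace (stepM s K a b ^ 3) = trace (K ^ 3) - 3 * (rho3 s K a b / den s K a b) +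
      3 * (rho1 s K a b / den s K a b) * (rho2 s K a b / den s K a b) -
      (rho1 s K a b / den s K a b) ^ 3 := by
  have h := trace_stepM_sq_mul_stepM (s := s) hK hab hs hK hD
  rw [trace_stepM_sq_mul hs hK hab hD hK, conj_stepM_sq hs hK hab hD hK,
    conj_stepM_sq hs hK hab hD hK, conj_stepM_sq hs hK hab hD hK] at h
  have e3 : ∀ A : Matrix ι ι ℝ, A * A * A = A ^ 3 := fun A => by rw [pow_succ, pow_two]
  have h3 : K * K ^ 2 = K ^ 3 := by rw [← pow_succ']
  have h3' : K ^ 2 * K = K ^ 3 := by rw [← pow_succ]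
  have h4 : K ^ 3 * K = K ^ 4 := by rw [← pow_succ]
  have h4' : (K ^ 2) ^ 2 = K ^ 4 := by rw [← pow_mul]
  rw [e3 (stepM s K a b)] at h
  rw [h]
  have hD' : den s K a b = (s - K a b) ^ 2 - K a a * K b b := rfl
  unfold gz go cz co hz ho phc wd wo rho1 rho2 rho3
  simp only [← pow_two, h3, h3', h4, h4']
  rw [den_swap hK s a b, hK.apply a b, (hK.pow 2).apply a b, (hK.pow 3).apply a b,
    (hK.pow 4).apply a b]
  field_simp
  rw [hD']
  rcases sgn_cases hs with rfl | rfl <;> ring

end Scalar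

section Restrict

variable {κ : Type*} [Fintype κ] {j : κ → ι}

/-- A matrix whose columns outside the range of `j` vanish. -/
def ColSupp (j : κ → ι) (M : Matrix ι ι ℝ) : Prop := ∀ c e, e ∉ Set.range j → M c e = 0

omit [DecidableEq ι] in
theorem sum_eq_sum_comp (hj : Function.Injective j) {f : ι → ℝ}
    (hf : ∀ e, e ∉ Set.range j → f e = 0) : ∑ e, f e = ∑ x, f (j x) := by
  classical
  rw [← sum_image (s := univ) (g := j) (f := f) fun x _ y _ h => hj h]
  refine (sum_subset (subset_univ _) fun e _ he => hf e ?_).symm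
  rintro ⟨x, rfl⟩
  exact he (mem_image_of_mem _ (mem_univ x))

omit [DecidableEq ι] [Fintype κ] in
theorem ColSupp.mul {N : Matrix ι ι ℝ} (hN : ColSupp j N) (M : Matrix ι ι ℝ) :
    ColSupp j (M * N) := fun c e he => by
  rw [mul_apply]
  exact sum_eq_zero fun x _ => by rw [hN x e he, mul_zero]

omit [DecidableEq ι] in
theorem ColSupp.submatrix_mul (hj : Function.Injective j) {M : Matrix ι ι ℝ} (hM : ColSupp j M)
    (N : Matrix ι ι ℝ) : (M * N).submatrix j j = M.submatrix j j * N.submatrix j j := by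
  ext x y
  simp only [submatrix_apply, mul_apply]
  exact sum_eq_sum_comp hj fun e he => by rw [hM _ e he, zero_mul]

omit [DecidableEq ι] in
theorem ColSupp.trace_eq (hj : Function.Injective j) {M : Matrix ι ι ℝ} (hM : ColSupp j M) :
    trace M = trace (M.submatrix j j) :=
  sum_eq_sum_comp hj fun e he => hM e e he

omit [Fintype ι] [Fintype κ] in
theorem colSupp_stepM (s : ℝ) (K : Matrix ι ι ℝ) {a b : ι}
    (hj : ∀ e, e ≠ a → e ≠ b → e ∈ Set.range j) : ColSupp j (stepM s K a b) := fun c e he => by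
  by_cases h1 : e = a
  · rw [h1, stepM_col_left]
  · by_cases h2 : e = b
    · rw [h2, stepM_col_right]
    · exact absurd (hj e h1 h2) he

end Restrict

end Vale.Agent.P049
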