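import Vale.Agent.P049.Count
import Vale.Agent.P049.Ident
import Mathlib.NumberTheory.Harmonic.Bounds

/-!
# The reduction of the problem to a statement about two matrices

The potential is a function of the number of free half-edges and of finitely many statistics of
the two kernels.  The counting potentials and the budget for the increments are added here.
-/

namespace Vale.Agent.P049

open Finset Vale.Agent.Lib.PolyTime

/-- The statistics on which the potential may depend. -/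
@[ext]
structure Stats (K : Type*) where
  /-- `tr A` -/
  a1 : K
  /-- `tr B` -/
  b1 : K
  /-- `tr A²` -/
  a2 : K
  /-- `tr B²` -/
  b2 : K
  /-- `tr A³` -/
  a3 : K
  /-- `tr B³` -/
  b3 : K
  /-- `tr A² B` -/
  aab : K
  /-- `tr B² A` -/
  bba : K
  /-- `tr A² B²` -/
  aabb : K
  /-- `∑ (A²)_cc ^ 2` -/
  ra : K
  /-- `∑ (B²)_cc ^ 2` -/
  rb : K
  /-- `∑ A_cc ^ 2` -/
  da : K
  /-- `∑ B_cc ^ 2` -/
  db : K

/-- The statistics of two matrices. -/
noncomputable def mstats {ι : Type*} [Fintype ι] (A B : Matrix ι ι ℝ) : Stats ℝ where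
  a1 := A.trace
  b1 := B.trace
  a2 := (A * A).trace
  b2 := (B * B).trace
  a3 := (A * A * A).trace
  b3 := (B * B * B).trace
  aab := (A * A * B).trace
  bba := (B * B * A).trace
  aabb := (A * A * (B * B)).trace
  ra := ∑ c, (A * A) c c ^ 2
  rb := ∑ c, (B * B) c c ^ 2
  da := ∑ c, A c c ^ 2
  db := ∑ c, B c c ^ 2

/-- The statistics of two kernels on `range N`. -/
def kstats {K : Type*} [CommRing K] (N : ℕ) (A B : ℕ → ℕ → K) : Stats K where
  a1 := ktr N A
  b1 := ktr N B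
  a2 := ktr N (kmul N A A)
  b2 := ktr N (kmul N B B)
  a3 := ktr N (kmul N (kmul N A A) A)
  b3 := ktr N (kmul N (kmul N B B) B)
  aab := ktr N (kmul N (kmul N A A) B)
  bba := ktr N (kmul N (kmul N B B) A)
  aabb := ktr N (kmul N (kmul N A A) (kmul N B B))
  ra := kdg N (kmul N A A) (kmul N A A)
  rb := kdg N (kmul N B B) (kmul N B B)
  da := kdg N A A
  db := kdg N B B

/-- The real statistics of rational statistics. -/
def Stats.cast (S : Stats ℚ) : Stats ℝ :=
  ⟨S.a1, S.b1, S.a2, S.b2, S.a3, S.b3, S.aab, S.bba, S.aabb, S.ra, S.rb, S.da, S.db⟩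

theorem cast_kstats (N : ℕ) (A B : ℕ → ℕ → ℚ) :
    (kstats N A B).cast = kstats N (cst A) (cst B) := by
  ext <;> simp only [Stats.cast, kstats, cast_ktr, cast_kdg, cst_kmul]

theorem kstats_eq {H : Finset ℕ} {N : ℕ} (hH : H ⊆ range N) {A B : ℕ → ℕ → ℝ} (hA : Supp H A)
    (hB : Supp H B) : kstats N A B = mstats (subM H A) (subM H B) := by
  have hAA := hA.kmul hA N
  have hBB := hB.kmul hB N
  ext <;> simp only [kstats, mstats, ktr_eq hH hA, ktr_eq hH hB, ktr_eq hH hAA, ktr_eq hH hBB,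
    ktr_eq hH (hAA.kmul hA N), ktr_eq hH (hAA.kmul hB N), ktr_eq hH (hBB.kmul hA N),
    ktr_eq hH (hBB.kmul hB N), ktr_eq hH (hAA.kmul hBB N), kdg_eq hH hA, kdg_eq hH hB,
    kdg_eq hH hAA, kdg_eq hH hBB, subM_kmul hH hA, subM_kmul hH hB, subM_kmul hH hAA,
    subM_kmul hH hBB, sq]

/-- All statistics are computable in polynomial time. -/
structure PTStats {α : Type*} [Enc α] (S : α → Stats ℚ) : Prop where
  a1 : PT ∅ fun x => (S x).a1
  b1 : PT ∅ fun x => (S x).b1
  a2 : PT ∅ fun x => (S x).a2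
  b2 : PT ∅ fun x => (S x).b2
  a3 : PT ∅ fun x => (S x).a3
  b3 : PT ∅ fun x => (S x).b3
  aab : PT ∅ fun x => (S x).aab
  bba : PT ∅ fun x => (S x).bba
  aabb : PT ∅ fun x => (S x).aabb
  ra : PT ∅ fun x => (S x).ra
  rb : PT ∅ fun x => (S x).rb
  da : PT ∅ fun x => (S x).da
  db : PT ∅ fun x => (S x).db

theorem ptStats_kstats {α : Type*} [Enc α] {N : α → ℕ} (hN : PT ∅ N) (hNb : PBd N)
    {A B : α → ℕ → ℕ → ℚ} (hA : PK A) (hB : PK B) : PTStats fun x => kstats (N x) (A x) (B x) := by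
  have hAA := PK.kmul hN hNb hA hA
  have hBB := PK.kmul hN hNb hB hB
  exact ⟨PK.ktr hN hNb hA, PK.ktr hN hNb hB, PK.ktr hN hNb hAA, PK.ktr hN hNb hBB,
    PK.ktr hN hNb (PK.kmul hN hNb hAA hA), PK.ktr hN hNb (PK.kmul hN hNb hBB hB),
    PK.ktr hN hNb (PK.kmul hN hNb hAA hB), PK.ktr hN hNb (PK.kmul hN hNb hBB hA),
    PK.ktr hN hNb (PK.kmul hN hNb hAA hBB), PK.kdg hN hNb hAA hAA, PK.kdg hN hNb hBB hBB,
    PK.kdg hN hNb hA hA, PK.kdg hN hNb hB hB⟩

theorem subM_next' (s : ℝ) (H : Finset ℕ) (F : ℕ → ℕ → ℝ) (a b : H) :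
    subM H (res (rest H a b) (nxt s F a b)) = stepM s (subM H F) a b := by
  rw [subM_next]
  ext c e
  rw [stepM_eq_res]
  rfl

/-- The initial matrix. -/
noncomputable def iniM (s m p : ℝ) (d N : ℕ) : Matrix (range N) (range N) ℝ :=
  subM (range N) (ini s m p d N)

theorem subM_res (H : Finset ℕ) (F : ℕ → ℕ → ℝ) : subM H (res H F) = subM H F := by
  ext c e
  exact res_of_mem F c.2 e.2

/-- What has to be proved about the potential `Ψ` for `N` half-edges. -/
structure MatPot (d N : ℕ) (m p y : ℝ) (k₀ : ℕ) (Ψ : ℕ → Stats ℝ → ℝ) : Prop where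
  nonneg : ∀ (ι : Type) [Fintype ι] [DecidableEq ι] (A B : Matrix ι ι ℝ), Ker 1 m univ A →
    Ker (-1) m univ B → k₀ ≤ Fintype.card ι + 1 → Fintype.card ι ≤ N →
    0 ≤ Ψ (Fintype.card ι) (mstats A B)
  init : Ψ N (mstats (iniM 1 m p d N) (iniM (-1) m p d N)) ≤ 1 / 2
  step : ∀ (ι : Type) [Fintype ι] [DecidableEq ι] (A B : Matrix ι ι ℝ) (Fb : ι → ι → Prop)
    [DecidableRel Fb], Ker 1 m univ A → Ker (-1) m univ B → (∀ a, Fb a a) →
    (∀ a b, Fb a b → Fb b a) → (∀ a, (univ.filter (Fb a)).card ≤ d + d ^ 2) →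
    k₀ < Fintype.card ι → Fintype.card ι ≤ N → Ψ (Fintype.card ι) (mstats A B) ≤ 1 →
    ∃ w : ι → ι → ℝ, (∀ a b, 0 ≤ w a b) ∧ (∀ a b, w a b ≤ 2) ∧ (∀ a b, w a b = w b a) ∧
      (∀ a b, w a b ≠ 0 → ¬ Fb a b ∧ 0 < den 1 A a b ∧ 0 < den (-1) B a b) ∧
      (∀ a, ∑ b, |w a b - 1| ≤ 1 / y * Fintype.card ι) ∧
      ∑ a, ∑ b, w a b * (Ψ (Fintype.card ι - 2) (mstats (stepM 1 A a b) (stepM (-1) B a b)) -
        Ψ (Fintype.card ι) (mstats A B)) ≤ Fintype.card ι / y
  final : ∀ (ι : Type) [Fintype ι] [DecidableEq ι] (A B : Matrix ι ι ℝ), Ker 1 m univ A →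
    Ker (-1) m univ B → k₀ ≤ Fintype.card ι + 1 → Fintype.card ι ≤ k₀ →
    Ψ (Fintype.card ι) (mstats A B) ≤ 1 →
    (∀ x : ι → ℝ, ∑ i, x i = 0 → qf univ A x ≤ ∑ i, x i ^ 2) ∧
      ∀ x : ι → ℝ, ∑ i, x i = 0 → qf univ B x ≤ ∑ i, x i ^ 2

/-- The full potential. -/
def fullPot {K : Type*} [Field K] (d N : ℕ) (y : K) (Ψ : ℕ → Stats K → K) (π : ℕ → ℕ)
    (A B : ℕ → ℕ → K) : K :=
  Ψ (alive N π).card (kstats N A B) + cntL K d N π / (y * d / N * ((alive N π).card : K) ^ 2) +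
    cntB K d N π / (y ^ 3 * d ^ 2 / N * ((alive N π).card : K) ^ 2) +
    200 / y * ∑ j ∈ range (alive N π).card, 1 / ((j : K) + 1)

theorem exists_le_of_avg {ι : Type*} [Fintype ι] {w Δ : ι → ι → ℝ} (hw : ∀ a b, 0 ≤ w a b)
    (hZ : 0 < ∑ a, ∑ b, w a b) (h : ∑ a, ∑ b, w a b * Δ a b ≤ 0) :
    ∃ a b, w a b ≠ 0 ∧ Δ a b ≤ 0 := by
  by_contra hno
  push Not at hno
  obtain ⟨a, -, ha⟩ := exists_lt_of_sum_lt (s := univ) (f := fun _ => (0 : ℝ))
    (g := fun a => ∑ b, w a b) (by simpa using hZ)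
  obtain ⟨b, -, hb⟩ := exists_lt_of_sum_lt (s := univ) (f := fun _ => (0 : ℝ))
    (g := fun b => w a b) (by simpa using ha)
  have h1 : ∀ a b, 0 ≤ w a b * Δ a b := fun a b => by
    by_cases h0 : w a b = 0
    · simp [h0]
    · exact mul_nonneg (hw a b) (hno a b h0).le
  have h2 : 0 < ∑ a, ∑ b, w a b * Δ a b :=
    sum_pos' (fun a _ => sum_nonneg fun b _ => h1 a b) ⟨a, mem_univ _,
      sum_pos' (fun b _ => h1 a b) ⟨b, mem_univ _, mul_pos hb (hno a b hb.ne')⟩⟩
  linarith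

theorem harm_nonneg (k : ℕ) : 0 ≤ ∑ j ∈ range k, 1 / ((j : ℝ) + 1) :=
  sum_nonneg fun _ _ => by positivity

theorem harm_le (k : ℕ) : ∑ j ∈ range k, 1 / ((j : ℝ) + 1) ≤ 1 + Real.log k := by
  have := harmonic_le_one_add_log k
  simpa [harmonic] using this

theorem goodPot_of_matPot {d n k₀ : ℕ} {m p y : ℝ} {Ψ : ℕ → Stats ℝ → ℝ} (hd : 0 < d)
    (he : Even (d * n)) (hm : m ^ 2 < 1) (hp : 0 < p)
    (hz : m * d + (1 - m ^ 2) / p ≤ 2 * √((d : ℝ) - 1)) (hk4 : 4 ≤ k₀) (hkN : k₀ ≤ n * d)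
    (hy : 1000 * (1 + Real.log (n * d : ℕ)) ≤ y) (hend : y ^ 3 * d ^ 2 * k₀ ^ 2 < (n * d : ℕ))
    (h : MatPot d (n * d) m p y k₀ Ψ) :
    GoodPot d n m p 0 ((n * d - k₀ + 1) / 2) (fullPot d (n * d) y Ψ) := by
  obtain ⟨N, hNdef⟩ : ∃ N, N = n * d := ⟨_, rfl⟩
  rw [← hNdef] at hkN hy hend h
  have hN4 : 4 ≤ N := hk4.trans hkN
  have hN0 : (0 : ℝ) < N := by exact_mod_cast (by omega : 0 < N)
  have hd1 : (1 : ℝ) ≤ d := by exact_mod_cast hd
  have hlog : 0 ≤ Real.log N := Real.log_natCast_nonneg N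
  have hy1 : 1000 ≤ y := by linarith
  have hy0 : 0 < y := by linarith
  have hev : N % 2 = 0 := by rw [hNdef, Nat.mul_comm]; exact Nat.even_iff.1 he
  have hlam : 0 < y * d / N := by positivity
  have hbet : 0 < y ^ 3 * d ^ 2 / N := by positivity
  -- the parts of the potential are bounded
  have parts : ∀ π A B, Ker 1 m (alive N π) A → Ker (-1) m (alive N π) B →
      k₀ ≤ (alive N π).card + 1 → fullPot d N y Ψ π A B ≤ 1 →
      Ψ (Fintype.card (alive N π)) (mstats (subM _ A) (subM (alive N π) B)) ≤ 1 ∧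
      cntL ℝ d N π ≤ y * d / N * ((alive N π).card : ℝ) ^ 2 ∧
      cntB ℝ d N π ≤ y ^ 3 * d ^ 2 / N * ((alive N π).card : ℝ) ^ 2 := by
    intro π A B hA hB hk h1
    have hc : (0 : ℝ) < (alive N π).card := by exact_mod_cast (by omega : 0 < (alive N π).card)
    have h0 := h.nonneg _ _ _ hA.subM hB.subM (by rwa [Fintype.card_coe])
      (by rw [Fintype.card_coe]; exact card_alive_le N π)
    unfold fullPot at h1
    rw [kstats_eq (alive_subset N π) hA.toSupp hB.toSupp] at h1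
    rw [Fintype.card_coe] at h0 ⊢
    have n1 : 0 ≤ cntL ℝ d N π / (y * d / N * ((alive N π).card : ℝ) ^ 2) :=
      div_nonneg (cntL_nonneg ..) (by positivity)
    have n2 : 0 ≤ cntB ℝ d N π / (y ^ 3 * d ^ 2 / N * ((alive N π).card : ℝ) ^ 2) :=
      div_nonneg (cntB_nonneg ..) (by positivity)
    have n3 : 0 ≤ 200 / y * ∑ j ∈ range (alive N π).card, 1 / ((j : ℝ) + 1) :=
      mul_nonneg (by positivity) (harm_nonneg _)
    refine ⟨by linarith, ?_, ?_⟩
    · rw [← div_le_one (by positivity)]; linarith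
    · rw [← div_le_one (by positivity)]; linarith
  refine ⟨hm, hp, hz, le_rfl, by omega, ?_, ?_, ?_⟩ <;> rw [← hNdef]
  · have h1 := h.init
    unfold fullPot
    rw [kstats_eq subset_rfl (supp_res subset_rfl _) (supp_res subset_rfl _), subM_res, subM_res,
      alive_const, card_range]
    have b1 := cntB_le_ini hd N
    have b2 := (cntL_le_cntB d N fun _ => N).trans b1
    have b3 : cntL ℝ d N (fun _ => N) / (y * d / N * (N : ℝ) ^ 2) ≤ 1 / 1000 := by
      rw [div_le_iff₀ (by positivity)]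
      have e : 1 / 1000 * (y * d / N * (N : ℝ) ^ 2) = y / 1000 * (N * d) := by field_simp
      rw [e]
      exact b2.trans (le_mul_of_one_le_left (by positivity) (by linarith))
    have b4 : cntB ℝ d N (fun _ => N) / (y ^ 3 * d ^ 2 / N * (N : ℝ) ^ 2) ≤ 1 / 1000 := by
      rw [div_le_iff₀ (by positivity)]
      have e : 1 / 1000 * (y ^ 3 * d ^ 2 / N * (N : ℝ) ^ 2) = y / 1000 * y ^ 2 * d * (N * d) := by
        field_simp
      rw [e]
      refine b1.trans (le_mul_of_one_le_left (by positivity) ?_)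
      have a1 : 1 ≤ y / 1000 := by linarith
      have a2 : 1 ≤ y ^ 2 := by nlinarith
      exact one_le_mul_of_one_le_of_one_le (one_le_mul_of_one_le_of_one_le a1 a2) hd1
    have b5 : 200 / y * ∑ j ∈ range N, 1 / ((j : ℝ) + 1) ≤ 1 / 5 := by
      refine (mul_le_mul_of_nonneg_left (harm_le N) (by positivity)).trans ?_
      rw [div_mul_eq_mul_div, div_le_iff₀ hy0]
      linarith
    unfold iniM at h1
    rw [mul_zero]
    linarith
  · intro π A B hπ hA hB hk hev2 h1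
    have hkk : k₀ < (alive N π).card := by omega
    obtain ⟨p1, p2, p3⟩ := parts π A B hA hB (by omega) h1
    have hFb : ∀ a : alive N π,
        (univ.filter fun b : alive N π => Forb d N π a b).card ≤ d + d ^ 2 := fun a => by
      refine le_trans ?_ (card_forb_le hd N π (alive N π) a)
      refine card_le_card_of_injOn (fun b => (b : ℕ)) (fun b hb => ?_)
        (fun b _ c _ hbc => Subtype.ext hbc)
      exact mem_coe.2 (mem_filter.2 ⟨b.2, (mem_filter.1 (mem_coe.1 hb)).2⟩)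
    obtain ⟨w, w0, w2, ws, wF, wr, wd⟩ := h.step (alive N π) (subM _ A) (subM _ B)
      (fun a b => Forb d N π a b) hA.subM hB.subM (fun a => Forb.refl ..)
      (fun a b hab => hab.symm hπ) hFb (by rwa [Fintype.card_coe])
      (by rw [Fintype.card_coe]; exact card_alive_le N π) p1
    have hc4 : 4 ≤ Fintype.card (alive N π) := by rw [Fintype.card_coe]; omega
    have d1 := drift_cntL (by positivity : 0 ≤ 1 / y) w0 ws wr (fun a b hab => (wF a b hab).1) hc4
      hlam (by rw [Fintype.card_coe]; exact p2)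
    have d2 := drift_cntB hπ (by positivity : 0 ≤ 1 / y) w0 w2 ws wr
      (fun a b hab => (wF a b hab).1) hc4 hbet (by rw [Fintype.card_coe]; exact p2)
      (by rw [Fintype.card_coe]; exact p3)
    have hZ := total_ge wr
    rw [Fintype.card_coe] at d1 d2 hZ wd hc4
    set k := (alive N π).card with hkdef
    have hk4' : (4 : ℝ) ≤ k := by exact_mod_cast hc4
    have hkN' : (k : ℝ) ≤ N := by exact_mod_cast card_alive_le N π
    have hy2 : 1 / y ≤ 1 / 2 := one_div_le_one_div_of_le (by norm_num) (by linarith)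
    have hZ2 : (k : ℝ) ^ 2 / 2 ≤ ∑ a, ∑ b, w a b := by nlinarith
    have key : ∑ a : alive N π, ∑ b : alive N π, w a b * (fullPot d N y Ψ (upd π a b)
        (res (rest (alive N π) a b) (nxt 1 A a b)) (res (rest (alive N π) a b) (nxt (-1) B a b)) -
        fullPot d N y Ψ π A B) ≤ 0 := by
      have e1 : ∀ a b : alive N π, w a b * (fullPot d N y Ψ (upd π a b)
          (res (rest (alive N π) a b) (nxt 1 A a b))
          (res (rest (alive N π) a b) (nxt (-1) B a b)) - fullPot d N y Ψ π A B) ≤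
          w a b * (Ψ (k - 2) (mstats (stepM 1 (subM _ A) a b) (stepM (-1) (subM _ B) a b)) -
            Ψ k (mstats (subM _ A) (subM (alive N π) B))) +
          w a b * (cntL ℝ d N (upd π a b) / (y * d / N * ((k : ℝ) - 2) ^ 2) -
            cntL ℝ d N π / (y * d / N * (k : ℝ) ^ 2)) +
          w a b * (cntB ℝ d N (upd π a b) / (y ^ 3 * d ^ 2 / N * ((k : ℝ) - 2) ^ 2) -
            cntB ℝ d N π / (y ^ 3 * d ^ 2 / N * (k : ℝ) ^ 2)) - w a b * (200 / y / k) := by
        intro a b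
        by_cases h0 : w a b = 0
        · simp [h0]
        have hab : (a : ℕ) ≠ b := ne_of_not_forb (wF a b h0).1
        have hcard : (alive N (upd π a b)).card = k - 2 := by
          rw [alive_upd (mem_alive.1 a.2).1 (mem_alive.1 b.2).1]
          have := card_rest a.2 b.2 hab
          omega
        have hcast : ((k - 2 : ℕ) : ℝ) = (k : ℝ) - 2 := by rw [Nat.cast_sub (by omega)]; norm_num
        have hh : ∑ j ∈ range (k - 2), 1 / ((j : ℝ) + 1) + 1 / (k : ℝ) ≤
            ∑ j ∈ range k, 1 / ((j : ℝ) + 1) := by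
          obtain ⟨l, hl⟩ : ∃ l, k = l + 2 := ⟨k - 2, by omega⟩
          rw [hl, sum_range_succ, sum_range_succ, Nat.add_sub_cancel]
          have : 0 ≤ 1 / ((l : ℝ) + 1) := by positivity
          have e : ((l + 1 : ℕ) : ℝ) + 1 = ((l + 2 : ℕ) : ℝ) := by push_cast; ring
          rw [e]
          linarith
        unfold fullPot
        rw [hcard, hcast, ← hkdef, kstats_eq (alive_subset N π) hA.toSupp hB.toSupp,
          kstats_eq (alive_subset N π) (supp_res (rest_subset _ _ _) _)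
            (supp_res (rest_subset _ _ _) _), subM_next', subM_next', ← mul_add, ← mul_add,
          ← mul_sub]
        refine mul_le_mul_of_nonneg_left ?_ (w0 a b)
        have := mul_le_mul_of_nonneg_left hh (by positivity : 0 ≤ 200 / y)
        have e : 200 / y / k = 200 / y * (1 / k) := by ring
        rw [e]
        linarith
      refine (sum_le_sum fun a _ => sum_le_sum fun b _ => e1 a b).trans ?_
      simp only [sum_add_distrib, sum_sub_distrib, ← sum_mul]
      have e2 : 16 * (y * d / N) ^ 2 / (y ^ 3 * d ^ 2 / N) * (k : ℝ) ^ 2 ≤ 16 * (k / y) := by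
        have e : 16 * (y * d / N) ^ 2 / (y ^ 3 * d ^ 2 / N) * (k : ℝ) ^ 2 =
            16 * (k / y) * (k / N) := by field_simp
        rw [e]
        exact mul_le_of_le_one_right (by positivity) ((div_le_one hN0).2 hkN')
      have e3 : 100 * (k / y) ≤ (∑ a, ∑ b, w a b) * (200 / y / k) := by
        have e : 100 * (k / y) = (k : ℝ) ^ 2 / 2 * (200 / y / k) := by field_simp; ring
        rw [e]
        exact mul_le_mul_of_nonneg_right hZ2 (by positivity)
      have e4 : 32 * (1 / y) * k = 32 * (k / y) := by ring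
      have e5 : 0 ≤ k / y := by positivity
      rw [e4] at d1 d2
      linarith
    obtain ⟨a, b, hw, hab⟩ := exists_le_of_avg w0 (by nlinarith) key
    obtain ⟨f1, f2, f3⟩ := wF a b hw
    exact ⟨a, a.2, b, b.2, f1, f2, f3, by linarith⟩
  · intro π A B _ hA hB hk h1
    obtain ⟨p1, -, p3⟩ := parts π A B hA hB (by omega) h1
    obtain ⟨f1, f2⟩ := h.final _ _ _ hA.subM hB.subM (by rw [Fintype.card_coe]; omega)
      (by rw [Fintype.card_coe]; omega) p1
    refine ⟨qf_le_of_subM f1, qf_le_of_subM f2, fun a ha b hb hab =>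
      not_forb_of_cntB_lt (p3.trans_lt ?_) ha hb hab⟩
    have hc : ((alive N π).card : ℝ) ≤ k₀ := by exact_mod_cast (by omega : (alive N π).card ≤ k₀)
    have hc2 : ((alive N π).card : ℝ) ^ 2 ≤ (k₀ : ℝ) ^ 2 := by gcongr
    refine (mul_le_mul_of_nonneg_left hc2 hbet.le).trans_lt ?_
    rw [div_mul_eq_mul_div, div_lt_one hN0]
    exact hend

/-- The statement of the problem follows from a potential function for pairs of matrices. -/
theorem glue (d : ℕ) (hd : 0 < d) (m p : ℕ → ℚ) (y k₀ : ℕ → ℕ) (Ψq : ℕ → ℕ → Stats ℚ → ℚ)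
    (Ψ : ℕ → ℕ → Stats ℝ → ℝ) (hm : PT ∅ fun u : Un => m u.v) (hp : PT ∅ fun u : Un => p u.v)
    (hy : PT ∅ fun u : Un => y u.v) (hk : PT ∅ fun u : Un => k₀ u.v)
    (hΨ : ∀ (k : Un × St → ℕ) (S : Un × St → Stats ℚ), PT ∅ k → PTStats S →
      PT ∅ fun x : Un × St => Ψq x.1.v (k x) (S x))
    (hc : ∀ n k S, (Ψq n k S : ℝ) = Ψ n k S.cast) (n₀ : ℕ)
    (h : ∀ n, n₀ ≤ n → (m n : ℝ) ^ 2 < 1 ∧ (0 : ℝ) < p n ∧
      (m n : ℝ) * d + (1 - (m n : ℝ) ^ 2) / p n ≤ 2 * √((d : ℝ) - 1) ∧ 4 ≤ k₀ n ∧ k₀ n ≤ n * d ∧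
      1000 * (1 + Real.log (n * d : ℕ)) ≤ y n ∧
      (y n : ℝ) ^ 3 * d ^ 2 * (k₀ n : ℝ) ^ 2 < (n * d : ℕ) ∧
      MatPot d (n * d) (m n) (p n) (y n) (k₀ n) (Ψ n)) :
    ∃ (out : ℕ → List Bool)
      (M : Turing.TM2ComputableInPolyTime (fun n : ℕ => List.replicate n true)
        (fun w : List Bool => w) out),
      (∀ k, Finite (M.tm.Γ k)) ∧
      ∃ n₀ : ℕ, ∀ n : ℕ, n₀ ≤ n → Even (d * n) →
        ∃ (G : SimpleGraph (Fin n)) (_ : DecidableRel G.Adj),
          G.IsRegularOfDegree d ∧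
          out n = (List.finRange n).flatMap
            (fun i => (List.finRange n).map fun j => decide (G.Adj i j)) ∧
          ∀ (μ : ℝ) (x : Fin n → ℝ), x ≠ 0 → ∑ i, x i = 0 →
            (G.adjMatrix ℝ).mulVec x = μ • x → |μ| ≤ 2 * √((d : ℝ) - 1) := by
  have hN : PT ∅ fun u : Un => u.v * d := (PT.unVal PT.id).mul (PT.const d)
  have hNb : PBd fun u : Un => u.v * d := (PBd.unVal (A := ∅) PT.id).mul (PBd.const d)
  refine skeleton d m p (fun _ => 0) (fun n => (n * d - k₀ n + 1) / 2)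
    (fun n S => fullPot d (n * d) (y n : ℚ) (Ψq n) (look (n * d) S.1) (mat S.2.1) (mat S.2.2))
    (fun n => fullPot d (n * d) (y n : ℝ) (Ψ n)) hm hp (PT.const 0)
    (((hN.sub hk).add (PT.const 1)).div (PT.const 2))
    (fun n => by omega) ?_ (fun n S => ?_) n₀ fun n hn he => ?_
  · have hN' : PT ∅ fun x : Un × St => x.1.v * d := hN.comp PT.fst'
    have hNb' : PBd fun x : Un × St => x.1.v * d := hNb.comp (A := ∅) PT.fst'
    have hy' : PT ∅ fun x : Un × St => y x.1.v := hy.comp PT.fst'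
    have h1 := PT_cardAlive hN' hNb' PT.snd'.fst
    have h1b : PBd fun x : Un × St => (alive (x.1.v * d) (look (x.1.v * d) x.2.1)).card :=
      hNb'.mono fun x => card_alive_le _ _
    have h2 := hΨ _ _ h1 (ptStats_kstats hN' hNb' (PK_mat PT.snd'.snd.fst) (PK_mat PT.snd'.snd.snd))
    have h3 := PT_cntL d hN' hNb' PT.snd'.fst
    have h4 := PT_cntB d hN' hNb' PT.snd'.fst
    have h5 : PT ∅ fun x : Un × St => ∑ j ∈ range
        (alive (x.1.v * d) (look (x.1.v * d) x.2.1)).card, 1 / ((j : ℚ) + 1) :=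
      PT_ratSumRange (f := fun _ j => 1 / ((j : ℚ) + 1)) h1 h1b (by fun_prop)
    unfold fullPot
    refine PT_ratAdd (PT_ratAdd (PT_ratAdd h2 (PT_ratDiv h3 ?_)) (PT_ratDiv h4 ?_))
      (PT_ratMul (PT_ratDiv (PT.const _) (PT_natCast hy')) h5)
    · exact PT_ratMul (PT_ratDiv (PT_ratMul (PT_natCast hy') (PT.const _)) (PT_natCast hN'))
        (PT_ratPowConst (PT_natCast h1) 2)
    · exact PT_ratMul (PT_ratDiv (PT_ratMul (PT_ratPowConst (PT_natCast hy') 3) (PT.const _))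
        (PT_natCast hN')) (PT_ratPowConst (PT_natCast h1) 2)
  · unfold fullPot
    push_cast [hc, cast_kstats, cast_cntL, cast_cntB]
    rfl
  · obtain ⟨h1, h2, h3, h4, h5, h6, h7, h8⟩ := h n hn
    simpa using goodPot_of_matPot hd he h1 h2 h3 h4 h5 h6 h7 h8

end Vale.Agent.P049
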