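import Vale.Agent.P049.Pot

/-!
The growth factor `gro`: one step of the process and two-sided bounds by a power.
-/

namespace Vale.Agent.P049

open Finset

theorem gro_self {K : Type*} [Field K] (kap : K) (N : ℕ) : gro kap N N = 1 := by
  simp [gro]

theorem gro_succ {K : Type*} [Field K] (kap : K) {N k : ℕ} (hN : k ≤ N) :
    gro kap (N + 1) k = gro kap N k * (1 + 11 / 20 / (((N + 1 : ℕ) : K) + kap)) := by
  unfold gro
  rw [prod_Ioc_succ_top hN]

theorem one_le_gro {kap : ℝ} (hk : 0 < kap) (N k : ℕ) : 1 ≤ gro kap N k := by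
  unfold gro
  refine Finset.one_le_prod fun j _ => ?_
  have : (0 : ℝ) ≤ 11 / 20 / ((j : ℝ) + kap) := by positivity
  linarith

theorem gro_pos {kap : ℝ} (hk : 0 < kap) (N k : ℕ) : 0 < gro kap N k :=
  lt_of_lt_of_le one_pos (one_le_gro hk N k)

theorem gro_step {kap : ℝ} (hk : 0 < kap) {N k : ℕ} (h2 : 2 ≤ k) (hN : k ≤ N) :
    gro kap N k * (1 + 11 / 10 / ((k : ℝ) + kap)) ≤ gro kap N (k - 2) := by
  obtain ⟨l, rfl⟩ : ∃ l, k = l + 2 := ⟨k - 2, by omega⟩
  have e : gro kap N (l + 2 - 2) = gro kap (l + 2) l * gro kap N (l + 2) := by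
    unfold gro
    rw [Nat.add_sub_cancel, prod_Ioc_consecutive _ (by omega) hN]
  rw [e, mul_comm]
  refine mul_le_mul_of_nonneg_right ?_ (gro_pos hk _ _).le
  rw [gro_succ kap (by omega : l ≤ l + 1), gro_succ kap le_rfl, gro_self, one_mul]
  have h0 : (0 : ℝ) < ((l + 1 : ℕ) : ℝ) + kap := by positivity
  have h1 : ((l + 1 : ℕ) : ℝ) + kap ≤ ((l + 1 + 1 : ℕ) : ℝ) + kap := by push_cast; linarith
  have h3 : 11 / 20 / (((l + 1 + 1 : ℕ) : ℝ) + kap) ≤ 11 / 20 / (((l + 1 : ℕ) : ℝ) + kap) :=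
    div_le_div_of_nonneg_left (by norm_num) h0 h1
  have h4 : 0 ≤ 11 / 20 / (((l + 1 + 1 : ℕ) : ℝ) + kap) := by positivity
  have e2 : 11 / 10 / (((l + 2 : ℕ) : ℝ) + kap) = 2 * (11 / 20 / (((l + 1 + 1 : ℕ) : ℝ) + kap)) := by
    rw [show l + 1 + 1 = l + 2 from rfl]
    ring
  rw [e2]
  nlinarith

theorem one_add_le_rpow {x c : ℝ} (hx : 0 < x) (h0 : 0 ≤ c) (h1 : c ≤ 1) :
    1 + c / (x + 1) ≤ ((x + 1) / x) ^ c := by
  have hx1 : 0 < x + 1 := by linarith
  have h2 : (x / (x + 1)) ^ c ≤ 1 - c / (x + 1) := by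
    have h := rpow_one_add_le_one_add_mul_self (s := -(1 / (x + 1))) (p := c)
      (by rw [neg_le_neg_iff, div_le_one hx1]; linarith) h0 h1
    have e : 1 + -(1 / (x + 1)) = x / (x + 1) := by field_simp; ring
    rw [e] at h
    refine h.trans (le_of_eq ?_)
    ring
  have h3 : 0 < (x / (x + 1)) ^ c := Real.rpow_pos_of_pos (by positivity) c
  have e : ((x + 1) / x) ^ c = ((x / (x + 1)) ^ c)⁻¹ := by
    rw [← Real.inv_rpow (by positivity), inv_div]
  rw [e, le_inv_comm₀ (by positivity) h3]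
  refine h2.trans ?_
  have h4 : 0 ≤ c / (x + 1) := by positivity
  rw [inv_eq_one_div, le_div_iff₀ (by positivity)]
  nlinarith

theorem rpow_le_one_add {x c : ℝ} (hx : 0 < x) (h0 : 0 ≤ c) (h1 : c ≤ 1) :
    ((x + 1) / x) ^ c ≤ 1 + c / x := by
  have h := rpow_one_add_le_one_add_mul_self (s := 1 / x) (p := c)
    (le_trans (by norm_num) (one_div_pos.2 hx).le) h0 h1
  have e : 1 + 1 / x = (x + 1) / x := by field_simp
  rw [e] at h
  refine h.trans (le_of_eq ?_)
  ring

theorem gro_le {kap : ℝ} (hk : 0 < kap) {N k : ℕ} (hN : k ≤ N) :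
    gro kap N k ≤ (((N : ℝ) + kap) / (k + kap)) ^ (11 / 20 : ℝ) := by
  have hk0 : (0 : ℝ) < k + kap := by positivity
  induction N, hN using Nat.le_induction with
  | base => rw [gro_self, div_self hk0.ne', Real.one_rpow]
  | succ N hN ih =>
    have hN0 : (0 : ℝ) < N + kap := by positivity
    have e : (((N + 1 : ℕ) : ℝ) + kap) = N + kap + 1 := by push_cast; ring
    have e2 : ((N : ℝ) + kap + 1) / (k + kap) =
        (N + kap) / (k + kap) * ((N + kap + 1) / (N + kap)) := by field_simp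
    rw [gro_succ kap hN, e, e2, Real.mul_rpow (by positivity) (by positivity)]
    exact mul_le_mul ih (one_add_le_rpow hN0 (by norm_num) (by norm_num)) (by positivity)
      (by positivity)

theorem le_gro_aux {kap : ℝ} (hk : 0 < kap) {N k : ℕ} (hN : k ≤ N) :
    (((N : ℝ) + kap + 1) / (k + kap + 1)) ^ (11 / 20 : ℝ) ≤ gro kap N k := by
  have hk0 : (0 : ℝ) < k + kap + 1 := by positivity
  induction N, hN using Nat.le_induction with
  | base => rw [gro_self, div_self hk0.ne', Real.one_rpow]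
  | succ N hN ih =>
    have hN0 : (0 : ℝ) < N + kap + 1 := by positivity
    have e : (((N + 1 : ℕ) : ℝ) + kap) = N + kap + 1 := by push_cast; ring
    have e2 : ((N : ℝ) + kap + 1 + 1) / (k + kap + 1) =
        (N + kap + 1) / (k + kap + 1) * ((N + kap + 1 + 1) / (N + kap + 1)) := by field_simp
    rw [gro_succ kap hN, e, e2, Real.mul_rpow (by positivity) (by positivity)]
    exact mul_le_mul ih (rpow_le_one_add hN0 (by norm_num) (by norm_num)) (by positivity)
      (gro_pos hk _ _).le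

theorem le_gro {kap : ℝ} (hk : 1 ≤ kap) {N k : ℕ} (hN : k ≤ N) :
    (((N : ℝ) + kap) / (2 * (k + kap))) ^ (11 / 20 : ℝ) ≤ gro kap N k := by
  have hk0 : 0 < kap := by linarith
  refine le_trans (Real.rpow_le_rpow (by positivity) ?_ (by norm_num)) (le_gro_aux hk0 hN)
  have h1 : (0 : ℝ) ≤ k := Nat.cast_nonneg k
  exact div_le_div₀ (by positivity) (by linarith) (by positivity) (by linarith)

end Vale.Agent.P049
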