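import Vale.Agent.P049.Spec

/-!
The Hadamard square of a symmetric kernel whose entries are controlled by its diagonal: bounds
for its Frobenius norm and for its operator norm.
-/

namespace Vale.Agent.P049

open Matrix Finset

variable {ι : Type*} [Fintype ι]

/-- The diagonal of a kernel. -/
def dgv (K : Matrix ι ι ℝ) : ι → ℝ := fun c => K c c

/-- The squared row norms. -/
def rsq (K : Matrix ι ι ℝ) : ι → ℝ := fun c => ∑ e, K c e ^ 2

/-- The Hadamard square. -/
def had (K : Matrix ι ι ℝ) : Matrix ι ι ℝ := Matrix.of fun a b => K a b ^ 2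

/-- Entries are bounded in terms of the diagonal. -/
def EntBd (μ : ℝ) (K : Matrix ι ι ℝ) : Prop :=
  ∀ a b, K a b ^ 2 ≤ (μ + |K a a|) * (μ + |K b b|)

omit [Fintype ι] in
theorem had_apply (K : Matrix ι ι ℝ) (a b : ι) : had K a b = K a b ^ 2 := rfl

omit [Fintype ι] in
theorem dgv_apply (K : Matrix ι ι ℝ) (a : ι) : dgv K a = K a a := rfl

theorem rsq_apply (K : Matrix ι ι ℝ) (a : ι) : rsq K a = ∑ e, K a e ^ 2 := rfl

theorem rsq_nonneg (K : Matrix ι ι ℝ) (a : ι) : 0 ≤ rsq K a :=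
  sum_nonneg fun _ _ => sq_nonneg _

theorem sq_le_rsq (K : Matrix ι ι ℝ) (a b : ι) : K a b ^ 2 ≤ rsq K a :=
  single_le_sum (f := fun e => K a e ^ 2) (fun _ _ => sq_nonneg _) (mem_univ b)

theorem rsq_eq_nrm (K : Matrix ι ι ℝ) (a : ι) : rsq K a = nrm (K a) ^ 2 := (nrm_sq _).symm

theorem sum_rsq (K : Matrix ι ι ℝ) : ∑ a, rsq K a = frob K ^ 2 := (frob_sq K).symm

theorem rsq_col {K : Matrix ι ι ℝ} (hK : Kᵀ = K) (a : ι) : ∑ e, K e a ^ 2 = rsq K a :=
  sum_congr rfl fun e _ => by rw [symm_apply hK e a]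

theorem rsq_eq_mul {K : Matrix ι ι ℝ} (hK : Kᵀ = K) (a : ι) : rsq K a = (K * K) a a := by
  rw [rsq_eq_nrm, nrm_row_sq_symm hK]

theorem rsq_le_nrm (K : Matrix ι ι ℝ) (a : ι) : rsq K a ≤ nrm (rsq K) :=
  (le_abs_self _).trans (abs_le_nrm _ a)

theorem abs_diag_le_nrm (K : Matrix ι ι ℝ) (a : ι) : |K a a| ≤ nrm (dgv K) := abs_le_nrm (dgv K) a

omit [Fintype ι] in
theorem had_symm {K : Matrix ι ι ℝ} (hK : Kᵀ = K) : (had K)ᵀ = had K := by
  ext a b
  simp only [transpose_apply, had_apply]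
  rw [show K b a = K a b from congrFun (congrFun hK a) b]

theorem frob_had_sq (K : Matrix ι ι ℝ) : frob (had K) ^ 2 = ∑ a, ∑ b, K a b ^ 4 := by
  rw [frob_sq]
  exact sum_congr rfl fun a _ => sum_congr rfl fun b _ => by rw [had_apply]; ring

theorem row_four_le (K : Matrix ι ι ℝ) (a : ι) : ∑ b, K a b ^ 4 ≤ rsq K a ^ 2 := by
  calc ∑ b, K a b ^ 4 ≤ ∑ b, K a b ^ 2 * rsq K a :=
        sum_le_sum fun b _ => by nlinarith [sq_le_rsq K a b, sq_nonneg (K a b)]
    _ = rsq K a ^ 2 := by rw [← sum_mul, ← rsq_apply]; ring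

theorem frob_had_le_nrm (K : Matrix ι ι ℝ) : frob (had K) ≤ nrm (rsq K) := by
  refine frob_le_of_sq_le (nrm_nonneg _) ?_
  rw [nrm_sq, ← frob_sq, frob_had_sq]
  exact sum_le_sum fun a _ => row_four_le K a

/-- Bilinear form of the Hadamard square. -/
theorem sum_had_eq (K : Matrix ι ι ℝ) (f g : ι → ℝ) :
    ∑ a, ∑ b, K a b ^ 2 * (f a * g b) = f ⬝ᵥ had K *ᵥ g := by
  simp only [dotProduct, mulVec, had_apply, mul_sum]
  exact sum_congr rfl fun a _ => sum_congr rfl fun b _ => by ring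

theorem sum_had_le_frob (K : Matrix ι ι ℝ) (f g : ι → ℝ) :
    ∑ a, ∑ b, K a b ^ 2 * (f a * g b) ≤ frob (had K) * (nrm f * nrm g) := by
  rw [← frob_vecMulVec]
  refine (le_abs_self _).trans (le_of_eq_of_le ?_ (abs_sum_sum_mul_le (had K) (vecMulVec f g)))
  rfl

theorem sum_had_le_opn [DecidableEq ι] (K : Matrix ι ι ℝ) (f g : ι → ℝ) :
    ∑ a, ∑ b, K a b ^ 2 * (f a * g b) ≤ opn (had K) * nrm f * nrm g := by
  rw [sum_had_eq]
  exact (le_abs_self _).trans (abs_dot_mulVec_le _ f g)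

theorem nrm_abs (x : ι → ℝ) : nrm (fun a => |x a|) = nrm x := by
  simp [nrm]

/-- The fourth powers of one row. -/
theorem row_four_le_ent {μ : ℝ} {K : Matrix ι ι ℝ} (h : EntBd μ K) (a : ι) :
    ∑ b, K a b ^ 4 ≤ (μ + |K a a|) * (μ * rsq K a + ∑ b, K a b ^ 2 * |K b b|) := by
  calc ∑ b, K a b ^ 4 ≤ ∑ b, K a b ^ 2 * ((μ + |K a a|) * (μ + |K b b|)) :=
        sum_le_sum fun b _ => by nlinarith [h a b, sq_nonneg (K a b)]
    _ = _ := by
        rw [rsq_apply, mul_sum, ← sum_add_distrib, mul_sum]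
        exact sum_congr rfl fun b _ => by ring

/-- The small part in the bounds for sums of fourth powers. -/
noncomputable def gsm (μ : ℝ) (K : Matrix ι ι ℝ) : ℝ :=
  2 * μ * (nrm (dgv K) * nrm (rsq K)) + nrm (dgv K) ^ 2 * frob (had K)

theorem gsm_nonneg {μ : ℝ} (hμ : 0 ≤ μ) (K : Matrix ι ι ℝ) : 0 ≤ gsm μ K := by
  unfold gsm
  have := nrm_nonneg (dgv K)
  have := nrm_nonneg (rsq K)
  have := frob_nonneg (had K)
  positivity

/-- Weighted sum of fourth powers, for weights between zero and one. -/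
theorem sum_four_le {μ : ℝ} (hμ : 0 ≤ μ) {K : Matrix ι ι ℝ} (hK : Kᵀ = K) (h : EntBd μ K)
    (u : ι → ℝ) (hu0 : ∀ a, 0 ≤ u a) (hu1 : ∀ a, u a ≤ 1) :
    ∑ a, u a * ∑ b, K a b ^ 4 ≤ μ ^ 2 * ∑ a, u a * rsq K a + gsm μ K := by
  have h1 : ∀ a, u a * ∑ b, K a b ^ 4 ≤ μ ^ 2 * (u a * rsq K a) + (μ * (|K a a| * rsq K a) +
      μ * ∑ b, K a b ^ 2 * |K b b| + ∑ b, K a b ^ 2 * (|K a a| * |K b b|)) := by
    intro a
    have h2 := mul_le_mul_of_nonneg_left (row_four_le_ent h a) (hu0 a)
    have h3 : ∑ b, K a b ^ 2 * (|K a a| * |K b b|) = |K a a| * ∑ b, K a b ^ 2 * |K b b| := by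
      rw [mul_sum]; exact sum_congr rfl fun b _ => by ring
    rw [h3]
    have h4 : 0 ≤ ∑ b, K a b ^ 2 * |K b b| := sum_nonneg fun b _ => by positivity
    have h5 := rsq_nonneg K a
    have h6 : 0 ≤ μ * (|K a a| * rsq K a) + μ * ∑ b, K a b ^ 2 * |K b b| +
      |K a a| * ∑ b, K a b ^ 2 * |K b b| := by positivity
    nlinarith [mul_le_mul_of_nonneg_right (hu1 a) h6]
  refine (sum_le_sum fun a _ => h1 a).trans ?_
  rw [sum_add_distrib, ← mul_sum, sum_add_distrib, sum_add_distrib, ← mul_sum, ← mul_sum]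
  have h7 : ∑ a, |K a a| * rsq K a ≤ nrm (dgv K) * nrm (rsq K) := by
    refine le_of_eq_of_le ?_ (sum_abs_mul_le (dgv K) (rsq K))
    exact sum_congr rfl fun a _ => by rw [abs_of_nonneg (rsq_nonneg K a)]; rfl
  have h8 : ∑ a, ∑ b, K a b ^ 2 * |K b b| = ∑ a, |K a a| * rsq K a := by
    rw [sum_comm]
    refine sum_congr rfl fun b _ => ?_
    rw [← sum_mul, rsq_col hK, mul_comm]
  have h9 := sum_had_le_frob K (fun a => |K a a|) (fun a => |K a a|)
  have h10 : nrm (fun a => |K a a|) = nrm (dgv K) := nrm_abs (dgv K)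
  rw [h10] at h9
  rw [h8]
  unfold gsm
  nlinarith [mul_le_mul_of_nonneg_left h7 hμ]

theorem frob_had_sq_le {μ : ℝ} (hμ : 0 ≤ μ) {K : Matrix ι ι ℝ} (hK : Kᵀ = K) (h : EntBd μ K) :
    frob (had K) ^ 2 ≤ μ ^ 2 * frob K ^ 2 + gsm μ K := by
  have := sum_four_le hμ hK h (fun _ => 1) (fun _ => zero_le_one) (fun _ => le_rfl)
  simpa only [one_mul, sum_rsq, ← frob_had_sq] using this

/-- A bound for the Frobenius norm of the Hadamard square which does not refer to itself. -/
theorem frob_had_le {μ : ℝ} (hμ : 0 ≤ μ) {K : Matrix ι ι ℝ} (hK : Kᵀ = K) (h : EntBd μ K) :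
    frob (had K) ≤ μ * frob K + √(2 * μ * (nrm (dgv K) * nrm (rsq K))) + nrm (dgv K) ^ 2 := by
  have h1 := frob_had_sq_le hμ hK h
  unfold gsm at h1
  have h2 := nrm_nonneg (dgv K)
  have h3 := nrm_nonneg (rsq K)
  have h4 := frob_nonneg K
  have h5 : 0 ≤ 2 * μ * (nrm (dgv K) * nrm (rsq K)) := by positivity
  have h6 := Real.sq_sqrt h5
  have h7 := Real.sqrt_nonneg (2 * μ * (nrm (dgv K) * nrm (rsq K)))
  set q := √(2 * μ * (nrm (dgv K) * nrm (rsq K)))
  set g := frob (had K)
  set D := nrm (dgv K) ^ 2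
  have hD : 0 ≤ D := sq_nonneg _
  have hA : 0 ≤ μ * frob K := by positivity
  by_contra hc
  push Not at hc
  have h8 : μ * frob K + q < g - D := by linarith
  have h9 : (μ * frob K + q) ^ 2 < (g - D) * g := by nlinarith
  nlinarith

/-- The heavy rows carry little of the sum of fourth powers. -/
theorem heavy_four_le {μ lam : ℝ} (hμ : 0 ≤ μ) (hl : 0 < lam) {K : Matrix ι ι ℝ} (hK : Kᵀ = K)
    (h : EntBd μ K) :
    ∑ a, (if lam < rsq K a then 1 else 0) * ∑ b, K a b ^ 4 ≤
      μ ^ 2 * (nrm (rsq K) ^ 2 / lam) + gsm μ K := by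
  refine (sum_four_le hμ hK h _ (fun a => by split_ifs <;> norm_num)
    (fun a => by split_ifs <;> norm_num)).trans ?_
  have h1 : ∑ a, (if lam < rsq K a then (1 : ℝ) else 0) * rsq K a ≤ nrm (rsq K) ^ 2 / lam := by
    rw [nrm_sq, sum_div]
    refine sum_le_sum fun a _ => ?_
    have := rsq_nonneg K a
    split_ifs with h1
    · rw [le_div_iff₀ hl]; nlinarith
    · rw [zero_mul]; positivity
  nlinarith [mul_le_mul_of_nonneg_left h1 (sq_nonneg μ)]

variable [DecidableEq ι]

/-- Operator norm of the Hadamard square, by splitting into light and heavy rows. -/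
theorem opn_had_le {μ lam : ℝ} (hμ : 0 ≤ μ) (hl : 0 < lam) {K : Matrix ι ι ℝ} (hK : Kᵀ = K)
    (h : EntBd μ K) :
    opn (had K) ≤ lam + √(2 * (μ ^ 2 * (nrm (rsq K) ^ 2 / lam) + gsm μ K)) := by
  classical
  let A : Matrix ι ι ℝ := Matrix.of fun a b =>
    if rsq K a ≤ lam ∧ rsq K b ≤ lam then K a b ^ 2 else 0
  let B : Matrix ι ι ℝ := Matrix.of fun a b =>
    if rsq K a ≤ lam ∧ rsq K b ≤ lam then 0 else K a b ^ 2
  have hAB : had K = A + B := by
    ext a b
    simp only [A, B, had_apply, Matrix.add_apply, of_apply]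
    split_ifs <;> simp
  have hA : opn A ≤ lam := by
    refine opn_le_of_schur hl.le (fun a => ?_) (fun b => ?_)
    · by_cases ha : rsq K a ≤ lam
      · refine le_trans (sum_le_sum fun b _ => ?_) ha
        simp only [A, of_apply]
        split_ifs
        · rw [abs_of_nonneg (sq_nonneg _)]
        · rw [abs_zero]; exact sq_nonneg _
      · simp [A, ha, hl.le]
    · by_cases hb : rsq K b ≤ lam
      · rw [← rsq_col hK] at hb
        refine le_trans (sum_le_sum fun a _ => ?_) hb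
        simp only [A, of_apply]
        split_ifs
        · rw [abs_of_nonneg (sq_nonneg _)]
        · rw [abs_zero]; exact sq_nonneg _
      · simp [A, hb, hl.le]
  have hB : frob B ≤ √(2 * (μ ^ 2 * (nrm (rsq K) ^ 2 / lam) + gsm μ K)) := by
    refine frob_le_sqrt ?_
    have h1 := heavy_four_le hμ hl hK h
    have h2 : frob B ^ 2 ≤ ∑ a, ∑ b, ((if lam < rsq K a then 1 else 0) * K a b ^ 4 +
        (if lam < rsq K b then 1 else 0) * K a b ^ 4) := by
      rw [frob_sq]
      refine sum_le_sum fun a _ => sum_le_sum fun b _ => ?_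
      have h4 : 0 ≤ K a b ^ 4 := by positivity
      simp only [B, of_apply]
      by_cases ha : rsq K a ≤ lam <;> by_cases hb : rsq K b ≤ lam <;>
        simp [ha, hb, not_lt.2, not_le.1] <;> nlinarith
    have h3 : ∑ a, ∑ b, (if lam < rsq K b then (1 : ℝ) else 0) * K a b ^ 4 =
        ∑ a, (if lam < rsq K a then 1 else 0) * ∑ b, K a b ^ 4 := by
      rw [sum_comm]
      refine sum_congr rfl fun b _ => ?_
      rw [mul_sum]
      exact sum_congr rfl fun a _ => by rw [symm_apply hK a b]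
    simp only [sum_add_distrib] at h2
    rw [h3] at h2
    simp only [← mul_sum] at h2
    linarith
  rw [hAB]
  exact (opn_add_le A B).trans (add_le_add hA ((opn_le_frob B).trans hB))

theorem opn_had_le_nrm (K : Matrix ι ι ℝ) : opn (had K) ≤ nrm (rsq K) :=
  (opn_le_frob _).trans (frob_had_le_nrm K)

omit [DecidableEq ι] in
/-- Geometric means are superadditive. -/
theorem sq_add_le_of_sq_le {x c A B : ℝ} (hc : 0 ≤ c) (hA : 0 ≤ A) (hB : 0 ≤ B)
    (h : (x + c) ^ 2 ≤ A * B) : x ^ 2 ≤ (A + c) * (B + c) := by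
  have h1 : |x + c| ≤ (A + B) / 2 := by
    refine abs_le_of_sq_le_sq' ?_ (by positivity) |> abs_le.2
    nlinarith [sq_nonneg (A - B)]
  have h2 := abs_le.1 h1
  nlinarith

/-- The entry bound follows from positivity on vectors of sum zero. -/
theorem entBd_of_psd {s m : ℝ} (hs : -1 ≤ s) (hm : 0 ≤ m) {K : Matrix ι ι ℝ} (hK : Kᵀ = K)
    (hrow : ∀ c, ∑ e, K c e = s)
    (hpsd : ∀ x : ι → ℝ, ∑ a, x a = 0 → 0 ≤ m * ∑ a, x a ^ 2 + ∑ c, ∑ e, x c * K c e * x e) :
    EntBd (m + 2 / Fintype.card ι) K := by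
  intro a b
  have hk : (0 : ℝ) < Fintype.card ι := by
    have : Nonempty ι := ⟨a⟩
    exact_mod_cast Fintype.card_pos
  set k : ℝ := (Fintype.card ι : ℝ) with hkdef
  let P : Matrix ι ι ℝ := Matrix.of fun c e => K c e + (if c = e then m else 0) + 1 / k
  have hP : P.PosSemidef := by
    refine psd_of ?_ fun x => ?_
    · ext c e
      simp only [P, transpose_apply, of_apply, symm_apply hK e c, eq_comm]
    · set t : ℝ := (∑ a, x a) / k with ht
      have hsum : ∑ a, x a = t * k := by rw [ht]; field_simp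
      have h0 : ∑ a, (x a - t) = 0 := by
        rw [sum_sub_distrib, hsum]; simp [hkdef]; ring
      have h1 := hpsd (fun a => x a - t) h0
      have h2 : ∑ a, (x a - t) ^ 2 = ∑ a, x a ^ 2 - t ^ 2 * k := by
        have : ∀ a, (x a - t) ^ 2 = x a ^ 2 - 2 * t * x a + t ^ 2 := fun a => by ring
        simp only [this, sum_add_distrib, sum_sub_distrib, ← mul_sum, hsum, sum_const, card_univ,
          nsmul_eq_mul, ← hkdef]
        ring
      have hcol : ∀ e, ∑ c, K c e = s := fun e => by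
        rw [← hrow e]; exact sum_congr rfl fun c _ => symm_apply hK c e
      have h3 : ∑ c, ∑ e, (x c - t) * K c e * (x e - t) =
          ∑ c, ∑ e, x c * K c e * x e - s * t ^ 2 * k := by
        have e1 : ∀ c e, (x c - t) * K c e * (x e - t) =
            x c * K c e * x e - t * x c * K c e - t * x e * K c e + t ^ 2 * K c e :=
          fun c e => by ring
        have e2 : ∑ c, ∑ e, t * x e * K c e = t * s * (t * k) := by
          rw [sum_comm]
          simp only [← mul_sum, hcol]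
          rw [← sum_mul, ← mul_sum, hsum]; ring
        have e3 : ∑ c, ∑ e, t * x c * K c e = t * s * (t * k) := by
          simp only [← mul_sum, hrow]
          rw [← sum_mul, ← mul_sum, hsum]; ring
        simp only [e1, sum_add_distrib, sum_sub_distrib, e2, e3]
        simp only [← mul_sum, hrow, sum_const, card_univ, nsmul_eq_mul, ← hkdef]
        ring
      have h4 : x ⬝ᵥ P *ᵥ x = ∑ c, ∑ e, x c * K c e * x e + m * ∑ a, x a ^ 2 + t ^ 2 * k := by
        have e1 : ∀ c, (P *ᵥ x) c = ∑ e, K c e * x e + m * x c + t := by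
          intro c
          simp only [P, mulVec, dotProduct, of_apply, add_mul, sum_add_distrib, ite_mul, zero_mul,
            sum_ite_eq, mem_univ, if_true, ← mul_sum]
          rw [ht]; ring
        simp only [dotProduct, e1, mul_add, sum_add_distrib]
        rw [← sum_mul, hsum, mul_sum]
        congr 1
        · congr 1
          · exact sum_congr rfl fun c _ => by
              rw [mul_sum]; exact sum_congr rfl fun e _ => by ring
          · exact sum_congr rfl fun c _ => by ring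
        · ring
      rw [h4]
      rw [h2, h3] at h1
      have h5 : 0 ≤ t ^ 2 * k := by positivity
      nlinarith
  have hk1 : 0 ≤ 1 / k := by positivity
  have hk2 : 2 / k = 1 / k + 1 / k := by ring
  by_cases hab : a = b
  · subst hab
    have : 0 ≤ m + 2 / k := by positivity
    nlinarith [sq_abs (K a a), abs_nonneg (K a a)]
  · have h1 := psd_entry_sq_le hP a b
    have h2 := psd_diag hP a
    have h3 := psd_diag hP b
    simp only [P, of_apply, if_neg hab, if_true, add_zero] at h1 h2 h3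
    have h4 := sq_add_le_of_sq_le hk1 h2 h3 h1
    refine h4.trans (mul_le_mul ?_ ?_ (by linarith) (by positivity))
    · linarith [le_abs_self (K a a)]
    · linarith [le_abs_self (K b b)]

end Vale.Agent.P049
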