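import Vale.Agent.P049.Norms

/-!
# A quadratic penalty with linear growth

`hub x = x₊² / (1 + x₊)` is rational, convex, `1`-Lipschitz and has second derivative at most `2`.
In the one-step estimate only the main part of an increment needs a second moment bound.
-/

namespace Vale.Agent.P049

open Finset

/-- The penalty `x₊² / (1 + x₊)`. -/
def hub {K : Type*} [Field K] [LinearOrder K] (x : K) : K := max x 0 ^ 2 / (1 + max x 0)

/-- The derivative of `hub`. -/
noncomputable def hubd (x : ℝ) : ℝ := 1 - 1 / (1 + max x 0) ^ 2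

theorem cast_hub (x : ℚ) : ((hub x : ℚ) : ℝ) = hub (x : ℝ) := by
  simp [hub]

theorem hub_nonneg (x : ℝ) : 0 ≤ hub x := by
  unfold hub
  have := le_max_right x 0
  positivity

theorem hub_eq (x : ℝ) : hub x = max x 0 - 1 + 1 / (1 + max x 0) := by
  unfold hub
  have := le_max_right x 0
  field_simp
  ring

theorem hub_le_sq (x : ℝ) : hub x ≤ max x 0 ^ 2 := by
  unfold hub
  have := le_max_right x 0
  exact div_le_self (by positivity) (by linarith)

theorem hub_le_max (x : ℝ) : hub x ≤ max x 0 := by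
  unfold hub
  have := le_max_right x 0
  rw [div_le_iff₀ (by linarith)]
  nlinarith

theorem hub_le_abs (x : ℝ) : hub x ≤ |x| :=
  (hub_le_max x).trans (max_le (le_abs_self x) (abs_nonneg x))

theorem hub_of_nonpos {x : ℝ} (hx : x ≤ 0) : hub x = 0 := by
  simp [hub, max_eq_right hx]

theorem le_two_of_hub_le {x : ℝ} (h : hub x ≤ 1) : x ≤ 2 := by
  by_contra hx
  push Not at hx
  have e : max x 0 = x := max_eq_left (by linarith)
  unfold hub at h
  rw [e, div_le_one (by linarith)] at h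
  nlinarith

theorem hubd_nonneg (x : ℝ) : 0 ≤ hubd x := by
  unfold hubd
  have := le_max_right x 0
  have h1 : 1 / (1 + max x 0) ^ 2 ≤ 1 := by
    rw [div_le_one (by positivity)]; nlinarith
  linarith

theorem hubd_le_one (x : ℝ) : hubd x ≤ 1 := by
  unfold hubd
  have := le_max_right x 0
  have h1 : 0 ≤ 1 / (1 + max x 0) ^ 2 := by positivity
  linarith

theorem hubd_of_nonpos {x : ℝ} (hx : x ≤ 0) : hubd x = 0 := by
  simp [hubd, max_eq_right hx]

theorem hubd_le_two_mul {x : ℝ} (hx : 0 ≤ x) : hubd x ≤ 2 * x := by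
  unfold hubd
  rw [max_eq_left hx]
  have h1 : 1 - 2 * x ≤ 1 / (1 + x) ^ 2 := by
    rw [le_div_iff₀ (by positivity)]
    nlinarith [mul_nonneg hx (mul_nonneg hx hx)]
  linarith

theorem hub_add_le (x d : ℝ) : hub (x + d) ≤ hub x + |d| := by
  rw [hub_eq, hub_eq]
  have hX := le_max_right x 0
  have hY := le_max_right (x + d) 0
  have h1 : |max (x + d) 0 - max x 0| ≤ |d| := by
    simpa using abs_max_sub_max_le_abs (x + d) x 0
  generalize max (x + d) 0 = Y at *
  generalize max x 0 = X at *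
  rcases le_total X Y with h | h
  · have : 1 / (1 + Y) ≤ 1 / (1 + X) := one_div_le_one_div_of_le (by linarith) (by linarith)
    linarith [le_abs_self (Y - X)]
  · have h2 : 1 / (1 + Y) - 1 / (1 + X) = (X - Y) / ((1 + Y) * (1 + X)) := by
      field_simp; ring
    have h3 : (X - Y) / ((1 + Y) * (1 + X)) ≤ X - Y :=
      div_le_self (by linarith) (by nlinarith [mul_nonneg hX hY])
    linarith [abs_nonneg d]

theorem hub_taylor_aux {X Y : ℝ} (hX : 0 ≤ X) (hY : 0 ≤ Y) :
    hub Y ≤ hub X + hubd X * (Y - X) + (Y - X) ^ 2 := by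
  rw [hub_eq, hub_eq]
  unfold hubd
  rw [max_eq_left hX, max_eq_left hY]
  have h2 : 1 / (1 + Y) - 1 / (1 + X) + (Y - X) / (1 + X) ^ 2 =
      (Y - X) ^ 2 / ((1 + X) ^ 2 * (1 + Y)) := by
    field_simp; ring
  have h3 : (Y - X) ^ 2 / ((1 + X) ^ 2 * (1 + Y)) ≤ (Y - X) ^ 2 :=
    div_le_self (by positivity) (by nlinarith [mul_nonneg hX hY, mul_nonneg (sq_nonneg X) hY])
  have h4 : (1 - 1 / (1 + X) ^ 2) * (Y - X) = Y - X - (Y - X) / (1 + X) ^ 2 := by ring
  linarith

theorem hub_taylor (x d : ℝ) : hub (x + d) ≤ hub x + hubd x * d + d ^ 2 := by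
  rcases le_total x 0 with hx | hx
  · rw [hub_of_nonpos hx, hubd_of_nonpos hx]
    refine (hub_le_sq _).trans ?_
    have h1 : max (x + d) 0 ≤ |d| := max_le (by linarith [le_abs_self d]) (abs_nonneg d)
    have h2 := pow_le_pow_left₀ (le_max_right _ _) h1 2
    rw [sq_abs] at h2
    linarith
  · rcases le_total 0 (x + d) with hy | hy
    · have := hub_taylor_aux hx hy
      rwa [add_sub_cancel_left] at this
    · have h1 := hub_taylor_aux hx (le_refl 0)
      rw [hub_of_nonpos hy]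
      rw [hub_of_nonpos (le_refl 0)] at h1
      have h2 := hubd_le_two_mul hx
      nlinarith [mul_nonneg (by linarith : 0 ≤ -(x + d)) (by linarith : 0 ≤ x - d - hubd x)]

theorem hub_mono {x y : ℝ} (h : x ≤ y) : hub x ≤ hub y := by
  rw [hub_eq, hub_eq]
  have hX := le_max_right x 0
  have h1 : max x 0 ≤ max y 0 := max_le_max_right 0 h
  generalize max y 0 = Y at *
  generalize max x 0 = X at *
  have h2 : 1 / (1 + X) - 1 / (1 + Y) = (Y - X) / ((1 + X) * (1 + Y)) := by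
    have : 0 < 1 + Y := by linarith
    field_simp; ring
  have h3 : (Y - X) / ((1 + X) * (1 + Y)) ≤ Y - X :=
    div_le_self (by linarith) (by nlinarith [mul_nonneg hX (hX.trans h1)])
  linarith

theorem hub_step (x d e : ℝ) : hub (x + d + e) ≤ hub x + hubd x * d + d ^ 2 + |e| :=
  (hub_add_le _ _).trans (by linarith [hub_taylor x d])

section Sums

variable {ι : Type*} [Fintype ι] {w : ι → ι → ℝ}

theorem wsum_le (hw : ∀ a b, 0 ≤ w a b) {X Y : ι → ι → ℝ}
    (h : ∀ a b, w a b ≠ 0 → X a b ≤ Y a b) :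
    ∑ a, ∑ b, w a b * X a b ≤ ∑ a, ∑ b, w a b * Y a b := by
  refine sum_le_sum fun a _ => sum_le_sum fun b _ => ?_
  by_cases h0 : w a b = 0
  · simp [h0]
  · exact mul_le_mul_of_nonneg_left (h a b h0) (hw a b)

/-- One step of a potential `hub (X / E)`: the new value of `X` is at most `X + d₁ + d₂`, the
main part `d₁` has weighted sum and second moment under control, the rest `d₂` is small in the
first absolute moment. -/
theorem hub_drift (hw : ∀ a b, 0 ≤ w a b) {X E E' G₀ G₁ G₂ θ Z : ℝ} {X' d₁ d₂ : ι → ι → ℝ}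
    (hE : 0 < E) (hE' : 0 < E') (hθ0 : E' ≤ E) (hθ : E ≤ (1 + θ) * E') (hX : hub (X / E) ≤ 1)
    (hZ : ∑ a, ∑ b, w a b ≤ Z) (hd : ∀ a b, w a b ≠ 0 → X' a b ≤ X + d₁ a b + d₂ a b)
    (hG₁ : 0 ≤ G₁)
    (h₁ : 0 < X → (∑ a, ∑ b, w a b) * (X * (1 - E' / E)) + ∑ a, ∑ b, w a b * d₁ a b ≤ G₁)
    (h₂ : ∑ a, ∑ b, w a b * d₁ a b ^ 2 ≤ G₂) (h₀ : ∑ a, ∑ b, w a b * |d₂ a b| ≤ G₀) :
    ∑ a, ∑ b, w a b * (hub (X' a b / E') - hub (X / E)) ≤
      (G₁ + G₀) / E' + 2 * G₂ / E' ^ 2 + 8 * θ ^ 2 * Z := by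
  have hθ1 : 0 ≤ θ := by nlinarith
  have hZ0 : 0 ≤ ∑ a, ∑ b, w a b := sum_nonneg fun a _ => sum_nonneg fun b _ => hw a b
  have hG₂ : 0 ≤ G₂ := le_trans (sum_nonneg fun a _ => sum_nonneg fun b _ =>
    mul_nonneg (hw a b) (sq_nonneg _)) h₂
  rcases le_or_gt X 0 with hx | hx
  · have key : ∀ a b, w a b ≠ 0 → hub (X' a b / E') - hub (X / E) ≤
        1 / E' ^ 2 * d₁ a b ^ 2 + 1 / E' * |d₂ a b| := fun a b h => by
      have h1 : X' a b / E' ≤ 0 + d₁ a b / E' + d₂ a b / E' := by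
        rw [zero_add, ← add_div]
        exact div_le_div_of_nonneg_right (by linarith [hd a b h]) hE'.le
      have h2 := (hub_mono h1).trans (hub_step _ _ _)
      rw [hub_of_nonpos le_rfl, hubd_of_nonpos le_rfl, abs_div, abs_of_pos hE', div_pow] at h2
      have h3 := hub_nonneg (X / E)
      have e1 : d₁ a b ^ 2 / E' ^ 2 = 1 / E' ^ 2 * d₁ a b ^ 2 := by ring
      have e2 : |d₂ a b| / E' = 1 / E' * |d₂ a b| := by ring
      linarith
    refine (wsum_le hw key).trans ?_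
    have e : ∑ a, ∑ b, w a b * (1 / E' ^ 2 * d₁ a b ^ 2 + 1 / E' * |d₂ a b|) =
        1 / E' ^ 2 * ∑ a, ∑ b, w a b * d₁ a b ^ 2 + 1 / E' * ∑ a, ∑ b, w a b * |d₂ a b| := by
      simp only [mul_sum, ← sum_add_distrib]
      exact sum_congr rfl fun a _ => sum_congr rfl fun b _ => by ring
    rw [e]
    have a1 := mul_le_mul_of_nonneg_left h₂ (by positivity : 0 ≤ 1 / E' ^ 2)
    have a2 := mul_le_mul_of_nonneg_left h₀ (by positivity : 0 ≤ 1 / E')
    have a3 : 0 ≤ G₁ / E' := by positivity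
    have a4 : 0 ≤ G₂ / E' ^ 2 := by positivity
    have a5 : 0 ≤ 8 * θ ^ 2 * Z := by have := hZ0.trans hZ; positivity
    have e1 : (G₁ + G₀) / E' = G₁ / E' + 1 / E' * G₀ := by ring
    have e2 : 2 * G₂ / E' ^ 2 = G₂ / E' ^ 2 + 1 / E' ^ 2 * G₂ := by ring
    linarith
  · set c := X * (1 - E' / E) with hc
    have hXE : X ≤ 2 * E := by
      have := le_two_of_hub_le hX
      rwa [div_le_iff₀ hE] at this
    have hc0 : 0 ≤ c := by
      have : E' / E ≤ 1 := (div_le_one hE).2 hθ0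
      exact mul_nonneg hx.le (by linarith)
    have hc1 : c ≤ 2 * θ * E' := by
      have e : c = X / E * (E - E') := by rw [hc]; field_simp
      have h1 : X / E ≤ 2 := le_two_of_hub_le hX
      rw [e]
      nlinarith [mul_le_mul_of_nonneg_right h1 (by linarith : 0 ≤ E - E')]
    have hc2 : (c / E') ^ 2 ≤ 4 * θ ^ 2 := by
      have h1 : c / E' ≤ 2 * θ := by rwa [div_le_iff₀ hE']
      have := pow_le_pow_left₀ (by positivity) h1 2
      linarith [mul_pow 2 θ 2]
    have key : ∀ a b, w a b ≠ 0 → hub (X' a b / E') - hub (X / E) ≤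
        hubd (X / E) / E' * (c + d₁ a b) + 2 / E' ^ 2 * d₁ a b ^ 2 + 1 / E' * |d₂ a b| +
          8 * θ ^ 2 := fun a b h => by
      have h1 : X' a b / E' ≤ X / E + (c + d₁ a b) / E' + d₂ a b / E' := by
        have e : X / E + (c + d₁ a b) / E' + d₂ a b / E' = (X + d₁ a b + d₂ a b) / E' := by
          rw [hc]; field_simp; ring
        rw [e]
        exact div_le_div_of_nonneg_right (hd a b h) hE'.le
      have h2 := (hub_mono h1).trans (hub_step _ _ _)
      rw [abs_div, abs_of_pos hE'] at h2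
      have e1 : ((c + d₁ a b) / E') ^ 2 ≤ 2 * (c / E') ^ 2 + 2 / E' ^ 2 * d₁ a b ^ 2 := by
        have e : 2 / E' ^ 2 * d₁ a b ^ 2 = 2 * (d₁ a b / E') ^ 2 := by ring
        rw [e, add_div]
        nlinarith [sq_nonneg (c / E' - d₁ a b / E')]
      have e2 : |d₂ a b| / E' = 1 / E' * |d₂ a b| := by ring
      have e3 : hubd (X / E) * ((c + d₁ a b) / E') = hubd (X / E) / E' * (c + d₁ a b) := by ring
      linarith
    refine (wsum_le hw key).trans ?_
    have e : ∑ a, ∑ b, w a b * (hubd (X / E) / E' * (c + d₁ a b) + 2 / E' ^ 2 * d₁ a b ^ 2 +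
        1 / E' * |d₂ a b| + 8 * θ ^ 2) =
        hubd (X / E) / E' * ((∑ a, ∑ b, w a b) * c + ∑ a, ∑ b, w a b * d₁ a b) +
          2 / E' ^ 2 * ∑ a, ∑ b, w a b * d₁ a b ^ 2 + 1 / E' * ∑ a, ∑ b, w a b * |d₂ a b| +
          8 * θ ^ 2 * ∑ a, ∑ b, w a b := by
      simp only [mul_add, mul_sum, sum_mul, ← sum_add_distrib]
      exact sum_congr rfl fun a _ => sum_congr rfl fun b _ => by ring
    rw [e]
    have a0 : hubd (X / E) / E' * ((∑ a, ∑ b, w a b) * c + ∑ a, ∑ b, w a b * d₁ a b) ≤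
        G₁ / E' := by
      have b1 := mul_le_mul_of_nonneg_left (h₁ hx) (div_nonneg (hubd_nonneg (X / E)) hE'.le)
      have b2 : hubd (X / E) / E' * G₁ ≤ 1 / E' * G₁ :=
        mul_le_mul_of_nonneg_right (div_le_div_of_nonneg_right (hubd_le_one _) hE'.le) hG₁
      have e2 : G₁ / E' = 1 / E' * G₁ := by ring
      linarith
    have a1 := mul_le_mul_of_nonneg_left h₂ (by positivity : 0 ≤ 2 / E' ^ 2)
    have a2 := mul_le_mul_of_nonneg_left h₀ (by positivity : 0 ≤ 1 / E')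
    have a3 := mul_le_mul_of_nonneg_left hZ (by positivity : 0 ≤ 8 * θ ^ 2)
    have e1 : (G₁ + G₀) / E' = G₁ / E' + 1 / E' * G₀ := by ring
    have e2 : 2 * G₂ / E' ^ 2 = 2 / E' ^ 2 * G₂ := by ring
    linarith

/-- One step of a potential `X / E`. -/
theorem markov_drift (hw : ∀ a b, 0 ≤ w a b) {X E E' G : ℝ} {X' d : ι → ι → ℝ}
    (hE : 0 < E) (hE' : 0 < E') (hd : ∀ a b, w a b ≠ 0 → X' a b ≤ X + d a b)
    (h : (∑ a, ∑ b, w a b) * (X * (1 - E' / E)) + ∑ a, ∑ b, w a b * d a b ≤ G) :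
    ∑ a, ∑ b, w a b * (X' a b / E' - X / E) ≤ G / E' := by
  have key : ∀ a b, w a b ≠ 0 → X' a b / E' - X / E ≤ 1 / E' * (X * (1 - E' / E) + d a b) :=
    fun a b h0 => by
      have e : 1 / E' * (X * (1 - E' / E) + d a b) = (X + d a b) / E' - X / E := by
        field_simp; ring
      rw [e]
      linarith [div_le_div_of_nonneg_right (hd a b h0) hE'.le]
  refine (wsum_le hw key).trans ?_
  have e : ∑ a, ∑ b, w a b * (1 / E' * (X * (1 - E' / E) + d a b)) =
      ((∑ a, ∑ b, w a b) * (X * (1 - E' / E)) + ∑ a, ∑ b, w a b * d a b) / E' := by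
    simp only [add_div, sum_div, sum_mul, ← sum_add_distrib]
    exact sum_congr rfl fun a _ => sum_congr rfl fun b _ => by ring
  rw [e]
  exact div_le_div_of_nonneg_right h hE'.le

end Sums

end Vale.Agent.P049
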