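import Vale.Agent.P049.Wt
import Vale.Agent.P049.Avg

/-!
The common interface of the drift estimates: numerical bounds `Pr`, the data shared by both
kernels `Gl`, one kernel `Sd`, the observables, the tilt and the error polynomials.
-/

namespace Vale.Agent.P049

open Matrix Finset

/-- Numerical upper bounds for the current state. -/
structure Pr where
  v : ℝ
  u : ℝ
  g : ℝ
  nn : ℝ
  e : ℝ
  f : ℝ
  R : ℝ
  lam : ℝ
  dd : ℝ
  t : ℝ
  x0 : ℝ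
  x1 : ℝ
  ro : ℝ

variable {ι : Type*} [Fintype ι]

/-- Majorants `xi` of the diagonal entries and `mu` of the squared row norms of both kernels. -/
structure Gl (P : Pr) (w : ι → ι → ℝ) (xi mu : ι → ℝ) : Prop where
  xi_nonneg : ∀ a, 0 ≤ xi a
  mu_nonneg : ∀ a, 0 ≤ mu a
  xi_le : nrm xi ≤ P.v
  mu_le : nrm mu ≤ P.u
  g_le : nrm (fun a => 1 + mu a) ≤ P.g
  nn_nonneg : 0 ≤ P.nn
  nn_le : ∀ a, mu a ≤ P.nn ^ 2
  one_le_lam : 1 ≤ P.lam
  t_nonneg : 0 ≤ P.t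
  xx : ∀ a b, w a b ≠ 0 → xi a * xi b ≤ 1 / 1000
  xm : ∀ a b, w a b ≠ 0 → xi b * (1 + mu a) ≤ P.t
  mm : ∀ a b, w a b ≠ 0 → (1 + mu a) * (1 + mu b) ≤ P.t ^ 2

variable [DecidableEq ι]

/-- One kernel `X` with sign `s`, adapted to the weights `w` with tilt `sg`. -/
structure Sd (P : Pr) (s : ℝ) (X : Matrix ι ι ℝ) (w sg : ι → ι → ℝ) (xi mu : ι → ℝ) : Prop where
  wt : Wt s X w sg (1 / 1000) (P.t ^ 2) P.x1 P.x0 P.ro
  gl : Gl P w xi mu
  psd : (X + 1).PosSemidef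
  dg_le : ∀ a, |X a a| ≤ xi a
  rs_le : ∀ a, rsq X a ≤ mu a
  op : opn X ≤ P.lam
  f4 : frob (X * X) ≤ P.f
  tr : |trace X| ≤ P.dd
  r2 : trace (X * X) ≤ P.R
  ee : frob X + nrm (dgv X) ^ 2 ≤ P.e

/-- The sum of the squared diagonal entries. -/
def vv (X : Matrix ι ι ℝ) : ℝ := ∑ c, X c c ^ 2

/-- The sum of the squares of the squared row norms. -/
def uu (X : Matrix ι ι ℝ) : ℝ := ∑ c, (X * X) c c ^ 2

/-- The sum of the fourth powers of the entries. -/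
def p4 (X : Matrix ι ι ℝ) : ℝ := ∑ a, ∑ b, X a b ^ 4

/-- The matrix in the linear part of the drift of `uu`. -/
def m2 (X : Matrix ι ι ℝ) : Matrix ι ι ℝ := X * diagonal (rsq X) * (X * X)

/-- The switch of the tilt. -/
noncomputable def sw (X : Matrix ι ι ℝ) : ℝ := if 0 < trace X then 1 else 0

/-- The quadratic tilt seen from the kernel `X`, the other kernel being `Y`. -/
noncomputable def tilt (L : ℝ) (X Y : Matrix ι ι ℝ) (a b : ι) : ℝ :=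
  (sw X * (X * X) a b - sw Y * (Y * Y) a b) / L

namespace Pr

variable (P : Pr)

/-- Error of the mean drift of the trace. -/
def eD1 : ℝ := 100 * (P.x1 * P.v * P.g + P.x0 * P.f)

/-- Second moment of the increment of the trace. -/
def eD2 : ℝ := 100 * (P.v ^ 2 * P.g ^ 2 + P.f ^ 2)

/-- Error of the mean drift of the trace of the square; `J` bounds one averaging error. -/
def eR1 (J : ℝ) : ℝ := 1000 * (P.v ^ 2 * P.g ^ 2 + P.f ^ 2 + P.e ^ 2 + P.x1 * P.u ^ 2 + J +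
  P.x1 * P.lam * P.v * P.u + P.x0 * P.lam * P.f)

/-- Second moment of the increment of the trace of the square. -/
def eR2 (k : ℝ) : ℝ := 10000 * (P.u ^ 4 + k * P.u ^ 2 + P.e ^ 2 + P.v ^ 2 * P.lam ^ 2 * P.u ^ 2 +
  P.lam ^ 2 * P.f ^ 2 + P.t ^ 2 * P.v ^ 2 * P.g ^ 2 + P.t ^ 2 * P.f ^ 2)

/-- Error of the drift of `vv`. -/
noncomputable def eV (k : ℝ) : ℝ := 1000 * (P.dd * P.v * P.u + P.ro * P.v ^ 2 * P.u + P.dd +
  P.x1 * P.v * P.u + P.u ^ 2 + P.ro * P.v ^ 2 * √k)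

/-- Error of the drift of `uu`; `p` bounds `p4`. -/
noncomputable def eU (k p : ℝ) : ℝ := 1000000 * (P.R + P.ro * P.lam * P.v * P.u ^ 2 +
  P.x0 * P.lam * P.u ^ 2 + P.ro * P.u ^ 2 * P.g + P.f * P.u ^ 2 + P.lam * P.v * P.nn * P.u ^ 2 +
  P.g * P.v * P.u ^ 2 + P.v ^ 2 * (1 + P.nn ^ 2) * P.u ^ 2 + P.t ^ 2 * P.u ^ 2 +
  P.lam ^ 2 * P.u ^ 2 + P.t ^ 2 * P.v ^ 2 * p + P.e ^ 2 + P.lam ^ 2 * P.v ^ 2 * P.u +
  P.v ^ 4 * P.g ^ 2 + P.ro * √k * P.u ^ 2)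

/-- Error of the drift of a word with three letters; `τ` bounds `frob (X * Y)` and `G` bounds
`frob (X * Y * X)`. -/
noncomputable def eT (k τ G : ℝ) : ℝ := 10000 * (P.dd * k + k + P.x1 * P.v * P.lam ^ 2 * P.u +
  P.x1 * P.v * √k + P.x0 * P.lam * G + P.x0 * τ ^ 2 + P.x1 * P.lam * P.g ^ 2 +
  P.lam * (P.v * P.g + P.f) * (P.v * P.g) + (P.v * P.g + P.f) * G + k * (P.v * P.g + P.f) +
  P.lam * (P.v * P.g + τ) ^ 2 + k * (P.v * P.g + τ) + (2 * (P.v * P.g) + P.f + τ) * P.g ^ 2 +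
  P.t * (P.v * P.g + τ) ^ 2)

end Pr

end Vale.Agent.P049
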