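import Mathlib.Analysis.CStarAlgebra.Matrix
import Mathlib.Analysis.Matrix.Spectrum
import Mathlib.LinearAlgebra.Matrix.PosDef
import Mathlib.Tactic

/-!
Euclidean norm of vectors (`nrm`), Frobenius norm (`frob`) and operator norm (`opn`) of real
rectangular matrices, as plain real valued functions, with the usual inequalities.
-/

namespace Vale.Agent.P049

open Matrix Finset

section Vec

variable {ι : Type*} [Fintype ι]

/-- Euclidean norm of a real vector. -/
noncomputable def nrm (x : ι → ℝ) : ℝ := √(∑ a, x a ^ 2)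

theorem nrm_nonneg (x : ι → ℝ) : 0 ≤ nrm x := Real.sqrt_nonneg _

theorem nrm_sq (x : ι → ℝ) : nrm x ^ 2 = ∑ a, x a ^ 2 :=
  Real.sq_sqrt (Finset.sum_nonneg fun _ _ => sq_nonneg _)

theorem nrm_sq_eq_dot (x : ι → ℝ) : nrm x ^ 2 = x ⬝ᵥ x := by
  rw [nrm_sq]; simp [dotProduct, sq]

theorem nrm_mul_self (x : ι → ℝ) : nrm x * nrm x = x ⬝ᵥ x := by
  rw [← nrm_sq_eq_dot, sq]

theorem nrm_eq_norm (x : ι → ℝ) : nrm x = ‖(WithLp.toLp 2 x : EuclideanSpace ℝ ι)‖ := by
  rw [EuclideanSpace.norm_eq]; simp [nrm]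

theorem nrm_le_of_sq_le {x : ι → ℝ} {c : ℝ} (hc : 0 ≤ c) (h : ∑ a, x a ^ 2 ≤ c ^ 2) :
    nrm x ≤ c := by
  rw [nrm]; exact Real.sqrt_le_iff.mpr ⟨hc, h⟩

theorem nrm_le_sqrt {x : ι → ℝ} {c : ℝ} (h : ∑ a, x a ^ 2 ≤ c) : nrm x ≤ √c :=
  Real.sqrt_le_sqrt h

theorem nrm_add_le (x y : ι → ℝ) : nrm (x + y) ≤ nrm x + nrm y := by
  simp only [nrm_eq_norm, WithLp.toLp_add]; exact norm_add_le _ _

theorem nrm_neg (x : ι → ℝ) : nrm (-x) = nrm x := by simp [nrm]

theorem nrm_sub_le (x y : ι → ℝ) : nrm (x - y) ≤ nrm x + nrm y := by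
  rw [sub_eq_add_neg, ← nrm_neg y]; exact nrm_add_le _ _

theorem nrm_smul (c : ℝ) (x : ι → ℝ) : nrm (c • x) = |c| * nrm x := by
  simp only [nrm_eq_norm, WithLp.toLp_smul, norm_smul, Real.norm_eq_abs]

theorem nrm_zero : nrm (0 : ι → ℝ) = 0 := by simp [nrm]

theorem nrm_sum_le {κ : Type*} (s : Finset κ) (f : κ → ι → ℝ) :
    nrm (∑ i ∈ s, f i) ≤ ∑ i ∈ s, nrm (f i) := by
  classical
  induction s using Finset.induction_on with
  | empty => simp [nrm_zero]
  | insert a s ha ih =>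
    rw [Finset.sum_insert ha, Finset.sum_insert ha]
    exact (nrm_add_le _ _).trans (by linarith)

/-- Cauchy-Schwarz. -/
theorem abs_sum_mul_le (x y : ι → ℝ) : |∑ a, x a * y a| ≤ nrm x * nrm y := by
  have h := Finset.sum_mul_sq_le_sq_mul_sq Finset.univ x y
  rw [← nrm_sq, ← nrm_sq, ← mul_pow] at h
  exact abs_le_of_sq_le_sq' h (mul_nonneg (nrm_nonneg _) (nrm_nonneg _)) |> abs_le.mpr

theorem abs_dot_le (x y : ι → ℝ) : |x ⬝ᵥ y| ≤ nrm x * nrm y := abs_sum_mul_le x y

theorem dot_le (x y : ι → ℝ) : x ⬝ᵥ y ≤ nrm x * nrm y := (le_abs_self _).trans (abs_dot_le x y)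

theorem sum_abs_mul_le (x y : ι → ℝ) : ∑ a, |x a| * |y a| ≤ nrm x * nrm y := by
  have h := abs_sum_mul_le (fun a => |x a|) (fun a => |y a|)
  simp only [nrm, sq_abs] at h
  exact (le_abs_self _).trans h

theorem abs_le_nrm (x : ι → ℝ) (a : ι) : |x a| ≤ nrm x := by
  rw [nrm]
  apply Real.abs_le_sqrt
  exact Finset.single_le_sum (f := fun a => x a ^ 2) (fun _ _ => sq_nonneg _) (Finset.mem_univ a)

theorem nrm_mono {x y : ι → ℝ} (h : ∀ a, |x a| ≤ |y a|) : nrm x ≤ nrm y :=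
  Real.sqrt_le_sqrt (Finset.sum_le_sum fun a _ => sq_le_sq.mpr (h a))

/-- the l1 norm is at most the square root of the dimension times the l2 norm -/
theorem sum_abs_le_sqrt_card (x : ι → ℝ) : ∑ a, |x a| ≤ √(Fintype.card ι) * nrm x := by
  have h := sum_abs_mul_le (fun _ => (1 : ℝ)) x
  simpa [nrm] using h

/-- the l1 norm over a finite set -/
theorem sum_abs_le_sqrt_card_finset (s : Finset ι) (x : ι → ℝ) :
    ∑ a ∈ s, |x a| ≤ √(s.card) * nrm x := by
  classical
  have h := sum_abs_mul_le (fun a => if a ∈ s then (1 : ℝ) else 0) x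
  have h1 : ∑ a, |(if a ∈ s then (1 : ℝ) else 0)| * |x a| = ∑ a ∈ s, |x a| := by
    rw [← Finset.sum_filter_add_sum_filter_not Finset.univ (fun a => a ∈ s)]
    have : ∑ a ∈ Finset.univ.filter (fun a => ¬ a ∈ s), |(if a ∈ s then (1 : ℝ) else 0)| * |x a|
        = 0 := Finset.sum_eq_zero fun a ha => by simp [(Finset.mem_filter.mp ha).2]
    rw [this, add_zero]
    have h2 : Finset.univ.filter (fun a => a ∈ s) = s := by ext; simp
    rw [h2]
    exact Finset.sum_congr rfl fun a ha => by simp [ha]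
  have h2 : nrm (fun a => if a ∈ s then (1 : ℝ) else 0) = √(s.card) := by
    simp [nrm]
  rw [h1, h2] at h
  exact h

theorem nrm_single [DecidableEq ι] (a : ι) : nrm (Pi.single a (1 : ℝ) : ι → ℝ) = 1 := by
  simp [nrm, Pi.single_apply]

end Vec

section Frob

variable {m n l : Type*} [Fintype m] [Fintype n] [Fintype l]

/-- Frobenius norm. -/
noncomputable def frob (M : Matrix m n ℝ) : ℝ := √(∑ a, ∑ b, M a b ^ 2)

theorem frob_nonneg (M : Matrix m n ℝ) : 0 ≤ frob M := Real.sqrt_nonneg _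

theorem frob_sq (M : Matrix m n ℝ) : frob M ^ 2 = ∑ a, ∑ b, M a b ^ 2 :=
  Real.sq_sqrt (Finset.sum_nonneg fun _ _ => Finset.sum_nonneg fun _ _ => sq_nonneg _)

theorem frob_eq_nrm (M : Matrix m n ℝ) : frob M = nrm (fun p : m × n => M p.1 p.2) := by
  rw [frob, nrm, Fintype.sum_prod_type]

theorem frob_sq_eq_trace (M : Matrix m n ℝ) : frob M ^ 2 = trace (M * Mᵀ) := by
  rw [frob_sq]; simp [trace, mul_apply, sq]

theorem frob_transpose (M : Matrix m n ℝ) : frob Mᵀ = frob M := by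
  rw [frob, frob, Finset.sum_comm]; rfl

theorem frob_sq_eq_trace' (M : Matrix m n ℝ) : frob M ^ 2 = trace (Mᵀ * M) := by
  rw [← frob_transpose, frob_sq_eq_trace, transpose_transpose]

theorem frob_sq_of_symm {M : Matrix n n ℝ} (h : Mᵀ = M) : frob M ^ 2 = trace (M * M) := by
  rw [frob_sq_eq_trace, h]

theorem frob_le_of_sq_le {M : Matrix m n ℝ} {c : ℝ} (hc : 0 ≤ c)
    (h : ∑ a, ∑ b, M a b ^ 2 ≤ c ^ 2) : frob M ≤ c :=
  Real.sqrt_le_iff.mpr ⟨hc, h⟩

theorem frob_le_sqrt {M : Matrix m n ℝ} {c : ℝ} (h : frob M ^ 2 ≤ c) : frob M ≤ √c :=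
  Real.le_sqrt_of_sq_le h

theorem frob_add_le (M N : Matrix m n ℝ) : frob (M + N) ≤ frob M + frob N := by
  simp only [frob_eq_nrm]
  exact nrm_add_le (fun p : m × n => M p.1 p.2) (fun p : m × n => N p.1 p.2)

theorem frob_neg (M : Matrix m n ℝ) : frob (-M) = frob M := by simp [frob]

theorem frob_sub_le (M N : Matrix m n ℝ) : frob (M - N) ≤ frob M + frob N := by
  rw [sub_eq_add_neg, ← frob_neg N]; exact frob_add_le _ _

theorem frob_smul (c : ℝ) (M : Matrix m n ℝ) : frob (c • M) = |c| * frob M := by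
  simp only [frob_eq_nrm]
  exact nrm_smul c (fun p : m × n => M p.1 p.2)

theorem frob_zero : frob (0 : Matrix m n ℝ) = 0 := by simp [frob]

theorem frob_sum_le {κ : Type*} (s : Finset κ) (f : κ → Matrix m n ℝ) :
    frob (∑ i ∈ s, f i) ≤ ∑ i ∈ s, frob (f i) := by
  classical
  induction s using Finset.induction_on with
  | empty => simp [frob_zero]
  | insert a s ha ih =>
    rw [Finset.sum_insert ha, Finset.sum_insert ha]
    exact (frob_add_le _ _).trans (by linarith)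

theorem frob_mono {M N : Matrix m n ℝ} (h : ∀ a b, |M a b| ≤ |N a b|) : frob M ≤ frob N := by
  simp only [frob_eq_nrm]; exact nrm_mono fun p => h p.1 p.2

/-- entrywise Cauchy-Schwarz -/
theorem abs_sum_sum_mul_le (M N : Matrix m n ℝ) :
    |∑ a, ∑ b, M a b * N a b| ≤ frob M * frob N := by
  simp only [frob_eq_nrm]
  have := abs_sum_mul_le (fun p : m × n => M p.1 p.2) (fun p : m × n => N p.1 p.2)
  rwa [Fintype.sum_prod_type] at this

theorem sum_sum_abs_mul_le (M N : Matrix m n ℝ) :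
    ∑ a, ∑ b, |M a b| * |N a b| ≤ frob M * frob N := by
  simp only [frob_eq_nrm]
  have := sum_abs_mul_le (fun p : m × n => M p.1 p.2) (fun p : m × n => N p.1 p.2)
  rwa [Fintype.sum_prod_type] at this

theorem trace_mul_eq_sum (M : Matrix m n ℝ) (N : Matrix n m ℝ) :
    trace (M * N) = ∑ a, ∑ b, M a b * N b a := by
  simp [trace, mul_apply]

theorem abs_trace_mul_le (M : Matrix m n ℝ) (N : Matrix n m ℝ) :
    |trace (M * N)| ≤ frob M * frob N := by
  rw [trace_mul_eq_sum, ← frob_transpose N]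
  exact abs_sum_sum_mul_le M Nᵀ

theorem abs_le_frob (M : Matrix m n ℝ) (a : m) (b : n) : |M a b| ≤ frob M := by
  rw [frob_eq_nrm]; exact abs_le_nrm (fun p : m × n => M p.1 p.2) (a, b)

theorem nrm_row_le_frob (M : Matrix m n ℝ) (a : m) : nrm (M a) ≤ frob M :=
  Real.sqrt_le_sqrt (Finset.single_le_sum (f := fun a => ∑ b, M a b ^ 2)
    (fun _ _ => Finset.sum_nonneg fun _ _ => sq_nonneg _) (Finset.mem_univ a))

theorem nrm_diag_le_frob (M : Matrix n n ℝ) : nrm (fun a => M a a) ≤ frob M :=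
  Real.sqrt_le_sqrt (Finset.sum_le_sum fun a _ =>
    Finset.single_le_sum (f := fun b => M a b ^ 2) (fun _ _ => sq_nonneg _) (Finset.mem_univ a))

theorem frob_sq_eq_sum_rows (M : Matrix m n ℝ) : frob M ^ 2 = ∑ a, nrm (M a) ^ 2 := by
  rw [frob_sq]; simp only [nrm_sq]

theorem frob_vecMulVec (x : m → ℝ) (y : n → ℝ) : frob (vecMulVec x y) = nrm x * nrm y := by
  rw [frob, nrm, nrm, ← Real.sqrt_mul (Finset.sum_nonneg fun _ _ => sq_nonneg _),
    Finset.sum_mul_sum]
  simp [vecMulVec_apply, mul_pow]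

theorem frob_diagonal [DecidableEq n] (v : n → ℝ) : frob (diagonal v) = nrm v := by
  rw [frob, nrm]; congr 1
  refine Finset.sum_congr rfl fun a _ => ?_
  simp [diagonal_apply]

theorem frob_one [DecidableEq n] : frob (1 : Matrix n n ℝ) = √(Fintype.card n) := by
  rw [← diagonal_one, frob_diagonal]; simp [nrm]

theorem abs_trace_le (M : Matrix n n ℝ) : |trace M| ≤ √(Fintype.card n) * frob M := by
  classical
  have := abs_trace_mul_le (1 : Matrix n n ℝ) M
  rwa [Matrix.one_mul, frob_one] at this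

theorem nrm_mulVec_le_frob (M : Matrix m n ℝ) (x : n → ℝ) : nrm (M *ᵥ x) ≤ frob M * nrm x := by
  apply nrm_le_of_sq_le (mul_nonneg (frob_nonneg _) (nrm_nonneg _))
  rw [mul_pow, frob_sq_eq_sum_rows, Finset.sum_mul]
  refine Finset.sum_le_sum fun a _ => ?_
  rw [← mul_pow]
  exact sq_le_sq' (abs_le.mp (abs_dot_le (M a) x)).1 (abs_le.mp (abs_dot_le (M a) x)).2

theorem frob_mul_le (M : Matrix m n ℝ) (N : Matrix n l ℝ) : frob (M * N) ≤ frob M * frob N := by
  apply frob_le_of_sq_le (mul_nonneg (frob_nonneg _) (frob_nonneg _))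
  rw [mul_pow, frob_sq_eq_sum_rows, ← frob_transpose N, frob_sq_eq_sum_rows, Finset.sum_mul_sum]
  refine Finset.sum_le_sum fun a _ => Finset.sum_le_sum fun b _ => ?_
  rw [← mul_pow]
  exact sq_le_sq' (abs_le.mp (abs_dot_le (M a) (Nᵀ b))).1 (abs_le.mp (abs_dot_le (M a) (Nᵀ b))).2

/-- `K diag(v) Kᵀ` is a sum of rank one matrices: its Frobenius norm is at most
`∑ c, |v c| * r c` with `r c` the squared norm of column `c`. -/
theorem frob_mul_diagonal_mul_le [DecidableEq n] (K : Matrix m n ℝ) (K' : Matrix n l ℝ)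
    (v : n → ℝ) :
    frob (K * diagonal v * K') ≤ ∑ c, |v c| * (nrm (fun a => K a c) * nrm (K' c)) := by
  have h : K * diagonal v * K' = ∑ c, v c • vecMulVec (fun a => K a c) (K' c) := by
    ext a b
    simp only [mul_apply, Matrix.sum_apply, Matrix.smul_apply, vecMulVec_apply, smul_eq_mul,
      diagonal_apply]
    refine Finset.sum_congr rfl fun c _ => ?_
    simp; ring
  rw [h]
  refine (frob_sum_le _ _).trans (Finset.sum_le_sum fun c _ => ?_)
  rw [frob_smul, frob_vecMulVec]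

/-- for symmetric `K`: `|K diag(v) K|_F ≤ |v| * sqrt (∑ c, ((K * K) c c) ^ 2)`. -/
theorem frob_symm_diagonal_le [DecidableEq n] {K : Matrix n n ℝ} (hK : Kᵀ = K) (v : n → ℝ) :
    frob (K * diagonal v * K) ≤ nrm v * nrm (fun c => (K * K) c c) := by
  refine (frob_mul_diagonal_mul_le K K v).trans ?_
  have h : ∀ c, nrm (fun a => K a c) * nrm (K c) = |(K * K) c c| := by
    intro c
    have h1 : (fun a => K a c) = K c := by
      funext a
      exact (congrFun (congrFun hK c) a)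
    have h2 : (K * K) c c = K c ⬝ᵥ K c := by
      simp only [mul_apply, dotProduct]
      refine Finset.sum_congr rfl fun a _ => ?_
      rw [show K a c = K c a from congrFun h1 a]
    rw [h1, h2, ← nrm_mul_self, abs_of_nonneg (mul_nonneg (nrm_nonneg _) (nrm_nonneg _))]
  simp only [h]
  exact sum_abs_mul_le _ _

end Frob

section Op

variable {m n l : Type*} [Fintype m] [Fintype n] [Fintype l] [DecidableEq m] [DecidableEq n]
  [DecidableEq l]

open scoped Matrix.Norms.L2Operator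

/-- Operator norm (with respect to Euclidean norms). -/
noncomputable def opn (M : Matrix m n ℝ) : ℝ := ‖M‖

omit [DecidableEq m] in
theorem opn_nonneg (M : Matrix m n ℝ) : 0 ≤ opn M := norm_nonneg M

omit [DecidableEq m] in
theorem nrm_mulVec_le (M : Matrix m n ℝ) (x : n → ℝ) : nrm (M *ᵥ x) ≤ opn M * nrm x := by
  have := Matrix.l2_opNorm_mulVec M (WithLp.toLp 2 x)
  simp only [nrm_eq_norm]
  exact this

omit [DecidableEq m] in
theorem opn_le_of_nrm {M : Matrix m n ℝ} {c : ℝ} (hc : 0 ≤ c)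
    (h : ∀ x, nrm (M *ᵥ x) ≤ c * nrm x) : opn M ≤ c := by
  rw [opn, Matrix.l2_opNorm_def]
  refine ContinuousLinearMap.opNorm_le_bound _ hc fun x => ?_
  have := h x.ofLp
  simp only [nrm_eq_norm] at this
  exact this

omit [DecidableEq m] in
theorem opn_mul_le (M : Matrix m n ℝ) (N : Matrix n l ℝ) : opn (M * N) ≤ opn M * opn N :=
  Matrix.l2_opNorm_mul M N

theorem opn_transpose (M : Matrix m n ℝ) : opn Mᵀ = opn M := by
  have := Matrix.l2_opNorm_conjTranspose M
  rwa [conjTranspose_eq_transpose_of_trivial] at this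

omit [DecidableEq m] in
theorem opn_transpose_mul_self (M : Matrix m n ℝ) : opn (Mᵀ * M) = opn M * opn M := by
  have := Matrix.l2_opNorm_conjTranspose_mul_self M
  rwa [conjTranspose_eq_transpose_of_trivial] at this

omit [DecidableEq m] in
theorem opn_add_le (M N : Matrix m n ℝ) : opn (M + N) ≤ opn M + opn N := norm_add_le M N

omit [DecidableEq m] in
theorem opn_sub_le (M N : Matrix m n ℝ) : opn (M - N) ≤ opn M + opn N := norm_sub_le M N

omit [DecidableEq m] in
theorem opn_neg (M : Matrix m n ℝ) : opn (-M) = opn M := norm_neg M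

omit [DecidableEq m] in
theorem opn_smul (c : ℝ) (M : Matrix m n ℝ) : opn (c • M) = |c| * opn M := by
  rw [opn, opn, norm_smul, Real.norm_eq_abs]

omit [DecidableEq m] in
theorem opn_le_frob (M : Matrix m n ℝ) : opn M ≤ frob M :=
  opn_le_of_nrm (frob_nonneg M) (nrm_mulVec_le_frob M)

theorem opn_one_le : opn (1 : Matrix n n ℝ) ≤ 1 :=
  opn_le_of_nrm zero_le_one fun x => by simp

theorem opn_diagonal_le {v : n → ℝ} {c : ℝ} (hc : 0 ≤ c) (h : ∀ a, |v a| ≤ c) :
    opn (diagonal v) ≤ c := by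
  rw [opn, Matrix.l2_opNorm_diagonal]
  exact (pi_norm_le_iff_of_nonneg hc).mpr h

theorem opn_pow_le (M : Matrix n n ℝ) (j : ℕ) : opn (M ^ j) ≤ opn M ^ j := by
  induction j with
  | zero => simpa using opn_one_le
  | succ j ih =>
    rw [pow_succ, pow_succ]
    exact (opn_mul_le _ _).trans (mul_le_mul_of_nonneg_right ih (opn_nonneg _))

omit [DecidableEq m] in
theorem abs_dot_mulVec_le (M : Matrix m n ℝ) (x : m → ℝ) (y : n → ℝ) :
    |x ⬝ᵥ M *ᵥ y| ≤ opn M * nrm x * nrm y := by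
  refine (abs_dot_le _ _).trans ?_
  have := mul_le_mul_of_nonneg_left (nrm_mulVec_le M y) (nrm_nonneg x)
  linarith

omit [DecidableEq m] in
/-- the operator norm is controlled by the bilinear form -/
theorem opn_le_of_bilin {M : Matrix m n ℝ} {c : ℝ} (hc : 0 ≤ c)
    (h : ∀ x y, x ⬝ᵥ M *ᵥ y ≤ c * nrm x * nrm y) : opn M ≤ c := by
  refine opn_le_of_nrm hc fun y => ?_
  have h1 := h (M *ᵥ y) y
  rw [← nrm_mul_self] at h1
  rcases (nrm_nonneg (M *ᵥ y)).eq_or_lt with h0 | h0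
  · rw [← h0]; exact mul_nonneg hc (nrm_nonneg _)
  · nlinarith

theorem abs_apply_le_opn (M : Matrix m n ℝ) (a : m) (b : n) : |M a b| ≤ opn M := by
  have := abs_dot_mulVec_le M (Pi.single a 1) (Pi.single b 1)
  simpa [nrm_single] using this

theorem nrm_row_le_opn (M : Matrix m n ℝ) (a : m) : nrm (M a) ≤ opn M := by
  have := nrm_mulVec_le Mᵀ (Pi.single a 1)
  rw [nrm_single, mul_one, opn_transpose] at this
  convert this using 2
  ext b; simp

omit [DecidableEq m] in
theorem nrm_col_le_opn (M : Matrix m n ℝ) (b : n) : nrm (fun a => M a b) ≤ opn M := by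
  have := nrm_mulVec_le M (Pi.single b 1)
  rw [nrm_single, mul_one] at this
  convert this using 2
  ext a; simp

omit [DecidableEq m] [DecidableEq l] in
theorem frob_mul_le_opn_frob (M : Matrix m n ℝ) (N : Matrix n l ℝ) :
    frob (M * N) ≤ opn M * frob N := by
  apply frob_le_of_sq_le (mul_nonneg (opn_nonneg _) (frob_nonneg _))
  rw [Finset.sum_comm, mul_pow, ← frob_transpose N, frob_sq_eq_sum_rows, Finset.mul_sum]
  refine Finset.sum_le_sum fun b _ => ?_
  have h := nrm_mulVec_le M (Nᵀ b)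
  have h2 : ∑ a, (M * N) a b ^ 2 = nrm (M *ᵥ Nᵀ b) ^ 2 := by
    rw [nrm_sq]; rfl
  rw [h2, ← mul_pow]
  exact pow_le_pow_left₀ (nrm_nonneg _) h 2

omit [DecidableEq m] in
theorem frob_mul_le_frob_opn (M : Matrix m n ℝ) (N : Matrix n l ℝ) :
    frob (M * N) ≤ frob M * opn N := by
  rw [← frob_transpose, transpose_mul, ← frob_transpose M, ← opn_transpose N, mul_comm]
  exact frob_mul_le_opn_frob _ _

omit [DecidableEq l] [Fintype l] in
/-- rows of a product -/
theorem nrm_row_mul_le (M : Matrix l m ℝ) (N : Matrix m n ℝ) (a : l) :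
    nrm ((M * N) a) ≤ nrm (M a) * opn N := by
  have := nrm_mulVec_le Nᵀ (M a)
  rw [opn_transpose, mul_comm] at this
  convert this using 2
  ext b; simp [mul_apply, mulVec, dotProduct, mul_comm]

omit [DecidableEq m] [DecidableEq l] [Fintype l] in
/-- entries of a triple product: `|(P M Q) a b| ≤ opn M * |row a of P| * |column b of Q|`. -/
theorem abs_mul_mul_apply_le {k : Type*} (P : Matrix l m ℝ) (M : Matrix m n ℝ)
    (Q : Matrix n k ℝ) (a : l) (b : k) :
    |(P * M * Q) a b| ≤ opn M * nrm (P a) * nrm (fun c => Q c b) := by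
  have := abs_dot_mulVec_le M (P a) (fun c => Q c b)
  convert this using 2
  rw [Matrix.mul_assoc]; rfl

omit [DecidableEq m] [DecidableEq n] [DecidableEq l] [Fintype l] in
theorem abs_mul_apply_le {k : Type*} (P : Matrix l m ℝ) (Q : Matrix m k ℝ) (a : l) (b : k) :
    |(P * Q) a b| ≤ nrm (P a) * nrm (fun c => Q c b) :=
  abs_sum_mul_le (P a) (fun c => Q c b)

omit [DecidableEq l] in
/-- `|tr (P M Q)| ≤ |P|_F * opn M * |Q|_F`. -/
theorem abs_trace_mul_mul_le (P : Matrix l m ℝ) (M : Matrix m n ℝ) (Q : Matrix n l ℝ) :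
    |trace (P * M * Q)| ≤ frob P * opn M * frob Q :=
  (abs_trace_mul_le _ _).trans
    (mul_le_mul_of_nonneg_right (frob_mul_le_frob_opn P M) (frob_nonneg _))

omit [DecidableEq m] in
/-- Schur test -/
theorem opn_le_of_schur {M : Matrix m n ℝ} {c : ℝ} (hc : 0 ≤ c)
    (hr : ∀ a, ∑ b, |M a b| ≤ c) (hcol : ∀ b, ∑ a, |M a b| ≤ c) : opn M ≤ c := by
  refine opn_le_of_nrm hc fun y => ?_
  apply nrm_le_of_sq_le (mul_nonneg hc (nrm_nonneg _))
  have h1 : ∀ a, (M *ᵥ y) a ^ 2 ≤ c * ∑ b, |M a b| * y b ^ 2 := by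
    intro a
    have h2 := Finset.sum_mul_sq_le_sq_mul_sq Finset.univ (fun b => √|M a b|)
      (fun b => √|M a b| * |y b|)
    have h3 : ∀ b, √|M a b| * (√|M a b| * |y b|) = |M a b| * |y b| := fun b => by
      rw [← mul_assoc, Real.mul_self_sqrt (abs_nonneg _)]
    have h4 : ∀ b, √|M a b| ^ 2 = |M a b| := fun b => Real.sq_sqrt (abs_nonneg _)
    simp only [h3, mul_pow, h4, sq_abs] at h2
    have h5 : |(M *ᵥ y) a| ≤ ∑ b, |M a b| * |y b| := by
      refine (Finset.abs_sum_le_sum_abs _ _).trans (le_of_eq ?_)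
      simp [abs_mul]
    have h6 : (M *ᵥ y) a ^ 2 ≤ (∑ b, |M a b| * |y b|) ^ 2 := by
      rw [← sq_abs]; exact pow_le_pow_left₀ (abs_nonneg _) h5 2
    refine h6.trans (h2.trans ?_)
    exact mul_le_mul_of_nonneg_right (hr a)
      (Finset.sum_nonneg fun b _ => mul_nonneg (abs_nonneg _) (sq_nonneg _))
  calc ∑ a, (M *ᵥ y) a ^ 2 ≤ ∑ a, c * ∑ b, |M a b| * y b ^ 2 := Finset.sum_le_sum fun a _ => h1 a
    _ = c * ∑ b, (∑ a, |M a b|) * y b ^ 2 := by
        rw [← Finset.mul_sum, Finset.sum_comm]; simp only [Finset.sum_mul]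
    _ ≤ c * ∑ b, c * y b ^ 2 := by
        refine mul_le_mul_of_nonneg_left (Finset.sum_le_sum fun b _ => ?_) hc
        exact mul_le_mul_of_nonneg_right (hcol b) (sq_nonneg _)
    _ = (c * nrm y) ^ 2 := by rw [mul_pow, nrm_sq, ← Finset.mul_sum]; ring

omit [DecidableEq m] in
theorem opn_vecMulVec_le (x : m → ℝ) (y : n → ℝ) : opn (vecMulVec x y) ≤ nrm x * nrm y :=
  (opn_le_frob _).trans (frob_vecMulVec x y).le

end Op

end Vale.Agent.P049
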