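import Vale.Agent.P049.Pot
import Vale.Agent.P049.Expo

/-!
# The numerical inequalities follow from linear inequalities between exponents
-/

namespace Vale.Agent.P049

section Pw

variable {y c Q e : ℝ}

theorem Ub.pw2 (hy : 1 ≤ y) (h : Ub y c Q e) : Ub y (c ^ 2) (Q ^ 2) (2 * e) := by
  simpa using h.pow hy 2

theorem Lb.pw2 (hy : 1 ≤ y) (h : Lb y c Q e) : Lb y (c ^ 2) (Q ^ 2) (2 * e) := by
  simpa using h.pow hy 2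

theorem Ub.pw3 (hy : 1 ≤ y) (h : Ub y c Q e) : Ub y (c ^ 3) (Q ^ 3) (3 * e) := by
  simpa using h.pow hy 3

theorem Lb.pw3 (hy : 1 ≤ y) (h : Lb y c Q e) : Lb y (c ^ 3) (Q ^ 3) (3 * e) := by
  simpa using h.pow hy 3

theorem Ub.pw4 (hy : 1 ≤ y) (h : Ub y c Q e) : Ub y (c ^ 4) (Q ^ 4) (4 * e) := by
  simpa using h.pow hy 4

theorem Lb.pw4 (hy : 1 ≤ y) (h : Lb y c Q e) : Lb y (c ^ 4) (Q ^ 4) (4 * e) := by
  simpa using h.pow hy 4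

end Pw

/-- The exponents. -/
structure Ex where
  x : ℝ
  q : ℝ
  gU : ℝ
  gL : ℝ
  v : ℝ
  u : ℝ
  g : ℝ
  nn : ℝ
  e : ℝ
  f : ℝ
  R : ℝ
  lam : ℝ
  dd : ℝ
  t : ℝ
  x0 : ℝ
  x1 : ℝ
  ro : ℝ
  L : ℝ
  tt : ℝ
  rho : ℝ
  tau : ℝ
  GS : ℝ
  GC : ℝ
  p : ℝ
  n1 : ℝ
  dG : ℝ
  dH : ℝ
  dK : ℝ
  sS : ℝ
  sC : ℝ
  d1 : ℝ
  r1 : ℝ

/-- The conditions which are always needed. -/
structure ExM (X : Ex) : Prop where
  c0 : (0 : ℝ) ≤ X.x - 1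
  c1 : (0 : ℝ) ≤ ((-4) + X.x) - 1
  c2 : (668468 : ℝ) ≤ ((-4) + 668668) - 1
  c3 : (337536 + X.q) ≤ X.dd - 1
  c4 : (X.x + X.q) ≤ X.R - 1
  c5 : (0 : ℝ) ≤ X.R - 1
  c6 : (206000 + X.q) ≤ (2 * X.v) - 1
  c7 : (0 : ℝ) ≤ X.lam - 1
  c8 : (2 * X.lam) ≤ X.f - 1
  c9 : (X.lam + (260000 + X.x)) ≤ (2 * X.tau) - 1
  c10 : X.R ≤ (2 * X.tau) - 1
  c11 : (1000200 : ℝ) ≤ X.GS - 1
  c12 : X.f ≤ X.GS - 1
  c13 : (260000 + X.x) ≤ X.GC - 1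
  c14 : X.f ≤ X.GC - 1
  c15 : X.R ≤ X.p - 1
  c16 : (X.v + X.u) ≤ X.p - 1
  c17 : (4 * X.v) ≤ X.p - 1
  c18 : (0 : ℝ) ≤ X.tt - 1
  c19 : (X.dd + X.L) ≤ (2 * X.tt) - 1
  c20 : (X.dd + X.tt) ≤ X.rho - 1
  c21 : (0 : ℝ) ≤ X.rho - 1
  c22 : (X.x / 2) ≤ X.g - 1
  c23 : X.u ≤ X.g - 1
  c24 : X.u ≤ (2 * X.nn) - 1
  c25 : (X.R / 2) ≤ X.e - 1
  c26 : (2 * X.v) ≤ X.e - 1
  c27 : (0 : ℝ) ≤ X.t - 1
  c28 : X.t ≤ X.L - 1
  c29 : (1 + X.x) ≤ (2 * X.x0) - 1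
  c30 : (2 * X.e) ≤ (2 * X.x0) - 1
  c31 : ((4 * X.g) - (4 * X.t)) ≤ (2 * X.x0) - 1
  c32 : (((2 * X.v) + (2 * X.g)) - (2 * X.t)) ≤ (2 * X.x0) - 1
  c33 : X.x0 ≤ X.x1 - 1
  c34 : ((0 + X.f) - X.L) ≤ X.x1 - 1
  c35 : (1 : ℝ) ≤ (2 * X.ro) - 1
  c36 : (2 * X.nn) ≤ (2 * X.ro) - 1
  c37 : (4 * X.v) ≤ (2 * X.ro) - 1
  c38 : (0 : ℝ) ≤ X.n1
  c39 : (2 * X.nn) ≤ X.n1
  c40 : (((2 * X.n1) + (2 * X.g)) - (4 * X.t)) ≤ (2 * X.ro) - 1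
  c41 : (((2 * X.v) + (2 * X.n1)) - (2 * X.t)) ≤ (2 * X.ro) - 1
  c42 : (((2 * X.v) + (2 * X.g)) - (2 * X.t)) ≤ (2 * X.ro) - 1
  c43 : (((2 * X.lam) + (2 * X.nn)) - (2 * X.L)) ≤ (2 * X.ro) - 1
  c44 : (2 * X.x0) ≤ ((-4) + (2 * X.x)) - 1
  c45 : X.ro ≤ ((-4) + (X.x / 2)) - 1
  c46 : (X.v + X.u) ≤ ((-4) + X.x) - 1
  c47 : (4 * X.v) ≤ ((-4) + X.x) - 1
  c48 : X.x ≤ (((-4) + (337536 + X.q)) + X.x) - 1
  c49 : ((2 * X.tau) - X.L) ≤ (((-4) + (337536 + X.q)) + X.x) - 1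
  c50 : ((X.x1 + X.v) + X.g) ≤ (((-4) + (337536 + X.q)) + X.x) - 1
  c51 : (X.x0 + X.f) ≤ (((-4) + (337536 + X.q)) + X.x) - 1
  c52 : ((2 * X.v) + (2 * X.g)) ≤ (((-4) + (2 * (337536 + X.q))) + X.x) - 1
  c53 : (2 * X.f) ≤ (((-4) + (2 * (337536 + X.q))) + X.x) - 1
  c54 : (0 : ℝ) ≤ (((-4) + (X.x + X.q)) + X.x) - 1
  c55 : (X.rho + X.R) ≤ (((-4) + (X.x + X.q)) + X.x) - 1
  c56 : ((X.lam + (2 * X.tau)) - X.L) ≤ (((-4) + (X.x + X.q)) + X.x) - 1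
  c57 : ((2 * X.v) + (2 * X.g)) ≤ (((-4) + (X.x + X.q)) + X.x) - 1
  c58 : (2 * X.f) ≤ (((-4) + (X.x + X.q)) + X.x) - 1
  c59 : (2 * X.e) ≤ (((-4) + (X.x + X.q)) + X.x) - 1
  c60 : (X.x1 + (2 * X.u)) ≤ (((-4) + (X.x + X.q)) + X.x) - 1
  c61 : ((X.ro + X.R) + (X.x / 2)) ≤ (((-4) + (X.x + X.q)) + X.x) - 1
  c62 : (((X.x1 + X.lam) + X.v) + X.u) ≤ (((-4) + (X.x + X.q)) + X.x) - 1
  c63 : ((X.x0 + X.lam) + X.f) ≤ (((-4) + (X.x + X.q)) + X.x) - 1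
  c64 : ((0 + X.x) + X.R) ≤ (((-4) + 1000200) + X.x) - 1
  c65 : (1000200 : ℝ) ≤ X.sS
  c66 : X.R ≤ X.sS
  c67 : (X.rho + X.sS) ≤ (((-4) + 1000200) + X.x) - 1
  c68 : (((2 * X.lam) + (2 * X.tau)) - X.L) ≤ (((-4) + 1000200) + X.x) - 1
  c69 : (X.dd + X.x) ≤ (((-4) + 1000200) + X.x) - 1
  c70 : X.x ≤ (((-4) + 1000200) + X.x) - 1
  c71 : (((X.x1 + X.v) + (2 * X.lam)) + X.u) ≤ (((-4) + 1000200) + X.x) - 1
  c72 : ((X.x1 + X.v) + (X.x / 2)) ≤ (((-4) + 1000200) + X.x) - 1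
  c73 : ((X.x0 + X.lam) + X.GS) ≤ (((-4) + 1000200) + X.x) - 1
  c74 : (X.x0 + (2 * X.f)) ≤ (((-4) + 1000200) + X.x) - 1
  c75 : ((X.x1 + X.lam) + (2 * X.g)) ≤ (((-4) + 1000200) + X.x) - 1
  c76 : (X.v + X.g) ≤ X.dG
  c77 : X.f ≤ X.dG
  c78 : ((X.lam + X.dG) + (X.v + X.g)) ≤ (((-4) + 1000200) + X.x) - 1
  c79 : (X.dG + X.GS) ≤ (((-4) + 1000200) + X.x) - 1
  c80 : (X.x + X.dG) ≤ (((-4) + 1000200) + X.x) - 1
  c81 : (X.lam + (2 * X.dG)) ≤ (((-4) + 1000200) + X.x) - 1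
  c82 : (X.dG + (2 * X.g)) ≤ (((-4) + 1000200) + X.x) - 1
  c83 : (X.t + (2 * X.dG)) ≤ (((-4) + 1000200) + X.x) - 1
  c84 : (X.rho + X.R) ≤ (((-4) + 1000200) + X.x) - 1
  c85 : ((X.lam + (2 * X.tau)) - X.L) ≤ (((-4) + 1000200) + X.x) - 1
  c86 : ((2 * X.v) + (2 * X.g)) ≤ (((-4) + 1000200) + X.x) - 1
  c87 : (2 * X.f) ≤ (((-4) + 1000200) + X.x) - 1
  c88 : (2 * X.e) ≤ (((-4) + 1000200) + X.x) - 1
  c89 : (X.x1 + (2 * X.u)) ≤ (((-4) + 1000200) + X.x) - 1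
  c90 : ((X.ro + X.R) + (X.x / 2)) ≤ (((-4) + 1000200) + X.x) - 1
  c91 : (((X.x1 + X.lam) + X.v) + X.u) ≤ (((-4) + 1000200) + X.x) - 1
  c92 : ((X.x0 + X.lam) + X.f) ≤ (((-4) + 1000200) + X.x) - 1
  c93 : X.dd ≤ X.d1
  c94 : (0 : ℝ) ≤ X.d1
  c95 : (X.d1 + (260000 + X.x)) ≤ (((-4) + (260000 + X.x)) + X.x) - 1
  c96 : ((0 + X.x) + X.R) ≤ (((-4) + (260000 + X.x)) + X.x) - 1
  c97 : (X.rho + (260000 + X.x)) ≤ (((-4) + (260000 + X.x)) + X.x) - 1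
  c98 : ((X.dd + X.lam) + X.R) ≤ (((-4) + (260000 + X.x)) + X.x) - 1
  c99 : ((X.lam + (2 * X.f)) - X.L) ≤ (((-4) + (260000 + X.x)) + X.x) - 1
  c100 : ((3 * X.tau) - X.L) ≤ (((-4) + (260000 + X.x)) + X.x) - 1
  c101 : (260000 + X.x) ≤ X.sC
  c102 : X.R ≤ X.sC
  c103 : (X.rho + X.sC) ≤ (((-4) + (260000 + X.x)) + X.x) - 1
  c104 : ((2 * X.GC) - X.L) ≤ (((-4) + (260000 + X.x)) + X.x) - 1
  c105 : (X.dd + X.x) ≤ (((-4) + (260000 + X.x)) + X.x) - 1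
  c106 : X.x ≤ (((-4) + (260000 + X.x)) + X.x) - 1
  c107 : (((X.x1 + X.v) + (2 * X.lam)) + X.u) ≤ (((-4) + (260000 + X.x)) + X.x) - 1
  c108 : ((X.x1 + X.v) + (X.x / 2)) ≤ (((-4) + (260000 + X.x)) + X.x) - 1
  c109 : ((X.x0 + X.lam) + X.GC) ≤ (((-4) + (260000 + X.x)) + X.x) - 1
  c110 : (X.x0 + (2 * X.tau)) ≤ (((-4) + (260000 + X.x)) + X.x) - 1
  c111 : ((X.x1 + X.lam) + (2 * X.g)) ≤ (((-4) + (260000 + X.x)) + X.x) - 1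
  c112 : ((X.lam + X.dG) + (X.v + X.g)) ≤ (((-4) + (260000 + X.x)) + X.x) - 1
  c113 : (X.dG + X.GC) ≤ (((-4) + (260000 + X.x)) + X.x) - 1
  c114 : (X.x + X.dG) ≤ (((-4) + (260000 + X.x)) + X.x) - 1
  c115 : (X.v + X.g) ≤ X.dH
  c116 : X.tau ≤ X.dH
  c117 : (X.lam + (2 * X.dH)) ≤ (((-4) + (260000 + X.x)) + X.x) - 1
  c118 : (X.x + X.dH) ≤ (((-4) + (260000 + X.x)) + X.x) - 1
  c119 : (X.v + X.g) ≤ X.dK
  c120 : X.f ≤ X.dK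
  c121 : X.tau ≤ X.dK
  c122 : (X.dK + (2 * X.g)) ≤ (((-4) + (260000 + X.x)) + X.x) - 1
  c123 : (X.t + (2 * X.dH)) ≤ (((-4) + (260000 + X.x)) + X.x) - 1
  c124 : (X.rho + X.R) ≤ (((-4) + (260000 + X.x)) + X.x) - 1
  c125 : ((X.lam + (2 * X.tau)) - X.L) ≤ (((-4) + (260000 + X.x)) + X.x) - 1
  c126 : ((2 * X.v) + (2 * X.g)) ≤ (((-4) + (260000 + X.x)) + X.x) - 1
  c127 : (2 * X.f) ≤ (((-4) + (260000 + X.x)) + X.x) - 1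
  c128 : (2 * X.e) ≤ (((-4) + (260000 + X.x)) + X.x) - 1
  c129 : (X.x1 + (2 * X.u)) ≤ (((-4) + (260000 + X.x)) + X.x) - 1
  c130 : ((X.ro + X.R) + (X.x / 2)) ≤ (((-4) + (260000 + X.x)) + X.x) - 1
  c131 : (((X.x1 + X.lam) + X.v) + X.u) ≤ (((-4) + (260000 + X.x)) + X.x) - 1
  c132 : ((X.x0 + X.lam) + X.f) ≤ (((-4) + (260000 + X.x)) + X.x) - 1
  c133 : ((X.dd + X.v) + X.u) ≤ (((-4) + (206000 + X.q)) + X.x) - 1
  c134 : ((X.ro + (2 * X.v)) + X.u) ≤ (((-4) + (206000 + X.q)) + X.x) - 1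
  c135 : X.dd ≤ (((-4) + (206000 + X.q)) + X.x) - 1
  c136 : ((X.x1 + X.v) + X.u) ≤ (((-4) + (206000 + X.q)) + X.x) - 1
  c137 : (2 * X.u) ≤ (((-4) + (206000 + X.q)) + X.x) - 1
  c138 : ((X.ro + (2 * X.v)) + (X.x / 2)) ≤ (((-4) + (206000 + X.q)) + X.x) - 1
  c139 : ((0 + X.x) + X.p) ≤ (((-4) + ((200 + (X.x + X.q)) + X.gL)) + X.x) - 1
  c140 : X.rho ≤ X.r1
  c141 : ((X.tau + X.lam) - X.L) ≤ X.r1
  c142 : ((0 + X.r1) + (2 * X.u)) ≤ (((-4) + ((200 + (X.x + X.q)) + X.gL)) + X.x) - 1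
  c143 : X.R ≤ (((-4) + ((200 + (X.x + X.q)) + X.gL)) + X.x) - 1
  c144 : (((X.ro + X.lam) + X.v) + (2 * X.u)) ≤ (((-4) + ((200 + (X.x + X.q)) + X.gL)) + X.x) - 1
  c145 : ((X.x0 + X.lam) + (2 * X.u)) ≤ (((-4) + ((200 + (X.x + X.q)) + X.gL)) + X.x) - 1
  c146 : ((X.ro + (2 * X.u)) + X.g) ≤ (((-4) + ((200 + (X.x + X.q)) + X.gL)) + X.x) - 1
  c147 : (X.f + (2 * X.u)) ≤ (((-4) + ((200 + (X.x + X.q)) + X.gL)) + X.x) - 1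
  c148 : (((X.lam + X.v) + X.nn) + (2 * X.u)) ≤ (((-4) + ((200 + (X.x + X.q)) + X.gL)) + X.x) - 1
  c149 : ((X.g + X.v) + (2 * X.u)) ≤ (((-4) + ((200 + (X.x + X.q)) + X.gL)) + X.x) - 1
  c150 : (((2 * X.v) + X.n1) + (2 * X.u)) ≤ (((-4) + ((200 + (X.x + X.q)) + X.gL)) + X.x) - 1
  c151 : ((2 * X.t) + (2 * X.u)) ≤ (((-4) + ((200 + (X.x + X.q)) + X.gL)) + X.x) - 1
  c152 : ((2 * X.lam) + (2 * X.u)) ≤ (((-4) + ((200 + (X.x + X.q)) + X.gL)) + X.x) - 1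
  c153 : (((2 * X.t) + (2 * X.v)) + X.p) ≤ (((-4) + ((200 + (X.x + X.q)) + X.gL)) + X.x) - 1
  c154 : (2 * X.e) ≤ (((-4) + ((200 + (X.x + X.q)) + X.gL)) + X.x) - 1
  c155 : (((2 * X.lam) + (2 * X.v)) + X.u) ≤ (((-4) + ((200 + (X.x + X.q)) + X.gL)) + X.x) - 1
  c156 : ((4 * X.v) + (2 * X.g)) ≤ (((-4) + ((200 + (X.x + X.q)) + X.gL)) + X.x) - 1
  c157 : ((X.ro + (X.x / 2)) + (2 * X.u)) ≤ (((-4) + ((200 + (X.x + X.q)) + X.gL)) + X.x) - 1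

/-- The conditions for the quadratic potential. -/
structure ExE (X : Ex) : Prop where
  c0 : X.x ≤ (((-4) + (668468 + (2 * X.q))) + X.x) - 1
  c1 : (X.rho + X.R) ≤ (((-4) + (668468 + (2 * X.q))) + X.x) - 1
  c2 : ((X.lam + (2 * X.tau)) - X.L) ≤ (((-4) + (668468 + (2 * X.q))) + X.x) - 1
  c3 : ((2 * X.v) + (2 * X.g)) ≤ (((-4) + (668468 + (2 * X.q))) + X.x) - 1
  c4 : (2 * X.f) ≤ (((-4) + (668468 + (2 * X.q))) + X.x) - 1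
  c5 : (2 * X.e) ≤ (((-4) + (668468 + (2 * X.q))) + X.x) - 1
  c6 : (X.x1 + (2 * X.u)) ≤ (((-4) + (668468 + (2 * X.q))) + X.x) - 1
  c7 : ((X.x1 + (X.x / 2)) + X.u) ≤ (((-4) + (668468 + (2 * X.q))) + X.x) - 1
  c8 : (((X.x1 + X.lam) + X.v) + X.u) ≤ (((-4) + (668468 + (2 * X.q))) + X.x) - 1
  c9 : ((X.x0 + X.lam) + X.f) ≤ (((-4) + (668468 + (2 * X.q))) + X.x) - 1
  c10 : ((0 + X.q) + (2 * X.x0)) ≤ (((-4) + (668468 + (2 * X.q))) + X.x) - 1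
  c11 : (4 * X.u) ≤ (((-4) + (2 * (668468 + (2 * X.q)))) + X.x) - 1
  c12 : (X.x + (2 * X.u)) ≤ (((-4) + (2 * (668468 + (2 * X.q)))) + X.x) - 1
  c13 : (2 * X.e) ≤ (((-4) + (2 * (668468 + (2 * X.q)))) + X.x) - 1
  c14 : (((2 * X.v) + (2 * X.lam)) + (2 * X.u)) ≤ (((-4) + (2 * (668468 + (2 * X.q)))) + X.x) - 1
  c15 : ((2 * X.lam) + (2 * X.f)) ≤ (((-4) + (2 * (668468 + (2 * X.q)))) + X.x) - 1
  c16 : (((2 * X.t) + (2 * X.v)) + (2 * X.g)) ≤ (((-4) + (2 * (668468 + (2 * X.q)))) + X.x) - 1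
  c17 : ((2 * X.t) + (2 * X.f)) ≤ (((-4) + (2 * (668468 + (2 * X.q)))) + X.x) - 1
  c18 : (2 * (X.x + X.q)) ≤ (((-4) + (2 * (668468 + (2 * X.q)))) + X.x) - 1

/-- First choice of `u`. -/
structure ExU1 (X : Ex) : Prop where
  c0 : ((200 + (X.x + X.q)) + X.gU) ≤ (2 * X.u) - 1

/-- Second choice of `u`. -/
structure ExU2 (X : Ex) : Prop where
  c0 : X.R ≤ X.u - 1

/-- First choice of `lam`. -/
structure ExL1 (X : Ex) : Prop where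
  c0 : (1000200 : ℝ) ≤ (3 * X.lam) - 1
  c1 : X.R ≤ (4 * X.lam) - 1

/-- Second choice of `lam`. -/
structure ExL2 (X : Ex) : Prop where
  c0 : X.R ≤ (2 * X.lam) - 1

/-- The quantities are powers of `y` up to constants. -/
structure Fit (y : ℝ) (E : Env ℝ) (P : Pr) (a : Aux) (k G : ℝ) (X : Ex) : Prop where
  big : 10 ^ 30 ≤ y
  uv : Ub y 1 P.v X.v
  lv : Lb y 1 P.v X.v
  uu : Ub y 1 P.u X.u
  lu : Lb y 1 P.u X.u
  ug : Ub y 1 P.g X.g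
  lg : Lb y 1 P.g X.g
  unn : Ub y 1 P.nn X.nn
  lnn : Lb y 1 P.nn X.nn
  ue : Ub y 1 P.e X.e
  le : Lb y 1 P.e X.e
  uf : Ub y 1 P.f X.f
  lf : Lb y 1 P.f X.f
  uR : Ub y 1 P.R X.R
  lR : Lb y 1 P.R X.R
  ulam : Ub y 1 P.lam X.lam
  llam : Lb y 1 P.lam X.lam
  udd : Ub y 1 P.dd X.dd
  ldd : Lb y 1 P.dd X.dd
  ut : Ub y 1 P.t X.t
  lt : Lb y 1 P.t X.t
  ux0 : Ub y 1 P.x0 X.x0
  lx0 : Lb y 1 P.x0 X.x0
  ux1 : Ub y 1 P.x1 X.x1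
  lx1 : Lb y 1 P.x1 X.x1
  uro : Ub y 1 P.ro X.ro
  lro : Lb y 1 P.ro X.ro
  uL : Ub y 1 a.L X.L
  lL : Lb y 1 a.L X.L
  utt : Ub y 1 a.tt X.tt
  ltt : Lb y 1 a.tt X.tt
  urho : Ub y 1 a.ρ X.rho
  lrho : Lb y 1 a.ρ X.rho
  utau : Ub y 1 a.τ X.tau
  ltau : Lb y 1 a.τ X.tau
  uGS : Ub y 1 a.GS X.GS
  lGS : Lb y 1 a.GS X.GS
  uGC : Ub y 1 a.GC X.GC
  lGC : Lb y 1 a.GC X.GC
  up : Ub y 1 a.p X.p
  lp : Lb y 1 a.p X.p
  uk : Ub y 1 k X.x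
  lk : Lb y 1 k X.x
  usk : Ub y 1 (√k) (X.x / 2)
  lsk : Lb y 1 (√k) (X.x / 2)
  usR : Ub y 1 (√P.R) (X.R / 2)
  uq : Ub y 1 (E.q k) X.q
  lq : Lb y 2 (E.q k) X.q
  ukap : Ub y 1 E.kap 668668
  lkap : Lb y 1 E.kap 668668
  uDb : Ub y 1 E.Db 337536
  lDb : Lb y 1 E.Db 337536
  udb : Ub y 1 E.db 668468
  ldb : Lb y 1 E.db 668468
  uSb : Ub y 1 E.Sb 1000200
  lSb : Lb y 1 E.Sb 1000200
  uuC : Ub y 1 E.uC 260000
  luC : Lb y 1 E.uC 260000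
  uVb : Ub y 1 E.Vb 206000
  lVb : Lb y 1 E.Vb 206000
  uMu : Ub y 1 E.Mu 200
  lMu : Lb y 1 E.Mu 200
  ueps : Ub y 1 a.ε (-4)
  leps : Lb y 1 a.ε (-4)
  udF : Ub y 1 |a.dF| 1
  uG : Ub y 1 G X.gU
  lG : Lb y 1 G X.gL

namespace Fit

variable {y : ℝ} {E : Env ℝ} {P : Pr} {a : Aux} {k G : ℝ} {X : Ex} (F : Fit y E P a k G X)

include F

theorem one_le : 1 ≤ y := le_trans (by norm_num) F.big

theorem n_hk (h : ExM X) :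
    3000 ≤ k := by
  have hy := F.one_le
  exact Ub.le_of_lb hy (Ub.mono hy (Ub.const (c := 3000) (by norm_num)) h.c0)
      F.lk (le_trans (by norm_num) F.big) (by linarith)

theorem n_ek (h : ExM X) :
    1 ≤ a.ε * k := by
  have hy := F.one_le
  exact Ub.le_of_lb hy (Ub.mono hy (Ub.const (c := 1) (by norm_num)) h.c1)
      (Lb.mul hy F.leps F.lk) (le_trans (by norm_num) F.big) (by linarith)

theorem n_dbl (h : ExM X) :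
    E.db ≤ a.ε * E.kap := by
  have hy := F.one_le
  exact Ub.le_of_lb hy (Ub.mono hy F.udb h.c2)
      (Lb.mul hy F.leps F.lkap) (le_trans (by norm_num) F.big) (by linarith)

theorem n_dd (h : ExM X) :
    E.Db * E.q k ≤ P.dd := by
  have hy := F.one_le
  exact Ub.le_of_lb hy (Ub.mono hy (Ub.mul hy F.uDb F.uq) h.c3)
      F.ldd (le_trans (by norm_num) F.big) (by linarith)

theorem n_R (h : ExM X) :
    8 * (k * E.q k) + 1 ≤ P.R := by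
  have hy := F.one_le
  exact Ub.le_of_lb hy (Ub.add (Ub.cmul (a := 8) (by norm_num) (Ub.mono hy (Ub.mul hy F.uk F.uq)
    h.c4))
      (Ub.mono hy (Ub.const (c := 1) (by norm_num)) h.c5))
      F.lR (le_trans (by norm_num) F.big) (by linarith)

theorem n_v (h : ExM X) :
    4 * (E.Vb * E.q k) ≤ P.v ^ 2 := by
  have hy := F.one_le
  exact Ub.le_of_lb hy (Ub.cmul (a := 4) (by norm_num) (Ub.mono hy (Ub.mul hy F.uVb F.uq) h.c6))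
      (Lb.pw2 hy F.lv) (le_trans (by norm_num) F.big) (by linarith)

theorem n_u1 (hU : ExU1 X) :
    4 * (E.Mu * (k * E.q k) * G) ≤ P.u ^ 2 := by
  have hy := F.one_le
  exact Ub.le_of_lb hy (Ub.cmul (a := 4) (by norm_num) (Ub.mono hy (Ub.mul hy (Ub.mul hy F.uMu
    (Ub.mul hy F.uk F.uq)) F.uG) hU.c0))
      (Lb.pw2 hy F.lu) (le_trans (by norm_num) F.big) (by linarith)

theorem n_u2 (hU : ExU2 X) :
    2 * P.R ≤ P.u := by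
  have hy := F.one_le
  exact Ub.le_of_lb hy (Ub.cmul (a := 2) (by norm_num) (Ub.mono hy F.uR hU.c0))
      F.lu (le_trans (by norm_num) F.big) (by linarith)

theorem n_lam1 (h : ExM X) :
    1 ≤ P.lam := by
  have hy := F.one_le
  exact Ub.le_of_lb hy (Ub.mono hy (Ub.const (c := 1) (by norm_num)) h.c7)
      F.llam (le_trans (by norm_num) F.big) (by linarith)

theorem n_lamA (hL : ExL1 X) :
    E.Sb ≤ P.lam ^ 3 := by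
  have hy := F.one_le
  exact Ub.le_of_lb hy (Ub.mono hy F.uSb hL.c0)
      (Lb.pw3 hy F.llam) (le_trans (by norm_num) F.big) (by linarith)

theorem n_lamB (hL : ExL1 X) :
    P.R ≤ P.lam ^ 4 := by
  have hy := F.one_le
  exact Ub.le_of_lb hy (Ub.mono hy F.uR hL.c1)
      (Lb.pw4 hy F.llam) (le_trans (by norm_num) F.big) (by linarith)

theorem n_lamC (hL : ExL2 X) :
    P.R ≤ P.lam ^ 2 := by
  have hy := F.one_le
  exact Ub.le_of_lb hy (Ub.mono hy F.uR hL.c0)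
      (Lb.pw2 hy F.llam) (le_trans (by norm_num) F.big) (by linarith)

theorem n_f (h : ExM X) :
    2 * P.lam ^ 2 ≤ P.f := by
  have hy := F.one_le
  exact Ub.le_of_lb hy (Ub.cmul (a := 2) (by norm_num) (Ub.mono hy (Ub.pw2 hy F.ulam) h.c8))
      F.lf (le_trans (by norm_num) F.big) (by linarith)

theorem n_tau (h : ExM X) :
    P.lam * (E.uC * k) + P.R ≤ a.τ ^ 2 := by
  have hy := F.one_le
  exact Ub.le_of_lb hy (Ub.add (Ub.mono hy (Ub.mul hy F.ulam (Ub.mul hy F.uuC F.uk)) h.c9)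
      (Ub.mono hy F.uR h.c10))
      (Lb.pw2 hy F.ltau) (le_trans (by norm_num) F.big) (by linarith)

theorem n_GS (h : ExM X) :
    E.Sb + P.f ≤ a.GS := by
  have hy := F.one_le
  exact Ub.le_of_lb hy (Ub.add (Ub.mono hy F.uSb h.c11)
      (Ub.mono hy F.uf h.c12))
      F.lGS (le_trans (by norm_num) F.big) (by linarith)

theorem n_GC (h : ExM X) :
    E.uC * k + P.f ≤ a.GC := by
  have hy := F.one_le
  exact Ub.le_of_lb hy (Ub.add (Ub.mono hy (Ub.mul hy F.uuC F.uk) h.c13)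
      (Ub.mono hy F.uf h.c14))
      F.lGC (le_trans (by norm_num) F.big) (by linarith)

theorem n_p (h : ExM X) :
    P.R + 1000 * (P.v * P.u + P.v ^ 4) ≤ a.p := by
  have hy := F.one_le
  exact Ub.le_of_lb hy (Ub.add (Ub.mono hy F.uR h.c15)
      (Ub.cmul (a := 1000) (by norm_num) (Ub.add (Ub.mono hy (Ub.mul hy F.uv F.uu) h.c16)
      (Ub.mono hy (Ub.pw4 hy F.uv) h.c17))))
      F.lp (le_trans (by norm_num) F.big) (by linarith)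

theorem n_tt1 (h : ExM X) :
    1 ≤ a.tt := by
  have hy := F.one_le
  exact Ub.le_of_lb hy (Ub.mono hy (Ub.const (c := 1) (by norm_num)) h.c18)
      F.ltt (le_trans (by norm_num) F.big) (by linarith)

theorem n_tt (h : ExM X) :
    P.dd * a.L ≤ a.tt ^ 2 := by
  have hy := F.one_le
  exact Ub.le_of_lb hy (Ub.mono hy (Ub.mul hy F.udd F.uL) h.c19)
      (Lb.pw2 hy F.ltt) (le_trans (by norm_num) F.big) (by linarith)

theorem n_rho (h : ExM X) :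
    P.dd * a.tt + 1 ≤ a.ρ := by
  have hy := F.one_le
  exact Ub.le_of_lb hy (Ub.add (Ub.mono hy (Ub.mul hy F.udd F.utt) h.c20)
      (Ub.mono hy (Ub.const (c := 1) (by norm_num)) h.c21))
      F.lrho (le_trans (by norm_num) F.big) (by linarith)

theorem n_g (h : ExM X) :
    √k + P.u ≤ P.g := by
  have hy := F.one_le
  exact Ub.le_of_lb hy (Ub.add (Ub.mono hy F.usk h.c22)
      (Ub.mono hy F.uu h.c23))
      F.lg (le_trans (by norm_num) F.big) (by linarith)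

theorem n_nn (h : ExM X) :
    P.u ≤ P.nn ^ 2 := by
  have hy := F.one_le
  exact Ub.le_of_lb hy (Ub.mono hy F.uu h.c24)
      (Lb.pw2 hy F.lnn) (le_trans (by norm_num) F.big) (by linarith)

theorem n_e (h : ExM X) :
    2 * √P.R + P.v ^ 2 ≤ P.e := by
  have hy := F.one_le
  exact Ub.le_of_lb hy (Ub.add (Ub.cmul (a := 2) (by norm_num) (Ub.mono hy F.usR h.c25))
      (Ub.mono hy (Ub.pw2 hy F.uv) h.c26))
      F.le (le_trans (by norm_num) F.big) (by linarith)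

theorem n_t1 (h : ExM X) :
    1 ≤ P.t := by
  have hy := F.one_le
  exact Ub.le_of_lb hy (Ub.mono hy (Ub.const (c := 1) (by norm_num)) h.c27)
      F.lt (le_trans (by norm_num) F.big) (by linarith)

theorem n_L (h : ExM X) :
    1000 * P.t ≤ a.L := by
  have hy := F.one_le
  exact Ub.le_of_lb hy (Ub.cmul (a := 1000) (by norm_num) (Ub.mono hy F.ut h.c28))
      F.lL (le_trans (by norm_num) F.big) (by linarith)

theorem n_x0 (h : ExM X) :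
    10 ^ 8 * (|a.dF| * k + P.e ^ 2 + P.g ^ 4 / P.t ^ 4 + P.v ^ 2 * P.g ^ 2 / P.t ^ 2) ≤ P.x0 ^ 2
      := by
  have hy := F.one_le
  exact Ub.le_of_lb hy (Ub.cmul (a := 10 ^ 8) (by norm_num) (Ub.add (Ub.add (Ub.add (Ub.mono hy
    (Ub.mul hy F.udF F.uk) h.c29)
      (Ub.mono hy (Ub.pw2 hy F.ue) h.c30))
      (Ub.mono hy (Ub.div hy (Ub.pw4 hy F.ug) (Lb.pw4 hy F.lt)) h.c31))
      (Ub.mono hy (Ub.div hy (Ub.mul hy (Ub.pw2 hy F.uv) (Ub.pw2 hy F.ug)) (Lb.pw2 hy F.lt))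
        h.c32)))
      (Lb.pw2 hy F.lx0) (le_trans (by norm_num) F.big) (by linarith)

theorem n_x1 (h : ExM X) :
    P.x0 + 2 * P.f / a.L ≤ P.x1 := by
  have hy := F.one_le
  exact Ub.le_of_lb hy (Ub.add (Ub.mono hy F.ux0 h.c33)
      (Ub.mono hy (Ub.div hy (Ub.mul hy (Ub.const (c := 2) (by norm_num)) F.uf) F.lL) h.c34))
      F.lx1 (le_trans (by norm_num) F.big) (by linarith)

theorem n_ro (h : ExM X) :
    10 ^ 8 * (|a.dF| + P.nn ^ 2 + P.v ^ 4 + (1 + P.nn ^ 2) ^ 2 * P.g ^ 2 / P.t ^ 4 +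
    P.v ^ 2 * (1 + P.nn ^ 2) ^ 2 / P.t ^ 2 + P.v ^ 2 * P.g ^ 2 / P.t ^ 2 +
    P.lam ^ 2 * P.nn ^ 2 / a.L ^ 2) ≤ P.ro ^ 2 := by
  have hy := F.one_le
  exact Ub.le_of_lb hy (Ub.cmul (a := 10 ^ 8) (by norm_num) (Ub.add (Ub.add (Ub.add (Ub.add
    (Ub.add (Ub.add (Ub.mono hy F.udF h.c35)
      (Ub.mono hy (Ub.pw2 hy F.unn) h.c36))
      (Ub.mono hy (Ub.pw4 hy F.uv) h.c37))
      (Ub.mono hy (Ub.div hy (Ub.mul hy (Ub.pw2 hy (Ub.add (Ub.mono hy (Ub.const (c := 1) (by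
        norm_num)) h.c38)
      (Ub.mono hy (Ub.pw2 hy F.unn) h.c39))) (Ub.pw2 hy F.ug)) (Lb.pw4 hy F.lt)) h.c40))
      (Ub.mono hy (Ub.div hy (Ub.mul hy (Ub.pw2 hy F.uv) (Ub.pw2 hy (Ub.add (Ub.mono hy
        (Ub.const (c := 1) (by norm_num)) h.c38)
      (Ub.mono hy (Ub.pw2 hy F.unn) h.c39)))) (Lb.pw2 hy F.lt)) h.c41))
      (Ub.mono hy (Ub.div hy (Ub.mul hy (Ub.pw2 hy F.uv) (Ub.pw2 hy F.ug)) (Lb.pw2 hy F.lt))
        h.c42))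
      (Ub.mono hy (Ub.div hy (Ub.mul hy (Ub.pw2 hy F.ulam) (Ub.pw2 hy F.unn)) (Lb.pw2 hy F.lL))
        h.c43)))
      (Lb.pw2 hy F.lro) (le_trans (by norm_num) F.big) (by linarith)

theorem n_bZ (h : ExM X) :
    P.x0 ^ 2 ≤ a.ε * k ^ 2 := by
  have hy := F.one_le
  exact Ub.le_of_lb hy (Ub.mono hy (Ub.pw2 hy F.ux0) h.c44)
      (Lb.mul hy F.leps (Lb.pw2 hy F.lk)) (le_trans (by norm_num) F.big) (by linarith)

theorem n_bro (h : ExM X) :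
    P.ro ≤ a.ε * √k := by
  have hy := F.one_le
  exact Ub.le_of_lb hy (Ub.mono hy F.uro h.c45)
      (Lb.mul hy F.leps F.lsk) (le_trans (by norm_num) F.big) (by linarith)

theorem n_bP (h : ExM X) :
    1000 * (P.v * P.u + P.v ^ 4) ≤ a.ε * k := by
  have hy := F.one_le
  exact Ub.le_of_lb hy (Ub.cmul (a := 1000) (by norm_num) (Ub.add (Ub.mono hy (Ub.mul hy F.uv
    F.uu) h.c46)
      (Ub.mono hy (Ub.pw4 hy F.uv) h.c47)))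
      (Lb.mul hy F.leps F.lk) (le_trans (by norm_num) F.big) (by linarith)

theorem n_bD1 (h : ExM X) :
    2 * k + 2 * (a.τ ^ 2 / a.L) + P.eD1 ≤ a.ε * (E.Db * E.q k) * k := by
  have hy := F.one_le
  unfold Pr.eD1
  exact Ub.le_of_lb hy (Ub.add (Ub.add (Ub.cmul (a := 2) (by norm_num) (Ub.mono hy F.uk h.c48))
      (Ub.cmul (a := 2) (by norm_num) (Ub.mono hy (Ub.div hy (Ub.pw2 hy F.utau) F.lL) h.c49)))
      (Ub.cmul (a := 100) (by norm_num) (Ub.add (Ub.mono hy (Ub.mul hy (Ub.mul hy F.ux1 F.uv)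
        F.ug) h.c50)
      (Ub.mono hy (Ub.mul hy F.ux0 F.uf) h.c51))))
      (Lb.mul hy (Lb.mul hy F.leps (Lb.mul hy F.lDb F.lq)) F.lk) (le_trans (by norm_num) F.big)
        (by linarith)

theorem n_bD2 (h : ExM X) :
    P.eD2 ≤ a.ε * (E.Db * E.q k) ^ 2 * k := by
  have hy := F.one_le
  unfold Pr.eD2
  exact Ub.le_of_lb hy (Ub.cmul (a := 100) (by norm_num) (Ub.add (Ub.mono hy (Ub.mul hy (Ub.pw2
    hy F.uv) (Ub.pw2 hy F.ug)) h.c52)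
      (Ub.mono hy (Ub.pw2 hy F.uf) h.c53)))
      (Lb.mul hy (Lb.mul hy F.leps (Lb.pw2 hy (Lb.mul hy F.lDb F.lq))) F.lk) (le_trans (by
        norm_num) F.big) (by linarith)

theorem n_bE1 (hE : ExE X) :
    4 * k + eRR P a (P.x1 * √k * P.u) + 4 * E.q k * P.x0 ^ 2 ≤
    a.ε * (E.db * E.q k ^ 2) * k := by
  have hy := F.one_le
  unfold eRR Pr.eR1
  exact Ub.le_of_lb hy (Ub.add (Ub.add (Ub.cmul (a := 4) (by norm_num) (Ub.mono hy F.uk hE.c0))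
      (Ub.add (Ub.cmul (a := 4) (by norm_num) (Ub.add (Ub.mono hy (Ub.mul hy F.urho F.uR) hE.c1)
      (Ub.mono hy (Ub.div hy (Ub.mul hy F.ulam (Ub.pw2 hy F.utau)) F.lL) hE.c2)))
      (Ub.cmul (a := 1000) (by norm_num) (Ub.add (Ub.add (Ub.add (Ub.add (Ub.add (Ub.add
        (Ub.mono hy (Ub.mul hy (Ub.pw2 hy F.uv) (Ub.pw2 hy F.ug)) hE.c3)
      (Ub.mono hy (Ub.pw2 hy F.uf) hE.c4))
      (Ub.mono hy (Ub.pw2 hy F.ue) hE.c5))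
      (Ub.mono hy (Ub.mul hy F.ux1 (Ub.pw2 hy F.uu)) hE.c6))
      (Ub.mono hy (Ub.mul hy (Ub.mul hy F.ux1 F.usk) F.uu) hE.c7))
      (Ub.mono hy (Ub.mul hy (Ub.mul hy (Ub.mul hy F.ux1 F.ulam) F.uv) F.uu) hE.c8))
      (Ub.mono hy (Ub.mul hy (Ub.mul hy F.ux0 F.ulam) F.uf) hE.c9)))))
      (Ub.mono hy (Ub.mul hy (Ub.mul hy (Ub.const (c := 4) (by norm_num)) F.uq) (Ub.pw2 hy
        F.ux0)) hE.c10))
      (Lb.mul hy (Lb.mul hy F.leps (Lb.mul hy F.ldb (Lb.pw2 hy F.lq))) F.lk) (le_trans (by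
        norm_num) F.big) (by linarith)

theorem n_bE2 (hE : ExE X) :
    2 * P.eR2 k + 64 * (k * E.q k) ^ 2 ≤ a.ε * (E.db * E.q k ^ 2) ^ 2 * k := by
  have hy := F.one_le
  unfold Pr.eR2
  exact Ub.le_of_lb hy (Ub.add (Ub.cmul (a := 2) (by norm_num) (Ub.cmul (a := 10000) (by
    norm_num) (Ub.add (Ub.add (Ub.add (Ub.add (Ub.add (Ub.add (Ub.mono hy (Ub.pw4 hy F.uu) hE.c11)
      (Ub.mono hy (Ub.mul hy F.uk (Ub.pw2 hy F.uu)) hE.c12))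
      (Ub.mono hy (Ub.pw2 hy F.ue) hE.c13))
      (Ub.mono hy (Ub.mul hy (Ub.mul hy (Ub.pw2 hy F.uv) (Ub.pw2 hy F.ulam)) (Ub.pw2 hy F.uu))
        hE.c14))
      (Ub.mono hy (Ub.mul hy (Ub.pw2 hy F.ulam) (Ub.pw2 hy F.uf)) hE.c15))
      (Ub.mono hy (Ub.mul hy (Ub.mul hy (Ub.pw2 hy F.ut) (Ub.pw2 hy F.uv)) (Ub.pw2 hy F.ug))
        hE.c16))
      (Ub.mono hy (Ub.mul hy (Ub.pw2 hy F.ut) (Ub.pw2 hy F.uf)) hE.c17))))
      (Ub.cmul (a := 64) (by norm_num) (Ub.mono hy (Ub.pw2 hy (Ub.mul hy F.uk F.uq)) hE.c18)))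
      (Lb.mul hy (Lb.mul hy F.leps (Lb.pw2 hy (Lb.mul hy F.ldb (Lb.pw2 hy F.lq)))) F.lk)
        (le_trans (by norm_num) F.big) (by linarith)

theorem n_bR (h : ExM X) :
    2 + eRR P a (P.ro * P.R * √k) ≤ a.ε * (k * E.q k) * k := by
  have hy := F.one_le
  unfold eRR Pr.eR1
  exact Ub.le_of_lb hy (Ub.add (Ub.mono hy (Ub.const (c := 2) (by norm_num)) h.c54)
      (Ub.add (Ub.cmul (a := 4) (by norm_num) (Ub.add (Ub.mono hy (Ub.mul hy F.urho F.uR) h.c55)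
      (Ub.mono hy (Ub.div hy (Ub.mul hy F.ulam (Ub.pw2 hy F.utau)) F.lL) h.c56)))
      (Ub.cmul (a := 1000) (by norm_num) (Ub.add (Ub.add (Ub.add (Ub.add (Ub.add (Ub.add
        (Ub.mono hy (Ub.mul hy (Ub.pw2 hy F.uv) (Ub.pw2 hy F.ug)) h.c57)
      (Ub.mono hy (Ub.pw2 hy F.uf) h.c58))
      (Ub.mono hy (Ub.pw2 hy F.ue) h.c59))
      (Ub.mono hy (Ub.mul hy F.ux1 (Ub.pw2 hy F.uu)) h.c60))
      (Ub.mono hy (Ub.mul hy (Ub.mul hy F.uro F.uR) F.usk) h.c61))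
      (Ub.mono hy (Ub.mul hy (Ub.mul hy (Ub.mul hy F.ux1 F.ulam) F.uv) F.uu) h.c62))
      (Ub.mono hy (Ub.mul hy (Ub.mul hy F.ux0 F.ulam) F.uf) h.c63)))))
      (Lb.mul hy (Lb.mul hy F.leps (Lb.mul hy F.lk F.lq)) F.lk) (le_trans (by norm_num) F.big)
        (by linarith)

theorem n_bS (h : ExM X) :
    6 * k * P.R + 6 * (a.ρ * (E.Sb + P.R) + P.lam ^ 2 * a.τ ^ 2 / a.L) + P.eT k P.f a.GS +
    4 * k + eRR P a (P.ro * P.R * √k) ≤ a.ε * E.Sb * k := by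
  have hy := F.one_le
  unfold eRR Pr.eR1 Pr.eT
  exact Ub.le_of_lb hy (Ub.add (Ub.add (Ub.add (Ub.add (Ub.mono hy (Ub.mul hy (Ub.mul hy
    (Ub.const (c := 6) (by norm_num)) F.uk) F.uR) h.c64)
      (Ub.cmul (a := 6) (by norm_num) (Ub.add (Ub.mono hy (Ub.mul hy F.urho (Ub.add (Ub.mono hy
        F.uSb h.c65)
      (Ub.mono hy F.uR h.c66))) h.c67)
      (Ub.mono hy (Ub.div hy (Ub.mul hy (Ub.pw2 hy F.ulam) (Ub.pw2 hy F.utau)) F.lL) h.c68))))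
      (Ub.cmul (a := 10000) (by norm_num) (Ub.add (Ub.add (Ub.add (Ub.add (Ub.add (Ub.add
        (Ub.add (Ub.add (Ub.add (Ub.add (Ub.add (Ub.add (Ub.add (Ub.mono hy (Ub.mul hy F.udd F.uk)
        h.c69)
      (Ub.mono hy F.uk h.c70))
      (Ub.mono hy (Ub.mul hy (Ub.mul hy (Ub.mul hy F.ux1 F.uv) (Ub.pw2 hy F.ulam)) F.uu) h.c71))
      (Ub.mono hy (Ub.mul hy (Ub.mul hy F.ux1 F.uv) F.usk) h.c72))
      (Ub.mono hy (Ub.mul hy (Ub.mul hy F.ux0 F.ulam) F.uGS) h.c73))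
      (Ub.mono hy (Ub.mul hy F.ux0 (Ub.pw2 hy F.uf)) h.c74))
      (Ub.mono hy (Ub.mul hy (Ub.mul hy F.ux1 F.ulam) (Ub.pw2 hy F.ug)) h.c75))
      (Ub.mono hy (Ub.mul hy (Ub.mul hy F.ulam (Ub.add (Ub.mono hy (Ub.mul hy F.uv F.ug) h.c76)
      (Ub.mono hy F.uf h.c77))) (Ub.mul hy F.uv F.ug)) h.c78))
      (Ub.mono hy (Ub.mul hy (Ub.add (Ub.mono hy (Ub.mul hy F.uv F.ug) h.c76)
      (Ub.mono hy F.uf h.c77)) F.uGS) h.c79))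
      (Ub.mono hy (Ub.mul hy F.uk (Ub.add (Ub.mono hy (Ub.mul hy F.uv F.ug) h.c76)
      (Ub.mono hy F.uf h.c77))) h.c80))
      (Ub.mono hy (Ub.mul hy F.ulam (Ub.pw2 hy (Ub.add (Ub.mono hy (Ub.mul hy F.uv F.ug) h.c76)
      (Ub.mono hy F.uf h.c77)))) h.c81))
      (Ub.mono hy (Ub.mul hy F.uk (Ub.add (Ub.mono hy (Ub.mul hy F.uv F.ug) h.c76)
      (Ub.mono hy F.uf h.c77))) h.c80))
      (Ub.mono hy (Ub.mul hy (Ub.add (Ub.add (Ub.cmul (a := 2) (by norm_num) (Ub.mono hy (Ub.mul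
        hy F.uv F.ug) h.c76))
      (Ub.mono hy F.uf h.c77))
      (Ub.mono hy F.uf h.c77)) (Ub.pw2 hy F.ug)) h.c82))
      (Ub.mono hy (Ub.mul hy F.ut (Ub.pw2 hy (Ub.add (Ub.mono hy (Ub.mul hy F.uv F.ug) h.c76)
      (Ub.mono hy F.uf h.c77)))) h.c83))))
      (Ub.cmul (a := 4) (by norm_num) (Ub.mono hy F.uk h.c70)))
      (Ub.add (Ub.cmul (a := 4) (by norm_num) (Ub.add (Ub.mono hy (Ub.mul hy F.urho F.uR) h.c84)
      (Ub.mono hy (Ub.div hy (Ub.mul hy F.ulam (Ub.pw2 hy F.utau)) F.lL) h.c85)))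
      (Ub.cmul (a := 1000) (by norm_num) (Ub.add (Ub.add (Ub.add (Ub.add (Ub.add (Ub.add
        (Ub.mono hy (Ub.mul hy (Ub.pw2 hy F.uv) (Ub.pw2 hy F.ug)) h.c86)
      (Ub.mono hy (Ub.pw2 hy F.uf) h.c87))
      (Ub.mono hy (Ub.pw2 hy F.ue) h.c88))
      (Ub.mono hy (Ub.mul hy F.ux1 (Ub.pw2 hy F.uu)) h.c89))
      (Ub.mono hy (Ub.mul hy (Ub.mul hy F.uro F.uR) F.usk) h.c90))
      (Ub.mono hy (Ub.mul hy (Ub.mul hy (Ub.mul hy F.ux1 F.ulam) F.uv) F.uu) h.c91))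
      (Ub.mono hy (Ub.mul hy (Ub.mul hy F.ux0 F.ulam) F.uf) h.c92)))))
      (Lb.mul hy (Lb.mul hy F.leps F.lSb) F.lk) (le_trans (by norm_num) F.big) (by linarith)

theorem n_bC (h : ExM X) :
    (8 * P.dd + 12) * (E.uC * k) + 10 * k * P.R +
    4 * (a.ρ * (E.uC * k) + P.dd * P.lam * P.R + P.lam * P.f ^ 2 / a.L + a.τ ^ 3 / a.L) +
    2 * (a.ρ * (E.uC * k + P.R) + a.GC ^ 2 / a.L) + P.eT k a.τ a.GC + 4 * k +
    eRR P a (P.ro * P.R * √k) ≤ a.ε * (E.uC * k) * k := by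
  have hy := F.one_le
  unfold eRR Pr.eR1 Pr.eT
  exact Ub.le_of_lb hy (Ub.add (Ub.add (Ub.add (Ub.add (Ub.add (Ub.add (Ub.mono hy (Ub.mul hy
    (Ub.add (Ub.cmul (a := 8) (by norm_num) (Ub.mono hy F.udd h.c93))
      (Ub.mono hy (Ub.const (c := 12) (by norm_num)) h.c94)) (Ub.mul hy F.uuC F.uk)) h.c95)
      (Ub.mono hy (Ub.mul hy (Ub.mul hy (Ub.const (c := 10) (by norm_num)) F.uk) F.uR) h.c96))
      (Ub.cmul (a := 4) (by norm_num) (Ub.add (Ub.add (Ub.add (Ub.mono hy (Ub.mul hy F.urho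
        (Ub.mul hy F.uuC F.uk)) h.c97)
      (Ub.mono hy (Ub.mul hy (Ub.mul hy F.udd F.ulam) F.uR) h.c98))
      (Ub.mono hy (Ub.div hy (Ub.mul hy F.ulam (Ub.pw2 hy F.uf)) F.lL) h.c99))
      (Ub.mono hy (Ub.div hy (Ub.pw3 hy F.utau) F.lL) h.c100))))
      (Ub.cmul (a := 2) (by norm_num) (Ub.add (Ub.mono hy (Ub.mul hy F.urho (Ub.add (Ub.mono hy
        (Ub.mul hy F.uuC F.uk) h.c101)
      (Ub.mono hy F.uR h.c102))) h.c103)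
      (Ub.mono hy (Ub.div hy (Ub.pw2 hy F.uGC) F.lL) h.c104))))
      (Ub.cmul (a := 10000) (by norm_num) (Ub.add (Ub.add (Ub.add (Ub.add (Ub.add (Ub.add
        (Ub.add (Ub.add (Ub.add (Ub.add (Ub.add (Ub.add (Ub.add (Ub.mono hy (Ub.mul hy F.udd F.uk)
        h.c105)
      (Ub.mono hy F.uk h.c106))
      (Ub.mono hy (Ub.mul hy (Ub.mul hy (Ub.mul hy F.ux1 F.uv) (Ub.pw2 hy F.ulam)) F.uu) h.c107))
      (Ub.mono hy (Ub.mul hy (Ub.mul hy F.ux1 F.uv) F.usk) h.c108))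
      (Ub.mono hy (Ub.mul hy (Ub.mul hy F.ux0 F.ulam) F.uGC) h.c109))
      (Ub.mono hy (Ub.mul hy F.ux0 (Ub.pw2 hy F.utau)) h.c110))
      (Ub.mono hy (Ub.mul hy (Ub.mul hy F.ux1 F.ulam) (Ub.pw2 hy F.ug)) h.c111))
      (Ub.mono hy (Ub.mul hy (Ub.mul hy F.ulam (Ub.add (Ub.mono hy (Ub.mul hy F.uv F.ug) h.c76)
      (Ub.mono hy F.uf h.c77))) (Ub.mul hy F.uv F.ug)) h.c112))
      (Ub.mono hy (Ub.mul hy (Ub.add (Ub.mono hy (Ub.mul hy F.uv F.ug) h.c76)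
      (Ub.mono hy F.uf h.c77)) F.uGC) h.c113))
      (Ub.mono hy (Ub.mul hy F.uk (Ub.add (Ub.mono hy (Ub.mul hy F.uv F.ug) h.c76)
      (Ub.mono hy F.uf h.c77))) h.c114))
      (Ub.mono hy (Ub.mul hy F.ulam (Ub.pw2 hy (Ub.add (Ub.mono hy (Ub.mul hy F.uv F.ug) h.c115)
      (Ub.mono hy F.utau h.c116)))) h.c117))
      (Ub.mono hy (Ub.mul hy F.uk (Ub.add (Ub.mono hy (Ub.mul hy F.uv F.ug) h.c115)
      (Ub.mono hy F.utau h.c116))) h.c118))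
      (Ub.mono hy (Ub.mul hy (Ub.add (Ub.add (Ub.cmul (a := 2) (by norm_num) (Ub.mono hy (Ub.mul
        hy F.uv F.ug) h.c119))
      (Ub.mono hy F.uf h.c120))
      (Ub.mono hy F.utau h.c121)) (Ub.pw2 hy F.ug)) h.c122))
      (Ub.mono hy (Ub.mul hy F.ut (Ub.pw2 hy (Ub.add (Ub.mono hy (Ub.mul hy F.uv F.ug) h.c115)
      (Ub.mono hy F.utau h.c116)))) h.c123))))
      (Ub.cmul (a := 4) (by norm_num) (Ub.mono hy F.uk h.c106)))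
      (Ub.add (Ub.cmul (a := 4) (by norm_num) (Ub.add (Ub.mono hy (Ub.mul hy F.urho F.uR) h.c124)
      (Ub.mono hy (Ub.div hy (Ub.mul hy F.ulam (Ub.pw2 hy F.utau)) F.lL) h.c125)))
      (Ub.cmul (a := 1000) (by norm_num) (Ub.add (Ub.add (Ub.add (Ub.add (Ub.add (Ub.add
        (Ub.mono hy (Ub.mul hy (Ub.pw2 hy F.uv) (Ub.pw2 hy F.ug)) h.c126)
      (Ub.mono hy (Ub.pw2 hy F.uf) h.c127))
      (Ub.mono hy (Ub.pw2 hy F.ue) h.c128))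
      (Ub.mono hy (Ub.mul hy F.ux1 (Ub.pw2 hy F.uu)) h.c129))
      (Ub.mono hy (Ub.mul hy (Ub.mul hy F.uro F.uR) F.usk) h.c130))
      (Ub.mono hy (Ub.mul hy (Ub.mul hy (Ub.mul hy F.ux1 F.ulam) F.uv) F.uu) h.c131))
      (Ub.mono hy (Ub.mul hy (Ub.mul hy F.ux0 F.ulam) F.uf) h.c132)))))
      (Lb.mul hy (Lb.mul hy F.leps (Lb.mul hy F.luC F.lk)) F.lk) (le_trans (by norm_num) F.big)
        (by linarith)

theorem n_bV (h : ExM X) :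
    P.eV k ≤ a.ε * (E.Vb * E.q k) * k := by
  have hy := F.one_le
  unfold Pr.eV
  exact Ub.le_of_lb hy (Ub.cmul (a := 1000) (by norm_num) (Ub.add (Ub.add (Ub.add (Ub.add
    (Ub.add (Ub.mono hy (Ub.mul hy (Ub.mul hy F.udd F.uv) F.uu) h.c133)
      (Ub.mono hy (Ub.mul hy (Ub.mul hy F.uro (Ub.pw2 hy F.uv)) F.uu) h.c134))
      (Ub.mono hy F.udd h.c135))
      (Ub.mono hy (Ub.mul hy (Ub.mul hy F.ux1 F.uv) F.uu) h.c136))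
      (Ub.mono hy (Ub.pw2 hy F.uu) h.c137))
      (Ub.mono hy (Ub.mul hy (Ub.mul hy F.uro (Ub.pw2 hy F.uv)) F.usk) h.c138)))
      (Lb.mul hy (Lb.mul hy F.leps (Lb.mul hy F.lVb F.lq)) F.lk) (le_trans (by norm_num) F.big)
        (by linarith)

theorem n_bU (h : ExM X) :
    3 * k * a.p + 8 * (a.ρ + a.τ * P.lam / a.L) * P.u ^ 2 + P.eU k a.p ≤
    a.ε * (E.Mu * (k * E.q k) * G) * k := by
  have hy := F.one_le
  unfold Pr.eU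
  exact Ub.le_of_lb hy (Ub.add (Ub.add (Ub.mono hy (Ub.mul hy (Ub.mul hy (Ub.const (c := 3) (by
    norm_num)) F.uk) F.up) h.c139)
      (Ub.mono hy (Ub.mul hy (Ub.mul hy (Ub.const (c := 8) (by norm_num)) (Ub.add (Ub.mono hy
        F.urho h.c140)
      (Ub.mono hy (Ub.div hy (Ub.mul hy F.utau F.ulam) F.lL) h.c141))) (Ub.pw2 hy F.uu)) h.c142))
      (Ub.cmul (a := 1000000) (by norm_num) (Ub.add (Ub.add (Ub.add (Ub.add (Ub.add (Ub.add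
        (Ub.add (Ub.add (Ub.add (Ub.add (Ub.add (Ub.add (Ub.add (Ub.add (Ub.mono hy F.uR h.c143)
      (Ub.mono hy (Ub.mul hy (Ub.mul hy (Ub.mul hy F.uro F.ulam) F.uv) (Ub.pw2 hy F.uu)) h.c144))
      (Ub.mono hy (Ub.mul hy (Ub.mul hy F.ux0 F.ulam) (Ub.pw2 hy F.uu)) h.c145))
      (Ub.mono hy (Ub.mul hy (Ub.mul hy F.uro (Ub.pw2 hy F.uu)) F.ug) h.c146))
      (Ub.mono hy (Ub.mul hy F.uf (Ub.pw2 hy F.uu)) h.c147))
      (Ub.mono hy (Ub.mul hy (Ub.mul hy (Ub.mul hy F.ulam F.uv) F.unn) (Ub.pw2 hy F.uu)) h.c148))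
      (Ub.mono hy (Ub.mul hy (Ub.mul hy F.ug F.uv) (Ub.pw2 hy F.uu)) h.c149))
      (Ub.mono hy (Ub.mul hy (Ub.mul hy (Ub.pw2 hy F.uv) (Ub.add (Ub.mono hy (Ub.const (c := 1)
        (by norm_num)) h.c38)
      (Ub.mono hy (Ub.pw2 hy F.unn) h.c39))) (Ub.pw2 hy F.uu)) h.c150))
      (Ub.mono hy (Ub.mul hy (Ub.pw2 hy F.ut) (Ub.pw2 hy F.uu)) h.c151))
      (Ub.mono hy (Ub.mul hy (Ub.pw2 hy F.ulam) (Ub.pw2 hy F.uu)) h.c152))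
      (Ub.mono hy (Ub.mul hy (Ub.mul hy (Ub.pw2 hy F.ut) (Ub.pw2 hy F.uv)) F.up) h.c153))
      (Ub.mono hy (Ub.pw2 hy F.ue) h.c154))
      (Ub.mono hy (Ub.mul hy (Ub.mul hy (Ub.pw2 hy F.ulam) (Ub.pw2 hy F.uv)) F.uu) h.c155))
      (Ub.mono hy (Ub.mul hy (Ub.pw4 hy F.uv) (Ub.pw2 hy F.ug)) h.c156))
      (Ub.mono hy (Ub.mul hy (Ub.mul hy F.uro F.usk) (Ub.pw2 hy F.uu)) h.c157))))
      (Lb.mul hy (Lb.mul hy F.leps (Lb.mul hy (Lb.mul hy F.lMu (Lb.mul hy F.lk F.lq)) F.lG))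
        F.lk) (le_trans (by norm_num) F.big) (by linarith)

/-- All numerical inequalities. -/
theorem num (h : ExM X) (hE : E.db ≤ k → ExE X) (hU : ExU1 X ∨ ExU2 X) (hL : ExL1 X ∨ ExL2 X) :
    Num E P a k G := by
  have hy := F.one_le
  have hk := F.lk.pos hy
  have hε := F.leps.pos hy
  have hε1 : a.ε ≤ 1 / 1000000 := by
    have h1 := F.ueps.le
    have h2 : y ^ (-4 : ℝ) ≤ y ^ (-1 : ℝ) := Real.rpow_le_rpow_of_exponent_le hy (by norm_num)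
    have h3 : y ^ (-1 : ℝ) ≤ 1 / 1000000 := by
      rw [Real.rpow_neg_one, ← one_div]
      exact one_div_le_one_div_of_le (by norm_num) (le_trans (by norm_num) F.big)
    linarith
  have hd := le_abs_self a.dF
  have hd' := mul_le_mul_of_nonneg_right hd hk.le
  exact
    { sc := ⟨F.n_hk h, hε, hε1, F.n_ek h, by simpa using by positivity, F.lkap.pos hy,
        F.lDb.pos hy, F.ldb.pos hy, F.lSb.pos hy, F.luC.pos hy, F.lVb.pos hy, F.lMu.pos hy,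
        F.n_dbl h⟩
      G_pos := F.lG.pos hy
      dd := F.n_dd h
      R := F.n_R h
      v0 := F.uv.nonneg
      v := F.n_v h
      u0 := F.uu.nonneg
      u := hU.imp F.n_u1 F.n_u2
      lam1 := F.n_lam1 h
      lam := hL.imp (fun hL => ⟨F.n_lamA hL, F.n_lamB hL⟩) F.n_lamC
      f := F.n_f h
      τ0 := F.utau.nonneg
      τ := F.n_tau h
      GS := F.n_GS h
      GC := F.n_GC h
      p := F.n_p h
      tt1 := F.n_tt1 h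
      tt := F.n_tt h
      ρ := F.n_rho h
      g := F.n_g h
      nn0 := F.unn.nonneg
      nn := F.n_nn h
      e := F.n_e h
      t1 := F.n_t1 h
      L := F.n_L h
      x00 := F.ux0.nonneg
      ro0 := F.uro.nonneg
      x0 := by linarith [F.n_x0 h]
      x1 := F.n_x1 h
      ro := by linarith [F.n_ro h]
      bZ := F.n_bZ h
      bro := F.n_bro h
      bP := F.n_bP h
      bD1 := F.n_bD1 h
      bD2 := F.n_bD2 h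
      bE1 := fun hk => F.n_bE1 (hE hk)
      bE2 := fun hk => F.n_bE2 (hE hk)
      bR := F.n_bR h
      bS := F.n_bS h
      bC := F.n_bC h
      bV := F.n_bV h
      bU := F.n_bU h }

end Fit

end Vale.Agent.P049
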