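import Vale.Agent.P049.Iface
import Vale.Agent.P049.Glue

/-!
The potential function, over an arbitrary ordered field, and the list `Num` of numerical
inequalities under which its weighted average does not increase.
-/

namespace Vale.Agent.P049

open Matrix Finset

/-- The parameters of the envelopes. -/
structure Env (K : Type*) where
  kap : K
  Db : K
  db : K
  Sb : K
  uC : K
  Vb : K
  Mu : K

section Field

variable {K : Type*} [Field K] [LinearOrder K]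

namespace Env

variable (E : Env K)

/-- The logistic profile. -/
def q (k : K) : K := k / (k + E.kap)

/-- The potential of the trace. -/
def fD (k t1 : K) : K := t1 ^ 2 / (E.Db * E.q k) ^ 2

/-- The quadratic potential of the trace of the square. -/
def fE (k t2 : K) : K :=
  if E.db ≤ k then max (t2 - k * E.q k) 0 ^ 2 / (E.db * E.q k ^ 2) ^ 2 else 0

/-- The linear potential of the trace of the square. -/
def fR (k t2 : K) : K := (t2 - 1) / (8 * (k * E.q k))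

/-- The potential of the cubic word of one kernel. -/
def fS (s : K) : K := s / E.Sb

/-- The potential of the mixed cubic word. -/
def fC (k c : K) : K := c / (E.uC * k)

/-- The potential of the diagonal. -/
def fV (k v : K) : K := v / (E.Vb * E.q k)

/-- The potential of the row norms. -/
def fU (k G u : K) : K := u / (E.Mu * (k * E.q k) * G)

/-- The potential of one side, as a function of six observables. -/
def side (k G t1 t2 s3 c3 v u : K) : K :=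
  E.fD k t1 + E.fE k t2 + E.fR k t2 + E.fS (s3 + t2) + E.fC k (c3 + t2) + E.fV k v + E.fU k G u

end Env

/-- The envelopes as powers of `y`, where `y ^ 1000000 ≤ N ≤ y ^ 1000001`. -/
def envY (y : K) : Env K :=
  ⟨y ^ 668668, y ^ 337536, y ^ 668468, y ^ 1000200, y ^ 260000, y ^ 206000, y ^ 200⟩

/-- The growth factor in the envelope of the row norms. -/
def gro (kap : K) (N k : ℕ) : K := ∏ j ∈ Ioc k N, (1 + 11 / 20 / ((j : K) + kap))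

/-- The potential as a function of the size `k` and of the statistics of the state. -/
def Psi (N : ℕ) (y : K) (k : ℕ) (S : Stats K) : K :=
  (envY y).side k (gro (y ^ 668668) N k) S.a1 S.a2 S.a3 S.aab S.da S.ra +
    (envY y).side k (gro (y ^ 668668) N k) S.b1 S.b2 S.b3 S.bba S.db S.rb

end Field

/-- The potential of one side, for matrices. -/
noncomputable def mSide {ι : Type*} [Fintype ι] [DecidableEq ι] (E : Env ℝ) (k G : ℝ)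
    (X Y : Matrix ι ι ℝ) : ℝ :=
  E.side k G (trace X) (trace (X * X)) (trace (X * X * X)) (trace (X * X * Y)) (vv X) (uu X)

theorem Psi_mstats {ι : Type*} [Fintype ι] [DecidableEq ι] (N : ℕ) (y : ℝ) (k : ℕ)
    (A B : Matrix ι ι ℝ) : Psi N y k (mstats A B) =
      mSide (envY y) k (gro (y ^ 668668) N k) A B + mSide (envY y) k (gro (y ^ 668668) N k) B A :=
  rfl

/-- Basic facts about the envelopes, the size `k`, the total weight `Z` and the accuracy `ε`. -/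
structure Sc (E : Env ℝ) (k Z ε : ℝ) : Prop where
  hk : 3000 ≤ k
  ε_pos : 0 < ε
  ε_le : ε ≤ 1 / 1000000
  εk : 1 ≤ ε * k
  hZ : |Z - k ^ 2| ≤ ε * k ^ 2
  kap_pos : 0 < E.kap
  Db_pos : 0 < E.Db
  db_pos : 0 < E.db
  Sb_pos : 0 < E.Sb
  uC_pos : 0 < E.uC
  Vb_pos : 0 < E.Vb
  Mu_pos : 0 < E.Mu
  db_le : E.db ≤ ε * E.kap

/-- Auxiliary numbers of the analysis. -/
structure Aux where
  ε : ℝ
  dF : ℝ
  L : ℝ
  tt : ℝ
  ρ : ℝ
  τ : ℝ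
  GS : ℝ
  GC : ℝ
  p : ℝ

/-- The total error in the drift of the trace of the square. -/
noncomputable def eRR (P : Pr) (a : Aux) (J : ℝ) : ℝ :=
  4 * (a.ρ * P.R + P.lam * a.τ ^ 2 / a.L) + P.eR1 J

/-- The numerical inequalities needed at size `k` with growth factor `G`. -/
structure Num (E : Env ℝ) (P : Pr) (a : Aux) (k G : ℝ) : Prop where
  sc : Sc E k (k ^ 2) a.ε
  G_pos : 0 < G
  dd : E.Db * E.q k ≤ P.dd
  R : 8 * (k * E.q k) + 1 ≤ P.R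
  v0 : 0 ≤ P.v
  v : 4 * (E.Vb * E.q k) ≤ P.v ^ 2
  u0 : 0 ≤ P.u
  u : 4 * (E.Mu * (k * E.q k) * G) ≤ P.u ^ 2 ∨ 2 * P.R ≤ P.u
  lam1 : 1 ≤ P.lam
  lam : (E.Sb ≤ P.lam ^ 3 ∧ P.R ≤ P.lam ^ 4) ∨ P.R ≤ P.lam ^ 2
  f : 2 * P.lam ^ 2 ≤ P.f
  τ0 : 0 ≤ a.τ
  τ : P.lam * (E.uC * k) + P.R ≤ a.τ ^ 2
  GS : E.Sb + P.f ≤ a.GS
  GC : E.uC * k + P.f ≤ a.GC
  p : P.R + 1000 * (P.v * P.u + P.v ^ 4) ≤ a.p
  tt1 : 1 ≤ a.tt
  tt : P.dd * a.L ≤ a.tt ^ 2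
  ρ : P.dd * a.tt + 1 ≤ a.ρ
  g : √k + P.u ≤ P.g
  nn0 : 0 ≤ P.nn
  nn : P.u ≤ P.nn ^ 2
  e : 2 * √P.R + P.v ^ 2 ≤ P.e
  t1 : 1 ≤ P.t
  L : 1000 * P.t ≤ a.L
  x00 : 0 ≤ P.x0
  ro0 : 0 ≤ P.ro
  x0 : 10 ^ 8 * (a.dF * k + P.e ^ 2 + P.g ^ 4 / P.t ^ 4 + P.v ^ 2 * P.g ^ 2 / P.t ^ 2) ≤ P.x0 ^ 2
  x1 : P.x0 + 2 * P.f / a.L ≤ P.x1
  ro : 10 ^ 8 * (a.dF + P.nn ^ 2 + P.v ^ 4 + (1 + P.nn ^ 2) ^ 2 * P.g ^ 2 / P.t ^ 4 +
    P.v ^ 2 * (1 + P.nn ^ 2) ^ 2 / P.t ^ 2 + P.v ^ 2 * P.g ^ 2 / P.t ^ 2 +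
    P.lam ^ 2 * P.nn ^ 2 / a.L ^ 2) ≤ P.ro ^ 2
  bZ : P.x0 ^ 2 ≤ a.ε * k ^ 2
  bro : P.ro ≤ a.ε * √k
  bP : 1000 * (P.v * P.u + P.v ^ 4) ≤ a.ε * k
  bD1 : 2 * k + 2 * (a.τ ^ 2 / a.L) + P.eD1 ≤ a.ε * (E.Db * E.q k) * k
  bD2 : P.eD2 ≤ a.ε * (E.Db * E.q k) ^ 2 * k
  bE1 : E.db ≤ k → 4 * k + eRR P a (P.x1 * √k * P.u) + 4 * E.q k * P.x0 ^ 2 ≤
    a.ε * (E.db * E.q k ^ 2) * k
  bE2 : E.db ≤ k → 2 * P.eR2 k + 64 * (k * E.q k) ^ 2 ≤ a.ε * (E.db * E.q k ^ 2) ^ 2 * k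
  bR : 2 + eRR P a (P.ro * P.R * √k) ≤ a.ε * (k * E.q k) * k
  bS : 6 * k * P.R + 6 * (a.ρ * (E.Sb + P.R) + P.lam ^ 2 * a.τ ^ 2 / a.L) + P.eT k P.f a.GS +
    4 * k + eRR P a (P.ro * P.R * √k) ≤ a.ε * E.Sb * k
  bC : (8 * P.dd + 12) * (E.uC * k) + 10 * k * P.R +
    4 * (a.ρ * (E.uC * k) + P.dd * P.lam * P.R + P.lam * P.f ^ 2 / a.L + a.τ ^ 3 / a.L) +
    2 * (a.ρ * (E.uC * k + P.R) + a.GC ^ 2 / a.L) + P.eT k a.τ a.GC + 4 * k +
    eRR P a (P.ro * P.R * √k) ≤ a.ε * (E.uC * k) * k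
  bV : P.eV k ≤ a.ε * (E.Vb * E.q k) * k
  bU : 3 * k * a.p + 8 * (a.ρ + a.τ * P.lam / a.L) * P.u ^ 2 + P.eU k a.p ≤
    a.ε * (E.Mu * (k * E.q k) * G) * k

end Vale.Agent.P049
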