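import Vale.Agent.P049.Algo

/-!
# The reduction of the problem to a potential function
-/

namespace Vale.Agent.P049

open Finset Vale.Agent.Lib.PolyTime

/-- The real kernel of a rational kernel. -/
def cst {ι : Type*} (F : ι → ι → ℚ) (c e : ι) : ℝ := F c e

theorem cst_res {ι : Type*} [DecidableEq ι] (H : Finset ι) (F : ι → ι → ℚ) :
    cst (res H F) = res H (cst F) := by
  funext c e
  unfold cst res
  split_ifs <;> simp

theorem cst_den {ι : Type*} (s : ℚ) (F : ι → ι → ℚ) (a b : ι) :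
    ((den s F a b : ℚ) : ℝ) = den (s : ℝ) (cst F) a b := by
  simp [den, cst]

theorem cst_nxt {ι : Type*} (s : ℚ) (F : ι → ι → ℚ) (a b : ι) :
    cst (nxt s F a b) = nxt (s : ℝ) (cst F) a b := by
  funext c e
  simp [nxt, den, cst]

theorem cst_ini (s m p : ℚ) (d N : ℕ) : cst (ini s m p d N) = ini (s : ℝ) m p d N := by
  funext c e
  unfold cst ini
  split_ifs <;> simp

/-- What has to be proved about the potential `Φ` for one value of `n`. -/
structure GoodPot (d n : ℕ) (m p δ : ℝ) (k : ℕ)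
    (Φ : (ℕ → ℕ) → (ℕ → ℕ → ℝ) → (ℕ → ℕ → ℝ) → ℝ) : Prop where
  hm : m ^ 2 < 1
  hp : 0 < p
  hz : m * d + (1 - m ^ 2) / p ≤ 2 * √((d : ℝ) - 1)
  hδ : 0 ≤ δ
  hk : 2 * k ≤ n * d
  init : Φ (fun _ => n * d) (res (range (n * d)) (ini 1 m p d (n * d)))
    (res (range (n * d)) (ini (-1) m p d (n * d))) + k * δ ≤ 1
  step : ∀ π A B, IsMatch d (n * d) π → Ker 1 m (alive (n * d) π) A →
    Ker (-1) m (alive (n * d) π) B → n * d < (alive (n * d) π).card + 2 * k →
    (alive (n * d) π).card % 2 = 0 → Φ π A B ≤ 1 →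
    ∃ a ∈ alive (n * d) π, ∃ b ∈ alive (n * d) π, ¬ Forb d (n * d) π a b ∧ 0 < den 1 A a b ∧
      0 < den (-1) B a b ∧ Φ (upd π a b) (res (rest (alive (n * d) π) a b) (nxt 1 A a b))
        (res (rest (alive (n * d) π) a b) (nxt (-1) B a b)) ≤ Φ π A B + δ
  final : ∀ π A B, IsMatch d (n * d) π → Ker 1 m (alive (n * d) π) A →
    Ker (-1) m (alive (n * d) π) B → (alive (n * d) π).card + 2 * k = n * d → Φ π A B ≤ 1 →
    (∀ x : ℕ → ℝ, ∑ i ∈ alive (n * d) π, x i = 0 →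
      qf (alive (n * d) π) A x ≤ ∑ i ∈ alive (n * d) π, x i ^ 2) ∧
    (∀ x : ℕ → ℝ, ∑ i ∈ alive (n * d) π, x i = 0 →
      qf (alive (n * d) π) B x ≤ ∑ i ∈ alive (n * d) π, x i ^ 2) ∧
    ∀ a ∈ alive (n * d) π, ∀ b ∈ alive (n * d) π, a ≠ b → ¬ Forb d (n * d) π a b

/-- The first restricted real kernel of a state. -/
def kerA (N : ℕ) (S : St) : ℕ → ℕ → ℝ := res (alive N (look N S.1)) (cst (mat S.2.1))

/-- The second restricted real kernel of a state. -/
def kerB (N : ℕ) (S : St) : ℕ → ℕ → ℝ := res (alive N (look N S.1)) (cst (mat S.2.2))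

/-- The invariant of the run. -/
structure Good (d n : ℕ) (m p δ : ℚ) (Φ : (ℕ → ℕ) → (ℕ → ℕ → ℝ) → (ℕ → ℕ → ℝ) → ℝ) (c : ℝ)
    (j : ℕ) (S : St) : Prop where
  wf : Wf (n * d) (ini 1 m p d (n * d)) (ini (-1) m p d (n * d)) S
  mtch : IsMatch d (n * d) (look (n * d) S.1)
  kA : Ker 1 m (alive (n * d) (look (n * d) S.1)) (kerA (n * d) S)
  kB : Ker (-1) m (alive (n * d) (look (n * d) S.1)) (kerB (n * d) S)
  sA : Spec d n 1 m ((1 - m ^ 2) / p) (look (n * d) S.1) (kerA (n * d) S)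
  sB : Spec d n (-1) m ((1 - m ^ 2) / p) (look (n * d) S.1) (kerB (n * d) S)
  card : (alive (n * d) (look (n * d) S.1)).card + 2 * j = n * d
  pot : Φ (look (n * d) S.1) (kerA (n * d) S) (kerB (n * d) S) ≤ c + j * δ

theorem kerA_ini (m p : ℚ) (d N : ℕ) :
    kerA N (iniSt m p d N) = res (range N) (ini 1 (m : ℝ) p d N) := by
  simp only [kerA, iniSt, look_ini, alive_const, mat_tab, cst_res, cst_ini, Rat.cast_one]
  exact res_res subset_rfl _

theorem kerB_ini (m p : ℚ) (d N : ℕ) :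
    kerB N (iniSt m p d N) = res (range N) (ini (-1) (m : ℝ) p d N) := by
  simp only [kerB, iniSt, look_ini, alive_const, mat_tab, cst_res, cst_ini, Rat.cast_one,
    Rat.cast_neg]
  exact res_res subset_rfl _

theorem Wf.kerA_next {N : ℕ} {A₀ B₀ : ℕ → ℕ → ℚ} {S : St} (h : Wf N A₀ B₀ S) {a b : ℕ}
    (ha : a ∈ alive N (look N S.1)) (hb : b ∈ alive N (look N S.1)) :
    kerA N (nextSt N S a b) = res (rest (alive N (look N S.1)) a b) (nxt 1 (kerA N S) a b) := by
  have ha1 := (mem_alive.1 ha).1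
  have hb1 := (mem_alive.1 hb).1
  unfold kerA
  rw [h.look_next ha1 hb1, alive_upd ha1 hb1, nxt_res _ _ ha hb]
  simp only [nextSt, mat_tab, cst_res, cst_nxt, Rat.cast_one]
  exact res_res' ((rest_subset _ _ _).trans (alive_subset _ _)) _

theorem Wf.kerB_next {N : ℕ} {A₀ B₀ : ℕ → ℕ → ℚ} {S : St} (h : Wf N A₀ B₀ S) {a b : ℕ}
    (ha : a ∈ alive N (look N S.1)) (hb : b ∈ alive N (look N S.1)) :
    kerB N (nextSt N S a b) = res (rest (alive N (look N S.1)) a b) (nxt (-1) (kerB N S) a b) := by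
  have ha1 := (mem_alive.1 ha).1
  have hb1 := (mem_alive.1 hb).1
  unfold kerB
  rw [h.look_next ha1 hb1, alive_upd ha1 hb1, nxt_res _ _ ha hb]
  simp only [nextSt, mat_tab, cst_res, cst_nxt, Rat.cast_one, Rat.cast_neg]
  exact res_res' ((rest_subset _ _ _).trans (alive_subset _ _)) _

theorem cst_resSt_A (N : ℕ) (S : St) : cst (mat (resSt N S).2.1) = kerA N S := by
  simp only [resSt, mat_tab, res_res (alive_subset _ _), cst_res, kerA]

theorem cst_resSt_B (N : ℕ) (S : St) : cst (mat (resSt N S).2.2) = kerB N S := by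
  simp only [resSt, mat_tab, res_res (alive_subset _ _), cst_res, kerB]

theorem Good.step {d n k : ℕ} {m p δ : ℚ} {Φ : (ℕ → ℕ) → (ℕ → ℕ → ℝ) → (ℕ → ℕ → ℝ) → ℝ}
    (hΦ : GoodPot d n m p δ k Φ) (he : Even (d * n)) {P : St → ℚ}
    (hP : ∀ S : St, (P S : ℝ) = Φ (look (n * d) S.1) (cst (mat S.2.1)) (cst (mat S.2.2)))
    {c : ℝ} (hc : c + k * δ ≤ 1) {j : ℕ} (hj : j < k) {S : St} (h : Good d n m p δ Φ c j S) :
    Good d n m p δ Φ c (j + 1) (stepSt d (n * d) P δ S) := by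
  have hP' : ∀ S : St, (P (resSt (n * d) S) : ℝ) =
      Φ (look (n * d) S.1) (kerA (n * d) S) (kerB (n * d) S) := fun S => by
    rw [hP, cst_resSt_A, cst_resSt_B]; rfl
  have hdA : ∀ a ∈ alive (n * d) (look (n * d) S.1), ∀ b ∈ alive (n * d) (look (n * d) S.1),
      (0 < den 1 (mat S.2.1) a b ↔ 0 < den 1 (kerA (n * d) S) a b) := fun a ha b hb => by
    rw [kerA, den_res _ _ ha hb, ← Rat.cast_pos (K := ℝ), cst_den, Rat.cast_one]
  have hdB : ∀ a ∈ alive (n * d) (look (n * d) S.1), ∀ b ∈ alive (n * d) (look (n * d) S.1),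
      (0 < den (-1) (mat S.2.2) a b ↔ 0 < den (-1) (kerB (n * d) S) a b) := fun a ha b hb => by
    rw [kerB, den_res _ _ ha hb, ← Rat.cast_pos (K := ℝ), cst_den, Rat.cast_neg, Rat.cast_one]
  rcases stepSt_cases d (n * d) P δ S with ⟨-, hno⟩ | ⟨a, ha1, b, hb1, hok, e⟩
  · exfalso
    have h1 : (j : ℝ) * δ ≤ k * δ :=
      mul_le_mul_of_nonneg_right (by exact_mod_cast hj.le) hΦ.hδ
    have hcard := h.card
    have hev : (n * d) % 2 = 0 := by rw [Nat.mul_comm]; exact Nat.even_iff.1 he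
    obtain ⟨a, ha, b, hb, f1, f2, f3, f4⟩ := hΦ.step _ _ _ h.mtch h.kA h.kB (by omega) (by omega)
      (by linarith [h.pot])
    refine hno a (mem_alive.1 ha).1 b (mem_alive.1 hb).1 ⟨(mem_alive.1 ha).2, (mem_alive.1 hb).2,
      f1, (hdA a ha b hb).2 f2, (hdB a ha b hb).2 f3, ?_⟩
    rw [← Rat.cast_le (K := ℝ), Rat.cast_add, hP', hP', h.wf.kerA_next ha hb, h.wf.kerB_next ha hb,
      h.wf.look_next (mem_alive.1 ha).1 (mem_alive.1 hb).1]
    exact f4
  · rw [e]
    have hwf := h.wf.next ha1 hb1 hok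
    obtain ⟨h1, h2, h3, h4, h5, h6⟩ := hok
    have ha : a ∈ alive (n * d) (look (n * d) S.1) := mem_alive.2 ⟨ha1, h1⟩
    have hb : b ∈ alive (n * d) (look (n * d) S.1) := mem_alive.2 ⟨hb1, h2⟩
    have hab := ne_of_not_forb h3
    rw [hdA a ha b hb] at h4
    rw [hdB a ha b hb] at h5
    rw [← Rat.cast_le (K := ℝ), Rat.cast_add, hP', hP'] at h6
    refine ⟨hwf, ?_, ?_, ?_, ?_, ?_, ?_, ?_⟩
    · rw [h.wf.look_next ha1 hb1]; exact h.mtch.upd ha hb h3
    · rw [h.wf.kerA_next ha hb, h.wf.look_next ha1 hb1, alive_upd ha1 hb1]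
      exact h.kA.step (by norm_num) hΦ.hm ha hb hab h4
    · rw [h.wf.kerB_next ha hb, h.wf.look_next ha1 hb1, alive_upd ha1 hb1]
      exact h.kB.step (by norm_num) hΦ.hm ha hb hab h5
    · rw [h.wf.kerA_next ha hb, h.wf.look_next ha1 hb1]
      exact h.sA.step (by norm_num) hΦ.hm h.kA ha hb hab h4
    · rw [h.wf.kerB_next ha hb, h.wf.look_next ha1 hb1]
      exact h.sB.step (by norm_num) hΦ.hm h.kB ha hb hab h5
    · rw [h.wf.look_next ha1 hb1, alive_upd ha1 hb1]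
      have := card_rest ha hb hab
      have := h.card
      omega
    · have := h.pot
      push_cast
      linarith

theorem good_run {d n k : ℕ} {m p δ : ℚ} {Φ : (ℕ → ℕ) → (ℕ → ℕ → ℝ) → (ℕ → ℕ → ℝ) → ℝ}
    (hΦ : GoodPot d n m p δ k Φ) (he : Even (d * n)) {P : St → ℚ}
    (hP : ∀ S : St, (P S : ℝ) = Φ (look (n * d) S.1) (cst (mat S.2.1)) (cst (mat S.2.2))) :
    GoodPairing d n (complete (n * d)
      ((stepSt d (n * d) P δ)^[k] (iniSt m p d (n * d))).1) := by
  have e0 : look (n * d) (iniSt m p d (n * d)).1 = fun _ => n * d := look_ini _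
  have key : ∀ j ≤ k, Good d n m p δ Φ (1 - k * δ) j
      ((stepSt d (n * d) P δ)^[j] (iniSt m p d (n * d))) := by
    intro j hj
    induction j with
    | zero =>
      refine ⟨wf_ini .., ?_, ?_, ?_, ?_, ?_, ?_, ?_⟩ <;>
        simp only [Function.iterate_zero, id, e0, kerA_ini, kerB_ini, alive_const]
      · exact isMatch_const _ _
      · exact ker_ini _ _ hΦ.hp.le d n
      · exact ker_ini _ _ hΦ.hp.le d n
      · exact spec_ini (by norm_num) hΦ.hm hΦ.hp d n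
      · exact spec_ini (by norm_num) hΦ.hm hΦ.hp d n
      · simp
      · have := hΦ.init
        push_cast
        linarith
    | succ j ih =>
      rw [Function.iterate_succ_apply']
      exact (ih (by omega)).step hΦ he hP (by linarith) (by omega)
  have h := key k le_rfl
  obtain ⟨f1, f2, f3⟩ := hΦ.final _ _ _ h.mtch h.kA h.kB h.card (by linarith [h.pot])
  have hev : (n * d) % 2 = 0 := by rw [Nat.mul_comm]; exact Nat.even_iff.1 he
  have hcard := h.card
  exact goodPairing_of hΦ.hm hΦ.hz h.mtch h.kA h.kB h.sA h.sB f1 f2 f3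
    (fun a ha h' => complete_dead ha h') fun a ha => complete_alive (by omega) ha

/-- The statement of the problem follows from a good potential function. -/
theorem skeleton (d : ℕ) (m p δ : ℕ → ℚ) (k : ℕ → ℕ) (P : ℕ → St → ℚ)
    (Φ : ℕ → (ℕ → ℕ) → (ℕ → ℕ → ℝ) → (ℕ → ℕ → ℝ) → ℝ)
    (hm : PT ∅ fun u : Un => m u.v) (hp : PT ∅ fun u : Un => p u.v)
    (hδ : PT ∅ fun u : Un => δ u.v) (hk : PT ∅ fun u : Un => k u.v) (hkb : ∀ n, k n ≤ n * d)
    (hP : PT ∅ fun q : Un × St => P q.1.v q.2)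
    (hc : ∀ n (S : St), (P n S : ℝ) = Φ n (look (n * d) S.1) (cst (mat S.2.1)) (cst (mat S.2.2)))
    (n₀ : ℕ) (h : ∀ n, n₀ ≤ n → Even (d * n) → GoodPot d n (m n) (p n) (δ n) (k n) (Φ n)) :
    ∃ (out : ℕ → List Bool)
      (M : Turing.TM2ComputableInPolyTime (fun n : ℕ => List.replicate n true)
        (fun w : List Bool => w) out),
      (∀ k, Finite (M.tm.Γ k)) ∧
      ∃ n₀ : ℕ, ∀ n : ℕ, n₀ ≤ n → Even (d * n) →
        ∃ (G : SimpleGraph (Fin n)) (_ : DecidableRel G.Adj),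
          G.IsRegularOfDegree d ∧
          out n = (List.finRange n).flatMap
            (fun i => (List.finRange n).map fun j => decide (G.Adj i j)) ∧
          ∀ (μ : ℝ) (x : Fin n → ℝ), x ≠ 0 → ∑ i, x i = 0 →
            (G.adjMatrix ℝ).mulVec x = μ • x → |μ| ≤ 2 * √((d : ℝ) - 1) := by
  have hN : PT ∅ fun u : Un => u.v * d := (PT.unVal PT.id).mul (PT.const d)
  have hNb : PBd fun u : Un => u.v * d := (PBd.unVal (A := ∅) PT.id).mul (PBd.const d)
  have hrun := PT_run d (P := fun (u : Un) S => P u.v S) hN hNb hk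
    (hNb.mono fun u => hkb u.v) hm hp hδ hP
  refine result_of_pairing d (fun n => complete (n * d)
    ((stepSt d (n * d) (P n) (δ n))^[k n] (iniSt (m n) (p n) d (n * d))).1) ?_ n₀
    fun n hn he => good_run (h n hn he) he (hc n)
  exact PT_complete (hN.comp PT.fst') (hNb.comp (A := ∅) PT.fst') (hrun.fst.comp PT.fst') PT.snd'

end Vale.Agent.P049
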