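import Vale.Agent.P049.Norms
import Mathlib.Algebra.Order.Star.Real

/-!
Spectral toolkit for real symmetric matrices: a functional calculus `SpecData.fc` for arbitrary
real functions, transfer of scalar inequalities to traces, diagonal entries and traces against
positive semidefinite matrices, and standard facts on positive semidefinite matrices.
-/

namespace Vale.Agent.P049

open Matrix Finset

variable {ι κ : Type*} [Fintype ι] [Fintype κ]

section PSD

theorem psd_of {M : Matrix ι ι ℝ} (hs : Mᵀ = M) (h : ∀ x, 0 ≤ x ⬝ᵥ M *ᵥ x) : M.PosSemidef := by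
  refine PosSemidef.of_dotProduct_mulVec_nonneg ?_ fun x => by simpa using h x
  rw [IsHermitian, conjTranspose_eq_transpose_of_trivial, hs]

theorem psd_quad {M : Matrix ι ι ℝ} (h : M.PosSemidef) (x : ι → ℝ) : 0 ≤ x ⬝ᵥ M *ᵥ x := by
  simpa using h.dotProduct_mulVec_nonneg x

omit [Fintype ι] in
theorem psd_symm {M : Matrix ι ι ℝ} (h : M.PosSemidef) : Mᵀ = M := by
  have := h.isHermitian
  rwa [IsHermitian, conjTranspose_eq_transpose_of_trivial] at this

theorem psd_iff_quad {M : Matrix ι ι ℝ} : M.PosSemidef ↔ Mᵀ = M ∧ ∀ x, 0 ≤ x ⬝ᵥ M *ᵥ x :=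
  ⟨fun h => ⟨psd_symm h, psd_quad h⟩, fun h => psd_of h.1 h.2⟩

omit [Fintype ι] in
theorem symm_apply {M : Matrix ι ι ℝ} (h : Mᵀ = M) (a b : ι) : M a b = M b a :=
  congrFun (congrFun h b) a

theorem dot_mulVec_symm {M : Matrix ι ι ℝ} (h : Mᵀ = M) (x y : ι → ℝ) :
    x ⬝ᵥ M *ᵥ y = y ⬝ᵥ M *ᵥ x := by
  rw [dotProduct_mulVec, ← mulVec_transpose, h, dotProduct_comm]

theorem psd_conj {P : Matrix ι ι ℝ} (h : P.PosSemidef) (B : Matrix ι κ ℝ) :
    (Bᵀ * P * B).PosSemidef := by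
  have := h.conjTranspose_mul_mul_same B
  rwa [conjTranspose_eq_transpose_of_trivial] at this

theorem psd_conj' {P : Matrix ι ι ℝ} (h : P.PosSemidef) (B : Matrix κ ι ℝ) :
    (B * P * Bᵀ).PosSemidef := by
  have := psd_conj h Bᵀ
  rwa [transpose_transpose] at this

theorem psd_conj_symm {P K : Matrix ι ι ℝ} (h : P.PosSemidef) (hK : Kᵀ = K) :
    (K * P * K).PosSemidef := by
  have := psd_conj h K
  rwa [hK] at this

theorem psd_transpose_mul_self (B : Matrix ι κ ℝ) : (Bᵀ * B).PosSemidef := by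
  have := posSemidef_conjTranspose_mul_self B
  rwa [conjTranspose_eq_transpose_of_trivial] at this

theorem psd_mul_transpose_self (B : Matrix ι κ ℝ) : (B * Bᵀ).PosSemidef := by
  have := psd_transpose_mul_self Bᵀ
  rwa [transpose_transpose] at this

theorem psd_mul_self {K : Matrix ι ι ℝ} (hK : Kᵀ = K) : (K * K).PosSemidef := by
  have := psd_transpose_mul_self K
  rwa [hK] at this

omit [Fintype ι] in
theorem psd_smul {P : Matrix ι ι ℝ} (h : P.PosSemidef) {c : ℝ} (hc : 0 ≤ c) :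
    (c • P).PosSemidef := h.smul hc

theorem psd_vecMulVec (x : ι → ℝ) : (vecMulVec x x).PosSemidef := by
  refine psd_of (by ext a b; simp [vecMulVec_apply, mul_comm]) fun y => ?_
  have : y ⬝ᵥ vecMulVec x x *ᵥ y = (x ⬝ᵥ y) ^ 2 := by
    rw [sq, dotProduct, dotProduct, Finset.sum_mul_sum]
    simp only [dotProduct, mulVec, vecMulVec_apply, Finset.mul_sum]
    exact Finset.sum_congr rfl fun a _ => Finset.sum_congr rfl fun b _ => by ring
  rw [this]; exact sq_nonneg _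

omit [Fintype ι] in
theorem psd_diag {P : Matrix ι ι ℝ} (h : P.PosSemidef) (a : ι) : 0 ≤ P a a := h.diag_nonneg

theorem psd_trace {P : Matrix ι ι ℝ} (h : P.PosSemidef) : 0 ≤ trace P :=
  Finset.sum_nonneg fun a _ => psd_diag h a

theorem psd_diag_le_trace {P : Matrix ι ι ℝ} (h : P.PosSemidef) (a : ι) : P a a ≤ trace P :=
  Finset.single_le_sum (f := fun a => P a a) (fun a _ => psd_diag h a) (Finset.mem_univ a)

/-- Cauchy-Schwarz for a positive semidefinite form. -/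
theorem psd_cs {P : Matrix ι ι ℝ} (h : P.PosSemidef) (x y : ι → ℝ) :
    (x ⬝ᵥ P *ᵥ y) ^ 2 ≤ (x ⬝ᵥ P *ᵥ x) * (y ⬝ᵥ P *ᵥ y) := by
  have key : ∀ t : ℝ, 0 ≤ (y ⬝ᵥ P *ᵥ y) * (t * t) + 2 * (x ⬝ᵥ P *ᵥ y) * t + x ⬝ᵥ P *ᵥ x := by
    intro t
    have h1 := psd_quad h (x + t • y)
    simp only [mulVec_add, mulVec_smul, add_dotProduct, dotProduct_add, smul_dotProduct,
      dotProduct_smul, smul_eq_mul] at h1
    rw [dot_mulVec_symm (psd_symm h) y x] at h1
    linarith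
  have := discrim_le_zero key
  rw [discrim] at this
  nlinarith

theorem psd_entry_sq_le {P : Matrix ι ι ℝ} (h : P.PosSemidef) (a b : ι) :
    P a b ^ 2 ≤ P a a * P b b := by
  classical
  simpa using psd_cs h (Pi.single a 1) (Pi.single b 1)

theorem psd_abs_entry_le {P : Matrix ι ι ℝ} (h : P.PosSemidef) (a b : ι) :
    |P a b| ≤ (P a a + P b b) / 2 := by
  have h1 := psd_entry_sq_le h a b
  have h2 := psd_diag h a
  have h3 := psd_diag h b
  apply abs_le_of_sq_le_sq' _ (by positivity) |> abs_le.mpr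
  nlinarith [sq_nonneg (P a a - P b b)]

theorem psd_frob_le_trace {P : Matrix ι ι ℝ} (h : P.PosSemidef) : frob P ≤ trace P := by
  apply frob_le_of_sq_le (psd_trace h)
  rw [sq (trace P), trace, Finset.sum_mul_sum]
  exact Finset.sum_le_sum fun a _ => Finset.sum_le_sum fun b _ => psd_entry_sq_le h a b

theorem psd_opn_le_trace [DecidableEq ι] {P : Matrix ι ι ℝ} (h : P.PosSemidef) :
    opn P ≤ trace P := (opn_le_frob P).trans (psd_frob_le_trace h)

omit [Fintype ι] in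
/-- squared norm of a row is a diagonal entry of `M * Mᵀ` -/
theorem nrm_row_sq (M : Matrix ι κ ℝ) (a : ι) : nrm (M a) ^ 2 = (M * Mᵀ) a a := by
  rw [nrm_sq]; simp [mul_apply, sq]

theorem nrm_row_sq_symm {K : Matrix ι ι ℝ} (hK : Kᵀ = K) (a : ι) :
    nrm (K a) ^ 2 = (K * K) a a := by
  rw [nrm_row_sq, hK]

theorem pow_symm [DecidableEq ι] {K : Matrix ι ι ℝ} (hK : Kᵀ = K) (j : ℕ) : (K ^ j)ᵀ = K ^ j := by
  rw [transpose_pow, hK]

omit [Fintype ι] in
theorem mul_apply_sq_le {μ : Type*} (P : Matrix ι κ ℝ) (Q : Matrix κ μ ℝ) (a : ι) (b : μ) :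
    (P * Q) a b ^ 2 ≤ (P * Pᵀ) a a * (Qᵀ * Q) b b := by
  have h := Finset.sum_mul_sq_le_sq_mul_sq Finset.univ (fun c => P a c) (fun c => Q c b)
  simpa [mul_apply, sq] using h

theorem pow_add_apply_sq_le [DecidableEq ι] {K : Matrix ι ι ℝ} (hK : Kᵀ = K) (i j : ℕ) (a b : ι) :
    (K ^ (i + j)) a b ^ 2 ≤ (K ^ (2 * i)) a a * (K ^ (2 * j)) b b := by
  have h := mul_apply_sq_le (K ^ i) (K ^ j) a b
  rwa [pow_symm hK, pow_symm hK, ← pow_add, ← pow_add, ← pow_add, ← two_mul, ← two_mul] at h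

end PSD

variable [DecidableEq ι]

/-- Orthogonal diagonalisation of a matrix. -/
structure SpecData (K : Matrix ι ι ℝ) where
  U : Matrix ι ι ℝ
  l : ι → ℝ
  tmul : Uᵀ * U = 1
  mult : U * Uᵀ = 1
  eq : K = U * diagonal l * Uᵀ

theorem nonempty_specData {K : Matrix ι ι ℝ} (hK : Kᵀ = K) : Nonempty (SpecData K) := by
  have hH : K.IsHermitian := by rw [IsHermitian, conjTranspose_eq_transpose_of_trivial, hK]
  have h1 := hH.spectral_theorem
  rw [Unitary.conjStarAlgAut_apply] at h1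
  refine ⟨⟨(hH.eigenvectorUnitary : Matrix ι ι ℝ), hH.eigenvalues, ?_, ?_, ?_⟩⟩
  · have := Unitary.coe_star_mul_self hH.eigenvectorUnitary
    rwa [star_eq_conjTranspose, conjTranspose_eq_transpose_of_trivial] at this
  · have := Unitary.coe_mul_star_self hH.eigenvectorUnitary
    rwa [Unitary.coe_star, star_eq_conjTranspose, conjTranspose_eq_transpose_of_trivial] at this
  · rw [star_eq_conjTranspose, conjTranspose_eq_transpose_of_trivial] at h1
    simpa using h1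

/-- a choice of orthogonal diagonalisation of a symmetric matrix -/
noncomputable def specData {K : Matrix ι ι ℝ} (hK : Kᵀ = K) : SpecData K :=
  Classical.choice (nonempty_specData hK)

namespace SpecData

variable {K : Matrix ι ι ℝ} (S : SpecData K)

/-- functional calculus -/
noncomputable def fc (f : ℝ → ℝ) : Matrix ι ι ℝ := S.U * diagonal (fun i => f (S.l i)) * S.Uᵀ

theorem fc_id : S.fc (fun x => x) = K := S.eq.symm

theorem fc_congr {f g : ℝ → ℝ} (h : ∀ i, f (S.l i) = g (S.l i)) : S.fc f = S.fc g := by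
  simp only [fc, h]

theorem fc_const (c : ℝ) : S.fc (fun _ => c) = c • (1 : Matrix ι ι ℝ) := by
  rw [fc, ← smul_one_eq_diagonal, Matrix.mul_smul, Matrix.smul_mul, Matrix.mul_one, S.mult]

theorem fc_one : S.fc (fun _ => 1) = 1 := by rw [fc_const, one_smul]

theorem fc_add (f g : ℝ → ℝ) : S.fc f + S.fc g = S.fc (fun x => f x + g x) := by
  rw [fc, fc, fc, ← Matrix.add_mul, ← Matrix.mul_add, diagonal_add]

theorem fc_sub (f g : ℝ → ℝ) : S.fc f - S.fc g = S.fc (fun x => f x - g x) := by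
  rw [fc, fc, fc, ← Matrix.sub_mul, ← Matrix.mul_sub, diagonal_sub]

theorem fc_neg (f : ℝ → ℝ) : -S.fc f = S.fc (fun x => -f x) := by
  rw [fc, fc, ← Matrix.neg_mul, ← Matrix.mul_neg, diagonal_neg]

theorem fc_smul (c : ℝ) (f : ℝ → ℝ) : c • S.fc f = S.fc (fun x => c * f x) := by
  rw [fc, fc, ← Matrix.smul_mul, ← Matrix.mul_smul, ← diagonal_smul]; rfl

theorem fc_mul (f g : ℝ → ℝ) : S.fc f * S.fc g = S.fc (fun x => f x * g x) := by
  rw [fc, fc, fc]
  calc _ = S.U * (diagonal (fun i => f (S.l i)) * ((S.Uᵀ * S.U) * diagonal (fun i => g (S.l i))))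
        * S.Uᵀ := by simp only [Matrix.mul_assoc]
    _ = _ := by rw [S.tmul, Matrix.one_mul, diagonal_mul_diagonal]

theorem fc_pow (f : ℝ → ℝ) (j : ℕ) : S.fc f ^ j = S.fc (fun x => f x ^ j) := by
  induction j with
  | zero => simp [fc_one]
  | succ j ih => rw [pow_succ, ih, fc_mul]; simp only [pow_succ]

theorem pow_eq (j : ℕ) : K ^ j = S.fc (fun x => x ^ j) := by
  rw [← fc_pow, fc_id]

theorem fc_symm (f : ℝ → ℝ) : (S.fc f)ᵀ = S.fc f := by
  simp [fc, transpose_mul, Matrix.mul_assoc]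

theorem fc_comm (f g : ℝ → ℝ) : S.fc f * S.fc g = S.fc g * S.fc f := by
  simp only [fc_mul, mul_comm]

theorem trace_fc (f : ℝ → ℝ) : trace (S.fc f) = ∑ i, f (S.l i) := by
  rw [fc, trace_mul_comm, ← Matrix.mul_assoc, S.tmul, Matrix.one_mul, trace_diagonal]

theorem fc_apply (f : ℝ → ℝ) (a b : ι) : S.fc f a b = ∑ i, S.U a i * S.U b i * f (S.l i) := by
  simp only [fc, mul_apply, diagonal_apply, transpose_apply]
  refine Finset.sum_congr rfl fun i _ => ?_
  simp; ring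

theorem fc_diag (f : ℝ → ℝ) (a : ι) : S.fc f a a = ∑ i, S.U a i ^ 2 * f (S.l i) := by
  simp only [fc_apply, sq]

theorem sum_U_sq (a : ι) : ∑ i, S.U a i ^ 2 = 1 := by
  have := congrFun (congrFun S.mult a) a
  simpa [mul_apply, sq] using this

theorem sum_U_sq' (i : ι) : ∑ a, S.U a i ^ 2 = 1 := by
  have := congrFun (congrFun S.tmul i) i
  simpa [mul_apply, sq] using this

theorem fc_psd {f : ℝ → ℝ} (h : ∀ i, 0 ≤ f (S.l i)) : (S.fc f).PosSemidef :=
  psd_conj' (PosSemidef.diagonal h) S.U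

theorem nonneg_of_psd {f : ℝ → ℝ} (h : (S.fc f).PosSemidef) (i : ι) : 0 ≤ f (S.l i) := by
  have h1 := psd_conj h S.U
  have h2 : S.Uᵀ * S.fc f * S.U = diagonal (fun i => f (S.l i)) := by
    rw [fc]
    calc _ = (S.Uᵀ * S.U) * diagonal (fun i => f (S.l i)) * (S.Uᵀ * S.U) := by
          simp only [Matrix.mul_assoc]
      _ = _ := by rw [S.tmul, Matrix.one_mul, Matrix.mul_one]
  rw [h2] at h1
  simpa using psd_diag h1 i

theorem fc_psd_iff {f : ℝ → ℝ} : (S.fc f).PosSemidef ↔ ∀ i, 0 ≤ f (S.l i) :=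
  ⟨S.nonneg_of_psd, S.fc_psd⟩

theorem le_l {c : ℝ} (h : (K - c • (1 : Matrix ι ι ℝ)).PosSemidef) (i : ι) : c ≤ S.l i := by
  have : K - c • (1 : Matrix ι ι ℝ) = S.fc (fun x => x - c) := by
    rw [← fc_sub, fc_id, fc_const]
  rw [this] at h
  linarith [S.nonneg_of_psd h i]

theorem neg_le_l {c : ℝ} (h : (K + c • (1 : Matrix ι ι ℝ)).PosSemidef) (i : ι) : -c ≤ S.l i := by
  apply S.le_l; rwa [neg_smul, sub_neg_eq_add]

theorem neg_one_le_l (h : (K + 1).PosSemidef) (i : ι) : -1 ≤ S.l i := by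
  apply S.neg_le_l; rwa [one_smul]

theorem l_le {c : ℝ} (h : (c • (1 : Matrix ι ι ℝ) - K).PosSemidef) (i : ι) : S.l i ≤ c := by
  have : c • (1 : Matrix ι ι ℝ) - K = S.fc (fun x => c - x) := by
    rw [← fc_sub, fc_id, fc_const]
  rw [this] at h
  linarith [S.nonneg_of_psd h i]

theorem l_nonneg (h : K.PosSemidef) (i : ι) : 0 ≤ S.l i := by
  apply S.le_l; simpa using h

theorem psd_sub_of_le {c : ℝ} (h : ∀ i, c ≤ S.l i) : (K - c • (1 : Matrix ι ι ℝ)).PosSemidef := by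
  have : K - c • (1 : Matrix ι ι ℝ) = S.fc (fun x => x - c) := by
    rw [← fc_sub, fc_id, fc_const]
  rw [this]; exact S.fc_psd fun i => sub_nonneg.mpr (h i)

theorem psd_sub_of_ge {c : ℝ} (h : ∀ i, S.l i ≤ c) : (c • (1 : Matrix ι ι ℝ) - K).PosSemidef := by
  have : c • (1 : Matrix ι ι ℝ) - K = S.fc (fun x => c - x) := by
    rw [← fc_sub, fc_id, fc_const]
  rw [this]; exact S.fc_psd fun i => sub_nonneg.mpr (h i)

theorem opn_U_le : opn S.U ≤ 1 := by
  have h := opn_transpose_mul_self S.U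
  rw [S.tmul] at h
  have h1 := opn_one_le (n := ι)
  have h2 := opn_nonneg S.U
  nlinarith

theorem opn_fc_le {f : ℝ → ℝ} {c : ℝ} (hc : 0 ≤ c) (h : ∀ i, |f (S.l i)| ≤ c) :
    opn (S.fc f) ≤ c := by
  have h1 := opn_diagonal_le hc h
  have h2 := S.opn_U_le
  have h3 : opn S.Uᵀ ≤ 1 := by rw [opn_transpose]; exact h2
  have h4 := opn_mul_le (S.U * diagonal (fun i => f (S.l i))) S.Uᵀ
  have h5 := opn_mul_le S.U (diagonal (fun i => f (S.l i)))
  have h6 := opn_nonneg (S.U * diagonal (fun i => f (S.l i)))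
  have h7 := opn_nonneg (diagonal (fun i => f (S.l i)))
  have h8 := opn_nonneg S.U
  calc opn (S.fc f) ≤ _ := h4
    _ ≤ opn (S.U * diagonal (fun i => f (S.l i))) * 1 := mul_le_mul_of_nonneg_left h3 h6
    _ ≤ 1 * c := by rw [mul_one]; exact h5.trans (mul_le_mul h2 h1 h7 zero_le_one)
    _ = c := one_mul c

theorem abs_fl_le_opn (f : ℝ → ℝ) (i : ι) : |f (S.l i)| ≤ opn (S.fc f) := by
  have h2 : S.Uᵀ * S.fc f * S.U = diagonal (fun i => f (S.l i)) := by
    rw [fc]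
    calc _ = (S.Uᵀ * S.U) * diagonal (fun i => f (S.l i)) * (S.Uᵀ * S.U) := by
          simp only [Matrix.mul_assoc]
      _ = _ := by rw [S.tmul, Matrix.one_mul, Matrix.mul_one]
  have h := abs_mul_mul_apply_le S.Uᵀ (S.fc f) S.U i i
  have h3 : nrm (fun c => S.U c i) = 1 := by rw [nrm, S.sum_U_sq', Real.sqrt_one]
  have h4 : nrm (S.Uᵀ i) = 1 := h3
  rw [h2, h3, h4] at h
  simpa using h

theorem abs_l_le_opn (i : ι) : |S.l i| ≤ opn K := by
  have := S.abs_fl_le_opn (fun x => x) i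
  rwa [fc_id] at this

theorem frob_fc_sq (f : ℝ → ℝ) : frob (S.fc f) ^ 2 = ∑ i, f (S.l i) ^ 2 := by
  rw [frob_sq_of_symm (S.fc_symm f), fc_mul, trace_fc]; simp only [sq]

/-- trace against an arbitrary matrix -/
theorem trace_fc_mul (f : ℝ → ℝ) (P : Matrix ι ι ℝ) :
    trace (S.fc f * P) = ∑ i, f (S.l i) * (S.Uᵀ * P * S.U) i i := by
  rw [fc]
  calc _ = trace (S.U * (diagonal (fun i => f (S.l i)) * (S.Uᵀ * P))) := by
        simp only [Matrix.mul_assoc]
    _ = trace (diagonal (fun i => f (S.l i)) * (S.Uᵀ * P * S.U)) := by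
        rw [trace_mul_comm]; simp only [Matrix.mul_assoc]
    _ = _ := by simp [trace]

theorem trace_fc_le {f g : ℝ → ℝ} (h : ∀ i, f (S.l i) ≤ g (S.l i)) :
    trace (S.fc f) ≤ trace (S.fc g) := by
  rw [trace_fc, trace_fc]; exact Finset.sum_le_sum fun i _ => h i

theorem fc_diag_le {f g : ℝ → ℝ} (h : ∀ i, f (S.l i) ≤ g (S.l i)) (a : ι) :
    S.fc f a a ≤ S.fc g a a := by
  rw [fc_diag, fc_diag]
  exact Finset.sum_le_sum fun i _ => mul_le_mul_of_nonneg_left (h i) (sq_nonneg _)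

theorem trace_fc_mul_le {f g : ℝ → ℝ} (h : ∀ i, f (S.l i) ≤ g (S.l i)) {P : Matrix ι ι ℝ}
    (hP : P.PosSemidef) : trace (S.fc f * P) ≤ trace (S.fc g * P) := by
  rw [trace_fc_mul, trace_fc_mul]
  exact Finset.sum_le_sum fun i _ =>
    mul_le_mul_of_nonneg_right (h i) (psd_diag (psd_conj hP S.U) i)

theorem quad_fc (f : ℝ → ℝ) (x : ι → ℝ) :
    x ⬝ᵥ S.fc f *ᵥ x = ∑ i, f (S.l i) * (S.Uᵀ *ᵥ x) i ^ 2 := by
  rw [fc, ← mulVec_mulVec, ← mulVec_mulVec, dotProduct_mulVec, ← mulVec_transpose]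
  simp only [dotProduct, mulVec_diagonal]
  exact Finset.sum_congr rfl fun i _ => by ring

theorem quad_fc_le {f g : ℝ → ℝ} (h : ∀ i, f (S.l i) ≤ g (S.l i)) (x : ι → ℝ) :
    x ⬝ᵥ S.fc f *ᵥ x ≤ x ⬝ᵥ S.fc g *ᵥ x := by
  rw [quad_fc, quad_fc]
  exact Finset.sum_le_sum fun i _ => mul_le_mul_of_nonneg_right (h i) (sq_nonneg _)

/-- two matrices: the trace of a product is a doubly stochastic average -/
theorem trace_fc_mul_fc {L : Matrix ι ι ℝ} (T : SpecData L) (f g : ℝ → ℝ) :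
    trace (S.fc f * T.fc g) = ∑ i, ∑ j, (S.Uᵀ * T.U) i j ^ 2 * (f (S.l i) * g (T.l j)) := by
  rw [trace_fc_mul]
  refine Finset.sum_congr rfl fun i _ => ?_
  have : S.Uᵀ * T.fc g * S.U = (S.Uᵀ * T.U) * diagonal (fun j => g (T.l j)) * (S.Uᵀ * T.U)ᵀ := by
    simp only [fc, transpose_mul, transpose_transpose, Matrix.mul_assoc]
  rw [this, mul_apply, Finset.mul_sum]
  refine Finset.sum_congr rfl fun j _ => ?_
  rw [mul_diagonal, transpose_apply]; ring

theorem sum_UU_sq {L : Matrix ι ι ℝ} (T : SpecData L) (i : ι) :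
    ∑ j, (S.Uᵀ * T.U) i j ^ 2 = 1 := by
  have h : (S.Uᵀ * T.U) * (S.Uᵀ * T.U)ᵀ = 1 := by
    rw [transpose_mul, transpose_transpose]
    calc _ = S.Uᵀ * (T.U * T.Uᵀ) * S.U := by simp only [Matrix.mul_assoc]
      _ = 1 := by rw [T.mult, Matrix.mul_one, S.tmul]
  have := congrFun (congrFun h i) i
  rw [mul_apply] at this
  simpa [sq] using this

theorem sum_UU_sq' {L : Matrix ι ι ℝ} (T : SpecData L) (j : ι) :
    ∑ i, (S.Uᵀ * T.U) i j ^ 2 = 1 := by
  rw [← T.sum_UU_sq S j]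
  refine Finset.sum_congr rfl fun i _ => ?_
  congr 1
  simp [mul_apply, mul_comm]

/-! Expansion lemmas, to be used as
`simp only [S.fc_add', S.fc_sub', S.fc_mul', S.fc_pow', S.fc_neg', S.fc_id, S.fc_const]`. -/

theorem fc_add' (f g : ℝ → ℝ) : S.fc (fun x => f x + g x) = S.fc f + S.fc g := (S.fc_add f g).symm

theorem fc_sub' (f g : ℝ → ℝ) : S.fc (fun x => f x - g x) = S.fc f - S.fc g := (S.fc_sub f g).symm

theorem fc_mul' (f g : ℝ → ℝ) : S.fc (fun x => f x * g x) = S.fc f * S.fc g := (S.fc_mul f g).symm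

theorem fc_smul' (c : ℝ) (f : ℝ → ℝ) : S.fc (fun x => c * f x) = c • S.fc f :=
  (S.fc_smul c f).symm

theorem fc_pow' (f : ℝ → ℝ) (j : ℕ) : S.fc (fun x => f x ^ j) = S.fc f ^ j := (S.fc_pow f j).symm

theorem fc_neg' (f : ℝ → ℝ) : S.fc (fun x => -f x) = -S.fc f := (S.fc_neg f).symm

theorem trace_pow (j : ℕ) : trace (K ^ j) = ∑ i, S.l i ^ j := by rw [S.pow_eq, trace_fc]

theorem trace_eq : trace K = ∑ i, S.l i := by
  have := S.trace_fc (fun x => x)
  rwa [fc_id] at this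

theorem pow_diag (j : ℕ) (a : ι) : (K ^ j) a a = ∑ i, S.U a i ^ 2 * S.l i ^ j := by
  rw [S.pow_eq, fc_diag]

theorem trace_pow_mul (j : ℕ) (P : Matrix ι ι ℝ) :
    trace (K ^ j * P) = ∑ i, S.l i ^ j * (S.Uᵀ * P * S.U) i i := by
  rw [S.pow_eq, trace_fc_mul]

theorem weight_nonneg {P : Matrix ι ι ℝ} (hP : P.PosSemidef) (i : ι) :
    0 ≤ (S.Uᵀ * P * S.U) i i := psd_diag (psd_conj hP S.U) i

theorem trace_pow_mul_pow {L : Matrix ι ι ℝ} (T : SpecData L) (p q : ℕ) :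
    trace (K ^ p * L ^ q) = ∑ i, ∑ j, (S.Uᵀ * T.U) i j ^ 2 * (S.l i ^ p * T.l j ^ q) := by
  rw [S.pow_eq, T.pow_eq, trace_fc_mul_fc]

end SpecData

section Consequences

theorem exists_sqrt {P : Matrix ι ι ℝ} (h : P.PosSemidef) :
    ∃ R : Matrix ι ι ℝ, Rᵀ = R ∧ R * R = P ∧ R.PosSemidef := by
  let S := specData (psd_symm h)
  refine ⟨S.fc fun x => √x, S.fc_symm _, ?_, S.fc_psd fun _ => Real.sqrt_nonneg _⟩
  rw [S.fc_mul, S.fc_congr (g := fun x => x) fun i => Real.mul_self_sqrt (S.l_nonneg h i), S.fc_id]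

omit [DecidableEq ι] in
theorem trace_mul_psd_nonneg {P Q : Matrix ι ι ℝ} (hP : P.PosSemidef) (hQ : Q.PosSemidef) :
    0 ≤ trace (P * Q) := by
  classical
  obtain ⟨R, hR, rfl, -⟩ := exists_sqrt hP
  rw [Matrix.mul_assoc, trace_mul_comm]
  exact psd_trace (psd_conj_symm hQ hR)

omit [DecidableEq ι] in
theorem trace_mul_psd_mono {M N P : Matrix ι ι ℝ} (h : (N - M).PosSemidef) (hP : P.PosSemidef) :
    trace (M * P) ≤ trace (N * P) := by
  have := trace_mul_psd_nonneg h hP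
  rw [Matrix.sub_mul, trace_sub] at this
  linarith

theorem abs_trace_psd_mul_le {P : Matrix ι ι ℝ} (hP : P.PosSemidef) (M : Matrix ι ι ℝ) :
    |trace (P * M)| ≤ opn M * trace P := by
  obtain ⟨R, hR, rfl, -⟩ := exists_sqrt hP
  rw [Matrix.mul_assoc, trace_mul_comm, ← frob_sq_of_symm hR]
  have := abs_trace_mul_mul_le R M R
  nlinarith

theorem abs_trace_mul_psd_le {P : Matrix ι ι ℝ} (hP : P.PosSemidef) (M : Matrix ι ι ℝ) :
    |trace (M * P)| ≤ opn M * trace P := by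
  rw [trace_mul_comm]; exact abs_trace_psd_mul_le hP M

omit [DecidableEq ι] in
/-- Cauchy-Schwarz for the trace form with a positive semidefinite weight -/
theorem trace_psd_cs {P : Matrix ι ι ℝ} (hP : P.PosSemidef) (X Y : Matrix κ ι ℝ) :
    trace (X * P * Yᵀ) ^ 2 ≤ trace (X * P * Xᵀ) * trace (Y * P * Yᵀ) := by
  classical
  obtain ⟨R, hR, rfl, -⟩ := exists_sqrt hP
  have h : ∀ X Y : Matrix κ ι ℝ, X * (R * R) * Yᵀ = (X * R) * (Y * R)ᵀ := by
    intro X Y; rw [transpose_mul, hR]; simp only [Matrix.mul_assoc]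
  rw [h, h, h, ← frob_sq_eq_trace, ← frob_sq_eq_trace, ← mul_pow, ← sq_abs]
  refine pow_le_pow_left₀ (abs_nonneg _) ?_ 2
  have := abs_trace_mul_le (X * R) (Y * R)ᵀ
  rwa [frob_transpose] at this

theorem opn_le_of_psd {K : Matrix ι ι ℝ} {c : ℝ} (hc : 0 ≤ c)
    (h1 : (K + c • (1 : Matrix ι ι ℝ)).PosSemidef) (h2 : (c • (1 : Matrix ι ι ℝ) - K).PosSemidef) :
    opn K ≤ c := by
  have hK : Kᵀ = K := by
    have := psd_symm h1
    rw [transpose_add, transpose_smul, transpose_one] at this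
    exact add_right_cancel this
  let S := specData hK
  have := S.opn_fc_le (f := fun x => x) hc fun i => abs_le.mpr ⟨S.neg_le_l h1 i, S.l_le h2 i⟩
  rwa [S.fc_id] at this

theorem psd_smul_one_sub_of_opn_le {K : Matrix ι ι ℝ} (hK : Kᵀ = K) {c : ℝ} (h : opn K ≤ c) :
    (c • (1 : Matrix ι ι ℝ) - K).PosSemidef :=
  (specData hK).psd_sub_of_ge fun i =>
    (le_abs_self _).trans (((specData hK).abs_l_le_opn i).trans h)

theorem psd_add_smul_one_of_opn_le {K : Matrix ι ι ℝ} (hK : Kᵀ = K) {c : ℝ} (h : opn K ≤ c) :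
    (K + c • (1 : Matrix ι ι ℝ)).PosSemidef := by
  have := (specData hK).psd_sub_of_le (c := -c) fun i =>
    neg_le_of_abs_le (((specData hK).abs_l_le_opn i).trans h)
  rwa [neg_smul, sub_neg_eq_add] at this

theorem psd_opn_le {P : Matrix ι ι ℝ} (hP : P.PosSemidef) {c : ℝ} (hc : 0 ≤ c)
    (h : (c • (1 : Matrix ι ι ℝ) - P).PosSemidef) : opn P ≤ c :=
  opn_le_of_psd hc (hP.add (psd_smul PosSemidef.one hc)) h

/-- `|P X|_F ^ 2 ≤ opn P * tr (Xᵀ P X)` for positive semidefinite `P`. -/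
theorem frob_psd_mul_sq_le {P : Matrix ι ι ℝ} (hP : P.PosSemidef) (X : Matrix ι κ ℝ) :
    frob (P * X) ^ 2 ≤ opn P * trace (Xᵀ * P * X) := by
  obtain ⟨R, hR, rfl, -⟩ := exists_sqrt hP
  have h1 : trace (Xᵀ * (R * R) * X) = frob (R * X) ^ 2 := by
    rw [frob_sq_eq_trace', transpose_mul, hR]; simp only [Matrix.mul_assoc]
  have h2 : opn (R * R) = opn R * opn R := by
    have := opn_transpose_mul_self R
    rwa [hR] at this
  rw [h1, h2, Matrix.mul_assoc, ← sq, ← mul_pow]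
  exact pow_le_pow_left₀ (frob_nonneg _) (frob_mul_le_opn_frob _ _) 2

/-- A polynomial in `K` is positive semidefinite if it is nonnegative on an interval containing
the spectrum. -/
theorem psd_aeval {K : Matrix ι ι ℝ} {lo hi : ℝ} (hlo : (K - lo • (1 : Matrix ι ι ℝ)).PosSemidef)
    (hhi : (hi • (1 : Matrix ι ι ℝ) - K).PosSemidef) (p : Polynomial ℝ)
    (h : ∀ x, lo ≤ x → x ≤ hi → 0 ≤ p.eval x) : (Polynomial.aeval K p).PosSemidef := by
  have hK : Kᵀ = K := by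
    have := psd_symm hlo
    rw [transpose_sub, transpose_smul, transpose_one] at this
    exact sub_left_injective this
  let S := specData hK
  have h1 : ∀ p : Polynomial ℝ, Polynomial.aeval K p = S.fc (fun x => p.eval x) := by
    intro p
    induction p using Polynomial.induction_on' with
    | add p q hp hq => simp only [map_add, hp, hq, S.fc_add, Polynomial.eval_add]
    | monomial j c =>
      simp only [Polynomial.aeval_monomial, Polynomial.eval_monomial, S.fc_smul', S.fc_pow',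
        S.fc_id, Algebra.algebraMap_eq_smul_one, Matrix.smul_mul, Matrix.one_mul]
  rw [h1]
  exact S.fc_psd fun i => h _ (S.le_l hlo i) (S.l_le hhi i)

/-- coefficient form, degree at most six -/
theorem psd_poly6 {K : Matrix ι ι ℝ} {lo hi : ℝ} (hlo : (K - lo • (1 : Matrix ι ι ℝ)).PosSemidef)
    (hhi : (hi • (1 : Matrix ι ι ℝ) - K).PosSemidef) (c0 c1 c2 c3 c4 c5 c6 : ℝ)
    (h : ∀ x, lo ≤ x → x ≤ hi →
      0 ≤ c0 + c1 * x + c2 * x ^ 2 + c3 * x ^ 3 + c4 * x ^ 4 + c5 * x ^ 5 + c6 * x ^ 6) :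
    (c0 • (1 : Matrix ι ι ℝ) + c1 • K + c2 • K ^ 2 + c3 • K ^ 3 + c4 • K ^ 4 + c5 • K ^ 5
      + c6 • K ^ 6).PosSemidef := by
  have hK : Kᵀ = K := by
    have := psd_symm hlo
    rw [transpose_sub, transpose_smul, transpose_one] at this
    exact sub_left_injective this
  let S := specData hK
  have h1 := S.fc_psd (f := fun x =>
    c0 + c1 * x + c2 * x ^ 2 + c3 * x ^ 3 + c4 * x ^ 4 + c5 * x ^ 5 + c6 * x ^ 6)
    fun i => h _ (S.le_l hlo i) (S.l_le hhi i)
  simpa only [S.fc_add', S.fc_smul', S.fc_pow', S.fc_id, S.fc_const] using h1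

/-- the cubic potential controls the top of the spectrum -/
theorem l_le_of_cube {K : Matrix ι ι ℝ} (S : SpecData K) (h1 : (K + 1).PosSemidef) {c : ℝ}
    (hc : 0 ≤ c) (h : trace (K ^ 2 * (K + 1)) ≤ c ^ 3) (i : ι) : S.l i ≤ c := by
  have h2 : K ^ 2 * (K + 1) = S.fc (fun x => x ^ 2 * (x + 1)) := by
    simp only [S.fc_add', S.fc_mul', S.fc_pow', S.fc_id, S.fc_one]
  rw [h2, S.trace_fc] at h
  have h3 : S.l i ^ 2 * (S.l i + 1) ≤ ∑ i, S.l i ^ 2 * (S.l i + 1) :=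
    Finset.single_le_sum (f := fun i => S.l i ^ 2 * (S.l i + 1))
      (fun i _ => mul_nonneg (sq_nonneg _) (by linarith [S.neg_one_le_l h1 i]))
      (Finset.mem_univ i)
  by_contra hlt
  rw [not_le] at hlt
  have h4 : c ^ 3 < S.l i ^ 3 := pow_lt_pow_left₀ hlt hc (by norm_num)
  nlinarith [sq_nonneg (S.l i)]

theorem opn_le_of_cube {K : Matrix ι ι ℝ} (hK : Kᵀ = K) (h1 : (K + 1).PosSemidef) {c : ℝ}
    (hc : 1 ≤ c) (h : trace (K ^ 2 * (K + 1)) ≤ c ^ 3) : opn K ≤ c := by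
  let S := specData hK
  have := S.opn_fc_le (f := fun x => x) (zero_le_one.trans hc) fun i =>
    abs_le.mpr ⟨by linarith [S.neg_one_le_l h1 i], l_le_of_cube S h1 (zero_le_one.trans hc) h i⟩
  rwa [S.fc_id] at this

theorem abs_pow_add_two_mul_le {x c : ℝ} (h : |x| ≤ c) (j : ℕ) : |x ^ (j + 2)| ≤ c ^ j * x ^ 2 := by
  rw [pow_add, abs_mul, abs_pow, abs_of_nonneg (sq_nonneg x)]
  exact mul_le_mul_of_nonneg_right (pow_le_pow_left₀ (abs_nonneg _) h j) (sq_nonneg _)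

theorem abs_pow_diag_le {K : Matrix ι ι ℝ} (hK : Kᵀ = K) {c : ℝ} (h : opn K ≤ c) (j : ℕ) (a : ι) :
    |(K ^ (j + 2)) a a| ≤ c ^ j * (K ^ 2) a a := by
  let S := specData hK
  rw [S.pow_diag, S.pow_diag, Finset.mul_sum]
  refine (Finset.abs_sum_le_sum_abs _ _).trans (Finset.sum_le_sum fun i _ => ?_)
  have := abs_pow_add_two_mul_le ((S.abs_l_le_opn i).trans h) j
  rw [abs_mul, abs_of_nonneg (sq_nonneg (S.U a i))]
  nlinarith [sq_nonneg (S.U a i)]

theorem abs_trace_pow_mul_le {K P : Matrix ι ι ℝ} (hK : Kᵀ = K) {c : ℝ} (h : opn K ≤ c)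
    (hP : P.PosSemidef) (j : ℕ) : |trace (K ^ (j + 2) * P)| ≤ c ^ j * trace (K ^ 2 * P) := by
  let S := specData hK
  rw [S.trace_pow_mul, S.trace_pow_mul, Finset.mul_sum]
  refine (Finset.abs_sum_le_sum_abs _ _).trans (Finset.sum_le_sum fun i _ => ?_)
  have := abs_pow_add_two_mul_le ((S.abs_l_le_opn i).trans h) j
  have h2 := S.weight_nonneg hP i
  rw [abs_mul, abs_of_nonneg h2]
  nlinarith

theorem abs_trace_pow_le {K : Matrix ι ι ℝ} (hK : Kᵀ = K) {c : ℝ} (h : opn K ≤ c) (j : ℕ) :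
    |trace (K ^ (j + 2))| ≤ c ^ j * trace (K ^ 2) := by
  simpa using abs_trace_pow_mul_le hK h PosSemidef.one j

theorem sq_diag_nonneg {K : Matrix ι ι ℝ} (hK : Kᵀ = K) (a : ι) : 0 ≤ (K ^ 2) a a := by
  rw [sq]; exact psd_diag (psd_mul_self hK) a

theorem psd_even_pow {K : Matrix ι ι ℝ} (hK : Kᵀ = K) (j : ℕ) : (K ^ (2 * j)).PosSemidef := by
  rw [two_mul, pow_add]; exact psd_mul_self (pow_symm hK j)

theorem sq_diag_eq {K : Matrix ι ι ℝ} (hK : Kᵀ = K) (a : ι) : (K ^ 2) a a = ∑ b, K a b ^ 2 := by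
  rw [sq, ← nrm_row_sq_symm hK, nrm_sq]

theorem trace_sq_eq {K : Matrix ι ι ℝ} (hK : Kᵀ = K) : trace (K ^ 2) = frob K ^ 2 := by
  rw [sq, frob_sq_of_symm hK]

theorem apply_sq_le_sq_diag {K : Matrix ι ι ℝ} (hK : Kᵀ = K) (a b : ι) :
    K a b ^ 2 ≤ (K ^ 2) a a := by
  rw [sq_diag_eq hK]
  exact Finset.single_le_sum (f := fun b => K a b ^ 2) (fun _ _ => sq_nonneg _) (Finset.mem_univ b)

/-- diagonal entries of `K M K` -/
theorem abs_conj_diag_le {K : Matrix ι ι ℝ} (hK : Kᵀ = K) (M : Matrix ι ι ℝ) (a : ι) :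
    |(K * M * K) a a| ≤ opn M * (K ^ 2) a a := by
  have h := abs_mul_mul_apply_le K M K a a
  have h1 : (fun c => K c a) = K a := funext fun c => symm_apply hK c a
  rw [h1, mul_assoc (opn M), ← sq, nrm_row_sq_symm hK, ← sq] at h
  exact h

end Consequences

end Vale.Agent.P049
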