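import Vale.Agent.Lib.MathlibUsed

/-!
# The Schur complement step

`F` is a symmetric kernel on the set `H` of free half-edges, `s = 1` or `s = -1`.  Matching the
half-edges `a` and `b` replaces `F` by `F + V (s σ - F_TT)⁻¹ Vᵀ` on `H \ {a, b}`.
-/

namespace Vale.Agent.P049

open Finset

section Defs

variable {ι K : Type*} [Field K]

/-- Minus the determinant of `s σ - F_TT`. -/
def den (s : K) (F : ι → ι → K) (a b : ι) : K := (s - F a b) ^ 2 - F a a * F b b

/-- The kernel after matching `a` and `b`. -/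
def nxt (s : K) (F : ι → ι → K) (a b : ι) (c e : ι) : K :=
  F c e + (F b b * (F c a * F a e) + F a a * (F c b * F b e) +
    (s - F a b) * (F c a * F b e + F c b * F a e)) / den s F a b

end Defs

variable {ι : Type*} [DecidableEq ι]

/-- The free half-edges after matching `a` and `b`. -/
def rest (H : Finset ι) (a b : ι) : Finset ι := (H.erase a).erase b

theorem mem_rest {H : Finset ι} {a b c : ι} : c ∈ rest H a b ↔ c ∈ H ∧ c ≠ a ∧ c ≠ b := by
  simp only [rest, mem_erase]; tauto

theorem rest_subset (H : Finset ι) (a b : ι) : rest H a b ⊆ H := fun _ h => (mem_rest.1 h).1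

theorem sum_rest {M : Type*} [AddCommMonoid M] {H : Finset ι} {a b : ι} (ha : a ∈ H) (hb : b ∈ H)
    (hab : a ≠ b) (f : ι → M) : ∑ c ∈ H, f c = ∑ c ∈ rest H a b, f c + f a + f b := by
  have hb' : b ∈ H.erase a := mem_erase.2 ⟨hab.symm, hb⟩
  rw [rest, ← add_sum_erase H f ha, ← add_sum_erase _ f hb']
  abel

theorem card_rest {H : Finset ι} {a b : ι} (ha : a ∈ H) (hb : b ∈ H) (hab : a ≠ b) :
    (rest H a b).card + 2 = H.card := by
  have := sum_rest ha hb hab fun _ => (1 : ℕ)
  simp only [sum_const, smul_eq_mul, mul_one] at this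
  omega

section Field

variable {K : Type*} [Field K]

omit [DecidableEq ι] in
theorem nxt_symm {s : K} {F : ι → ι → K} (hF : ∀ c e, F c e = F e c) (a b c e : ι) :
    nxt s F a b c e = nxt s F a b e c := by
  unfold nxt
  rw [hF c e, hF c a, hF a e, hF c b, hF b e]
  ring

/-- The all-ones vector stays an eigenvector with eigenvalue `s`. -/
theorem nxt_rowsum {s : K} {F : ι → ι → K} {H : Finset ι} (hF : ∀ c e, F c e = F e c)
    (hrow : ∀ c ∈ H, ∑ e ∈ H, F c e = s) {a b : ι} (ha : a ∈ H) (hb : b ∈ H) (hab : a ≠ b)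
    (hD : den s F a b ≠ 0) {c : ι} (hc : c ∈ H) : ∑ e ∈ rest H a b, nxt s F a b c e = s := by
  have h1 : ∀ x ∈ H, ∑ e ∈ rest H a b, F x e = s - F x a - F x b := fun x hx => by
    have := sum_rest ha hb hab (F x)
    rw [hrow x hx] at this
    rw [this]; ring
  have h2 : ∑ e ∈ rest H a b, nxt s F a b c e = ∑ e ∈ rest H a b, F c e +
      ((F b b * F c a + (s - F a b) * F c b) * ∑ e ∈ rest H a b, F a e +
       (F a a * F c b + (s - F a b) * F c a) * ∑ e ∈ rest H a b, F b e) / den s F a b := by
    rw [mul_sum, mul_sum, ← sum_add_distrib, sum_div, ← sum_add_distrib]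
    refine sum_congr rfl fun e _ => ?_
    unfold nxt
    ring
  rw [h2, h1 c hc, h1 a ha, h1 b hb, hF b a]
  have h3 : (F b b * F c a + (s - F a b) * F c b) * (s - F a a - F a b) +
      (F a a * F c b + (s - F a b) * F c a) * (s - F a b - F b b) =
      (F c a + F c b) * den s F a b := by
    unfold den; ring
  rw [h3, mul_div_assoc, div_self hD]
  ring

end Field

end Vale.Agent.P049
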