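import Vale.Agent.P049.Skeleton

/-!
# Transfer between kernels on `ℕ` and matrices on the set of free half-edges
-/

namespace Vale.Agent.P049

open Finset Vale.Agent.Lib.PolyTime

/-- The matrix of a kernel on `H`. -/
def subM (H : Finset ℕ) (F : ℕ → ℕ → ℝ) : Matrix H H ℝ := Matrix.of fun i j => F i j

theorem subM_apply (H : Finset ℕ) (F : ℕ → ℕ → ℝ) (i j : H) : subM H F i j = F i j := rfl

theorem Ker.subM {s m : ℝ} {H : Finset ℕ} {F : ℕ → ℕ → ℝ} (h : Ker s m H F) :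
    Ker s m (univ : Finset H) (subM H F) where
  symm c e := h.symm c e
  supp c _ hc := absurd (mem_univ c) hc
  row c _ := by
    rw [← h.row c c.2]
    exact sum_coe_sort H (F c)
  psd x hx := by
    set z : ℕ → ℝ := fun i => if hi : i ∈ H then x ⟨i, hi⟩ else 0 with hz
    have e : ∀ i : H, z i = x i := fun i => by simp [hz]
    have h1 : ∑ i ∈ H, z i = ∑ i, x i := by
      rw [← sum_coe_sort H z]; exact sum_congr rfl fun i _ => e i
    have h2 : ∑ i ∈ H, z i ^ 2 = ∑ i, x i ^ 2 := by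
      rw [← sum_coe_sort H fun i => z i ^ 2]; exact sum_congr rfl fun i _ => by rw [e]
    have h3 : qf H F z = qf univ (P049.subM H F) x := by
      unfold qf
      rw [← sum_coe_sort H fun c => ∑ e ∈ H, z c * F c e * z e]
      refine sum_congr rfl fun i _ => ?_
      rw [← sum_coe_sort H fun e => z i * F i e * z e]
      exact sum_congr rfl fun j _ => by rw [e, e]; rfl
    have := h.psd z (h1.trans hx)
    rwa [h2, h3] at this

theorem den_subM (s : ℝ) (H : Finset ℕ) (F : ℕ → ℕ → ℝ) (a b : H) :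
    den s (subM H F) a b = den s F a b := rfl

theorem subM_next (s : ℝ) (H : Finset ℕ) (F : ℕ → ℕ → ℝ) (a b : H) :
    subM H (res (rest H a b) (nxt s F a b)) =
      Matrix.of (res (rest univ a b) (nxt s (subM H F) a b)) := by
  ext c e
  have key : ∀ x : H, (x : ℕ) ∈ rest H a b ↔ x ∈ rest univ a b := fun x => by
    rw [mem_rest, mem_rest, ne_eq, ne_eq, ne_eq, ne_eq, Subtype.coe_inj, Subtype.coe_inj]
    exact and_congr_left fun _ => ⟨fun _ => mem_univ _, fun _ => x.2⟩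
  simp only [subM, Matrix.of_apply, res, key]
  rfl

/-- A bound `F ≤ 1` on vectors of sum zero can be checked on the matrix. -/
theorem qf_le_of_subM {H : Finset ℕ} {F : ℕ → ℕ → ℝ}
    (h : ∀ x : H → ℝ, ∑ i, x i = 0 → qf univ (subM H F) x ≤ ∑ i, x i ^ 2) (x : ℕ → ℝ)
    (hx : ∑ i ∈ H, x i = 0) : qf H F x ≤ ∑ i ∈ H, x i ^ 2 := by
  have h1 := h (fun i => x i) (by rw [sum_coe_sort H x, hx])
  rw [sum_coe_sort H fun i => x i ^ 2] at h1
  refine le_trans (le_of_eq ?_) h1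
  unfold qf
  rw [← sum_coe_sort H fun c => ∑ e ∈ H, x c * F c e * x e]
  refine sum_congr rfl fun i _ => ?_
  rw [← sum_coe_sort H fun e => x i * F i e * x e]
  rfl

section Ops

variable {K : Type*} [CommRing K]

/-- The product of two kernels on `range N`. -/
def kmul (N : ℕ) (F G : ℕ → ℕ → K) (c e : ℕ) : K := ∑ x ∈ range N, F c x * G x e

/-- The trace of a kernel on `range N`. -/
def ktr (N : ℕ) (F : ℕ → ℕ → K) : K := ∑ c ∈ range N, F c c

/-- The inner product of the diagonals of two kernels on `range N`. -/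
def kdg (N : ℕ) (F G : ℕ → ℕ → K) : K := ∑ c ∈ range N, F c c * G c c

end Ops

/-- The kernel vanishes outside `H × H`. -/
def Supp (H : Finset ℕ) (F : ℕ → ℕ → ℝ) : Prop := ∀ c e, c ∉ H ∨ e ∉ H → F c e = 0

theorem Ker.toSupp {s m : ℝ} {H : Finset ℕ} {F : ℕ → ℕ → ℝ} (h : Ker s m H F) : Supp H F := by
  rintro c e (hc | he)
  · exact h.supp c e hc
  · rw [h.symm]; exact h.supp e c he

theorem supp_res {H G : Finset ℕ} (h : G ⊆ H) (F : ℕ → ℕ → ℝ) : Supp H (res G F) := by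
  rintro c e (hc | he)
  · exact if_neg fun h1 => hc (h h1.1)
  · exact if_neg fun h1 => he (h h1.2)

theorem Supp.kmul {H : Finset ℕ} {F G : ℕ → ℕ → ℝ} (hF : Supp H F) (hG : Supp H G) (N : ℕ) :
    Supp H (kmul N F G) := by
  rintro c e (hc | he)
  · exact sum_eq_zero fun x _ => by rw [hF c x (Or.inl hc), zero_mul]
  · exact sum_eq_zero fun x _ => by rw [hG x e (Or.inr he), mul_zero]

theorem sum_range_eq_sum_sub {H : Finset ℕ} {N : ℕ} (hH : H ⊆ range N) {g : ℕ → ℝ}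
    (hg : ∀ c, c ∉ H → g c = 0) : ∑ c ∈ range N, g c = ∑ c : H, g c := by
  rw [sum_coe_sort H g]
  exact (sum_subset hH fun c _ hc => hg c hc).symm

theorem subM_kmul {H : Finset ℕ} {N : ℕ} (hH : H ⊆ range N) {F : ℕ → ℕ → ℝ} (hF : Supp H F)
    (G : ℕ → ℕ → ℝ) : subM H (kmul N F G) = subM H F * subM H G := by
  ext c e
  rw [Matrix.mul_apply]
  exact sum_range_eq_sum_sub hH (g := fun x => F c x * G x e) fun x hx => by
    rw [hF c x (Or.inr hx), zero_mul]

theorem ktr_eq {H : Finset ℕ} {N : ℕ} (hH : H ⊆ range N) {F : ℕ → ℕ → ℝ} (hF : Supp H F) :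
    ktr N F = (subM H F).trace :=
  sum_range_eq_sum_sub hH (g := fun c => F c c) fun c hc => hF c c (Or.inl hc)

theorem kdg_eq {H : Finset ℕ} {N : ℕ} (hH : H ⊆ range N) {F : ℕ → ℕ → ℝ} (hF : Supp H F)
    (G : ℕ → ℕ → ℝ) : kdg N F G = ∑ c, subM H F c c * subM H G c c :=
  sum_range_eq_sum_sub hH (g := fun c => F c c * G c c) fun c hc => by
    rw [hF c c (Or.inl hc), zero_mul]

theorem cst_kmul (N : ℕ) (F G : ℕ → ℕ → ℚ) : cst (kmul N F G) = kmul N (cst F) (cst G) := by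
  funext c e
  simp [cst, kmul]

theorem cast_ktr (N : ℕ) (F : ℕ → ℕ → ℚ) : ((ktr N F : ℚ) : ℝ) = ktr N (cst F) := by
  simp [cst, ktr]

theorem cast_kdg (N : ℕ) (F G : ℕ → ℕ → ℚ) : ((kdg N F G : ℚ) : ℝ) = kdg N (cst F) (cst G) := by
  simp [cst, kdg]

section PT

variable {α : Type*} [Enc α]

/-- A family of kernels with entries computable in polynomial time. -/
def PK (F : α → ℕ → ℕ → ℚ) : Prop := PT ∅ fun p : (α × ℕ) × ℕ => F p.1.1 p.1.2 p.2

theorem PK.app {β : Type*} [Enc β] {F : α → ℕ → ℕ → ℚ} (hF : PK F) {f : β → α} {c e : β → ℕ}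
    (hf : PT ∅ f) (hc : PT ∅ c) (he : PT ∅ e) : PT ∅ fun x => F (f x) (c x) (e x) :=
  PT.comp hF (f := fun x => ((f x, c x), e x)) ((hf.pair hc).pair he)

theorem PK_mat {L : α → List (List ℚ)} (hL : PT ∅ L) : PK fun x => mat (L x) :=
  PT_mat (hL.comp PT.fst'.fst) PT.fst'.snd PT.snd'

theorem PK.kmul {N : α → ℕ} (hN : PT ∅ N) (hNb : PBd N) {F G : α → ℕ → ℕ → ℚ} (hF : PK F)
    (hG : PK G) : PK fun x => kmul (N x) (F x) (G x) :=
  PT_ratSumRange (f := fun (p : (α × ℕ) × ℕ) x => F p.1.1 p.1.2 x * G p.1.1 x p.2)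
    (hN.comp PT.fst'.fst) (hNb.comp (A := ∅) PT.fst'.fst)
    (PT_ratMul (hF.app PT.fst'.fst.fst PT.fst'.fst.snd PT.snd')
      (hG.app PT.fst'.fst.fst PT.snd' PT.fst'.snd))

theorem PK.ktr {N : α → ℕ} (hN : PT ∅ N) (hNb : PBd N) {F : α → ℕ → ℕ → ℚ} (hF : PK F) :
    PT ∅ fun x => ktr (N x) (F x) :=
  PT_ratSumRange (f := fun x c => F x c c) hN hNb (hF.app PT.fst' PT.snd' PT.snd')

theorem PK.kdg {N : α → ℕ} (hN : PT ∅ N) (hNb : PBd N) {F G : α → ℕ → ℕ → ℚ} (hF : PK F)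
    (hG : PK G) : PT ∅ fun x => kdg (N x) (F x) (G x) :=
  PT_ratSumRange (f := fun x c => F x c c * G x c c) hN hNb
    (PT_ratMul (hF.app PT.fst' PT.snd' PT.snd') (hG.app PT.fst' PT.snd' PT.snd'))

end PT

end Vale.Agent.P049
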