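import Vale.Agent.P049.Had
import Vale.Agent.P049.Ident

/-!
The interface between the choice of averaging weights and the drift estimates of one kernel,
with the generic averaging lemmas.
-/

namespace Vale.Agent.P049

open Matrix Finset

variable {ι : Type*} [Fintype ι]

/-- The size of the deviation of `W` from its leading part. -/
def dlt (K : Matrix ι ι ℝ) (a b : ι) : ℝ := |K a b| + |K a a * K b b|

/-- The factor `1 / den`, so that `wd s K a b = p1 s K a b * K b b`. -/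
noncomputable def p1 (s : ℝ) (K : Matrix ι ι ℝ) (a b : ι) : ℝ := 1 / den s K a b

/-- The factor `s * wo`, so that `wo s K a b = s * p2 s K a b`. -/
noncomputable def p2 (s : ℝ) (K : Matrix ι ι ℝ) (a b : ι) : ℝ := s * wo s K a b

/-- Weights `w` on ordered pairs with tilt `sg`, adapted to the kernel `K`. -/
structure Wt (s : ℝ) (K : Matrix ι ι ℝ) (w sg : ι → ι → ℝ) (ξ Lx Om Om1 vp : ℝ) : Prop where
  sgn : s ^ 2 = 1
  symm : Kᵀ = K
  rowsum : ∀ c, ∑ e, K c e = s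
  xi_nonneg : 0 ≤ ξ
  xi_le : ξ ≤ 1 / 100
  w_nonneg : ∀ a b, 0 ≤ w a b
  w_le : ∀ a b, w a b ≤ 1 + ξ
  w_symm : ∀ a b, w a b = w b a
  sg_symm : ∀ a b, sg a b = sg b a
  ne : ∀ a b, w a b ≠ 0 → a ≠ b
  off : ∀ a b, w a b ≠ 0 → |K a b| ≤ ξ
  dg : ∀ a b, w a b ≠ 0 → |K a a * K b b| ≤ ξ
  hx : ∀ a b, w a b ≠ 0 → K b b ^ 2 * rsq K a ≤ Lx
  fr : frob (Matrix.of fun a b => w a b - 1) ≤ Om
  fr1 : frob (Matrix.of fun a b => w a b - 1 + sg a b) ≤ Om1
  row : ∀ a, nrm (fun b => w a b - 1) ≤ vp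
  dfr1 : frob K + nrm (dgv K) ^ 2 ≤ Om1
  om1_le : Om1 ≤ Om
  drow : ∀ a, nrm (K a) + |K a a| * nrm (dgv K) ≤ vp

/-- A factor which is close to one on the support of the weights. -/
def Near (K : Matrix ι ι ℝ) (w : ι → ι → ℝ) (c : ℝ) (ρ : ι → ι → ℝ) : Prop :=
  0 ≤ c ∧ ∀ a b, w a b ≠ 0 → |ρ a b - 1| ≤ c * dlt K a b

omit [Fintype ι] in
theorem dlt_nonneg (K : Matrix ι ι ℝ) (a b : ι) : 0 ≤ dlt K a b := by
  unfold dlt; positivity

omit [Fintype ι] in
theorem wd_eq (s : ℝ) (K : Matrix ι ι ℝ) (a b : ι) : wd s K a b = p1 s K a b * K b b := by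
  unfold wd p1; ring

omit [Fintype ι] in
theorem wo_eq {s : ℝ} (hs : s ^ 2 = 1) (K : Matrix ι ι ℝ) (a b : ι) :
    wo s K a b = s * p2 s K a b := by
  unfold p2
  rw [← mul_assoc, ← sq, hs, one_mul]

omit [Fintype ι] in
theorem p1_swap {K : Matrix ι ι ℝ} (hK : Kᵀ = K) (s : ℝ) (a b : ι) :
    p1 s K b a = p1 s K a b := by
  unfold p1; rw [den_swap hK]

omit [Fintype ι] in
theorem p2_swap {K : Matrix ι ι ℝ} (hK : Kᵀ = K) (s : ℝ) (a b : ι) :
    p2 s K b a = p2 s K a b := by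
  unfold p2; rw [wo_swap hK]

theorem frob_dlt_le (K : Matrix ι ι ℝ) :
    frob (Matrix.of (dlt K)) ≤ frob K + nrm (dgv K) ^ 2 := by
  have h1 : Matrix.of (dlt K) = Matrix.of (fun a b => |K a b|) +
      vecMulVec (fun a => |K a a|) (fun a => |K a a|) := by
    ext a b
    simp [dlt, vecMulVec_apply, abs_mul]
  rw [h1]
  refine (frob_add_le _ _).trans (add_le_add (frob_mono fun a b => by simp) ?_)
  rw [frob_vecMulVec, show nrm (fun a => |K a a|) = nrm (dgv K) from nrm_abs (dgv K), sq]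

theorem nrm_dlt_le (K : Matrix ι ι ℝ) (a : ι) :
    nrm (dlt K a) ≤ nrm (K a) + |K a a| * nrm (dgv K) := by
  have h1 : dlt K a = (fun b => |K a b|) + |K a a| • fun b => |K b b| := by
    ext b
    simp [dlt, abs_mul]
  rw [h1]
  refine (nrm_add_le _ _).trans (add_le_add (nrm_abs _).le ?_)
  rw [nrm_smul, abs_abs, show nrm (fun a => |K a a|) = nrm (dgv K) from nrm_abs (dgv K)]

omit [Fintype ι] in
theorem Near.one (K : Matrix ι ι ℝ) (w : ι → ι → ℝ) : Near K w 0 fun _ _ => 1 :=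
  ⟨le_rfl, fun _ _ _ => by simp⟩

omit [Fintype ι] in
theorem Near.mono {K : Matrix ι ι ℝ} {w : ι → ι → ℝ} {c c' : ℝ} {ρ : ι → ι → ℝ}
    (h : Near K w c ρ) (hc : c ≤ c') : Near K w c' ρ :=
  ⟨h.1.trans hc, fun a b hw => (h.2 a b hw).trans
    (mul_le_mul_of_nonneg_right hc (dlt_nonneg K a b))⟩

/-- Sums over ordered pairs of symmetric weights can be flipped. -/
theorem sum_flip (f : ι → ι → ℝ) : ∑ a, ∑ b, f a b = ∑ a, ∑ b, f b a := sum_comm

namespace Wt

variable {s : ℝ} {K : Matrix ι ι ℝ} {w sg : ι → ι → ℝ} {ξ Lx Om Om1 vp : ℝ}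
  (h : Wt s K w sg ξ Lx Om Om1 vp)

include h

theorem isSymm : K.IsSymm := h.symm

theorem abs_s : |s| = 1 := by
  rcases sgn_cases h.sgn with h1 | h1 <;> simp [h1]

theorem om1_nonneg : 0 ≤ Om1 := (frob_nonneg _).trans h.fr1

theorem om_nonneg : 0 ≤ Om := (frob_nonneg _).trans h.fr

theorem vp_nonneg (a : ι) : 0 ≤ vp := (nrm_nonneg _).trans (h.row a)

theorem w_le_two (a b : ι) : w a b ≤ 2 := by linarith [h.w_le a b, h.xi_le]

theorem w_ne_swap {a b : ι} (hw : w a b ≠ 0) : w b a ≠ 0 := by rwa [h.w_symm b a]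

theorem hx' {a b : ι} (hw : w a b ≠ 0) : K a a ^ 2 * rsq K b ≤ Lx := h.hx b a (h.w_ne_swap hw)

theorem dlt_le {a b : ι} (hw : w a b ≠ 0) : dlt K a b ≤ 2 * ξ := by
  unfold dlt; linarith [h.off a b hw, h.dg a b hw]

theorem frob_dlt : frob (Matrix.of (dlt K)) ≤ Om1 := (frob_dlt_le K).trans h.dfr1

theorem nrm_dlt (a : ι) : nrm (dlt K a) ≤ vp := (nrm_dlt_le K a).trans (h.drow a)

theorem den_ge {a b : ι} (hw : w a b ≠ 0) : 1 - 3 * ξ ≤ den s K a b := by
  have h1 := abs_le.1 (h.off a b hw)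
  have h2 := abs_le.1 (h.dg a b hw)
  unfold den
  rcases sgn_cases h.sgn with h3 | h3 <;> rw [h3] <;> nlinarith [sq_nonneg (K a b)]

theorem den_pos {a b : ι} (hw : w a b ≠ 0) : 0 < den s K a b := by
  linarith [h.den_ge hw, h.xi_le]

theorem den_ne {a b : ι} (hw : w a b ≠ 0) : den s K a b ≠ 0 := (h.den_pos hw).ne'

theorem near_p1 : Near K w 3 (p1 s K) := by
  refine ⟨by norm_num, fun a b hw => ?_⟩
  have h0 := h.den_ge hw
  have h1 := h.off a b hw
  have hx := h.xi_le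
  have hp := h.den_pos hw
  have h2 : |1 - den s K a b| ≤ 2.01 * dlt K a b := by
    have e1 : 1 - den s K a b = 2 * s * K a b - K a b ^ 2 + K a a * K b b := by
      unfold den; linear_combination -h.sgn
    have e2 : |2 * s * K a b| = 2 * |K a b| := by rw [abs_mul, abs_mul, h.abs_s]; norm_num
    have e3 : |K a b ^ 2| ≤ ξ * |K a b| := by
      rw [abs_pow, sq]; exact mul_le_mul_of_nonneg_right h1 (abs_nonneg _)
    rw [e1]
    have e4 := abs_add_le (2 * s * K a b - K a b ^ 2) (K a a * K b b)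
    have e5 := abs_sub (2 * s * K a b) (K a b ^ 2)
    unfold dlt
    nlinarith [abs_nonneg (K a b), abs_nonneg (K a a * K b b)]
  have h3 : p1 s K a b - 1 = (1 - den s K a b) / den s K a b := by
    unfold p1; field_simp
  rw [h3, abs_div, abs_of_pos hp, div_le_iff₀ hp]
  nlinarith [dlt_nonneg K a b]

theorem near_p2 : Near K w 2 (p2 s K) := by
  refine ⟨by norm_num, fun a b hw => ?_⟩
  have h0 := h.den_ge hw
  have h1 := h.off a b hw
  have hx := h.xi_le
  have hp := h.den_pos hw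
  have h2 : |s * (s - K a b) - den s K a b| ≤ 1.01 * dlt K a b := by
    have e1 : s * (s - K a b) - den s K a b = s * K a b - K a b ^ 2 + K a a * K b b := by
      unfold den; ring
    have e2 : |s * K a b| = |K a b| := by rw [abs_mul, h.abs_s, one_mul]
    have e3 : |K a b ^ 2| ≤ ξ * |K a b| := by
      rw [abs_pow, sq]; exact mul_le_mul_of_nonneg_right h1 (abs_nonneg _)
    rw [e1]
    have e4 := abs_add_le (s * K a b - K a b ^ 2) (K a a * K b b)
    have e5 := abs_sub (s * K a b) (K a b ^ 2)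
    unfold dlt
    nlinarith [abs_nonneg (K a b), abs_nonneg (K a a * K b b)]
  have h3 : p2 s K a b - 1 = (s * (s - K a b) - den s K a b) / den s K a b := by
    unfold p2 wo; field_simp
  rw [h3, abs_div, abs_of_pos hp, div_le_iff₀ hp]
  nlinarith [dlt_nonneg K a b]

theorem near_mul {c c' : ℝ} {ρ ρ' : ι → ι → ℝ} (h1 : Near K w c ρ) (h2 : Near K w c' ρ') :
    Near K w (c + c' + c * c' / 50) fun a b => ρ a b * ρ' a b := by
  have hc := h1.1
  have hc' := h2.1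
  refine ⟨by positivity, fun a b hw => ?_⟩
  have e1 := h1.2 a b hw
  have e2 := h2.2 a b hw
  have e3 := h.dlt_le hw
  have e4 := dlt_nonneg K a b
  have e5 : ρ a b * ρ' a b - 1 = (ρ a b - 1) + (ρ' a b - 1) + (ρ a b - 1) * (ρ' a b - 1) := by ring
  have e6 : |(ρ a b - 1) * (ρ' a b - 1)| ≤ (c * dlt K a b) * (c' * dlt K a b) := by
    rw [abs_mul]; exact mul_le_mul e1 e2 (abs_nonneg _) (by positivity)
  have e7 : (c * dlt K a b) * (c' * dlt K a b) ≤ c * c' / 50 * dlt K a b := by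
    have : dlt K a b ≤ 1 / 50 := by linarith [h.xi_le]
    have e8 : 0 ≤ c * c' * dlt K a b := by positivity
    nlinarith
  rw [e5]
  have e9 := abs_add_le ((ρ a b - 1) + (ρ' a b - 1)) ((ρ a b - 1) * (ρ' a b - 1))
  have e10 := abs_add_le (ρ a b - 1) (ρ' a b - 1)
  nlinarith

theorem near_p1_sq : Near K w 7 fun a b => p1 s K a b ^ 2 := by
  simpa only [sq] using (h.near_mul h.near_p1 h.near_p1).mono (by norm_num)

theorem near_p2_sq : Near K w 5 fun a b => p2 s K a b ^ 2 := by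
  simpa only [sq] using (h.near_mul h.near_p2 h.near_p2).mono (by norm_num)

theorem near_p1_p2 : Near K w 6 fun a b => p1 s K a b * p2 s K a b :=
  (h.near_mul h.near_p1 h.near_p2).mono (by norm_num)

theorem near_abs_le {c : ℝ} {ρ : ι → ι → ℝ} (h1 : Near K w c ρ) {a b : ι} (hw : w a b ≠ 0) :
    |ρ a b - 1| ≤ 2 * c * ξ := by
  have := mul_le_mul_of_nonneg_left (h.dlt_le hw) h1.1
  linarith [h1.2 a b hw]

theorem p1_le {a b : ι} (hw : w a b ≠ 0) : p1 s K a b ≤ 1 + 6 * ξ := by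
  linarith [(abs_le.1 (h.near_abs_le h.near_p1 hw)).2]

theorem p2_le {a b : ι} (hw : w a b ≠ 0) : p2 s K a b ≤ 1 + 4 * ξ := by
  linarith [(abs_le.1 (h.near_abs_le h.near_p2 hw)).2]

theorem p1_pos {a b : ι} (hw : w a b ≠ 0) : 0 < p1 s K a b := by
  linarith [(abs_le.1 (h.near_abs_le h.near_p1 hw)).1, h.xi_le]

theorem p2_pos {a b : ι} (hw : w a b ≠ 0) : 0 < p2 s K a b := by
  linarith [(abs_le.1 (h.near_abs_le h.near_p2 hw)).1, h.xi_le]

theorem abs_p1_le {a b : ι} (hw : w a b ≠ 0) : |p1 s K a b| ≤ 11 / 10 := by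
  rw [abs_of_pos (h.p1_pos hw)]; linarith [h.p1_le hw, h.xi_le]

theorem abs_p2_le {a b : ι} (hw : w a b ≠ 0) : |p2 s K a b| ≤ 11 / 10 := by
  rw [abs_of_pos (h.p2_pos hw)]; linarith [h.p2_le hw, h.xi_le]

theorem abs_wo_le {a b : ι} (hw : w a b ≠ 0) : |wo s K a b| ≤ 11 / 10 := by
  rw [wo_eq h.sgn, abs_mul, h.abs_s, one_mul]; exact h.abs_p2_le hw

/-- The weighted deviation of a factor from one. -/
theorem abs_w_mul_le {c : ℝ} {ρ : ι → ι → ℝ} (h1 : Near K w c ρ) (a b : ι) :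
    |w a b * (ρ a b - 1)| ≤ |2 * c * dlt K a b| := by
  have hc := h1.1
  have hd := dlt_nonneg K a b
  rw [abs_of_nonneg (a := 2 * c * dlt K a b) (by positivity)]
  by_cases hw : w a b = 0
  · rw [hw, zero_mul, abs_zero]; positivity
  · rw [abs_mul, abs_of_nonneg (h.w_nonneg a b), mul_assoc]
    exact mul_le_mul (h.w_le_two a b) (h1.2 a b hw) (abs_nonneg _) (by norm_num)

theorem frob_w_mul_le {c : ℝ} {ρ : ι → ι → ℝ} (h1 : Near K w c ρ) :
    frob (Matrix.of fun a b => w a b * (ρ a b - 1)) ≤ 2 * c * Om1 := by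
  have hc := h1.1
  calc _ ≤ frob ((2 * c) • Matrix.of (dlt K)) := frob_mono fun a b => h.abs_w_mul_le h1 a b
    _ = 2 * c * frob (Matrix.of (dlt K)) := by rw [frob_smul, abs_of_nonneg (by positivity)]
    _ ≤ _ := mul_le_mul_of_nonneg_left h.frob_dlt (by positivity)

theorem frob_om {c : ℝ} {ρ : ι → ι → ℝ} (h1 : Near K w c ρ) :
    frob (Matrix.of fun a b => w a b * ρ a b - 1) ≤ (1 + 2 * c) * Om := by
  have hc := h1.1
  have e1 : (Matrix.of fun a b => w a b * ρ a b - 1) = (Matrix.of fun a b => w a b - 1) +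
      Matrix.of fun a b => w a b * (ρ a b - 1) := by
    ext a b; simp only [of_apply, Matrix.add_apply]; ring
  rw [e1]
  have e2 := mul_le_mul_of_nonneg_left h.om1_le (show 0 ≤ 2 * c by positivity)
  linarith [frob_add_le (Matrix.of fun a b => w a b - 1)
    (Matrix.of fun a b => w a b * (ρ a b - 1)), h.fr, h.frob_w_mul_le h1]

theorem frob_om1 {c : ℝ} {ρ : ι → ι → ℝ} (h1 : Near K w c ρ) :
    frob (Matrix.of fun a b => w a b * ρ a b - 1 + sg a b) ≤ (1 + 2 * c) * Om1 := by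
  have e1 : (Matrix.of fun a b => w a b * ρ a b - 1 + sg a b) =
      (Matrix.of fun a b => w a b - 1 + sg a b) + Matrix.of fun a b => w a b * (ρ a b - 1) := by
    ext a b; simp only [of_apply, Matrix.add_apply]; ring
  rw [e1]
  linarith [frob_add_le (Matrix.of fun a b => w a b - 1 + sg a b)
    (Matrix.of fun a b => w a b * (ρ a b - 1)), h.fr1, h.frob_w_mul_le h1]

theorem nrm_om {c : ℝ} {ρ : ι → ι → ℝ} (h1 : Near K w c ρ) (a : ι) :
    nrm (fun b => w a b * ρ a b - 1) ≤ (1 + 2 * c) * vp := by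
  have hc := h1.1
  have e1 : (fun b => w a b * ρ a b - 1) = (fun b => w a b - 1) +
      fun b => w a b * (ρ a b - 1) := by
    ext b; simp only [Pi.add_apply]; ring
  have e2 : nrm (fun b => w a b * (ρ a b - 1)) ≤ 2 * c * vp :=
    calc _ ≤ nrm ((2 * c) • dlt K a) := nrm_mono fun b => h.abs_w_mul_le h1 a b
      _ = 2 * c * nrm (dlt K a) := by rw [nrm_smul, abs_of_nonneg (by positivity)]
      _ ≤ _ := mul_le_mul_of_nonneg_left (h.nrm_dlt a) (by positivity)
  rw [e1]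
  linarith [nrm_add_le (fun b => w a b - 1) (fun b => w a b * (ρ a b - 1)), h.row a]

/-- Averaging with the tilt treated as an error. -/
theorem avgP {c : ℝ} {ρ : ι → ι → ℝ} (h1 : Near K w c ρ) (X : Matrix ι ι ℝ) :
    |∑ a, ∑ b, w a b * (ρ a b * X a b) - ∑ a, ∑ b, X a b| ≤ (1 + 2 * c) * Om * frob X := by
  have e1 := abs_sum_sum_mul_le (Matrix.of fun a b => w a b * ρ a b - 1) X
  refine le_trans (le_of_eq ?_) (e1.trans
    (mul_le_mul_of_nonneg_right (h.frob_om h1) (frob_nonneg X)))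
  congr 1
  simp only [← sum_sub_distrib, of_apply]
  exact sum_congr rfl fun a _ => sum_congr rfl fun b _ => by ring

/-- Averaging with the tilt as a main term. -/
theorem avgL {c : ℝ} {ρ : ι → ι → ℝ} (h1 : Near K w c ρ) (X : Matrix ι ι ℝ) :
    |∑ a, ∑ b, w a b * (ρ a b * X a b) - ∑ a, ∑ b, X a b + ∑ a, ∑ b, sg a b * X a b| ≤
      (1 + 2 * c) * Om1 * frob X := by
  have e1 := abs_sum_sum_mul_le (Matrix.of fun a b => w a b * ρ a b - 1 + sg a b) X
  refine le_trans (le_of_eq ?_) (e1.trans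
    (mul_le_mul_of_nonneg_right (h.frob_om1 h1) (frob_nonneg X)))
  congr 1
  simp only [← sum_sub_distrib, ← sum_add_distrib, of_apply]
  exact sum_congr rfl fun a _ => sum_congr rfl fun b _ => by ring

/-- Averaging of a product, Frobenius form. -/
theorem avgPP {c : ℝ} {ρ : ι → ι → ℝ} (h1 : Near K w c ρ) (f g : ι → ℝ) :
    |∑ a, ∑ b, w a b * (ρ a b * (f a * g b)) - (∑ a, f a) * ∑ b, g b| ≤
      (1 + 2 * c) * Om * (nrm f * nrm g) := by
  have e1 := h.avgP h1 (vecMulVec f g)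
  rw [frob_vecMulVec] at e1
  rw [sum_mul_sum]
  exact e1

/-- Averaging of a product, row form. -/
theorem avgR {c : ℝ} {ρ : ι → ι → ℝ} (h1 : Near K w c ρ) (f g : ι → ℝ) :
    |∑ a, ∑ b, w a b * (ρ a b * (f a * g b)) - (∑ a, f a) * ∑ b, g b| ≤
      (1 + 2 * c) * vp * ((∑ a, |f a|) * nrm g) := by
  have e1 : ∑ a, ∑ b, w a b * (ρ a b * (f a * g b)) - (∑ a, f a) * ∑ b, g b =
      ∑ a, f a * ∑ b, (w a b * ρ a b - 1) * g b := by
    rw [sum_mul_sum]
    simp only [← sum_sub_distrib, mul_sum]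
    exact sum_congr rfl fun a _ => sum_congr rfl fun b _ => by ring
  rw [e1]
  refine (abs_sum_le_sum_abs _ _).trans ?_
  rw [sum_mul, mul_sum]
  refine sum_le_sum fun a _ => ?_
  rw [abs_mul]
  have e2 := (abs_sum_mul_le (fun b => w a b * ρ a b - 1) g).trans
    (mul_le_mul_of_nonneg_right (h.nrm_om h1 a) (nrm_nonneg g))
  calc _ ≤ |f a| * ((1 + 2 * c) * vp * nrm g) := mul_le_mul_of_nonneg_left e2 (abs_nonneg _)
    _ = _ := by ring

omit h in
theorem _root_.Vale.Agent.P049.nrm_one : nrm (fun _ : ι => (1 : ℝ)) = √(Fintype.card ι) := by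
  simp [nrm]

/-- Averaging of a function of one index, row form. -/
theorem avgR0 {c : ℝ} {ρ : ι → ι → ℝ} (h1 : Near K w c ρ) (f : ι → ℝ) :
    |∑ a, ∑ b, w a b * (ρ a b * f a) - Fintype.card ι * ∑ a, f a| ≤
      (1 + 2 * c) * vp * ((∑ a, |f a|) * √(Fintype.card ι)) := by
  have e1 := h.avgR h1 f fun _ => 1
  rw [nrm_one] at e1
  simpa [mul_comm] using e1

/-- Averaging of a function of one index, Frobenius form. -/
theorem avgP0 {c : ℝ} {ρ : ι → ι → ℝ} (h1 : Near K w c ρ) (f : ι → ℝ) :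
    |∑ a, ∑ b, w a b * (ρ a b * f a) - Fintype.card ι * ∑ a, f a| ≤
      (1 + 2 * c) * Om * (nrm f * √(Fintype.card ι)) := by
  have e1 := h.avgPP h1 f fun _ => 1
  rw [nrm_one] at e1
  simpa [mul_comm] using e1

/-- Error terms, with the sharp bound on the weights. -/
theorem avgE' {Y X : ι → ι → ℝ} (hX : ∀ a b, 0 ≤ X a b)
    (hY : ∀ a b, w a b ≠ 0 → Y a b ≤ X a b) :
    ∑ a, ∑ b, w a b * Y a b ≤ (1 + ξ) * ∑ a, ∑ b, X a b := by
  simp only [mul_sum]
  refine sum_le_sum fun a _ => sum_le_sum fun b _ => ?_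
  have e1 := hX a b
  have e0 := h.xi_nonneg
  by_cases hw : w a b = 0
  · rw [hw, zero_mul]; positivity
  · exact (mul_le_mul_of_nonneg_left (hY a b hw) (h.w_nonneg a b)).trans
      (mul_le_mul_of_nonneg_right (h.w_le a b) e1)

/-- Error terms. -/
theorem avgE {Y X : ι → ι → ℝ} (hX : ∀ a b, 0 ≤ X a b)
    (hY : ∀ a b, w a b ≠ 0 → Y a b ≤ X a b) :
    ∑ a, ∑ b, w a b * Y a b ≤ 2 * ∑ a, ∑ b, X a b := by
  refine (h.avgE' hX hY).trans (mul_le_mul_of_nonneg_right (by linarith [h.xi_le]) ?_)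
  exact sum_nonneg fun a _ => sum_nonneg fun b _ => hX a b

/-- Error terms in absolute value. -/
theorem avgA {Y X : ι → ι → ℝ} (hX : ∀ a b, 0 ≤ X a b)
    (hY : ∀ a b, w a b ≠ 0 → |Y a b| ≤ X a b) :
    |∑ a, ∑ b, w a b * Y a b| ≤ 2 * ∑ a, ∑ b, X a b := by
  refine abs_le.2 ⟨?_, h.avgE hX fun a b hw => (le_abs_self _).trans (hY a b hw)⟩
  have e1 := h.avgE (Y := fun a b => -Y a b) hX fun a b hw => (neg_le_abs _).trans (hY a b hw)
  simp only [mul_neg, sum_neg_distrib] at e1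
  linarith

/-- Monotonicity of weighted sums. -/
theorem avg_mono {Y X : ι → ι → ℝ} (hY : ∀ a b, w a b ≠ 0 → Y a b ≤ X a b) :
    ∑ a, ∑ b, w a b * Y a b ≤ ∑ a, ∑ b, w a b * X a b := by
  refine sum_le_sum fun a _ => sum_le_sum fun b _ => ?_
  by_cases hw : w a b = 0
  · rw [hw, zero_mul, zero_mul]
  · exact mul_le_mul_of_nonneg_left (hY a b hw) (h.w_nonneg a b)

theorem avg_congr {Y X : ι → ι → ℝ} (hY : ∀ a b, w a b ≠ 0 → Y a b = X a b) :
    ∑ a, ∑ b, w a b * Y a b = ∑ a, ∑ b, w a b * X a b :=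
  le_antisymm (h.avg_mono fun a b hw => (hY a b hw).le) (h.avg_mono fun a b hw => (hY a b hw).ge)

/-- Swapping the two indices in a weighted sum. -/
theorem avg_swap (Y : ι → ι → ℝ) : ∑ a, ∑ b, w a b * Y b a = ∑ a, ∑ b, w a b * Y a b := by
  rw [sum_comm]
  exact sum_congr rfl fun a _ => sum_congr rfl fun b _ => by rw [h.w_symm b a]

/-- The total weight. -/
theorem total : |∑ a, ∑ b, w a b - Fintype.card ι ^ 2| ≤ Om * Fintype.card ι := by
  have e1 := h.avgP0 (Near.one K w) fun _ => 1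
  rw [nrm_one, Real.mul_self_sqrt (Nat.cast_nonneg _)] at e1
  simpa [sq] using e1

end Wt

end Vale.Agent.P049
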